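import Crest.Agent.R152.CGre

/-! # Row 152: there are few regular projections -/

set_option autoImplicit false
set_option linter.unusedSectionVars false
set_option linter.unusedVariables false

open Matrix Filter Topology

noncomputable section

namespace Crest.Agent.R152

variable {ι : Type} [Fintype ι] [DecidableEq ι]

/-- almost stable lattices have few vectors of length one: `hn` at `m = n^(-3/4)`, the canonical
sublattice has rank `≤ 4 β₀ n / log n`; `wrm` for the quotient, `crude_count` for the fibres -/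
theorem ct_short {β : ℝ} (hβ : 0 < β) : ∃ β₀ : ℝ, 0 < β₀ ∧ ∀ᶠ n : ℕ in atTop,
    ∀ C : Lat (Fin n), C.FG → Om (Real.log n / 2) (β₀ * n) C →
      ∀ X : Finset (Fin n → ℚ), (∀ x ∈ X, x ∈ C ∧ x ⬝ᵥ x ≤ 1) → (X.card : ℝ) ≤ Real.exp (β * n) := by
  obtain ⟨σ, hσ, hw⟩ := wrm (half_pos hβ)
  refine ⟨β / 7, by positivity, ?_⟩
  have t1 : Tendsto (fun n : ℕ => σ * (n : ℝ) ^ (1 / 4 : ℝ)) atTop atTop :=
    ((tendsto_rpow_atTop (by norm_num)).comp tendsto_natCast_atTop_atTop).const_mul_atTop hσ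
  filter_upwards [t1.eventually_ge_atTop 1, eventually_ge_atTop 36] with n h1 h36 C hC hO X hX
  have n36 : (36 : ℝ) ≤ n := by exact_mod_cast h36
  have n0 : (0 : ℝ) < n := by linarith
  have hm : (0 : ℝ) < (n : ℝ) ^ (-(3 / 4) : ℝ) := Real.rpow_pos_of_pos n0 _
  have lg : 0 ≤ Real.log n := Real.log_nonneg (by linarith)
  obtain ⟨Q, hQ, -, -, hcv, hst⟩ := hn hC (bot_le (a := C)) hm
  rw [rk_bot, cv_bot, pow_zero, mul_one, Rat.cast_one, one_mul] at hcv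
  have hD : (C ⊓ kerM Q).FG := fg_of_le inf_le_left hC
  have hr : (rk (C ⊓ kerM Q) : ℝ) * Real.log n ≤ 4 * (β / 7 * n) := by
    have e := (hO _ inf_le_left).trans hcv
    rw [Real.rpow_def_of_pos n0, ← Real.exp_nat_mul, Real.exp_le_exp] at e
    linarith
  have him : ((X.image fun x => Q *ᵥ x).card : ℝ) ≤ Real.exp (β / 2 * n) := by
    refine hw n (Fin n) (mmap Q C) _ hm (fg_mmap Q hC) ?_ hst _ fun y hy => ?_
    · simpa using rk_le_card (fg_mmap Q hC)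
    · obtain ⟨x, hx, rfl⟩ := Finset.mem_image.1 hy
      refine ⟨mem_mmap.2 ⟨x, (hX x hx).1, rfl⟩, ?_⟩
      have e1 : (((Q *ᵥ x) ⬝ᵥ (Q *ᵥ x) : ℚ) : ℝ) ≤ 1 := by
        exact_mod_cast (prj_dot_le hQ x).trans (hX x hx).2
      have e2 : (n : ℝ) ^ (-(3 / 4) : ℝ) * n = (n : ℝ) ^ (1 / 4 : ℝ) := by
        rw [← Real.rpow_add_one n0.ne']
        norm_num
      rw [mul_assoc, e2]
      exact e1.trans h1
  have hfib : ∀ y ∈ X.image fun x => Q *ᵥ x,
      ((X.filter fun x => Q *ᵥ x = y).card : ℝ) ≤ Real.exp (β / 2 * n) := by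
    intro y hy
    obtain ⟨x₀, hx₀, rfl⟩ := Finset.mem_image.1 hy
    have hc := crude_count hD (μ := Real.exp (-(3 * (β / 7 * n)))) (R := 4) (Real.exp_pos _)
      (by norm_num) (fun D' hD' => by
        refine le_trans (Real.exp_le_exp.2 ?_) (hO D' (hD'.trans inf_le_left))
        have e : (rk D' : ℝ) ≤ rk (C ⊓ kerM Q) := Nat.cast_le.2 (rk_mono hD' hD)
        nlinarith)
      ((X.filter fun x => Q *ᵥ x = Q *ᵥ x₀).image fun x => x - x₀) (fun z hz => by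
        obtain ⟨x, hx, rfl⟩ := Finset.mem_image.1 hz
        obtain ⟨hx1, hx2⟩ := Finset.mem_filter.1 hx
        refine ⟨⟨C.sub_mem (hX x hx1).1 (hX x₀ hx₀).1, ?_⟩, ?_⟩
        · refine mem_kerM.2 ?_
          rw [mulVec_sub, hx2, sub_self]
        · have e1 := cg_self_nonneg (x + x₀)
          have e2 := (hX x hx1).2
          have e3 := (hX x₀ hx₀).2
          have e4 : (x - x₀) ⬝ᵥ (x - x₀) ≤ 4 := by
            rw [add_dotProduct, dotProduct_add, dotProduct_add] at e1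
            rw [sub_dotProduct, dotProduct_sub, dotProduct_sub]
            linarith
          exact_mod_cast e4)
    rw [Finset.card_image_of_injective _ (sub_left_injective (b := x₀))] at hc
    have e1 : (9 * 4 : ℝ) ^ rk (C ⊓ kerM Q) ≤ Real.exp (4 * (β / 7 * n)) := by
      refine le_trans ?_ (Real.exp_le_exp.2 hr)
      rw [Real.exp_nat_mul, Real.exp_log n0]
      exact pow_le_pow_left₀ (by norm_num) (by linarith) _
    have e2 : Real.exp (4 * (β / 7 * n)) =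
        Real.exp (β / 2 * n) ^ 2 * Real.exp (-(3 * (β / 7 * n))) := by
      rw [← Real.exp_nat_mul, ← Real.exp_add]
      congr 1
      push_cast
      ring
    have e3 := le_of_mul_le_mul_right (hc.trans (e1.trans e2.le)) (Real.exp_pos _)
    exact (pow_le_pow_iff_left₀ (Nat.cast_nonneg _) (Real.exp_pos _).le two_ne_zero).1 e3
  have e : Real.exp (β * n) = Real.exp (β / 2 * n) * Real.exp (β / 2 * n) := by
    rw [← Real.exp_add]
    congr 1
    ring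
  rw [Finset.card_eq_sum_card_image (fun x => Q *ᵥ x) X, Nat.cast_sum, e]
  refine (Finset.sum_le_card_nsmul _ _ _ hfib).trans ?_
  rw [nsmul_eq_mul]
  exact mul_le_mul_of_nonneg_right him (Real.exp_pos _).le

theorem CCnt_cols {α β : Type} {n : ℕ} (S : Finset α) (W : Finset β) (g : α → Fin n → β)
    (hg : ∀ a ∈ S, ∀ j, g a j ∈ W) (hi : ∀ a ∈ S, ∀ b ∈ S, g a = g b → a = b) :
    S.card ≤ W.card ^ n := by
  classical
  rw [← Fintype.card_piFinset_const W n]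
  exact Finset.card_le_card_of_injOn g (fun a ha => Fintype.mem_piFinset.2 (hg a ha))
    fun a ha b hb => hi a ha b hb

theorem CCnt_idx (Q : Matrix ι ι ℚ) (L₁ L₂ : Lat ι) : idx (mmap Q L₁) (mmap Q L₂) ∣ idx L₁ L₂ := by
  have h1 := AddSubgroup.relIndex_comap (mmap Q L₁).toAddSubgroup
    (Q.mulVecLin.restrictScalars ℤ).toAddMonoidHom L₂.toAddSubgroup
  refine (show idx (mmap Q L₁) (mmap Q L₂) = _ from h1.symm) ▸ ?_
  exact AddSubgroup.relIndex_dvd_of_le_left _ fun x hx => mem_mmap.2 ⟨x, hx, rfl⟩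

/-- counting for a fixed coordinate set `Z`: first the lattice `mask Z (MP P)`
(`overlattice_count`), then the columns `mask Z (P e_l)`, which determine `MZ P Z`, then the
pairs `(o_j, o_j P e_j)` -/
theorem ct_fibre {n : ℕ} (Z : Finset (Fin n)) {T X N₁ N₂ : ℕ}
    (𝒬 : Finset (Matrix (Fin n) (Fin n) ℚ))
    (h : ∀ P ∈ 𝒬, IsPrj P ∧ idx (ZZ (Fin n)) (MP P) ≤ X ∧
      (∀ j, ∃ o : ℕ, 1 ≤ o ∧ o ≤ T ∧ (o : ℚ) • (P *ᵥ Pi.single j 1) ∈ MZ P Z) ∧
      (∀ Y : Finset (Fin n → ℚ), (∀ x ∈ Y, x ∈ mmap (mask Z) (MP P) ∧ x ⬝ᵥ x ≤ 1) → Y.card ≤ N₁) ∧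
      (∀ Y : Finset (Fin n → ℚ), (∀ x ∈ Y, x ∈ MP P ∧ x ⬝ᵥ x ≤ (T : ℚ) ^ 2) → Y.card ≤ N₂)) :
    𝒬.card ≤ X ^ (Z.card + 1) * N₁ ^ n * (T * N₂) ^ n := by
  classical
  have hZ : ∀ j : Fin n, (Pi.single j 1 : Fin n → ℚ) ∈ ZZ (Fin n) := fun j => by
    rw [ZZ_eq_span]
    exact Submodule.subset_span ⟨j, rfl⟩
  have he : ∀ j : Fin n, (Pi.single j 1 : Fin n → ℚ) ⬝ᵥ Pi.single j 1 = 1 := fun j => by simp
  have hcol : ∀ {A B : Matrix (Fin n) (Fin n) ℚ},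
      (∀ j, A *ᵥ Pi.single j 1 = B *ᵥ Pi.single j 1) → A = B := fun {A B} hAB => by
    ext i j
    simpa using congrFun (hAB j) i
  -- step 3
  have s3 : ∀ (S : Finset (Matrix (Fin n) (Fin n) ℚ)), S ⊆ 𝒬 → ∀ P₀ ∈ S,
      (∀ P ∈ S, mask Z * P = mask Z * P₀) → S.card ≤ (T * N₂) ^ n := by
    intro S hS P₀ h₀ hA
    choose! o ho using fun P (hP : P ∈ 𝒬) => (h P hP).2.2.1
    let Y : Finset (Fin n → ℚ) :=
      (S ×ˢ Finset.univ).image fun p => (o p.1 p.2 : ℚ) • (p.1 *ᵥ Pi.single p.2 1)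
    have hY : Y.card ≤ N₂ := by
      refine (h P₀ (hS h₀)).2.2.2.2 Y fun x hx => ?_
      obtain ⟨⟨P, j⟩, hp, rfl⟩ := Finset.mem_image.1 hx
      have hP := (Finset.mem_product.1 hp).1
      obtain ⟨o1, o2, o3⟩ := ho P (hS hP) j
      refine ⟨?_, ?_⟩
      · have e : P * mask Z = P₀ * mask Z := by
          have e1 := congrArg Matrix.transpose (hA P hP)
          rwa [transpose_mul, transpose_mul, (mask_prj Z).1, (h P (hS hP)).1.1,
            (h P₀ (hS h₀)).1.1] at e1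
        have e2 : MZ P Z = ZZ (Fin n) ⊔ mmap (P₀ * mask Z) (ZZ (Fin n)) := e ▸ rfl
        rw [e2] at o3
        refine (sup_le_sup_left (fun y hy => ?_) _ : _ ≤ MP P₀) o3
        obtain ⟨z, hz, rfl⟩ := mem_mmap.1 hy
        refine mem_mmap.2 ⟨mask Z *ᵥ z, fun i => ?_, mulVec_mulVec _ _ _⟩
        rw [mask_apply]
        split_ifs
        · exact hz i
        · exact ⟨0, Int.cast_zero.symm⟩
      · have h1 := prj_dot_le (h P (hS hP)).1 (Pi.single j 1)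
        rw [he] at h1
        have h2 : (o P j : ℚ) ≤ T := by exact_mod_cast o2
        have h3 : (0 : ℚ) ≤ o P j := Nat.cast_nonneg _
        show ((o P j : ℚ) • (P *ᵥ Pi.single j 1)) ⬝ᵥ ((o P j : ℚ) • (P *ᵥ Pi.single j 1)) ≤ _
        rw [smul_dotProduct, dotProduct_smul, smul_eq_mul, smul_eq_mul, ← mul_assoc, ← sq]
        exact (mul_le_of_le_one_right (sq_nonneg _) h1).trans (pow_le_pow_left₀ h3 h2 2)
    refine (CCnt_cols S (Finset.Icc 1 T ×ˢ Y)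
      (fun P j => (o P j, (o P j : ℚ) • (P *ᵥ Pi.single j 1))) (fun P hP j => ?_)
      fun P hP P' hP' e => hcol fun j => ?_).trans (Nat.pow_le_pow_left ?_ n)
    · exact Finset.mem_product.2 ⟨Finset.mem_Icc.2 ⟨(ho P (hS hP) j).1, (ho P (hS hP) j).2.1⟩,
        Finset.mem_image.2 ⟨(P, j), Finset.mem_product.2 ⟨hP, Finset.mem_univ _⟩, rfl⟩⟩
    · obtain ⟨e1, e2⟩ := Prod.ext_iff.1 (congrFun e j)
      dsimp only at e1 e2
      rw [← e1] at e2
      have h1 : (o P j : ℚ) ≠ 0 := Nat.cast_ne_zero.2 (by have := (ho P (hS hP) j).1; omega)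
      exact smul_right_injective _ h1 e2
    · rw [Finset.card_product, Nat.card_Icc, Nat.add_sub_cancel]
      exact Nat.mul_le_mul_left _ hY
  -- step 2
  have s2 : ∀ (S : Finset (Matrix (Fin n) (Fin n) ℚ)), S ⊆ 𝒬 → ∀ P₀ ∈ S,
      (∀ P ∈ S, mmap (mask Z) (MP P) = mmap (mask Z) (MP P₀)) →
      S.card ≤ (T * N₂) ^ n * N₁ ^ n := by
    intro S hS P₀ h₀ hA
    refine (Finset.card_le_mul_card_image (f := fun P => mask Z * P) S ((T * N₂) ^ n)
      fun A hA' => ?_).trans (Nat.mul_le_mul_left _ ?_)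
    · obtain ⟨P₁, h₁, rfl⟩ := Finset.mem_image.1 hA'
      exact s3 _ ((Finset.filter_subset _ _).trans hS) P₁ (Finset.mem_filter.2 ⟨h₁, rfl⟩)
        fun P hP => (Finset.mem_filter.1 hP).2
    let Y : Finset (Fin n → ℚ) :=
      (S ×ˢ Finset.univ).image fun p => (mask Z * p.1) *ᵥ Pi.single p.2 1
    have hY : Y.card ≤ N₁ := by
      refine (h P₀ (hS h₀)).2.2.2.1 Y fun x hx => ?_
      obtain ⟨⟨P, j⟩, hp, rfl⟩ := Finset.mem_image.1 hx
      have hP := (Finset.mem_product.1 hp).1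
      dsimp only
      rw [← mulVec_mulVec, ← hA P hP]
      refine ⟨mem_mmap.2 ⟨_, Submodule.mem_sup_right (mem_mmap.2 ⟨_, hZ j, rfl⟩), rfl⟩, ?_⟩
      exact (prj_dot_le (mask_prj Z) _).trans ((prj_dot_le (h P (hS hP)).1 _).trans (he j).le)
    refine (CCnt_cols _ Y (fun A j => A *ᵥ Pi.single j 1) (fun A hA' j => ?_)
      fun A _ B _ e => hcol fun j => congrFun e j).trans (Nat.pow_le_pow_left hY n)
    obtain ⟨P, hP, rfl⟩ := Finset.mem_image.1 hA'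
    exact Finset.mem_image.2 ⟨(P, j), Finset.mem_product.2 ⟨hP, Finset.mem_univ _⟩, rfl⟩
  -- step 1
  have s1 : (𝒬.image fun P => mmap (mask Z) (MP P)).card ≤ X ^ Z.card * X := by
    refine (Finset.card_le_mul_card_image_of_maps_to (t := Finset.Icc 1 X)
      (f := fun C => idx (mmap (mask Z) (ZZ (Fin n))) C) (fun C hC => ?_) (X ^ Z.card)
      fun k hk => ?_).trans (by rw [Nat.card_Icc, Nat.add_sub_cancel])
    · obtain ⟨P, hP, rfl⟩ := Finset.mem_image.1 hC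
      have h1 : idx (ZZ (Fin n)) (MP P) ≠ 0 :=
        (cv_index le_sup_left (MP_fg P) (le_antisymm (rk_mono le_sup_left (MP_fg P))
          (rk_ZZ (ι := Fin n) ▸ rk_le_card (MP_fg P)))).1
      have h2 := CCnt_idx (mask Z) (ZZ (Fin n)) (MP P)
      exact Finset.mem_Icc.2 ⟨Nat.pos_of_ne_zero (ne_zero_of_dvd_ne_zero h1 h2),
        (Nat.le_of_dvd (Nat.pos_of_ne_zero h1) h2).trans (h P hP).2.1⟩
    · obtain ⟨k1, k2⟩ := Finset.mem_Icc.1 hk
      refine (overlattice_count Z.card k (by omega) _ (fg_mmap (mask Z) ZZ_fg) (rk_mask_ZZ Z).le _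
        fun C hC => ?_).trans (Nat.pow_le_pow_left k2 _)
      obtain ⟨h1, h2⟩ := Finset.mem_filter.1 hC
      obtain ⟨P, -, rfl⟩ := Finset.mem_image.1 h1
      exact ⟨Submodule.map_mono le_sup_left, h2⟩
  refine (Finset.card_le_mul_card_image (f := fun P => mmap (mask Z) (MP P)) 𝒬
    ((T * N₂) ^ n * N₁ ^ n) fun C hC => ?_).trans ((Nat.mul_le_mul_left _ s1).trans (le_of_eq ?_))
  · obtain ⟨P₁, h₁, rfl⟩ := Finset.mem_image.1 hC
    exact s2 _ (Finset.filter_subset _ _) P₁ (Finset.mem_filter.2 ⟨h₁, rfl⟩)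
      fun P hP => (Finset.mem_filter.1 hP).2
  · ring

theorem cnt_MZ_mono (P : Matrix ι ι ℚ) {Z₀ Z : Finset ι} (h : Z₀ ⊆ Z) : MZ P Z₀ ≤ MZ P Z := by
  refine sup_le_sup_left ?_ _
  intro y hy
  obtain ⟨x, hx, rfl⟩ := mem_mmap.1 hy
  refine mem_mmap.2 ⟨mask Z₀ *ᵥ x, ?_, ?_⟩
  · intro i
    rw [mask_apply]
    split_ifs
    · exact hx i
    · exact ⟨0, by simp⟩
  · rw [← Matrix.mulVec_mulVec, ← Matrix.mulVec_mulVec]
    congr 1
    funext i
    rw [mask_apply, mask_apply]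
    by_cases hi : i ∈ Z₀
    · simp [hi, h hi]
    · simp [hi]

theorem cnt_idx {ω : ℝ} {n : ℕ} {P : Matrix (Fin n) (Fin n) ℚ} (hP : Reg ω n P) :
    idx (ZZ (Fin n)) (MP P) ≠ 0 ∧ (idx (ZZ (Fin n)) (MP P) : ℝ) ≤ Real.exp (ω * n / 2) := by
  have hle : ZZ (Fin n) ≤ MP P := le_sup_left
  have hr : rk (ZZ (Fin n)) = rk (MP P) :=
    le_antisymm (rk_mono hle (MP_fg P)) (by rw [rk_ZZ]; exact rk_le_card (MP_fg P))
  obtain ⟨h0, h1⟩ := cv_index hle (MP_fg P) hr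
  refine ⟨h0, ?_⟩
  rw [cv_ZZ] at h1
  have h2 : (1 : ℝ) = (idx (ZZ (Fin n)) (MP P) : ℝ) ^ 2 * (cv (MP P) : ℝ) := by exact_mod_cast h1
  have h3 := hP.2.2
  have h4 : (idx (ZZ (Fin n)) (MP P) : ℝ) ^ 2 * Real.exp (-(ω * n)) ≤ 1 := by
    rw [h2]
    exact mul_le_mul_of_nonneg_left h3 (sq_nonneg _)
  have h5 : (idx (ZZ (Fin n)) (MP P) : ℝ) ^ 2 ≤ Real.exp (ω * n / 2) ^ 2 := by
    rw [← Real.exp_nat_mul, show ((2 : ℕ) : ℝ) * (ω * n / 2) = ω * n by push_cast; ring]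
    rw [Real.exp_neg, ← div_eq_mul_inv, div_le_one (Real.exp_pos _)] at h4
    exact h4
  exact (pow_le_pow_iff_left₀ (Nat.cast_nonneg _) (Real.exp_pos _).le two_ne_zero).1 h5

theorem cnt_finite {α : Type} (R : Set α) (B : ℝ)
    (h : ∀ 𝒬 : Finset α, (∀ P ∈ 𝒬, P ∈ R) → (𝒬.card : ℝ) ≤ B) :
    ∃ Ps : Finset α, (Ps.card : ℝ) ≤ B ∧ ∀ P, P ∈ R → P ∈ Ps := by
  have hfin : R.Finite := by
    by_contra hinf
    obtain ⟨N, hN⟩ := exists_nat_gt B
    obtain ⟨t, ht, hc⟩ := Set.Infinite.exists_subset_card_eq hinf N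
    have := h t (fun P hP => ht hP)
    rw [hc] at this
    linarith
  exact ⟨hfin.toFinset, h _ (fun P hP => hfin.mem_toFinset.1 hP),
    fun P hP => hfin.mem_toFinset.2 hP⟩

theorem ct_count {ω β : ℝ} (hω : 0 ≤ ω) (hβ : 0 < β) : ∀ᶠ n : ℕ in atTop,
    ∃ Ps : Finset (Matrix (Fin n) (Fin n) ℚ), (Ps.card : ℝ) ≤ Real.exp (β * n ^ 2) ∧
      ∀ P, Reg ω n P → P ∈ Ps := by
  classical
  have hβ5 : 0 < β / 5 := by positivity
  obtain ⟨T, hT⟩ := exists_nat_ge (max 2 (Real.exp (ω ^ 2 / (2 * (β / 5)))))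
  have hT2 : 2 ≤ T := by exact_mod_cast le_trans (le_max_left _ _) hT
  have hT2' : (2 : ℝ) ≤ T := by exact_mod_cast hT2
  have hlogT : 0 < Real.log T := Real.log_pos (by linarith)
  have hωT : ω ^ 2 ≤ 2 * (β / 5) * Real.log T := by
    have h1 : ω ^ 2 / (2 * (β / 5)) ≤ Real.log T :=
      (Real.le_log_iff_exp_le (by linarith)).2 (le_trans (le_max_right _ _) hT)
    rw [div_le_iff₀ (by positivity)] at h1
    linarith
  obtain ⟨β₀, hβ₀, hshort⟩ := ct_short hβ5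
  obtain ⟨σ, hσ, hwrm⟩ := wrm hβ5
  have hgre := ct_greedy hω hβ₀ hT2
  have hn1 : ∀ᶠ n : ℕ in atTop, ((T : ℝ) ^ 2 / σ) ^ 2 ≤ n :=
    tendsto_natCast_atTop_atTop.eventually_ge_atTop _
  have hn2 : ∀ᶠ n : ℕ in atTop, (ω / 2 + Real.log T + Real.log 2) / (2 * (β / 5)) ≤ n :=
    tendsto_natCast_atTop_atTop.eventually_ge_atTop _
  filter_upwards [hshort, hgre, hn1, hn2, eventually_ge_atTop 1] with n hshort hgre hn1 hn2 hn
  have hn0 : (0 : ℝ) < n := by exact_mod_cast hn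
  refine cnt_finite {P | Reg ω n P} _ ?_
  intro 𝒬 h𝒬
  set X : ℕ := ⌊Real.exp (ω * n / 2)⌋₊ with hX
  set N : ℕ := ⌊Real.exp (β / 5 * n)⌋₊ with hN
  have hXle : (X : ℝ) ≤ Real.exp (ω * n / 2) := Nat.floor_le (Real.exp_pos _).le
  have hNle : (N : ℝ) ≤ Real.exp (β / 5 * n) := Nat.floor_le (Real.exp_pos _).le
  have hm : 0 < (n : ℝ) ^ (-(1 / 2 : ℝ)) := Real.rpow_pos_of_pos hn0 _
  have hTσ : (T : ℝ) ^ 2 ≤ σ * (n : ℝ) ^ (-(1 / 2 : ℝ)) * n := by
    have e1 : (n : ℝ) ^ (-(1 / 2 : ℝ)) * n = Real.sqrt n := by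
      rw [Real.sqrt_eq_rpow, ← Real.rpow_add_one hn0.ne']
      norm_num
    rw [mul_assoc, e1]
    have e2 : (T : ℝ) ^ 2 / σ ≤ Real.sqrt n := Real.le_sqrt_of_sq_le hn1
    rw [div_le_iff₀ hσ] at e2
    linarith
  let Good : Finset (Fin n) → Matrix (Fin n) (Fin n) ℚ → Prop := fun Z P =>
    (Z.card : ℝ) * Real.log T ≤ ω * n ∧ (IsPrj P ∧ idx (ZZ (Fin n)) (MP P) ≤ X ∧
      (∀ j, ∃ o : ℕ, 1 ≤ o ∧ o ≤ T ∧ (o : ℚ) • (P *ᵥ Pi.single j 1) ∈ MZ P Z) ∧
      (∀ Y : Finset (Fin n → ℚ), (∀ x ∈ Y, x ∈ mmap (mask Z) (MP P) ∧ x ⬝ᵥ x ≤ 1) → Y.card ≤ N) ∧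
      (∀ Y : Finset (Fin n → ℚ), (∀ x ∈ Y, x ∈ MP P ∧ x ⬝ᵥ x ≤ (T : ℚ) ^ 2) → Y.card ≤ N))
  have hgood : ∀ P ∈ 𝒬, ∃ Z, Good Z P := by
    intro P hP
    have hR : Reg ω n P := h𝒬 P hP
    obtain ⟨hi0, hi1⟩ := cnt_idx hR
    obtain ⟨Z₀, hZ₀, ho⟩ := ct_Z0 P (T := T) (by omega)
    obtain ⟨Z, hZZ, hZc, hOm⟩ := hgre (MP P) (MP_fg P) le_sup_left hR.2.1 hR.2.2 Z₀
      (fun Z hZ => ct_ker hR.1 hZ ho)
    refine ⟨Z, ?_, hR.1, Nat.le_floor hi1, ?_, ?_, ?_⟩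
    · have h1 : (T : ℝ) ^ Z₀.card ≤ Real.exp (ω * n / 2) :=
        le_trans (by exact_mod_cast hZ₀) hi1
      have h2 : (Z₀.card : ℝ) * Real.log T ≤ ω * n / 2 := by
        rw [← Real.log_pow]
        exact (Real.log_le_iff_le_exp (by positivity)).2 h1
      linarith
    · intro j
      obtain ⟨o, h1, h2, h3⟩ := ho j
      exact ⟨o, h1, h2, cnt_MZ_mono P hZZ h3⟩
    · intro Y hY
      exact Nat.le_floor (hshort _ (fg_mmap _ (MP_fg P)) hOm Y hY)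
    · intro Y hY
      refine Nat.le_floor (hwrm n (Fin n) (MP P) _ hm (MP_fg P) ?_ hR.2.1 Y ?_)
      · simpa using rk_le_card (MP_fg P)
      · intro x hx
        refine ⟨(hY x hx).1, le_trans ?_ hTσ⟩
        exact_mod_cast (hY x hx).2
  have hfib : ∀ Z : Finset (Fin n), ((𝒬.filter (Good Z)).card : ℝ) ≤
      Real.exp (3 * (β / 5) * n ^ 2 + (ω / 2 + Real.log T) * n) := by
    intro Z
    rcases (𝒬.filter (Good Z)).eq_empty_or_nonempty with he | ⟨P₀, hP₀⟩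
    · rw [he]
      simpa using (Real.exp_pos _).le
    have hZ : (Z.card : ℝ) * Real.log T ≤ ω * n := (Finset.mem_filter.1 hP₀).2.1
    have h1 := ct_fibre Z (T := T) (X := X) (N₁ := N) (N₂ := N) (𝒬.filter (Good Z))
      (fun P hP => (Finset.mem_filter.1 hP).2.2)
    have h2 : ((𝒬.filter (Good Z)).card : ℝ) ≤
        (X : ℝ) ^ (Z.card + 1) * (N : ℝ) ^ n * ((T : ℝ) * N) ^ n := by exact_mod_cast h1
    have hZ2 : ω * n / 2 * Z.card ≤ β / 5 * n ^ 2 := by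
      have a1 : ω * n / 2 * ((Z.card : ℝ) * Real.log T) ≤ ω * n / 2 * (ω * n) :=
        mul_le_mul_of_nonneg_left hZ (by positivity)
      have a2 : ω ^ 2 * ((n : ℝ) ^ 2 / 2) ≤ 2 * (β / 5) * Real.log T * ((n : ℝ) ^ 2 / 2) :=
        mul_le_mul_of_nonneg_right hωT (by positivity)
      have a3 : (ω * n / 2 * Z.card) * Real.log T ≤ (β / 5 * n ^ 2) * Real.log T := by nlinarith
      exact le_of_mul_le_mul_right a3 hlogT
    have b1 : (X : ℝ) ^ (Z.card + 1) ≤ Real.exp (β / 5 * n ^ 2 + ω / 2 * n) := by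
      refine le_trans (pow_le_pow_left₀ (Nat.cast_nonneg _) hXle _) ?_
      rw [← Real.exp_nat_mul]
      refine Real.exp_le_exp.2 ?_
      push_cast
      nlinarith
    have b2 : (N : ℝ) ^ n ≤ Real.exp (β / 5 * n ^ 2) := by
      refine le_trans (pow_le_pow_left₀ (Nat.cast_nonneg _) hNle _) ?_
      rw [← Real.exp_nat_mul]
      refine Real.exp_le_exp.2 (le_of_eq ?_)
      ring
    have b3 : (T : ℝ) ^ n = Real.exp (Real.log T * n) := by
      rw [mul_comm, Real.exp_nat_mul, Real.exp_log (by linarith)]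
    calc ((𝒬.filter (Good Z)).card : ℝ)
        ≤ (X : ℝ) ^ (Z.card + 1) * (N : ℝ) ^ n * ((T : ℝ) ^ n * (N : ℝ) ^ n) := by
          rw [← mul_pow]; exact h2
      _ ≤ Real.exp (β / 5 * n ^ 2 + ω / 2 * n) * Real.exp (β / 5 * n ^ 2) *
          (Real.exp (Real.log T * n) * Real.exp (β / 5 * n ^ 2)) := by
          rw [b3]
          gcongr
      _ = Real.exp (3 * (β / 5) * n ^ 2 + (ω / 2 + Real.log T) * n) := by
          rw [← Real.exp_add, ← Real.exp_add, ← Real.exp_add]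
          congr 1
          ring
  have hsub : 𝒬 ⊆ (Finset.univ : Finset (Finset (Fin n))).biUnion (fun Z => 𝒬.filter (Good Z)) := by
    intro P hP
    obtain ⟨Z, hZ⟩ := hgood P hP
    exact Finset.mem_biUnion.2 ⟨Z, Finset.mem_univ _, Finset.mem_filter.2 ⟨hP, hZ⟩⟩
  have hc1 : (𝒬.card : ℝ) ≤ ∑ Z : Finset (Fin n), ((𝒬.filter (Good Z)).card : ℝ) := by
    exact_mod_cast le_trans (Finset.card_le_card hsub) Finset.card_biUnion_le
  have hc2 : ∑ Z : Finset (Fin n), ((𝒬.filter (Good Z)).card : ℝ) ≤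
      (2 : ℝ) ^ n * Real.exp (3 * (β / 5) * n ^ 2 + (ω / 2 + Real.log T) * n) := by
    refine le_trans (Finset.sum_le_card_nsmul _ _ _ (fun Z _ => hfib Z)) ?_
    simp [Fintype.card_finset]
  have b4 : (2 : ℝ) ^ n = Real.exp (Real.log 2 * n) := by
    rw [mul_comm, Real.exp_nat_mul, Real.exp_log (by norm_num)]
  refine le_trans hc1 (le_trans hc2 ?_)
  rw [b4, ← Real.exp_add]
  refine Real.exp_le_exp.2 ?_
  rw [div_le_iff₀ (by positivity)] at hn2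
  nlinarith

end Crest.Agent.R152
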