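import Crest.Agent.R152.LQuo

/-! # Row 152: auxiliary lemmas for `ct_tame` -/

set_option autoImplicit false
set_option linter.unusedSectionVars false
set_option linter.unusedVariables false

open Matrix

noncomputable section

namespace Crest.Agent.R152

variable {ι : Type} [Fintype ι] [DecidableEq ι]

theorem ctt_mask_mask {Z Z' : Finset ι} (h : Z ⊆ Z') (w : ι → ℚ) :
    mask Z *ᵥ (mask Z' *ᵥ w) = mask Z *ᵥ w := by
  funext i
  rw [mask_apply, mask_apply, mask_apply]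
  by_cases hi : i ∈ Z
  · rw [if_pos hi, if_pos hi, if_pos (h hi)]
  · rw [if_neg hi, if_neg hi]

theorem ctt_log_om {b x : ℝ} {C D : Lat ι} (h : Om b x C) (hD : D ≤ C) :
    -x - b * rk D ≤ Real.log (cv D : ℝ) :=
  (Real.le_log_iff_exp_le (by exact_mod_cast cv_pos D)).2 (h D hD)

/-- a lattice on which `Q` is injective: every coordinate is a functional of the image -/
theorem ctt_gamma (Q : Matrix ι ι ℚ) {D₂ : Lat ι} (hi : ∀ y ∈ D₂, Q *ᵥ y = 0 → y = 0) (j : ι) :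
    ∃ γ ∈ qspan (mmap Q D₂), ∀ y ∈ D₂, y j = γ ⬝ᵥ (Q *ᵥ y) := by
  let g : qspan D₂ →ₗ[ℚ] (ι → ℚ) := Q.mulVecLin ∘ₗ (qspan D₂).subtype
  have hg : LinearMap.ker g = ⊥ := by
    rw [LinearMap.ker_eq_bot']
    rintro ⟨y, hy⟩ h0
    obtain ⟨q, hq, hqy⟩ := mem_qspan.1 hy
    have h1 : Q *ᵥ y = 0 := h0
    have h2 := hi _ hqy (by rw [mulVec_smul, h1, smul_zero])
    apply Subtype.ext
    exact (smul_eq_zero.1 h2).resolve_left (by exact_mod_cast hq.ne')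
  obtain ⟨g', hg'⟩ := g.exists_leftInverse_of_injective hg
  let f : (ι → ℚ) →ₗ[ℚ] ℚ := (LinearMap.proj j) ∘ₗ (qspan D₂).subtype ∘ₗ g'
  let γ₀ : ι → ℚ := fun i => f (Pi.single i 1)
  have hf : ∀ v, f v = γ₀ ⬝ᵥ v := by
    intro v
    have e : v = ∑ i, v i • (Pi.single i 1 : ι → ℚ) := by
      funext k
      simp [Finset.sum_apply, Pi.single_apply]
    conv_lhs => rw [e]
    rw [map_sum]
    refine Finset.sum_congr rfl fun i _ => ?_
    rw [map_smul, smul_eq_mul, mul_comm]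
  obtain ⟨R, hR, hRk⟩ := exists_prj (qspan (mmap Q D₂))
  refine ⟨γ₀ - R *ᵥ γ₀, (hRk _).1 (by rw [mulVec_sub, prj_idem hR, sub_self]), fun y hy => ?_⟩
  have h1 : R *ᵥ (Q *ᵥ y) = 0 := (hRk _).2 (Submodule.subset_span (mem_mmap.2 ⟨y, hy, rfl⟩))
  rw [sub_dotProduct, prj_dot hR, h1, dotProduct_zero, sub_zero, ← hf]
  have h2 : g' (g ⟨y, Submodule.subset_span hy⟩) = ⟨y, Submodule.subset_span hy⟩ :=
    LinearMap.congr_fun hg' _
  have h3 : f (Q *ᵥ y) = ((g' (g ⟨y, Submodule.subset_span hy⟩) : qspan D₂) : ι → ℚ) j := rfl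
  rw [h3, h2]

/-- case (1): the kernel is not zero -/
theorem ctt_case1 {M : Lat ι} (hM : M.FG) {Z : Finset ι} {T : ℕ} (hT : 2 ≤ T) (hK : KerT M Z T)
    {x : ℝ} (hOm : Om (4 * Real.log T) x (mmap (mask Z) M)) {j : ι} {D₂ : Lat ι}
    (hD₂ : D₂ ≤ mmap (mask (insert j Z)) M)
    (hlt : Real.log (cv D₂ : ℝ) < -(x - 2 * Real.log T) - 4 * Real.log T * rk D₂) :
    ∀ y ∈ D₂, mask Z *ᵥ y = 0 → y = 0 := by
  have hfg : D₂.FG := fg_of_le hD₂ (fg_mmap _ hM)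
  have hKfg : (D₂ ⊓ kerM (mask Z)).FG := fg_of_le inf_le_left hfg
  have hX : mmap (mask Z) D₂ ≤ mmap (mask Z) M := by
    intro v hv
    obtain ⟨y, hy, rfl⟩ := mem_mmap.1 hv
    obtain ⟨w, hw, rfl⟩ := mem_mmap.1 (hD₂ hy)
    exact mem_mmap.2 ⟨w, hw, (ctt_mask_mask (Finset.subset_insert _ _) w).symm⟩
  obtain ⟨o, ho1, hoT, ho⟩ := hK j
  have hden : ∀ y ∈ D₂ ⊓ kerM (mask Z), (o : ℚ) • y ∈ ZZ ι := by
    intro y hy
    obtain ⟨w, hw, rfl⟩ := mem_mmap.1 (hD₂ hy.1)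
    have h0 : mask Z *ᵥ w = 0 := by
      rw [← ctt_mask_mask (Finset.subset_insert j Z) w]
      exact mem_kerM.1 hy.2
    refine mem_ZZ.2 fun i => ?_
    rw [Pi.smul_apply, smul_eq_mul, mask_apply]
    by_cases hij : i = j
    · subst hij
      rw [if_pos (Finset.mem_insert_self _ _)]
      exact ho w hw h0
    · refine ⟨0, ?_⟩
      by_cases hiZ : i ∈ Z
      · have := congrFun h0 i
        rw [mask_apply, if_pos hiZ] at this
        rw [if_pos (Finset.mem_insert_of_mem hiZ), this]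
        simp
      · rw [if_neg (by simp [hij, hiZ])]
        simp
  obtain ⟨m, hm1, hm⟩ := cv_den hKfg (by omega : 0 < o) hden
  have hL : 0 < Real.log T := Real.log_pos (by exact_mod_cast (by omega : 1 < T))
  have hcK : (0 : ℝ) < cv (D₂ ⊓ kerM (mask Z)) := by exact_mod_cast cv_pos _
  have hcX : (0 : ℝ) < cv (mmap (mask Z) D₂) := by exact_mod_cast cv_pos _
  have ho0 : (0 : ℝ) < o := by exact_mod_cast (by omega : 0 < o)
  have h1 : 0 ≤ 2 * (rk (D₂ ⊓ kerM (mask Z)) : ℝ) * Real.log T +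
      Real.log (cv (D₂ ⊓ kerM (mask Z)) : ℝ) := by
    have e : ((o : ℝ)) ^ (2 * rk (D₂ ⊓ kerM (mask Z))) * (cv (D₂ ⊓ kerM (mask Z)) : ℝ) = m := by
      exact_mod_cast hm
    have e2 := congrArg Real.log e
    rw [Real.log_mul (pow_pos ho0 _).ne' hcK.ne', Real.log_pow] at e2
    have e3 : 0 ≤ Real.log (m : ℝ) := Real.log_nonneg (by exact_mod_cast hm1)
    have e4 : Real.log o ≤ Real.log T := Real.log_le_log ho0 (by exact_mod_cast hoT)
    have e5 : (0 : ℝ) ≤ (rk (D₂ ⊓ kerM (mask Z)) : ℝ) := Nat.cast_nonneg _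
    push_cast at e2
    nlinarith
  have h2 : Real.log (cv (D₂ ⊓ kerM (mask Z)) : ℝ) + Real.log (cv (mmap (mask Z) D₂) : ℝ) ≤
      Real.log (cv D₂ : ℝ) := by
    rw [← Real.log_mul hcK.ne' hcX.ne']
    refine Real.log_le_log (mul_pos hcK hcX) ?_
    exact_mod_cast cv_quot_ge (mask_prj Z) hfg
  have h3 := ctt_log_om hOm hX
  have h4 : (rk D₂ : ℝ) = rk (D₂ ⊓ kerM (mask Z)) + rk (mmap (mask Z) D₂) := by
    exact_mod_cast rk_quot (mask Z) hfg
  have h5 : rk (D₂ ⊓ kerM (mask Z)) = 0 := by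
    by_contra hne
    have h6 : (1 : ℝ) ≤ rk (D₂ ⊓ kerM (mask Z)) := by exact_mod_cast Nat.one_le_iff_ne_zero.2 hne
    rw [h4] at hlt
    nlinarith
  intro y hy h0
  have h7 : y ∈ D₂ ⊓ kerM (mask Z) := ⟨hy, mem_kerM.2 h0⟩
  rwa [rk_eq_zero hKfg h5] at h7

theorem ctt_tame {M : Lat ι} (hM : M.FG) {Z : Finset ι} {T : ℕ} (hT : 2 ≤ T) (hK : KerT M Z T)
    {b x : ℝ} (hb : 6 * Real.log T ≤ b) {D : Lat ι} (hD : D ≤ mmap (mask Z) M)
    (hmax : ∀ D' : Lat ι, D' ≤ mmap (mask Z) M →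
      (cv D : ℝ) * Real.exp (-b) ^ rk D' ≤ (cv D' : ℝ) * Real.exp (-b) ^ rk D)
    (hOm : Om (4 * Real.log T) x (mmap (mask Z) M)) {j : ι} (hj : j ∉ Z)
    (hno : ¬ Om (4 * Real.log T) (x - 2 * Real.log T) (mmap (mask (insert j Z)) M)) :
    Tame M Z T D j := by
  obtain ⟨D₂, hD₂, hlt0⟩ : ∃ D₂ : Lat ι, D₂ ≤ mmap (mask (insert j Z)) M ∧
      (cv D₂ : ℝ) < Real.exp (-(x - 2 * Real.log T) - 4 * Real.log T * rk D₂) := by
    by_contra hcon
    exact hno fun D' hD' => not_lt.1 fun h => hcon ⟨D', hD', h⟩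
  have hpos : ∀ L : Lat ι, (0 : ℝ) < cv L := fun L => by exact_mod_cast cv_pos L
  have hlt := (Real.log_lt_iff_lt_exp (hpos D₂)).2 hlt0
  have hinj := ctt_case1 hM hT hK hOm hD₂ hlt
  have hfg : D₂.FG := fg_of_le hD₂ (fg_mmap _ hM)
  have hCfg : (mmap (mask Z) M).FG := fg_mmap _ hM
  set X := mmap (mask Z) D₂ with hXdef
  have hX : X ≤ mmap (mask Z) M := by
    intro v hv
    obtain ⟨y, hy, rfl⟩ := mem_mmap.1 hv
    obtain ⟨w, hw, rfl⟩ := mem_mmap.1 (hD₂ hy)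
    exact mem_mmap.2 ⟨w, hw, (ctt_mask_mask (Finset.subset_insert _ _) w).symm⟩
  have hXfg : X.FG := fg_of_le hX hCfg
  have hDfg : D.FG := fg_of_le hD hCfg
  obtain ⟨γ, hγ, hγy⟩ := ctt_gamma (mask Z) hinj j
  have hrk : rk X = rk D₂ := rk_mmap_of_inj _ hfg hinj
  -- `D₂` is the graph of `γ`
  have hgr : ∀ y ∈ D₂, (1 + vecMulVec (Pi.single j 1 : ι → ℚ) γ) *ᵥ (mask Z *ᵥ y) = y := by
    intro y hy
    rw [add_mulVec, one_mulVec, vecMulVec_mulVec, ← hγy y hy]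
    obtain ⟨w, hw, rfl⟩ := mem_mmap.1 (hD₂ hy)
    funext i
    simp only [Pi.add_apply, Pi.smul_apply, mask_apply, Pi.single_apply, MulOpposite.smul_eq_mul_unop,
      MulOpposite.unop_op, Finset.mem_insert]
    by_cases hij : i = j
    · subst hij
      simp [hj]
    · by_cases hiZ : i ∈ Z <;> simp [hij, hiZ]
  have hgraph : mmap (1 + vecMulVec (Pi.single j 1 : ι → ℚ) γ) X = D₂ := by
    ext v
    constructor
    · intro hv
      obtain ⟨u, hu, rfl⟩ := mem_mmap.1 hv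
      obtain ⟨y, hy, rfl⟩ := mem_mmap.1 hu
      rw [hgr y hy]
      exact hy
    · intro hv
      exact mem_mmap.2 ⟨_, mem_mmap.2 ⟨v, hv, rfl⟩, hgr v hv⟩
  have hcv : cv D₂ = (1 + γ ⬝ᵥ γ) * cv X := by
    rw [← hgraph]
    refine cv_graph_one hXfg hγ (fun u hu => ?_) (by simp)
    obtain ⟨y, hy, rfl⟩ := mem_mmap.1 hu
    rw [single_dotProduct, mask_apply, if_neg hj, mul_zero]
  have hγ0 : (0 : ℝ) ≤ ((γ ⬝ᵥ γ : ℚ) : ℝ) := by exact_mod_cast cg_self_nonneg γ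
  have hlog : Real.log (cv D₂ : ℝ) = Real.log (1 + ((γ ⬝ᵥ γ : ℚ) : ℝ)) + Real.log (cv X : ℝ) := by
    rw [← Real.log_mul (by positivity) (hpos X).ne', hcv]
    push_cast
    rfl
  have hT0 : (0 : ℝ) < T := by exact_mod_cast (by omega : 0 < T)
  have hL : 0 < Real.log T := Real.log_pos (by exact_mod_cast (by omega : 1 < T))
  have hOX := ctt_log_om hOm hX
  have hl0 : 0 ≤ Real.log (1 + ((γ ⬝ᵥ γ : ℚ) : ℝ)) := Real.log_nonneg (by linarith)
  rw [← hrk, hlog] at hlt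
  have hγT : γ ⬝ᵥ γ ≤ (T : ℚ) ^ 2 := by
    have h1 : Real.log (1 + ((γ ⬝ᵥ γ : ℚ) : ℝ)) < Real.log ((T : ℝ) ^ 2) := by
      rw [Real.log_pow]
      push_cast
      linarith
    have h2 := (Real.log_lt_log_iff (by positivity) (by positivity)).1 h1
    have h3 : ((γ ⬝ᵥ γ : ℚ) : ℝ) ≤ (T : ℝ) ^ 2 := by linarith
    exact_mod_cast h3
  -- supermodularity
  have hs1 : Real.log (cv (X ⊔ D) : ℝ) + Real.log (cv (X ⊓ D) : ℝ) ≤
      Real.log (cv X : ℝ) + Real.log (cv D : ℝ) := by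
    rw [← Real.log_mul (hpos _).ne' (hpos _).ne', ← Real.log_mul (hpos _).ne' (hpos _).ne']
    refine Real.log_le_log (mul_pos (hpos _) (hpos _)) ?_
    exact_mod_cast cv_sup_inf hXfg hDfg
  have hs2 : (rk (X ⊔ D) : ℝ) + rk (X ⊓ D) = rk X + rk D := by
    exact_mod_cast rk_sup_inf hXfg hDfg
  have hs3 := ctt_log_om hOm (sup_le hX hD)
  have hs4 : Real.log (cv D : ℝ) - b * rk (X ⊓ D) ≤ Real.log (cv (X ⊓ D) : ℝ) - b * rk D := by
    have h1 := Real.log_le_log (mul_pos (hpos D) (pow_pos (Real.exp_pos _) _))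
      (hmax (X ⊓ D) (inf_le_right.trans hD))
    rw [Real.log_mul (hpos _).ne' (pow_pos (Real.exp_pos _) _).ne',
      Real.log_mul (hpos _).ne' (pow_pos (Real.exp_pos _) _).ne', Real.log_pow, Real.log_pow,
      Real.log_exp] at h1
    linarith
  have hkey : Real.log (cv (X ⊓ D) : ℝ) + 4 * Real.log T * rk (X ⊓ D) <
      2 * Real.log T + Real.log (cv D : ℝ) + 4 * Real.log T * rk D := by
    have : (rk (X ⊔ D) : ℝ) = rk X + rk D - rk (X ⊓ D) := by linarith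
    rw [this] at hs3
    linarith
  have hr : rk (X ⊓ D) = rk D := by
    refine le_antisymm (rk_mono inf_le_right hDfg) ?_
    by_contra hne
    have h1 : (rk (X ⊓ D) : ℝ) + 1 ≤ rk D := by exact_mod_cast Nat.succ_le_of_lt (not_le.1 hne)
    have h2 : 0 ≤ (b - 6 * Real.log T) * ((rk D : ℝ) - rk (X ⊓ D)) :=
      mul_nonneg (by linarith) (by linarith)
    have h3 : 0 ≤ Real.log T * ((rk D : ℝ) - rk (X ⊓ D) - 1) := mul_nonneg hL.le (by linarith)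
    nlinarith
  obtain ⟨hc0, hc⟩ := cv_index (inf_le_right : X ⊓ D ≤ D) hDfg hr
  have hc1 : (0 : ℝ) < idx (X ⊓ D) D := by exact_mod_cast Nat.pos_of_ne_zero hc0
  have hcT : idx (X ⊓ D) D ≤ T := by
    have h1 : (cv (X ⊓ D) : ℝ) = (idx (X ⊓ D) D : ℝ) ^ 2 * cv D := by exact_mod_cast hc
    rw [hr, h1, Real.log_mul (by positivity) (hpos D).ne', Real.log_pow] at hkey
    have h2 : Real.log (idx (X ⊓ D) D : ℝ) < Real.log T := by
      push_cast at hkey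
      linarith
    exact_mod_cast ((Real.log_lt_log_iff hc1 hT0).1 h2).le
  refine ⟨idx (X ⊓ D) D, Nat.one_le_iff_ne_zero.2 hc0, hcT, γ, hγT, fun d hd => ?_⟩
  have h1 : ((idx (X ⊓ D) D : ℕ) : ℚ) • d ∈ X ⊓ D := idx_smul_mem hd
  obtain ⟨y, hy, hyd⟩ := mem_mmap.1 h1.1
  have h2 := hγy y hy
  obtain ⟨w, hw, rfl⟩ := mem_mmap.1 (hD₂ hy)
  refine ⟨w, hw, ?_, ?_⟩
  · rw [← hyd, ctt_mask_mask (Finset.subset_insert _ _)]
  · rw [← hyd, ← h2, mask_apply, if_pos (Finset.mem_insert_self _ _)]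

end Crest.Agent.R152
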