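import Crest.Agent.R152.CReg
import Crest.Agent.R152.CGreAuxT

/-! # Row 152: the greedy choice of coordinates -/

set_option autoImplicit false
set_option linter.unusedSectionVars false
set_option linter.unusedVariables false

open Matrix Filter Topology

noncomputable section

namespace Crest.Agent.R152

variable {ι : Type} [Fintype ι] [DecidableEq ι]

theorem cg1_mask_mem (Z : Finset ι) {x : ι → ℚ} (hx : x ∈ ZZ ι) : mask Z *ᵥ x ∈ ZZ ι := by
  intro i
  rw [mask_apply]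
  split_ifs
  · exact hx i
  · exact ⟨0, by simp⟩

theorem cg1_mask_mask {Z Z' : Finset ι} (h : Z ⊆ Z') (x : ι → ℚ) :
    mask Z' *ᵥ (mask Z *ᵥ x) = mask Z *ᵥ x := by
  funext i
  rw [mask_apply, mask_apply]
  by_cases hi : i ∈ Z
  · rw [if_pos (h hi)]
  · rw [if_neg hi, ite_self]

theorem cg1_single_mem (j : ι) : (Pi.single j 1 : ι → ℚ) ∈ ZZ ι := by
  rw [ZZ_eq_span]
  exact Submodule.subset_span ⟨j, rfl⟩

theorem cg1_dot {x y : ι → ℚ} (hx : x ∈ ZZ ι) (hy : y ∈ ZZ ι) : ∃ m : ℤ, x ⬝ᵥ y = m := by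
  choose a ha using mem_ZZ.1 hx
  choose b hb using mem_ZZ.1 hy
  refine ⟨∑ i, a i * b i, ?_⟩
  simp [dotProduct, ha, hb]

theorem cg1_MZ_mono (P : Matrix ι ι ℚ) {Z Z' : Finset ι} (h : Z ⊆ Z') : MZ P Z ≤ MZ P Z' := by
  refine sup_le_sup_left (fun y hy => ?_) _
  obtain ⟨x, hx, rfl⟩ := mem_mmap.1 hy
  refine mem_mmap.2 ⟨mask Z *ᵥ x, cg1_mask_mem Z hx, ?_⟩
  rw [← mulVec_mulVec, ← mulVec_mulVec, cg1_mask_mask h]

theorem cg1_MZ_le (P : Matrix ι ι ℚ) (Z : Finset ι) : MZ P Z ≤ MP P := by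
  refine sup_le_sup_left (fun y hy => ?_) _
  obtain ⟨x, hx, rfl⟩ := mem_mmap.1 hy
  exact mem_mmap.2 ⟨mask Z *ᵥ x, cg1_mask_mem Z hx, by rw [mulVec_mulVec]⟩

theorem cg1_mem_MZ (P : Matrix ι ι ℚ) {Z : Finset ι} {j : ι} (hj : j ∈ Z) :
    P *ᵥ Pi.single j 1 ∈ MZ P Z := by
  refine Submodule.mem_sup_right (mem_mmap.2 ⟨Pi.single j 1, cg1_single_mem j, ?_⟩)
  rw [← mulVec_mulVec]
  congr 1
  funext i
  rw [mask_apply]
  by_cases hi : i = j
  · rw [if_pos (hi ▸ hj)]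
  · rw [Pi.single_eq_of_ne hi, ite_self]

theorem cg1_idx_ne {M : Lat ι} (hM : M.FG) (h : ZZ ι ≤ M) : idx (ZZ ι) M ≠ 0 :=
  (cv_index h hM (le_antisymm (rk_mono h hM) (by rw [rk_ZZ]; exact rk_le_card hM))).1

/-- take `Z₀` of maximal size with `T ^ |Z₀| ≤ [MZ P Z₀ : ℤ^ι]` -/
theorem ct_Z0 (P : Matrix ι ι ℚ) {T : ℕ} (hT : 1 ≤ T) :
    ∃ Z₀ : Finset ι, T ^ Z₀.card ≤ idx (ZZ ι) (MP P) ∧
      ∀ j, ∃ o : ℕ, 1 ≤ o ∧ o ≤ T ∧ (o : ℚ) • (P *ᵥ Pi.single j 1) ∈ MZ P Z₀ := by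
  have hfg : (MP P).FG := ZZ_fg.sup (fg_mmap P ZZ_fg)
  have hne : ∀ Z : Finset ι, idx (ZZ ι) (MZ P Z) ≠ 0 := fun Z =>
    cg1_idx_ne (fg_of_le (cg1_MZ_le P Z) hfg) le_sup_left
  obtain ⟨Z₀, h0, hmax⟩ := Finset.exists_max_image
    (Finset.univ.filter fun Z : Finset ι => T ^ Z.card ≤ idx (ZZ ι) (MZ P Z)) Finset.card
    ⟨∅, Finset.mem_filter.2 ⟨Finset.mem_univ _, by
      rw [Finset.card_empty, pow_zero]
      exact Nat.one_le_iff_ne_zero.2 (hne ∅)⟩⟩
  have h1 := (Finset.mem_filter.1 h0).2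
  refine ⟨Z₀, h1.trans (AddSubgroup.relIndex_le_of_le_right (cg1_MZ_le P Z₀)
    (cg1_idx_ne hfg le_sup_left)), fun j => ?_⟩
  by_cases hj : j ∈ Z₀
  · refine ⟨1, le_rfl, hT, ?_⟩
    rw [Nat.cast_one, one_smul]
    exact cg1_mem_MZ P hj
  · have hm : idx (ZZ ι) (MZ P Z₀) * idx (MZ P Z₀) (MZ P (insert j Z₀)) =
        idx (ZZ ι) (MZ P (insert j Z₀)) :=
      AddSubgroup.relIndex_mul_relIndex _ _ _ (le_sup_left : ZZ ι ≤ MZ P Z₀)
        (cg1_MZ_mono P (Finset.subset_insert j Z₀))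
    have hlt : idx (ZZ ι) (MZ P (insert j Z₀)) < T ^ Z₀.card * T := by
      by_contra hge
      have h2 := hmax (insert j Z₀) (Finset.mem_filter.2 ⟨Finset.mem_univ _, by
        rw [Finset.card_insert_of_notMem hj, pow_succ]
        exact not_lt.1 hge⟩)
      rw [Finset.card_insert_of_notMem hj] at h2
      omega
    refine ⟨idx (MZ P Z₀) (MZ P (insert j Z₀)), Nat.one_le_iff_ne_zero.2 fun e => ?_, ?_,
      idx_smul_mem (cg1_mem_MZ P (Finset.mem_insert_self j Z₀))⟩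
    · rw [e, mul_zero] at hm
      exact hne _ hm.symm
    · rw [← hm] at hlt
      exact (Nat.lt_of_mul_lt_mul_left ((Nat.mul_le_mul_right _ h1).trans_lt hlt)).le

theorem ct_ker {P : Matrix ι ι ℚ} (hP : IsPrj P) {T : ℕ} {Z₀ Z : Finset ι} (hZ : Z₀ ⊆ Z)
    (h : ∀ j, ∃ o : ℕ, 1 ≤ o ∧ o ≤ T ∧ (o : ℚ) • (P *ᵥ Pi.single j 1) ∈ MZ P Z₀) :
    KerT (MP P) Z T := by
  intro j
  obtain ⟨o, h1, h2, h3⟩ := h j
  refine ⟨o, h1, h2, fun w hw hw0 => ?_⟩
  obtain ⟨m, hm, y, hy, rfl⟩ := Submodule.mem_sup.1 hw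
  obtain ⟨m', hm', rfl⟩ := mem_mmap.1 hy
  obtain ⟨m'', hm'', y', hy', e⟩ := Submodule.mem_sup.1 h3
  obtain ⟨μ, hμ, rfl⟩ := mem_mmap.1 hy'
  obtain ⟨a, ha⟩ := hm j
  obtain ⟨b, hb⟩ := cg1_dot hm'' hm'
  obtain ⟨c, hc⟩ := cg1_dot (cg1_mask_mem Z₀ hμ) hm
  have e0 : (mask Z₀ *ᵥ μ) ⬝ᵥ (m + P *ᵥ m') = 0 := by
    refine Finset.sum_eq_zero fun i _ => ?_
    have := congrFun hw0 i
    rw [mask_apply] at this ⊢
    by_cases hi : i ∈ Z₀
    · rw [if_pos (hZ hi), Pi.zero_apply] at this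
      rw [this, mul_zero]
    · rw [if_neg hi, zero_mul]
  have e1 := congrArg (· ⬝ᵥ m') e
  simp only [add_dotProduct, smul_dotProduct, ← mulVec_mulVec, prj_dot hP, single_one_dotProduct,
    smul_eq_mul] at e1
  rw [dotProduct_add] at e0
  refine ⟨o * a + b - c, ?_⟩
  rw [Pi.add_apply, mul_add, ← e1, ha]
  push_cast
  linarith

/-- lift `d ↦ (T!)² (d + Σ_{j ∉ Z} (h_j · d) e_j)` of `D` into `M` -/
theorem ct_lift {M : Lat ι} (hM : M.FG) (hZZ : ZZ ι ≤ M) {Z : Finset ι} {T : ℕ} (hK : KerT M Z T)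
    {D : Lat ι} (hD : D ≤ mmap (mask Z) M) (ht : ∀ j ∉ Z, Tame M Z T D j) :
    ∃ D' : Lat ι, D' ≤ M ∧ rk D' = rk D ∧
      cv D' ≤ (T.factorial : ℚ) ^ (4 * rk D) *
        (1 + (Fintype.card ι : ℚ) * (T : ℚ) ^ 2 / (rk D : ℚ)) ^ rk D * cv D := by
  choose! c hc1 hcT h hh hw using ht
  choose o ho1 hoT ho using hK
  have hDfg : D.FG := fg_of_le hD (fg_mmap _ hM)
  let H : Matrix ι ι ℚ := Matrix.of fun i => if i ∈ Z then 0 else h i
  have hHa : ∀ (x : ι → ℚ) i, (H *ᵥ x) i = if i ∈ Z then 0 else h i ⬝ᵥ x := by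
    intro x i
    by_cases hi : i ∈ Z <;> simp [H, mulVec, hi]
  have hD0 : ∀ d ∈ D, ∀ i ∉ Z, d i = 0 := by
    intro d hd i hi
    obtain ⟨w, -, rfl⟩ := mem_mmap.1 (hD hd)
    rw [mask_apply, if_neg hi]
  have hH : ∀ x ∈ qspan D, x ⬝ᵥ (H *ᵥ x) = 0 := by
    intro x hx
    obtain ⟨q, hq, hqx⟩ := mem_qspan.1 hx
    refine Finset.sum_eq_zero fun i _ => ?_
    by_cases hi : i ∈ Z
    · rw [hHa, if_pos hi, mul_zero]
    · have := hD0 _ hqx i hi
      rw [Pi.smul_apply, smul_eq_mul, mul_eq_zero] at this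
      rw [this.resolve_left (Nat.cast_ne_zero.2 hq.ne'), zero_mul]
  obtain ⟨r1, c1⟩ := cv_graph_le hDfg H hH
  have hF : (0 : ℚ) < T.factorial := Nat.cast_pos.2 T.factorial_pos
  obtain ⟨r2, c2⟩ := cv_mmap_iso (((T.factorial : ℚ) ^ 2) • (1 : Matrix ι ι ℚ))
    (fg_mmap (1 + H) hDfg) (c := (T.factorial : ℚ) ^ 4) (by positivity) fun x _ => by
      rw [smul_mulVec, one_mulVec, smul_dotProduct, dotProduct_smul, smul_eq_mul, smul_eq_mul]
      ring
  refine ⟨_, fun y hy => ?_, r2.trans r1, ?_⟩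
  · obtain ⟨x, hx, rfl⟩ := mem_mmap.1 hy
    obtain ⟨d, hd, rfl⟩ := mem_mmap.1 hx
    obtain ⟨w, hwM, hwd⟩ := mem_mmap.1 (hD hd)
    rw [smul_mulVec, one_mulVec]
    have hz : ((T.factorial ^ 2 : ℕ) : ℚ) • w - ((T.factorial : ℚ) ^ 2) • ((1 + H) *ᵥ d) ∈ ZZ ι := by
      intro i
      rw [Pi.sub_apply, Pi.smul_apply, Pi.smul_apply, add_mulVec, one_mulVec, Pi.add_apply, hHa,
        smul_eq_mul, smul_eq_mul, Nat.cast_pow]
      by_cases hi : i ∈ Z
      · refine ⟨0, ?_⟩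
        rw [if_pos hi, ← hwd, mask_apply, if_pos hi]
        simp
      · obtain ⟨w', hw'M, hw'd, hw'i⟩ := hw i hi d hd
        obtain ⟨m, hm⟩ := ho i ((c i : ℚ) • w - w') (M.sub_mem (idx_qsmul_mem hwM _) hw'M) (by
          rw [mulVec_sub, mulVec_smul, hwd, hw'd, sub_self])
        obtain ⟨a, ha⟩ := Nat.dvd_factorial (hc1 i hi) (hcT i hi)
        obtain ⟨b, hb⟩ := Nat.dvd_factorial (ho1 i) (hoT i)
        have ha' : (T.factorial : ℚ) = c i * a := by exact_mod_cast ha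
        have hb' : (T.factorial : ℚ) = o i * b := by exact_mod_cast hb
        rw [Pi.sub_apply, Pi.smul_apply, hw'i, dotProduct_smul, smul_eq_mul, smul_eq_mul] at hm
        refine ⟨a * b * m, ?_⟩
        rw [if_neg hi, hD0 d hd i hi, pow_two]
        nth_rewrite 1 [ha']
        nth_rewrite 1 [hb']
        nth_rewrite 1 [ha']
        nth_rewrite 1 [hb']
        push_cast
        rw [← hm]
        ring
    have := M.sub_mem (idx_qsmul_mem hwM (T.factorial ^ 2)) (hZZ hz)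
    rwa [sub_sub_cancel] at this
  · rw [c2, r1, ← pow_mul, mul_assoc]
    refine mul_le_mul_of_nonneg_left (c1.trans ?_) (by positivity)
    have hS : ∑ i, ∑ j, H i j ^ 2 ≤ (Fintype.card ι : ℚ) * (T : ℚ) ^ 2 := by
      rw [← nsmul_eq_mul, ← Finset.card_univ]
      refine Finset.sum_le_card_nsmul _ _ _ fun i _ => ?_
      by_cases hi : i ∈ Z
      · simp [H, hi]
      · refine le_trans (le_of_eq ?_) (hh i hi)
        simp [H, hi, dotProduct, pow_two]
    have h0 : 0 ≤ ∑ i, ∑ j, H i j ^ 2 := by positivity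
    have := cv_pos D
    gcongr

/-- if adding `j` does not lower the potential then `j` is tame on the core `D`.
Let `D₂ ≤ C_{Z ∪ j}` violate `Om`, `X = mask Z D₂`.  (1) `D₂` meets the line `ℚ e_j`: `cv_quot_ge`.
(2) otherwise `D₂` is a graph over `X`, `cv D₂ = (1+|γ|²) cv X`; by `cv_sup_inf` and maximality of
`D`, `X ⊓ D` has full rank in `D` and index `c < T`, and `|γ|² < T²`. -/
theorem ct_tame {M : Lat ι} (hM : M.FG) {Z : Finset ι} {T : ℕ} (hT : 2 ≤ T) (hK : KerT M Z T)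
    {b x : ℝ} (hb : 6 * Real.log T ≤ b) {D : Lat ι} (hD : D ≤ mmap (mask Z) M)
    (hmax : ∀ D' : Lat ι, D' ≤ mmap (mask Z) M →
      (cv D : ℝ) * Real.exp (-b) ^ rk D' ≤ (cv D' : ℝ) * Real.exp (-b) ^ rk D)
    (hOm : Om (4 * Real.log T) x (mmap (mask Z) M)) {j : ι} (hj : j ∉ Z)
    (hno : ¬ Om (4 * Real.log T) (x - 2 * Real.log T) (mmap (mask (insert j Z)) M)) :
    Tame M Z T D j :=
  ctt_tame hM hT hK hb hD hmax hOm hj hno

theorem gre_num {β A t n : ℝ} (hβ : 0 < β) (ht : 0 < t) (hn : 0 ≤ n) (k : ℕ)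
    (hk : (k : ℝ) * |4 * A - Real.log (β / (2 * t)) - 1 + β / (2 * t)| ≤ β * n / 2) :
    Real.exp A ^ (4 * k) * (1 + n * t / k) ^ k ≤ Real.exp (β * n) := by
  set η := β / (2 * t) with hη
  have hηp : 0 < η := by positivity
  have hηt : η * t = β / 2 := by rw [hη]; field_simp
  set z : ℝ := 1 + n * t / k with hz
  have hz0 : 0 ≤ z := by positivity
  have h1 : z ≤ Real.exp (-Real.log η + (η * z - 1)) := by
    rw [Real.exp_add, Real.exp_neg, Real.exp_log hηp, ← div_eq_inv_mul, le_div_iff₀ hηp]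
    have := Real.add_one_le_exp (η * z - 1)
    linarith
  have h2 : (k : ℝ) * z ≤ k + n * t := by
    rw [hz, mul_add, mul_one]
    rcases Nat.eq_zero_or_pos k with h | h
    · subst h
      simp only [Nat.cast_zero, zero_mul, zero_add]
      positivity
    · have : (0 : ℝ) < k := by exact_mod_cast h
      rw [mul_div_cancel₀ _ this.ne']
  calc Real.exp A ^ (4 * k) * z ^ k
      ≤ Real.exp A ^ (4 * k) * Real.exp (-Real.log η + (η * z - 1)) ^ k :=
        mul_le_mul_of_nonneg_left (pow_le_pow_left₀ hz0 h1 k) (by positivity)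
    _ = Real.exp (((4 * k : ℕ) : ℝ) * A + k * (-Real.log η + (η * z - 1))) := by
        rw [← Real.exp_nat_mul, ← Real.exp_nat_mul, ← Real.exp_add]
    _ ≤ Real.exp (β * n) := by
        refine Real.exp_le_exp.2 ?_
        push_cast
        have h3 := mul_le_mul_of_nonneg_left (le_abs_self (4 * A - Real.log η - 1 + η))
          (Nat.cast_nonneg (α := ℝ) k)
        have h4 := mul_le_mul_of_nonneg_left h2 hηp.le
        have h5 : η * (n * t) = β * n / 2 := by rw [mul_comm n t, ← mul_assoc, hηt]; ring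
        nlinarith

theorem gre_nonneg {b x : ℝ} {C : Lat ι} (h : Om b x C) : 0 ≤ x := by
  have h1 := h ⊥ bot_le
  rw [rk_bot, cv_bot] at h1
  simp only [Nat.cast_zero, mul_zero, sub_zero, Rat.cast_one, Real.exp_le_one_iff] at h1
  linarith

theorem ct_greedy {ω β : ℝ} (hω : 0 ≤ ω) (hβ : 0 < β) {T : ℕ} (hT : 2 ≤ T) :
    ∀ᶠ n : ℕ in atTop, ∀ M : Lat (Fin n), M.FG → ZZ (Fin n) ≤ M →
      Stable ((n : ℝ) ^ (-(1 / 2 : ℝ))) M → Real.exp (-(ω * n)) ≤ (cv M : ℝ) →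
      ∀ Z₀ : Finset (Fin n), (∀ Z, Z₀ ⊆ Z → KerT M Z T) →
        ∃ Z : Finset (Fin n), Z₀ ⊆ Z ∧ ((Z.card : ℝ) - Z₀.card) * (2 * Real.log T) ≤ ω * n ∧
          Om (Real.log n / 2) (β * n) (mmap (mask Z) M) := by
  have hT1 : (1 : ℝ) < T := by exact_mod_cast hT
  have hL : 0 < Real.log T := Real.log_pos hT1
  set B : ℝ := |4 * Real.log (T.factorial : ℝ) - Real.log (β / (2 * (T : ℝ) ^ 2)) - 1 +
    β / (2 * (T : ℝ) ^ 2)| with hB
  have hB0 : 0 ≤ B := abs_nonneg _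
  have hlog := Real.tendsto_log_atTop.comp tendsto_natCast_atTop_atTop
  filter_upwards [hlog.eventually_ge_atTop (12 * Real.log T),
    hlog.eventually_ge_atTop (12 * ω * B / β), eventually_gt_atTop 0] with n hn1 hn2 hn0
  intro M hM hZZ hst hcv Z₀ hK
  simp only [Function.comp] at hn1 hn2
  have hnp : (0 : ℝ) < n := by exact_mod_cast hn0
  set b : ℝ := Real.log n / 2 with hb
  have hm : (n : ℝ) ^ (-(1 / 2 : ℝ)) = Real.exp (-b) := by
    rw [Real.rpow_def_of_pos hnp, hb]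
    congr 1
    ring
  rw [hm] at hst
  by_contra hcon
  push Not at hcon
  have key : ∀ s : ℕ, ∃ Z : Finset (Fin n), Z₀ ⊆ Z ∧ Z.card = Z₀.card + s ∧
      Om (4 * Real.log T) (ω * n - s * (2 * Real.log T)) (mmap (mask Z) M) := by
    intro s
    induction s with
    | zero =>
      refine ⟨Z₀, subset_rfl, rfl, fun D hD => ?_⟩
      have h1 : (cv M : ℝ) ≤ cv D := by exact_mod_cast cv_le_of_mask hM hZZ Z₀ hD
      refine le_trans (Real.exp_le_exp.2 ?_) (hcv.trans h1)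
      have : 0 ≤ 4 * Real.log T * (rk D : ℝ) := by positivity
      simp only [Nat.cast_zero, zero_mul, sub_zero]
      linarith
    | succ s ih =>
      obtain ⟨Z, hZ, hcard, hOm⟩ := ih
      have hx := gre_nonneg hOm
      have hno := hcon Z hZ (by
        rw [hcard]
        push_cast
        linarith)
      unfold Om at hno
      push Not at hno
      obtain ⟨D₁, hD₁, hlt⟩ := hno
      obtain ⟨D, -, hD, hmin⟩ := exists_minimiser (fg_mmap (mask Z) hM)
        (bot_le : (⊥ : Lat (Fin n)) ≤ _) (Real.exp_pos (-b))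
      have hcvD : (cv D : ℝ) < Real.exp (-(β * n)) * Real.exp (-b) ^ rk D := by
        have h1 := hmin D₁ bot_le hD₁
        have h2 : Real.exp (-(β * n) - b * rk D₁) =
            Real.exp (-(β * n)) * Real.exp (-b) ^ rk D₁ := by
          rw [← Real.exp_nat_mul, ← Real.exp_add]
          congr 1
          ring
        rw [h2] at hlt
        have h3 : (0 : ℝ) < Real.exp (-b) ^ rk D := by positivity
        have h4 : (0 : ℝ) < Real.exp (-b) ^ rk D₁ := by positivity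
        have h5 := mul_lt_mul_of_pos_right hlt h3
        refine lt_of_mul_lt_mul_right ?_ h4.le
        nlinarith
      have hk : (rk D : ℝ) * Real.log n ≤ 6 * (ω * n) := by
        have h1 := (hOm D hD).trans_lt hcvD
        rw [← Real.exp_nat_mul, ← Real.exp_add, Real.exp_lt_exp] at h1
        have h2 : 0 ≤ (s : ℝ) * (2 * Real.log T) := by positivity
        have h3 : 0 < β * n := mul_pos hβ hnp
        have h4 := mul_le_mul_of_nonneg_left hn1 (Nat.cast_nonneg (α := ℝ) (rk D))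
        rw [hb] at h1
        nlinarith
      by_contra hnext
      have htame : ∀ j ∉ Z, Tame M Z T D j := by
        intro j hj
        refine ct_tame hM hT (hK Z hZ) (b := b) (by rw [hb]; linarith) hD
          (fun D' hD' => hmin D' bot_le hD') hOm hj fun hO => hnext ⟨insert j Z,
            hZ.trans (Finset.subset_insert _ _), ?_, ?_⟩
        · rw [Finset.card_insert_of_notMem hj, hcard, add_assoc]
        · convert hO using 1
          push_cast
          ring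
      obtain ⟨D', hD', hrk, hcv'⟩ := ct_lift hM hZZ (hK Z hZ) hD htame
      have h1 := hst D' hD'
      rw [hrk] at h1
      have h2 : (cv D' : ℝ) ≤ (T.factorial : ℝ) ^ (4 * rk D) *
          (1 + (n : ℝ) * (T : ℝ) ^ 2 / (rk D : ℝ)) ^ rk D * cv D := by
        rw [Fintype.card_fin] at hcv'
        have := (Rat.cast_le (K := ℝ)).2 hcv'
        push_cast at this
        exact this
      have hlogp : 0 < Real.log n := by linarith
      have h3 := gre_num (A := Real.log (T.factorial : ℝ)) (t := (T : ℝ) ^ 2) hβ (by positivity)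
        hnp.le (rk D) (by
          rw [← hB]
          rw [div_le_iff₀ hβ] at hn2
          refine le_of_mul_le_mul_right ?_ hlogp
          have h4 := mul_le_mul_of_nonneg_right hk hB0
          have h5 := mul_le_mul_of_nonneg_right hn2 hnp.le
          nlinarith)
      rw [Real.exp_log (by exact_mod_cast T.factorial_pos)] at h3
      have h6 : (0 : ℝ) < cv D := by exact_mod_cast cv_pos D
      have h7 := mul_le_mul_of_nonneg_right h3 h6.le
      have h8 := mul_lt_mul_of_pos_left hcvD (Real.exp_pos (β * n))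
      rw [← mul_assoc, ← Real.exp_add, add_neg_cancel, Real.exp_zero, one_mul] at h8
      linarith
  obtain ⟨Z, -, hcard, -⟩ := key (n + 1)
  have := Z.card_le_univ
  rw [Fintype.card_fin] at this
  omega

end Crest.Agent.R152
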