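import Crest.Agent.R152.LHN

/-! # Row 152: regularisation of a rational subspace of small height -/

set_option autoImplicit false
set_option linter.unusedSectionVars false
set_option linter.unusedVariables false

open Matrix Filter Topology

noncomputable section

namespace Crest.Agent.R152

variable {ι : Type} [Fintype ι] [DecidableEq ι]

theorem MP_fg (P : Matrix ι ι ℚ) : (MP P).FG :=
  ZZ_fg.sup (fg_mmap P ZZ_fg)

theorem CReg_inf {P : Matrix ι ι ℚ} (hP : IsPrj P) : MP P ⊓ kerM P = mmap (1 - P) (ZZ ι) := by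
  ext x
  rw [Submodule.mem_inf, mem_kerM, mem_mmap, MP, Submodule.mem_sup]
  constructor
  · rintro ⟨⟨a, ha, c, hc, rfl⟩, h0⟩
    obtain ⟨b, hb, rfl⟩ := mem_mmap.1 hc
    refine ⟨a, ha, ?_⟩
    rw [Matrix.mulVec_add, prj_idem hP] at h0
    rw [Matrix.sub_mulVec, Matrix.one_mulVec, eq_neg_of_add_eq_zero_left h0, sub_neg_eq_add]
  · rintro ⟨a, ha, rfl⟩
    rw [Matrix.sub_mulVec, Matrix.one_mulVec]
    refine ⟨⟨a, ha, -(P *ᵥ a), Submodule.neg_mem _ (mem_mmap.2 ⟨a, ha, rfl⟩),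
      (sub_eq_add_neg _ _).symm⟩, ?_⟩
    rw [Matrix.mulVec_sub, prj_idem hP, sub_self]

theorem CReg_map {P : Matrix ι ι ℚ} (hP : IsPrj P) : mmap P (MP P) = mmap P (ZZ ι) := by
  ext x
  rw [mem_mmap, mem_mmap]
  constructor
  · rintro ⟨y, hy, rfl⟩
    obtain ⟨a, ha, c, hc, rfl⟩ := Submodule.mem_sup.1 hy
    obtain ⟨b, hb, rfl⟩ := mem_mmap.1 hc
    exact ⟨a + b, Submodule.add_mem _ ha hb, by
      rw [Matrix.mulVec_add, Matrix.mulVec_add, prj_idem hP]⟩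
  · rintro ⟨a, ha, rfl⟩
    exact ⟨a, Submodule.mem_sup_left ha, rfl⟩

theorem cv_MP {P : Matrix ι ι ℚ} (hP : IsPrj P) :
    cv (MP P) * cv (ZZ ι ⊓ kerM (1 - P)) ^ 2 = 1 := by
  have h1 := cv_quot_eq hP (MP_fg P) fun x hx => ker_le_qspan P (L := MP P) le_sup_left hx
  rw [CReg_inf hP, CReg_map hP] at h1
  have h2 := cv_mmap_ZZ hP
  have h3 := cv_mmap_ZZ (prj_one_sub hP)
  rw [← height_dual hP] at h2
  rw [h1]
  linear_combination (cv (ZZ ι ⊓ kerM (1 - P)) * cv (mmap P (ZZ ι))) * h3 + h2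

theorem stable_MP {m : ℝ} (hm : 0 ≤ m) {P : Matrix ι ι ℚ} (hP : IsPrj P)
    (h1 : Stable m (mmap P (ZZ ι))) (h2 : Stable m (mmap (1 - P) (ZZ ι))) : Stable m (MP P) := by
  refine stable_ext hm hP (MP_fg P) ?_ ?_
  · rwa [CReg_inf hP]
  · rwa [CReg_map hP]

/-- adding the span of a sublattice of `Q ℤ^n` to the kernel -/
theorem CReg_step {Q : Matrix ι ι ℚ} (hQ : IsPrj Q) {D : Lat ι} (hD : D ≤ mmap Q (ZZ ι)) :
    ∃ Q' : Matrix ι ι ℚ, IsPrj Q' ∧ cv (ZZ ι ⊓ kerM Q') ≤ cv (ZZ ι ⊓ kerM Q) * cv D ∧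
      LinearMap.ker Q.mulVecLin ≤ LinearMap.ker Q'.mulVecLin ∧
      Module.finrank ℚ (LinearMap.ker Q'.mulVecLin) ≤
        Module.finrank ℚ (LinearMap.ker Q.mulVecLin) + rk D := by
  have hDfg : D.FG := fg_of_le hD (fg_mmap Q ZZ_fg)
  obtain ⟨Q', hQ', hk⟩ := exists_prj (LinearMap.ker Q.mulVecLin ⊔ qspan D)
  have hker : LinearMap.ker Q'.mulVecLin = LinearMap.ker Q.mulVecLin ⊔ qspan D := by
    ext x
    rw [← hk, LinearMap.mem_ker, Matrix.mulVecLin_apply]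
  have hfix : ∀ v ∈ qspan D, Q *ᵥ v = v := by
    intro v hv
    have : qspan D ≤ LinearMap.eqLocus Q.mulVecLin LinearMap.id := by
      refine Submodule.span_le.2 fun d hd => ?_
      obtain ⟨z, -, rfl⟩ := mem_mmap.1 (hD hd)
      exact prj_idem hQ z
    exact this hv
  have hL : (ZZ ι ⊓ kerM Q').FG := fg_of_le inf_le_left ZZ_fg
  have hinf : ZZ ι ⊓ kerM Q' ⊓ kerM Q = ZZ ι ⊓ kerM Q := by
    rw [inf_assoc, inf_eq_right.2 (show kerM Q ≤ kerM Q' from fun x hx => ?_)]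
    exact mem_kerM.2 ((hk x).2 (Submodule.mem_sup_left (mem_kerM.1 hx)))
  have h1 := cv_quot_eq hQ hL fun x hx => by
    rw [hinf]
    exact ker_le_qspan Q le_rfl hx
  rw [hinf] at h1
  have hle : D ≤ mmap Q (ZZ ι ⊓ kerM Q') := by
    intro d hd
    obtain ⟨z, hz, rfl⟩ := mem_mmap.1 (hD hd)
    refine mem_mmap.2 ⟨z, ⟨hz, mem_kerM.2 ((hk z).2 ?_)⟩, rfl⟩
    refine Submodule.mem_sup.2 ⟨z - Q *ᵥ z, ?_, Q *ᵥ z, Submodule.subset_span hd,
      sub_add_cancel _ _⟩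
    rw [LinearMap.mem_ker, Matrix.mulVecLin_apply, Matrix.mulVec_sub, prj_idem hQ, sub_self]
  have hsp : qspan D = qspan (mmap Q (ZZ ι ⊓ kerM Q')) := by
    refine le_antisymm (Submodule.span_mono hle) (Submodule.span_le.2 fun y hy => ?_)
    obtain ⟨z, hz, rfl⟩ := mem_mmap.1 hy
    obtain ⟨a, ha, v, hv, rfl⟩ := Submodule.mem_sup.1 ((hk z).1 (mem_kerM.1 hz.2))
    rw [LinearMap.mem_ker, Matrix.mulVecLin_apply] at ha
    rw [Matrix.mulVec_add, ha, zero_add, hfix v hv]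
    exact hv
  have h2 := cv_le_of_le hle (fg_mmap Q hL) (by
    rw [rk_eq_finrank hDfg, rk_eq_finrank (fg_mmap Q hL), hsp])
  refine ⟨Q', hQ', ?_, hker ▸ le_sup_left, ?_⟩
  · rw [h1]
    exact mul_le_mul_of_nonneg_left h2 (cv_pos _).le
  · rw [hker, rk_eq_finrank hDfg]
    exact Submodule.finrank_add_le_finrank_add_finrank _ _

theorem CReg_range {P : Matrix ι ι ℚ} (hP : IsPrj P) :
    LinearMap.range P.mulVecLin = LinearMap.ker (1 - P).mulVecLin := by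
  ext x
  rw [LinearMap.mem_ker, Matrix.mulVecLin_apply, Matrix.sub_mulVec, Matrix.one_mulVec, sub_eq_zero]
  constructor
  · rintro ⟨y, rfl⟩
    exact (prj_idem hP y).symm
  · intro h
    exact ⟨x, h.symm⟩

theorem CReg_move {P : Matrix ι ι ℚ} (hP : IsPrj P) {D : Lat ι}
    (hD : D ≤ mmap P (ZZ ι) ∨ D ≤ mmap (1 - P) (ZZ ι)) :
    ∃ P' : Matrix ι ι ℚ, IsPrj P' ∧
      cv (ZZ ι ⊓ kerM (1 - P')) ≤ cv (ZZ ι ⊓ kerM (1 - P)) * cv D ∧
      ∀ U : Submodule ℚ (ι → ℚ),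
        2 * Module.finrank ℚ ↥(U ⊔ LinearMap.range P'.mulVecLin) + P.rank ≤
          2 * Module.finrank ℚ ↥(U ⊔ LinearMap.range P.mulVecLin) + P'.rank + rk D := by
  rcases hD with hD | hD
  · obtain ⟨Q, hQ, h1, h2, h3⟩ := CReg_step hP hD
    refine ⟨Q, hQ, by rwa [height_dual hQ, height_dual hP], fun U => ?_⟩
    have h4 : Q * (1 - P) = 0 := by
      refine Matrix.ext_iff_mulVec.2 fun v => ?_
      rw [← Matrix.mulVec_mulVec, Matrix.zero_mulVec]
      refine h2 ?_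
      rw [LinearMap.mem_ker, Matrix.mulVecLin_apply, Matrix.sub_mulVec, Matrix.one_mulVec,
        Matrix.mulVec_sub, prj_idem hP, sub_self]
    have h5 : (1 - P) * Q = 0 := by
      have := congrArg Matrix.transpose h4
      rwa [Matrix.transpose_mul, (prj_one_sub hP).1, hQ.1, Matrix.transpose_zero] at this
    have h6 : LinearMap.range Q.mulVecLin ≤ LinearMap.range P.mulVecLin := by
      rw [CReg_range hP]
      rintro _ ⟨v, rfl⟩
      rw [LinearMap.mem_ker, Matrix.mulVecLin_apply, Matrix.mulVecLin_apply, Matrix.mulVec_mulVec,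
        h5, Matrix.zero_mulVec]
    have h7 := Submodule.finrank_mono (sup_le_sup_left h6 U)
    have h8 := LinearMap.finrank_range_add_finrank_ker P.mulVecLin
    have h9 := LinearMap.finrank_range_add_finrank_ker Q.mulVecLin
    unfold Matrix.rank
    omega
  · obtain ⟨Q, hQ, h1, h2, h3⟩ := CReg_step (prj_one_sub hP) hD
    have h0 : LinearMap.range (1 - Q).mulVecLin = LinearMap.ker Q.mulVecLin := by
      rw [CReg_range (prj_one_sub hQ), sub_sub_cancel]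
    refine ⟨1 - Q, prj_one_sub hQ, by rwa [sub_sub_cancel], fun U => ?_⟩
    rw [← CReg_range hP, ← h0] at h2 h3
    have h4 := Submodule.finrank_sup_add_finrank_inf_eq (U ⊔ LinearMap.range P.mulVecLin)
      (LinearMap.range (1 - Q).mulVecLin)
    have h5 := Submodule.finrank_mono (le_inf (le_sup_right (a := U)) h2)
    have h6 := Submodule.finrank_mono
      (sup_le_sup_right (le_sup_left (a := U) (b := LinearMap.range P.mulVecLin))
        (LinearMap.range (1 - Q).mulVecLin))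
    unfold Matrix.rank
    omega

/-- minimise `log height(U') + (log n / 2) · (2 dim (U ⊔ U') - dim U - dim U')` over projections
(`exists_min_log`); a dense sublattice `D` of `P' ℤ^n` (resp. `(1-P') ℤ^n`) would allow to remove
(resp. add) `span D`. -/
theorem regularise {n : ℕ} (hn : 2 ≤ n) {ω : ℝ} {P : Matrix (Fin n) (Fin n) ℚ} (hP : IsPrj P)
    (hh : (cv (ZZ (Fin n) ⊓ kerM (1 - P)) : ℝ) ≤ Real.exp (ω * n)) :
    ∃ P' : Matrix (Fin n) (Fin n) ℚ, Reg (2 * ω) n P' ∧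
      ((Module.finrank ℚ ↥(LinearMap.range P.mulVecLin ⊔ LinearMap.range P'.mulVecLin) : ℝ) - P.rank) *
        Real.log n ≤ 2 * ω * n ∧
      ((Module.finrank ℚ ↥(LinearMap.range P.mulVecLin ⊔ LinearMap.range P'.mulVecLin) : ℝ) - P'.rank) *
        Real.log n ≤ 2 * ω * n := by
  have hht : ∀ Q : {Q : Matrix (Fin n) (Fin n) ℚ // IsPrj Q}, ∃ m : ℕ, 1 ≤ m ∧
      cv (ZZ (Fin n) ⊓ kerM (1 - Q.1)) = m := by
    intro Q
    obtain ⟨m, h1, h2⟩ := cv_den (L := ZZ (Fin n) ⊓ kerM (1 - Q.1))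
      (fg_of_le inf_le_left ZZ_fg) Nat.one_pos (fun x hx => by simpa using hx.1)
    exact ⟨m, h1, by simpa using h2⟩
  choose F hF1 hF using hht
  have hFr : ∀ Q, (F Q : ℝ) = (cv (ZZ (Fin n) ⊓ kerM (1 - Q.1)) : ℝ) := fun Q => by
    rw [hF]
    simp
  have hF0 : ∀ Q, (0 : ℝ) < F Q := fun Q => Nat.cast_pos.2 (hF1 Q)
  obtain ⟨d, hd⟩ : ∃ d : Matrix (Fin n) (Fin n) ℚ → ℕ, ∀ Q, d Q =
      Module.finrank ℚ ↥(LinearMap.range P.mulVecLin ⊔ LinearMap.range Q.mulVecLin) :=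
    ⟨_, fun _ => rfl⟩
  have hd1 : ∀ Q, P.rank ≤ d Q := fun Q => hd Q ▸ Submodule.finrank_mono le_sup_left
  have hd2 : ∀ Q, Q.rank ≤ d Q := fun Q => hd Q ▸ Submodule.finrank_mono le_sup_right
  have hd3 : ∀ Q, d Q ≤ n := fun Q => by
    have := Submodule.finrank_le (LinearMap.range P.mulVecLin ⊔ LinearMap.range Q.mulVecLin)
    rw [hd]
    simpa using this
  have hdP : d P = P.rank := by
    rw [hd, sup_idem]
    rfl
  obtain ⟨P', hmin⟩ := exists_min_log ⟨P, hP⟩ F (fun Q => (d Q.1 - P.rank) + (d Q.1 - Q.1.rank))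
    hF1 (2 * n) (fun Q => by have := hd3 Q.1; omega) (fun g => Real.log n / 2 * g)
  have hn0 : (0 : ℝ) < n := by exact_mod_cast (by omega : 0 < n)
  have hlog : 0 ≤ Real.log n := Real.log_natCast_nonneg n
  have cast : ∀ Q : Matrix (Fin n) (Fin n) ℚ,
      (((d Q - P.rank) + (d Q - Q.rank) : ℕ) : ℝ) = (d Q - P.rank) + (d Q - Q.rank) := fun Q => by
    rw [Nat.cast_add, Nat.cast_sub (hd1 Q), Nat.cast_sub (hd2 Q)]
  simp only [cast] at hmin
  have h1 := hmin ⟨P, hP⟩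
  simp only [hdP, sub_self, add_zero, mul_zero] at h1
  have h2 : Real.log (F ⟨P, hP⟩) ≤ ω * n := by
    rw [Real.log_le_iff_le_exp (hF0 _), hFr]
    exact hh
  have h3 : 0 ≤ Real.log (F P') := Real.log_natCast_nonneg _
  have h4 : (0 : ℝ) ≤ d P'.1 - P.rank := sub_nonneg.2 (Nat.cast_le.2 (hd1 _))
  have h5 : (0 : ℝ) ≤ d P'.1 - P'.1.rank := sub_nonneg.2 (Nat.cast_le.2 (hd2 _))
  have h6 := mul_nonneg h4 hlog
  have h7 := mul_nonneg h5 hlog
  have hst : ∀ D : Lat (Fin n), D ≤ mmap P'.1 (ZZ (Fin n)) ∨ D ≤ mmap (1 - P'.1) (ZZ (Fin n)) →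
      ((n : ℝ) ^ (-(1 / 2 : ℝ))) ^ rk D ≤ (cv D : ℝ) := by
    intro D hD
    obtain ⟨Q, hQ, a1, a2⟩ := CReg_move P'.2 hD
    have a3 := a2 (LinearMap.range P.mulVecLin)
    rw [← hd, ← hd] at a3
    have a4 : (2 : ℝ) * d Q + P'.1.rank ≤ 2 * d P'.1 + Q.rank + rk D := by exact_mod_cast a3
    have hcv : (0 : ℝ) < cv D := by exact_mod_cast cv_pos D
    have a5 : (F ⟨Q, hQ⟩ : ℝ) ≤ F P' * cv D := by
      rw [hFr, hFr]
      exact_mod_cast a1
    have a6 := Real.log_le_log (hF0 _) a5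
    rw [Real.log_mul (hF0 _).ne' hcv.ne'] at a6
    have a7 := hmin ⟨Q, hQ⟩
    simp only at a7
    rw [← Real.log_le_log_iff (by positivity) hcv, Real.log_pow, Real.log_rpow hn0]
    nlinarith [mul_le_mul_of_nonneg_left a4 hlog]
  refine ⟨P'.1, ⟨P'.2, stable_MP (by positivity) P'.2 (fun D hD => hst D (Or.inl hD))
    (fun D hD => hst D (Or.inr hD)), ?_⟩, ?_, ?_⟩
  · have b1 : (cv (MP P'.1) : ℝ) * (F P' : ℝ) ^ 2 = 1 := by
      rw [hFr]
      exact_mod_cast cv_MP P'.2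
    have b2 : (0 : ℝ) < cv (MP P'.1) := by exact_mod_cast cv_pos _
    have b3 := congrArg Real.log b1
    rw [Real.log_mul b2.ne' (pow_pos (hF0 _) 2).ne', Real.log_pow, Real.log_one] at b3
    rw [← Real.le_log_iff_exp_le b2]
    push_cast at b3
    nlinarith
  · rw [← hd]
    nlinarith
  · rw [← hd]
    nlinarith

end Crest.Agent.R152
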