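import Crest.Agent.R152.LDefs

/-! # Row 152: lattices, basic facts -/

set_option autoImplicit false
set_option linter.unusedSectionVars false
set_option linter.unusedVariables false

open Matrix Filter Topology

noncomputable section

namespace Crest.Agent.R152

variable {ι : Type} [Fintype ι] [DecidableEq ι]

variable {κ : Type} [Fintype κ] [DecidableEq κ]

theorem mem_ZZ {x : ι → ℚ} : x ∈ ZZ ι ↔ ∀ i, ∃ m : ℤ, x i = m := Iff.rfl

theorem mem_mmap {P : Matrix κ ι ℚ} {L : Lat ι} {y : κ → ℚ} :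
    y ∈ mmap P L ↔ ∃ x ∈ L, P *ᵥ x = y := by
  simp [mmap]

theorem mem_kerM {P : Matrix κ ι ℚ} {x : ι → ℚ} : x ∈ kerM P ↔ P *ᵥ x = 0 := by
  simp [kerM]

theorem fg_of_le {D L : Lat ι} (h : D ≤ L) (hL : L.FG) : D.FG := by
  have : IsNoetherian ℤ L := isNoetherian_of_fg_of_noetherian L hL
  have h1 : (D.comap L.subtype).FG := IsNoetherian.noetherian _
  have h2 := h1.map L.subtype
  rwa [Submodule.map_comap_subtype, inf_eq_right.mpr h] at h2

theorem fg_mmap (P : Matrix κ ι ℚ) {L : Lat ι} (hL : L.FG) : (mmap P L).FG := by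
  exact hL.map _

theorem mmap_mmap {μ : Type} (Q : Matrix μ κ ℚ) (P : Matrix κ ι ℚ) (L : Lat ι) :
    mmap Q (mmap P L) = mmap (Q * P) L := by
  ext y
  simp only [mmap, Submodule.mem_map, LinearMap.restrictScalars_apply, Matrix.mulVecLin_apply]
  constructor
  · rintro ⟨_, ⟨x, hx, rfl⟩, rfl⟩
    exact ⟨x, hx, (Matrix.mulVec_mulVec x Q P).symm⟩
  · rintro ⟨x, hx, rfl⟩
    exact ⟨_, ⟨x, hx, rfl⟩, Matrix.mulVec_mulVec x Q P⟩

theorem ZZ_eq_span : ZZ ι = Submodule.span ℤ (Set.range fun i : ι => (Pi.single i 1 : ι → ℚ)) := by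
  apply le_antisymm
  · intro x hx
    choose m hm using mem_ZZ.mp hx
    have e : x = ∑ i, m i • (Pi.single i 1 : ι → ℚ) := by
      funext j
      simp [Finset.sum_apply, Pi.single_apply, hm]
    rw [e]
    exact Submodule.sum_mem _ fun i _ => Submodule.smul_mem _ _ (Submodule.subset_span ⟨i, rfl⟩)
  · rw [Submodule.span_le]
    rintro _ ⟨i, rfl⟩
    refine mem_ZZ.mpr fun j => ⟨if j = i then 1 else 0, ?_⟩
    simp [Pi.single_apply]

theorem ZZ_fg : (ZZ ι).FG := by
  rw [ZZ_eq_span]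
  exact Submodule.fg_span (Set.finite_range _)

theorem gdet_equiv {μ : Type} [Fintype μ] [DecidableEq μ] (e : μ ≃ κ) (b : κ → ι → ℚ) :
    gdet (b ∘ e) = gdet b := by
  rw [gdet, gdet, ← Matrix.det_submatrix_equiv_self e]
  rfl

theorem lba_gdet_eq (b : κ → ι → ℚ) : gdet b = (Matrix.of b * (Matrix.of b)ᵀ).det := rfl

theorem lba_cast (b : κ → ι → ℚ) : ((gdet b : ℚ) : ℝ) =
    ((Matrix.of b).map (Rat.castHom ℝ) * ((Matrix.of b).map (Rat.castHom ℝ))ᴴ).det := by
  rw [lba_gdet_eq, ← Rat.coe_castHom, RingHom.map_det, RingHom.mapMatrix_apply, Matrix.map_mul]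
  rfl

theorem gdet_comb (C : Matrix κ κ ℚ) (b : κ → ι → ℚ) :
    gdet (fun i => ∑ j, C i j • b j) = C.det ^ 2 * gdet b := by
  have e : Matrix.of (fun i => ∑ j, C i j • b j) = C * Matrix.of b := by
    ext i k
    simp [Matrix.mul_apply, Finset.sum_apply]
  rw [lba_gdet_eq, lba_gdet_eq, e, Matrix.transpose_mul, Matrix.mul_assoc, ← Matrix.mul_assoc (Matrix.of b),
    Matrix.det_mul, Matrix.det_mul, Matrix.det_transpose]
  ring

theorem gdet_nonneg (b : κ → ι → ℚ) : 0 ≤ gdet b := by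
  have h := (Matrix.posSemidef_self_mul_conjTranspose
    ((Matrix.of b).map (Rat.castHom ℝ))).det_nonneg
  rw [← lba_cast] at h
  exact_mod_cast h

theorem gdet_pos_iff (b : κ → ι → ℚ) : 0 < gdet b ↔ LinearIndependent ℚ b := by
  have key : ∀ v : κ → ℚ, v ᵥ* (Matrix.of b * (Matrix.of b)ᵀ) = 0 ↔ v ᵥ* Matrix.of b = 0 := by
    intro v
    constructor
    · intro h
      have h1 : (v ᵥ* Matrix.of b) ⬝ᵥ (v ᵥ* Matrix.of b) = 0 := by
        have h2 : (v ᵥ* (Matrix.of b * (Matrix.of b)ᵀ)) ⬝ᵥ v = 0 := by rw [h, zero_dotProduct]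
        rwa [← Matrix.vecMul_vecMul, ← Matrix.dotProduct_mulVec, Matrix.mulVec_transpose] at h2
      exact dotProduct_self_eq_zero.mp h1
    · intro h
      rw [← Matrix.vecMul_vecMul, h, Matrix.zero_vecMul]
  have e : ∀ v : κ → ℚ, v ᵥ* Matrix.of b = ∑ i, v i • b i := by
    intro v
    funext j
    simp [Matrix.vecMul, dotProduct, Finset.sum_apply]
  rw [(gdet_nonneg b).lt_iff_ne, ne_comm, lba_gdet_eq, Ne, ← Matrix.exists_vecMul_eq_zero_iff,
    Fintype.linearIndependent_iff]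
  constructor
  · intro h v hv
    by_contra hne
    refine h ⟨v, fun h0 => hne fun i => by rw [h0]; rfl, (key v).mpr ?_⟩
    rw [e, hv]
  · rintro h ⟨v, hv, h0⟩
    refine hv (funext (h v ?_))
    rw [← e, (key v).mp h0]

theorem exists_basis {L : Lat ι} (hL : L.FG) : ∃ b : Fin (rk L) → ι → ℚ,
    LinearIndependent ℚ b ∧ Submodule.span ℤ (Set.range b) = L ∧ cv L = gdet b := by
  have : Module.Finite ℤ L := Module.Finite.iff_fg.mpr hL
  refine ⟨fun i => ((Module.finBasis ℤ L i : L) : ι → ℚ), (LinearIndependent.iff_fractionRing ℤ ℚ).1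
    ((Module.finBasis ℤ L).linearIndependent.map' L.subtype L.ker_subtype), ?_, dif_pos hL⟩
  have h := congrArg (Submodule.map L.subtype) (Module.finBasis ℤ L).span_eq
  rwa [Submodule.map_span, ← Set.range_comp, Submodule.map_subtype_top] at h

theorem rk_span {b : κ → ι → ℚ} (hb : LinearIndependent ℚ b) :
    rk (Submodule.span ℤ (Set.range b)) = Fintype.card κ :=
  finrank_span_eq_card ((LinearIndependent.iff_fractionRing ℤ ℚ).2 hb)

theorem LBasB_le {b b' : κ → ι → ℚ} (hb' : LinearIndependent ℚ b')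
    (h : ∀ i, b' i ∈ Submodule.span ℤ (Set.range b)) : gdet b ≤ gdet b' := by
  choose c hc using fun i => (Submodule.mem_span_range_iff_exists_fun ℤ).1 (h i)
  have e : b' = fun i => ∑ j, (Matrix.of c).map (Int.castRingHom ℚ) i j • b j := by
    funext i
    rw [← hc i]
    exact Finset.sum_congr rfl fun j _ => (Int.cast_smul_eq_zsmul ℚ (c i j) (b j)).symm
  have h1 := (gdet_pos_iff b').2 hb'
  rw [e, gdet_comb, ← RingHom.mapMatrix_apply, ← RingHom.map_det] at h1 ⊢
  have h2 : (Matrix.of c).det ≠ 0 := fun h0 => by simp [h0] at h1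
  refine le_mul_of_one_le_left (gdet_nonneg b) ?_
  rw [eq_intCast]
  exact_mod_cast (one_le_sq_iff_one_le_abs _).2 (Int.one_le_abs h2)

theorem cv_span {b : κ → ι → ℚ} (hb : LinearIndependent ℚ b) :
    cv (Submodule.span ℤ (Set.range b)) = gdet b := by
  obtain ⟨b', h1, h2, h3⟩ := exists_basis (Submodule.fg_span (R := ℤ) (Set.finite_range b))
  let e : κ ≃ Fin (rk (Submodule.span ℤ (Set.range b))) := Fintype.equivFinOfCardEq (rk_span hb).symm
  rw [h3, ← gdet_equiv e]
  refine le_antisymm (LBasB_le hb fun i => ?_) (LBasB_le (h1.comp e e.injective) fun i => ?_)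
  · rw [e.surjective.range_comp, h2]
    exact Submodule.subset_span ⟨i, rfl⟩
  · exact h2.le (Submodule.subset_span ⟨e i, rfl⟩)

theorem cv_pos (L : Lat ι) : 0 < cv L := by
  by_cases hL : L.FG
  · obtain ⟨b, h1, -, h3⟩ := exists_basis hL
    rw [h3]
    exact (gdet_pos_iff b).2 h1
  · have h : cv L = 1 := dif_neg hL
    rw [h]
    exact one_pos

theorem rk_bot : rk (⊥ : Lat ι) = 0 :=
  finrank_bot ℤ (ι → ℚ)

theorem cv_bot : cv (⊥ : Lat ι) = 1 := by
  have h := cv_span (κ := Fin 0) (ι := ι) (b := fun _ => 0) linearIndependent_empty_type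
  rw [Set.range_eq_empty, Submodule.span_empty] at h
  exact h.trans Matrix.det_isEmpty

theorem rk_ZZ : rk (ZZ ι) = Fintype.card ι := by
  rw [ZZ_eq_span]
  exact rk_span (Pi.linearIndependent_single_one ι ℚ)

theorem cv_ZZ : cv (ZZ ι) = 1 := by
  rw [ZZ_eq_span, cv_span (Pi.linearIndependent_single_one ι ℚ)]
  refine (congrArg Matrix.det (Matrix.ext fun i j => ?_)).trans Matrix.det_one
  rw [Matrix.of_apply, single_one_dotProduct, Matrix.one_apply]
  exact Pi.single_apply j 1 i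

theorem rk_eq_finrank {L : Lat ι} (hL : L.FG) : rk L = Module.finrank ℚ (qspan L) := by
  obtain ⟨b, h1, h2, -⟩ := exists_basis hL
  have e : qspan L = Submodule.span ℚ (Set.range b) :=
    (congrArg qspan h2.symm).trans (Submodule.span_span_of_tower ℤ ℚ _)
  rw [e, finrank_span_eq_card h1, Fintype.card_fin]

theorem rk_mono {D L : Lat ι} (h : D ≤ L) (hL : L.FG) : rk D ≤ rk L :=
  haveI : Module.Finite ℤ L := Module.Finite.iff_fg.mpr hL
  Submodule.finrank_mono h

theorem rk_le_card {L : Lat ι} (hL : L.FG) : rk L ≤ Fintype.card ι := by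
  obtain ⟨b, h1, -, -⟩ := exists_basis hL
  have h := h1.fintype_card_le_finrank
  rwa [Fintype.card_fin, Module.finrank_fintype_fun_eq_card] at h

theorem rk_eq_zero {L : Lat ι} (hL : L.FG) (h : rk L = 0) : L = ⊥ :=
  haveI : Module.Finite ℤ L := Module.Finite.iff_fg.mpr hL
  Submodule.finrank_eq_zero.1 h

theorem mem_qspan {L : Lat ι} {x : ι → ℚ} :
    x ∈ qspan L ↔ ∃ q : ℕ, 0 < q ∧ (q : ℚ) • x ∈ L := by
  have hn : ∀ (n : ℤ) {y : ι → ℚ}, y ∈ L → (n : ℚ) • y ∈ L := fun n y hy => by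
    rw [Int.cast_smul_eq_zsmul]
    exact L.smul_mem n hy
  constructor
  · intro hx
    induction hx using Submodule.span_induction with
    | mem y hy => exact ⟨1, one_pos, by simpa using hy⟩
    | zero => exact ⟨1, one_pos, by simp⟩
    | add y z _ _ hy hz =>
      obtain ⟨p, hp, hy⟩ := hy
      obtain ⟨q, hq, hz⟩ := hz
      refine ⟨p * q, Nat.mul_pos hp hq, ?_⟩
      have e : ((p * q : ℕ) : ℚ) • (y + z) = ((q : ℤ) : ℚ) • (p : ℚ) • y + ((p : ℤ) : ℚ) • (q : ℚ) • z := by
        rw [smul_smul, smul_smul, smul_add]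
        push_cast
        rw [mul_comm (q : ℚ) p]
      rw [e]
      exact L.add_mem (hn _ hy) (hn _ hz)
    | smul a y _ hy =>
      obtain ⟨p, hp, hy⟩ := hy
      refine ⟨a.den * p, Nat.mul_pos a.den_pos hp, ?_⟩
      have e : ((a.den * p : ℕ) : ℚ) • a • y = (a.num : ℚ) • (p : ℚ) • y := by
        rw [smul_smul, smul_smul, ← Rat.mul_den_eq_num a]
        push_cast
        congr 1
        ring
      rw [e]
      exact hn _ hy
  · rintro ⟨q, hq, hx⟩
    have h1 : (q : ℚ)⁻¹ • (q : ℚ) • x ∈ qspan L := Submodule.smul_mem _ _ (Submodule.subset_span hx)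
    rwa [smul_smul, inv_mul_cancel₀ (by exact_mod_cast hq.ne'), one_smul] at h1

end Crest.Agent.R152
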