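import Mathlib

/-!
# Row 152, module L: rational lattices (definitions)

A lattice is a finitely generated `ℤ`-submodule of `ι → ℚ`; `cv` is the SQUARE of the covolume
(Gram determinant of a basis), `rk` the rank.  Subspaces are handled through rational orthogonal
projection matrices.
-/

set_option autoImplicit false

open Matrix

noncomputable section

namespace Crest.Agent.R152

abbrev Lat (ι : Type) := Submodule ℤ (ι → ℚ)

variable {ι : Type} [Fintype ι] [DecidableEq ι]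

/-- Gram determinant of a family of vectors -/
def gdet {κ : Type} [Fintype κ] [DecidableEq κ] (b : κ → ι → ℚ) : ℚ :=
  (Matrix.of fun i j => b i ⬝ᵥ b j).det

/-- rank -/
def rk (L : Lat ι) : ℕ := Module.finrank ℤ L

open Classical in
/-- squared covolume -/
def cv (L : Lat ι) : ℚ :=
  if h : L.FG then
    haveI : Module.Finite ℤ L := Module.Finite.iff_fg.mpr h
    gdet fun i => ((Module.finBasis ℤ L i : L) : ι → ℚ)
  else 1

/-- the integer lattice -/
def ZZ (ι : Type) : Lat ι where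
  carrier := {x | ∀ i, ∃ m : ℤ, x i = m}
  add_mem' := by
    intro a b ha hb i
    obtain ⟨m, hm⟩ := ha i
    obtain ⟨k, hk⟩ := hb i
    exact ⟨m + k, by simp [hm, hk]⟩
  zero_mem' := fun i => ⟨0, by simp⟩
  smul_mem' := by
    intro c a ha i
    obtain ⟨m, hm⟩ := ha i
    exact ⟨c * m, by simp [hm]⟩

/-- image under a rational matrix -/
def mmap {κ : Type} (P : Matrix κ ι ℚ) (L : Lat ι) : Lat κ :=
  L.map (P.mulVecLin.restrictScalars ℤ)

/-- kernel of a rational matrix, as a `ℤ`-submodule -/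
def kerM {κ : Type} (P : Matrix κ ι ℚ) : Lat ι := LinearMap.ker (P.mulVecLin.restrictScalars ℤ)

/-- rational span -/
def qspan (L : Lat ι) : Submodule ℚ (ι → ℚ) := Submodule.span ℚ (L : Set (ι → ℚ))

/-- orthogonal projection matrix -/
def IsPrj (P : Matrix ι ι ℚ) : Prop := Pᵀ = P ∧ P * P = P

/-- every sublattice of rank `k` has squared covolume at least `m ^ k` -/
def Stable (m : ℝ) (L : Lat ι) : Prop := ∀ D : Lat ι, D ≤ L → m ^ rk D ≤ (cv D : ℝ)

/-- coordinate projection -/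
def mask (Z : Finset ι) : Matrix ι ι ℚ := diagonal fun i => if i ∈ Z then 1 else 0

/-- index of `L₁ ⊓ L₂` in `L₂` (`0` if infinite) -/
def idx (L₁ L₂ : Lat ι) : ℕ := L₁.toAddSubgroup.relIndex L₂.toAddSubgroup

/-! ### counting regular projections (module CT) -/

/-- `ℤ^n + P ℤ^n = P ℤ^n ⊕ (1-P) ℤ^n` -/
def MP (P : Matrix ι ι ℚ) : Lat ι := ZZ ι ⊔ mmap P (ZZ ι)

/-- `ℤ^n + Σ_{z ∈ Z} ℤ P e_z` -/
def MZ (P : Matrix ι ι ℚ) (Z : Finset ι) : Lat ι := ZZ ι ⊔ mmap (P * mask Z) (ZZ ι)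

/-- regular projections -/
def Reg (ω : ℝ) (n : ℕ) (P : Matrix (Fin n) (Fin n) ℚ) : Prop :=
  IsPrj P ∧ Stable ((n : ℝ) ^ (-(1 / 2 : ℝ))) (MP P) ∧ Real.exp (-(ω * n)) ≤ (cv (MP P) : ℝ)

/-- almost stability -/
def Om (b x : ℝ) (C : Lat ι) : Prop := ∀ D : Lat ι, D ≤ C → Real.exp (-x - b * rk D) ≤ (cv D : ℝ)

/-- the coordinates of vectors of `M` vanishing on `Z` have denominators at most `T` -/
def KerT (M : Lat ι) (Z : Finset ι) (T : ℕ) : Prop :=
  ∀ j, ∃ o : ℕ, 1 ≤ o ∧ o ≤ T ∧ ∀ w ∈ M, mask Z *ᵥ w = 0 → ∃ m : ℤ, (o : ℚ) * w j = m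

/-- coordinate `j` is a short linear functional on a small multiple of `D` -/
def Tame (M : Lat ι) (Z : Finset ι) (T : ℕ) (D : Lat ι) (j : ι) : Prop :=
  ∃ c : ℕ, 1 ≤ c ∧ c ≤ T ∧ ∃ h : ι → ℚ, h ⬝ᵥ h ≤ (T : ℚ) ^ 2 ∧
    ∀ d ∈ D, ∃ w ∈ M, mask Z *ᵥ w = (c : ℚ) • d ∧ w j = h ⬝ᵥ ((c : ℚ) • d)

end Crest.Agent.R152
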