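import Crest.Agent.R152.WGam

/-! # Row 152: duality: few short vectors -/

set_option autoImplicit false
set_option linter.unusedSectionVars false
set_option linter.unusedVariables false

open MeasureTheory Set Matrix Filter Topology

noncomputable section

namespace Crest.Agent.R152

variable {ι : Type} [Fintype ι] [DecidableEq ι]

theorem wdg_cov {C : Matrix ι ι ℝ} (hC : C.det ≠ 0) {f : (ι → ℝ) → ℝ} (hf : Continuous f) :
    ∫ y, f (C *ᵥ y) = |C.det|⁻¹ * ∫ x, f x := by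
  have h1 := Real.map_matrix_volume_pi_eq_smul_volume_pi hC
  have h2 : ∫ x, f x ∂(Measure.map (toLin' C) volume) = ∫ y, f (toLin' C y) :=
    integral_map (LinearMap.continuous_of_finiteDimensional _).measurable.aemeasurable
      hf.aestronglyMeasurable
  rw [h1, integral_smul_measure, ENNReal.toReal_ofReal (by positivity), smul_eq_mul] at h2
  simpa [abs_inv] using h2.symm

theorem wdg_qf_cont (T : Matrix ι ι ℝ) : Continuous (qf T) := by
  unfold qf dotProduct mulVec dotProduct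
  fun_prop

theorem wdg_std (w : ι → ℝ) :
    ∫ y : ι → ℝ, Real.exp (-(y ⬝ᵥ y)) * Real.cos (2 * Real.pi * (w ⬝ᵥ y)) =
      (∫ y : ι → ℝ, Real.exp (-(y ⬝ᵥ y))) * Real.exp (-(Real.pi ^ 2 * (w ⬝ᵥ w))) := by
  have hb : 0 < (1 : ℂ).re := by simp
  have e : ∀ (w v : ι → ℝ), Complex.exp (-1 * ∑ i, (v i : ℂ) ^ 2 +
      ∑ i, (2 * Real.pi * w i * Complex.I) * v i) =
      Complex.exp ((-(v ⬝ᵥ v) : ℝ) + (2 * Real.pi * (w ⬝ᵥ v) : ℝ) * Complex.I) := by
    intro w v
    congr 1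
    simp only [dotProduct]
    push_cast
    simp only [Finset.mul_sum, Finset.sum_mul, sq, neg_mul, one_mul, Finset.sum_neg_distrib]
    congr 1
    exact Finset.sum_congr rfl fun i _ => by ring
  have h0 := GaussianFourier.integral_cexp_neg_mul_sum_add hb
    (fun i => (2 * Real.pi * (0 : ι → ℝ) i * Complex.I : ℂ))
  have h1 := GaussianFourier.integral_cexp_neg_mul_sum_add hb
    (fun i => (2 * Real.pi * w i * Complex.I : ℂ))
  have hi := GaussianFourier.integrable_cexp_neg_mul_sum_add hb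
    (fun i => (2 * Real.pi * w i * Complex.I : ℂ))
  simp only [e] at h0 h1 hi
  have h2 : (∑ i, (2 * Real.pi * w i * Complex.I : ℂ) ^ 2) / (4 * 1) =
      ((-(Real.pi ^ 2 * (w ⬝ᵥ w)) : ℝ) : ℂ) := by
    simp only [dotProduct, mul_pow, Complex.I_sq]
    push_cast
    rw [Finset.mul_sum, Finset.sum_div, ← Finset.sum_neg_distrib]
    exact Finset.sum_congr rfl fun i _ => by ring
  simp only [zero_dotProduct, mul_zero, Complex.ofReal_zero, zero_mul, add_zero, Pi.zero_apply,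
    ← Complex.ofReal_exp, ne_eq, OfNat.ofNat_ne_zero, not_false_eq_true, zero_pow,
    Finset.sum_const_zero, zero_div, Complex.exp_zero, mul_one] at h0
  rw [h2, ← h0, ← Complex.ofReal_exp] at h1
  have h3 := congrArg Complex.re h1
  rw [← Complex.reCLM_apply, ← ContinuousLinearMap.integral_comp_comm _ hi] at h3
  simp only [Complex.reCLM_apply, Complex.exp_re, Complex.add_re, Complex.ofReal_re,
    Complex.mul_re, Complex.I_re, mul_zero, Complex.ofReal_im, Complex.I_im, mul_one, sub_self,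
    add_zero, Complex.add_im, Complex.mul_im, zero_add] at h3
  rw [h3]
  rw [integral_complex_ofReal]
  simp

/-- Fourier transform of a Gaussian -/
theorem gauss_cos {T : Matrix ι ι ℝ} (hT : T.PosDef) (z : ι → ℝ) :
    ∫ x : ι → ℝ, Real.exp (-qf T x) * Real.cos (2 * Real.pi * (z ⬝ᵥ x)) =
      (∫ x : ι → ℝ, Real.exp (-qf T x)) * Real.exp (-(Real.pi ^ 2 * qf T⁻¹ z)) := by
  obtain ⟨C, d, hC, h1, -⟩ := simdiag hT hT
  have hc1 : Continuous fun x : ι → ℝ => Real.exp (-qf T x) := by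
    have := wdg_qf_cont T
    fun_prop
  have hc2 : Continuous fun x : ι → ℝ =>
      Real.exp (-qf T x) * Real.cos (2 * Real.pi * (z ⬝ᵥ x)) := by
    refine hc1.mul ?_
    unfold dotProduct
    fun_prop
  have e1 := wdg_cov hC.ne_zero hc1
  have e2 := wdg_cov hC.ne_zero hc2
  have hq : ∀ y, qf T (C *ᵥ y) = y ⬝ᵥ y := by
    intro y
    rw [← qf_conj, h1, qf, one_mulVec]
  have hz : ∀ y, z ⬝ᵥ C *ᵥ y = (Cᵀ *ᵥ z) ⬝ᵥ y := by
    intro y
    rw [dotProduct_mulVec, mulVec_transpose]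
  have hi : T⁻¹ = C * Cᵀ := by
    refine Matrix.inv_eq_left_inv ?_
    rw [Matrix.mul_assoc]
    exact mul_eq_one_comm.1 h1
  have hq2 : qf T⁻¹ z = (Cᵀ *ᵥ z) ⬝ᵥ (Cᵀ *ᵥ z) := by
    rw [hi, qf, ← mulVec_mulVec, hz]
  simp only [hq, hz] at e1 e2
  rw [wdg_std, e1, mul_assoc] at e2
  rw [hq2]
  exact (mul_left_cancel₀ (inv_ne_zero (abs_ne_zero.2 hC.ne_zero)) e2).symm

theorem gauss_integrable {T : Matrix ι ι ℝ} (hT : T.PosDef) :
    Integrable fun x : ι → ℝ => Real.exp (-qf T x) := by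
  obtain ⟨c, hc, h⟩ := qf_coercive hT
  have hb : 0 < (c : ℂ).re := by simpa using hc
  have hi := (GaussianFourier.integrable_cexp_neg_mul_sum_add hb (fun _ : ι => 0)).norm
  have hc1 : Continuous fun x : ι → ℝ => Real.exp (-qf T x) := by
    have := wdg_qf_cont T
    fun_prop
  refine hi.mono' hc1.aestronglyMeasurable (Eventually.of_forall fun x => ?_)
  rw [Real.norm_eq_abs, abs_of_pos (Real.exp_pos _), Complex.norm_exp]
  refine Real.exp_le_exp.2 ?_
  have e : (-(c : ℂ) * ∑ i, (x i : ℂ) ^ 2 + ∑ i, 0 * (x i : ℂ)) = ((-(c * (x ⬝ᵥ x)) : ℝ) : ℂ) := by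
    simp [dotProduct, sq]
  rw [e, Complex.ofReal_re]
  linarith [h x]

theorem box_cos (z : ι → ℤ) :
    ∫ x in box ι, Real.cos (2 * Real.pi * (rv z ⬝ᵥ x)) = if z = 0 then 1 else 0 := by
  have h1 : ∀ k : ℤ, ∫ t in Ico (0 : ℝ) 1, Complex.exp ((k * (2 * Real.pi * Complex.I)) * t) =
      if k = 0 then 1 else 0 := by
    intro k
    split_ifs with hk
    · simp [hk]
    · have hne : (k * (2 * Real.pi * Complex.I) : ℂ) ≠ 0 :=
        mul_ne_zero (Int.cast_ne_zero.2 hk) Complex.two_pi_I_ne_zero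
      rw [integral_Ico_eq_integral_Ioc, ← intervalIntegral.integral_of_le zero_le_one,
        integral_exp_mul_complex hne]
      simp [Complex.exp_int_mul_two_pi_mul_I]
  have h2 : ∫ x in box ι, ∏ i, Complex.exp ((z i * (2 * Real.pi * Complex.I)) * x i) =
      if z = 0 then 1 else 0 := by
    rw [box, volume_pi, Measure.restrict_pi_pi,
      integral_fintype_prod_eq_prod
        (fun i (t : ℝ) => Complex.exp ((z i * (2 * Real.pi * Complex.I)) * t))]
    simp only [h1]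
    split_ifs with hz
    · simp [hz]
    · obtain ⟨i, hi⟩ := Function.ne_iff.1 hz
      exact Finset.prod_eq_zero (Finset.mem_univ i) (if_neg hi)
  have e : ∀ x : ι → ℝ, ∏ i, Complex.exp ((z i * (2 * Real.pi * Complex.I)) * x i) =
      Complex.exp ((2 * Real.pi * (rv z ⬝ᵥ x) : ℝ) * Complex.I) := by
    intro x
    rw [← Complex.exp_sum]
    congr 1
    simp only [dotProduct, rv]
    push_cast
    rw [Finset.mul_sum, Finset.sum_mul]
    exact Finset.sum_congr rfl fun i _ => by ring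
  simp only [e] at h2
  have hi : IntegrableOn
      (fun x : ι → ℝ => Complex.exp ((2 * Real.pi * (rv z ⬝ᵥ x) : ℝ) * Complex.I)) (box ι) := by
    have hc : Continuous
        fun x : ι → ℝ => Complex.exp ((2 * Real.pi * (rv z ⬝ᵥ x) : ℝ) * Complex.I) := by
      unfold dotProduct
      fun_prop
    refine (hc.continuousOn.integrableOn_compact
      (isCompact_univ_pi fun _ => isCompact_Icc (a := (0 : ℝ)) (b := 1))).mono_set ?_
    exact pi_mono fun _ _ => Ico_subset_Icc_self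
  have h3 := congrArg Complex.re h2
  rw [← Complex.reCLM_apply, ← ContinuousLinearMap.integral_comp_comm _ hi] at h3
  simp only [Complex.reCLM_apply, Complex.exp_ofReal_mul_I_re] at h3
  rw [h3]
  split_ifs <;> simp

theorem wd_par (T : Matrix ι ι ℝ) (x y : ι → ℝ) :
    qf T (x + y) + qf T (x - y) = 2 * qf T x + 2 * qf T y := by
  simp only [qf, Matrix.mulVec_add, Matrix.mulVec_sub, add_dotProduct, sub_dotProduct,
    dotProduct_add, dotProduct_sub]
  ring

theorem wd_nonneg {T : Matrix ι ι ℝ} (hT : T.PosSemidef) (x : ι → ℝ) : 0 ≤ qf T x := by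
  simpa [qf] using hT.dotProduct_mulVec_nonneg x

theorem wd_rv_sub (z z' : ι → ℤ) : rv (z - z') = rv z - rv z' := by
  funext i
  exact Int.cast_sub _ _

theorem wd_cos_per (m z : ι → ℤ) (x : ι → ℝ) :
    Real.cos (2 * Real.pi * (rv m ⬝ᵥ (x - rv z))) = Real.cos (2 * Real.pi * (rv m ⬝ᵥ x)) := by
  have e : rv m ⬝ᵥ rv z = ((∑ i, m i * z i : ℤ) : ℝ) := by
    push_cast
    rfl
  rw [dotProduct_sub, e, mul_sub, mul_comm (2 * Real.pi) ((∑ i, m i * z i : ℤ) : ℝ),
    Real.cos_sub_int_mul_two_pi]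

theorem wd_h_nonneg (X : Finset (ι → ℤ)) (w : ι → ℝ) :
    0 ≤ ∑ p ∈ X ×ˢ X, Real.cos (2 * Real.pi * (rv (p.1 - p.2) ⬝ᵥ w)) := by
  have e : ∑ p ∈ X ×ˢ X, Real.cos (2 * Real.pi * (rv (p.1 - p.2) ⬝ᵥ w)) =
      (∑ z ∈ X, Real.cos (2 * Real.pi * (rv z ⬝ᵥ w))) ^ 2 +
        (∑ z ∈ X, Real.sin (2 * Real.pi * (rv z ⬝ᵥ w))) ^ 2 := by
    rw [sq, sq, Finset.sum_mul_sum, Finset.sum_mul_sum, Finset.sum_product, ← Finset.sum_add_distrib]
    refine Finset.sum_congr rfl fun z _ => ?_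
    rw [← Finset.sum_add_distrib]
    refine Finset.sum_congr rfl fun z' _ => ?_
    rw [wd_rv_sub, sub_dotProduct, mul_sub, Real.cos_sub]
  rw [e]
  positivity

theorem wd_int {T : Matrix ι ι ℝ} (hT : T.PosDef) (m v : ι → ℝ) :
    Integrable fun w : ι → ℝ =>
      Real.exp (-qf T w) * Real.cos (2 * Real.pi * (m ⬝ᵥ (w + v))) := by
  refine (gauss_integrable hT).mul_bdd (c := 1) ?_ (Eventually.of_forall fun w => ?_)
  · refine Continuous.aestronglyMeasurable ?_
    unfold dotProduct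
    fun_prop
  · exact Real.abs_cos_le_one _

theorem wd_key {T : Matrix ι ι ℝ} (hT : T.PosDef) (X : Finset (ι → ℤ)) (v : ι → ℝ) :
    Real.exp (-qf T v) * ∑ p ∈ X ×ˢ X, ∫ w : ι → ℝ,
        Real.exp (-qf T w) * Real.cos (2 * Real.pi * (rv (p.1 - p.2) ⬝ᵥ w)) ≤
      ∑ p ∈ X ×ˢ X, (∫ w : ι → ℝ,
        Real.exp (-qf T w) * Real.cos (2 * Real.pi * (rv (p.1 - p.2) ⬝ᵥ w))) *
          Real.cos (2 * Real.pi * (rv (p.1 - p.2) ⬝ᵥ v)) := by
  obtain ⟨h, hh⟩ : ∃ h : (ι → ℝ) → ℝ,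
      h = fun w => ∑ p ∈ X ×ˢ X, Real.cos (2 * Real.pi * (rv (p.1 - p.2) ⬝ᵥ w)) := ⟨_, rfl⟩
  have h0 : ∀ w, 0 ≤ h w := fun w => by rw [hh]; exact wd_h_nonneg X w
  have i0 : ∀ m : ι → ℝ, Integrable fun w : ι → ℝ =>
      Real.exp (-qf T w) * Real.cos (2 * Real.pi * (m ⬝ᵥ w)) := fun m => by
    simpa only [add_zero] using wd_int hT m 0
  have i1 : ∀ a : ι → ℝ, Integrable fun w : ι → ℝ => Real.exp (-qf T w) * h (w + a) := by
    intro a
    simp only [hh, Finset.mul_sum]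
    exact integrable_finsetSum _ fun p _ => wd_int hT _ a
  have i2 : ∀ a : ι → ℝ, Integrable fun y : ι → ℝ => Real.exp (-qf T (y + a)) * h y := by
    intro a
    have := (i1 (-a)).comp_add_right a
    simpa only [add_neg_cancel_right] using this
  have e1 : ∀ a : ι → ℝ, ∫ y : ι → ℝ, Real.exp (-qf T (y + a)) * h y =
      ∫ w : ι → ℝ, Real.exp (-qf T w) * h (w + -a) := by
    intro a
    rw [← integral_add_right_eq_self (fun w : ι → ℝ => Real.exp (-qf T w) * h (w + -a)) a]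
    simp only [add_neg_cancel_right]
  have e2 : ∑ p ∈ X ×ˢ X, ∫ w : ι → ℝ,
      Real.exp (-qf T w) * Real.cos (2 * Real.pi * (rv (p.1 - p.2) ⬝ᵥ w)) =
      ∫ w : ι → ℝ, Real.exp (-qf T w) * h w := by
    rw [← integral_finsetSum _ fun p _ => i0 _]
    simp only [hh, Finset.mul_sum]
  have e3 : 2 * ∑ p ∈ X ×ˢ X, (∫ w : ι → ℝ,
      Real.exp (-qf T w) * Real.cos (2 * Real.pi * (rv (p.1 - p.2) ⬝ᵥ w))) *
        Real.cos (2 * Real.pi * (rv (p.1 - p.2) ⬝ᵥ v)) =
      ∫ y : ι → ℝ, (Real.exp (-qf T (y + v)) * h y + Real.exp (-qf T (y + -v)) * h y) := by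
    rw [integral_add (i2 v) (i2 (-v)), e1, e1, ← integral_add (i1 _) (i1 _)]
    simp only [← integral_mul_const]
    rw [← integral_finsetSum _ fun p _ => (i0 _).mul_const _, ← integral_const_mul]
    refine integral_congr_ae (Eventually.of_forall fun w => ?_)
    simp only [hh, neg_neg, Finset.mul_sum, ← Finset.sum_add_distrib]
    refine Finset.sum_congr rfl fun p _ => ?_
    rw [dotProduct_add, dotProduct_add, dotProduct_neg, mul_add, mul_add, mul_neg, Real.cos_add,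
      Real.cos_add, Real.cos_neg, Real.sin_neg]
    ring
  have i3 : Integrable fun w : ι → ℝ => Real.exp (-qf T w) * h w := by
    simpa only [add_zero] using i1 0
  have e4 : ∫ y : ι → ℝ, 2 * (Real.exp (-qf T v) * (Real.exp (-qf T y) * h y)) ≤
      ∫ y : ι → ℝ, (Real.exp (-qf T (y + v)) * h y + Real.exp (-qf T (y + -v)) * h y) := by
    refine integral_mono ((i3.const_mul _).const_mul _) ((i2 v).add (i2 (-v))) fun y => ?_
    have p1 := wd_par T y v
    rw [sub_eq_add_neg] at p1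
    obtain ⟨A, hA⟩ : ∃ A, A = Real.exp (-qf T (y + v) / 2) := ⟨_, rfl⟩
    obtain ⟨B, hB⟩ : ∃ B, B = Real.exp (-qf T (y + -v) / 2) := ⟨_, rfl⟩
    have a1 : Real.exp (-qf T (y + v)) = A * A := by
      rw [hA, ← Real.exp_add, add_halves]
    have a2 : Real.exp (-qf T (y + -v)) = B * B := by
      rw [hB, ← Real.exp_add, add_halves]
    have a3 : Real.exp (-qf T v) * Real.exp (-qf T y) = A * B := by
      rw [hA, hB, ← Real.exp_add, ← Real.exp_add]
      congr 1
      linarith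
    change 2 * (Real.exp (-qf T v) * (Real.exp (-qf T y) * h y)) ≤
      Real.exp (-qf T (y + v)) * h y + Real.exp (-qf T (y + -v)) * h y
    rw [← mul_assoc (Real.exp (-qf T v)), a1, a2, a3]
    nlinarith [mul_nonneg (sq_nonneg (A - B)) (h0 y)]
  rw [integral_const_mul, integral_const_mul, ← e3, ← e2] at e4
  linarith

/-- with `h = |Σ_{z ∈ X} e(z·x)|²`, `H(x) = ∫ g(w) (h(w-x)+h(w+x))/2 dw` satisfies
`exp(-dsq x) H(0) ≤ H(x)`, `∫_box H = |X| ĝ(0)` and `H(0) ≥ |X|² ĝ(0) exp(-4π²R/u)` -/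
theorem dual_count {S : Matrix ι ι ℝ} (hS : S.PosDef) {u R : ℝ} (hu : 0 < u) (X : Finset (ι → ℤ))
    (hX : ∀ z ∈ X, qf S (rv z) ≤ R) :
    (X.card : ℝ) * Gam (u • S⁻¹) ≤ Real.exp (4 * Real.pi ^ 2 * R / u) := by
  have hT : (u • S⁻¹).PosDef := hS.inv.smul hu
  have hTi : (u • S⁻¹)⁻¹ = u⁻¹ • S := by
    refine Matrix.inv_eq_left_inv ?_
    rw [Matrix.smul_mul, Matrix.mul_smul, smul_smul, inv_mul_cancel₀ hu.ne', one_smul,
      Matrix.mul_nonsing_inv _ hS.det_pos.ne'.isUnit]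
  obtain ⟨T, hTe⟩ : ∃ T : Matrix ι ι ℝ, T = u • S⁻¹ := ⟨_, rfl⟩
  rw [← hTe] at hT hTi ⊢
  obtain ⟨I, hI⟩ : ∃ I : ℝ, I = ∫ x : ι → ℝ, Real.exp (-qf T x) := ⟨_, rfl⟩
  have hI0 : 0 < I := by
    rw [hI]
    exact integral_exp_pos (gauss_integrable hT)
  obtain ⟨G, hG⟩ : ∃ G : (ι → ℤ) × (ι → ℤ) → ℝ, G = fun p => ∫ w : ι → ℝ,
      Real.exp (-qf T w) * Real.cos (2 * Real.pi * (rv (p.1 - p.2) ⬝ᵥ w)) := ⟨_, rfl⟩
  have hG' : ∀ p, G p = I * Real.exp (-(Real.pi ^ 2 * (u⁻¹ * qf S (rv (p.1 - p.2))))) := by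
    intro p
    rw [hG, hI, ← qf_smul, ← hTi]
    exact gauss_cos hT _
  have k1 : ∀ x, Real.exp (-dsq T x) * ∑ p ∈ X ×ˢ X, G p ≤
      ∑ p ∈ X ×ˢ X, G p * Real.cos (2 * Real.pi * (rv (p.1 - p.2) ⬝ᵥ x)) := by
    intro x
    obtain ⟨z, hz⟩ := dsq_attained hT x
    have := wd_key hT X (x - rv z)
    simp only [wd_cos_per] at this
    rw [hz, hG]
    exact this
  have ic : ∀ m : ι → ℝ, IntegrableOn (fun x : ι → ℝ => Real.cos (2 * Real.pi * (m ⬝ᵥ x)))
      (box ι) := by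
    intro m
    refine Measure.integrableOn_of_bounded (M := 1) (by rw [volume_box]; exact ENNReal.one_ne_top)
      (Continuous.aestronglyMeasurable ?_) (Eventually.of_forall fun w => Real.abs_cos_le_one _)
    unfold dotProduct
    fun_prop
  have k2 : ∫ x in box ι, ∑ p ∈ X ×ˢ X, G p * Real.cos (2 * Real.pi * (rv (p.1 - p.2) ⬝ᵥ x)) =
      X.card * I := by
    rw [integral_finsetSum _ fun p _ => (ic _).const_mul _]
    simp only [integral_const_mul, box_cos]
    rw [Finset.sum_product, ← nsmul_eq_mul, ← Finset.sum_const]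
    refine Finset.sum_congr rfl fun z hz => ?_
    rw [Finset.sum_eq_single_of_mem z hz]
    · have e0 : qf S (rv (z - z)) = 0 := by
        rw [wd_rv_sub, sub_self]
        simp [qf]
      rw [hG', if_pos (sub_self z), e0]
      simp
    · intro z' _ hne
      rw [if_neg (sub_ne_zero.2 hne.symm), mul_zero]
  have k3 : Gam T * ∑ p ∈ X ×ˢ X, G p ≤ X.card * I := by
    rw [← k2, Gam, ← integral_mul_const]
    exact integral_mono ((Gam_integrable hT.posSemidef).mul_const _)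
      (integrable_finsetSum _ fun p _ => (ic _).const_mul _) k1
  have k4 : (X.card : ℝ) * (X.card * (I * Real.exp (-(4 * Real.pi ^ 2 * R / u)))) ≤
      ∑ p ∈ X ×ˢ X, G p := by
    rw [← mul_assoc, ← Nat.cast_mul, ← Finset.card_product, ← nsmul_eq_mul]
    refine Finset.card_nsmul_le_sum _ _ _ fun p hp => ?_
    obtain ⟨h1, h2⟩ := Finset.mem_product.1 hp
    have q1 := wd_par S (rv p.1) (rv p.2)
    have q2 := wd_nonneg hS.posSemidef (rv p.1 + rv p.2)
    have q3 : qf S (rv (p.1 - p.2)) ≤ 4 * R := by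
      rw [wd_rv_sub]
      linarith [hX _ h1, hX _ h2]
    rw [hG']
    refine mul_le_mul_of_nonneg_left (Real.exp_le_exp.2 (neg_le_neg ?_)) hI0.le
    have q4 := mul_le_mul_of_nonneg_left (mul_le_mul_of_nonneg_left q3 (inv_pos.2 hu).le)
      (sq_nonneg Real.pi)
    refine q4.trans (le_of_eq ?_)
    ring
  have hGam : 0 ≤ Gam T := integral_nonneg fun x => (Real.exp_pos _).le
  rcases Nat.eq_zero_or_pos X.card with h0 | h0
  · rw [h0, Nat.cast_zero, zero_mul]
    exact (Real.exp_pos _).le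
  have hc : (0 : ℝ) < X.card * I := mul_pos (Nat.cast_pos.2 h0) hI0
  have k5 := (mul_le_mul_of_nonneg_left k4 hGam).trans k3
  have k6 : (X.card * I) * (X.card * Gam T * Real.exp (-(4 * Real.pi ^ 2 * R / u))) ≤
      (X.card * I) * 1 := by
    rw [mul_one]
    refine le_trans (le_of_eq ?_) k5
    ring
  have k7 := le_of_mul_le_mul_left k6 hc
  rw [Real.exp_neg, ← div_eq_mul_inv, div_le_one (Real.exp_pos _)] at k7
  exact k7

end Crest.Agent.R152
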