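import Crest.Agent.R152.WInd
import Crest.Agent.R152.WDual

/-! # Row 152: weak reverse Minkowski inequality for forms -/

set_option autoImplicit false
set_option linter.unusedSectionVars false
set_option linter.unusedVariables false

open MeasureTheory Set Matrix Filter Topology

noncomputable section

namespace Crest.Agent.R152

variable {ι : Type} [Fintype ι] [DecidableEq ι]

theorem wrm_form {β : ℝ} (hβ : 0 < β) : ∃ σ : ℝ, 0 < σ ∧
    ∀ (n : ℕ) (ι : Type) [Fintype ι] [DecidableEq ι], Fintype.card ι ≤ n →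
      ∀ S : Matrix ι ι ℝ, StableF S → ∀ X : Finset (ι → ℤ), (∀ z ∈ X, qf S (rv z) ≤ σ * n) →
        (X.card : ℝ) ≤ Real.exp (β * n) := by
  have hpi : 0 < Real.pi := Real.pi_pos
  have hu : 0 < (β / 4) ^ 2 := by positivity
  refine ⟨β * (β / 4) ^ 2 / (8 * Real.pi ^ 2), by positivity, ?_⟩
  intro n ι _ _ hn S hS X hX
  have h1 := dual_count hS.1 hu X hX
  have h2 := gam_lower hS hu
  rw [Real.sqrt_sq (by positivity)] at h2
  have e : 4 * Real.pi ^ 2 * (β * (β / 4) ^ 2 / (8 * Real.pi ^ 2) * n) / (β / 4) ^ 2 =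
      β * n / 2 := by
    field_simp
    ring
  rw [e] at h1
  have h3 : Real.exp (-(β * n / 2)) ≤ Gam ((β / 4) ^ 2 • S⁻¹) := by
    refine le_trans (Real.exp_le_exp.2 (neg_le_neg ?_)) h2
    have h4 : (Fintype.card ι : ℝ) ≤ n := by exact_mod_cast hn
    nlinarith
  have h5 := (mul_le_mul_of_nonneg_left h3 (Nat.cast_nonneg X.card)).trans h1
  rw [Real.exp_neg, ← div_eq_mul_inv, div_le_iff₀ (Real.exp_pos _), ← Real.exp_add,
    add_halves] at h5
  exact h5

end Crest.Agent.R152
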