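import Crest.Agent.R152.LQuo
import Crest.Agent.R152.WMain

/-! # Row 152: canonical sublattices and point counting -/

set_option autoImplicit false
set_option linter.unusedSectionVars false
set_option linter.unusedVariables false

open Matrix Filter Topology

noncomputable section

namespace Crest.Agent.R152

variable {ι : Type} [Fintype ι] [DecidableEq ι]

theorem exists_min_log {X : Type} (x₀ : X) (F G : X → ℕ) (hF : ∀ x, 1 ≤ F x) (N : ℕ)
    (hG : ∀ x, G x ≤ N) (w : ℕ → ℝ) :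
    ∃ x, ∀ y, Real.log (F x) + w (G x) ≤ Real.log (F y) + w (G y) := by
  classical
  let φ : ℕ → ℕ := fun g => sInf {f | ∃ x, G x = g ∧ F x = f}
  let S : Finset ℕ := (Finset.range (N + 1)).filter fun g => ∃ x, G x = g
  have hS : ∀ y, G y ∈ S := fun y =>
    Finset.mem_filter.mpr ⟨Finset.mem_range.mpr (Nat.lt_succ_of_le (hG y)), y, rfl⟩
  obtain ⟨g, hg, hmin⟩ := S.exists_min_image (fun g => Real.log (φ g) + w g) ⟨_, hS x₀⟩
  have hφ : ∀ g ∈ S, ∃ x, G x = g ∧ F x = φ g := by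
    intro g hg
    obtain ⟨x, hx⟩ := (Finset.mem_filter.mp hg).2
    exact Nat.sInf_mem (s := {f | ∃ x, G x = g ∧ F x = f}) ⟨F x, x, hx, rfl⟩
  obtain ⟨x, hxg, hxf⟩ := hφ g hg
  refine ⟨x, fun y => ?_⟩
  have h1 := hmin (G y) (hS y)
  obtain ⟨z, -, hzf⟩ := hφ (G y) (hS y)
  have h2 : φ (G y) ≤ F y := Nat.sInf_le ⟨y, rfl, rfl⟩
  have h3 : (0 : ℝ) < φ (G y) := by
    rw [← hzf]
    exact_mod_cast hF z
  have h4 : Real.log (φ (G y)) ≤ Real.log (F y) := Real.log_le_log h3 (by exact_mod_cast h2)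
  rw [hxg, hxf]
  linarith

theorem exists_minimiser {L D₀ : Lat ι} (hL : L.FG) (h₀ : D₀ ≤ L) {m : ℝ} (hm : 0 < m) :
    ∃ D : Lat ι, D₀ ≤ D ∧ D ≤ L ∧ ∀ D' : Lat ι, D₀ ≤ D' → D' ≤ L →
      (cv D : ℝ) * m ^ rk D' ≤ (cv D' : ℝ) * m ^ rk D := by
  obtain ⟨q, hq, hqL⟩ := exists_den hL
  have key : ∀ D : {D : Lat ι // D₀ ≤ D ∧ D ≤ L},
      ∃ f : ℕ, 1 ≤ f ∧ (q : ℚ) ^ (2 * rk D.1) * cv D.1 = f := fun D =>
    cv_den (fg_of_le D.2.2 hL) hq fun x hx => hqL x (D.2.2 hx)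
  choose F hF1 hF using key
  obtain ⟨D, hD⟩ := exists_min_log (X := {D : Lat ι // D₀ ≤ D ∧ D ≤ L}) ⟨D₀, le_rfl, h₀⟩ F
    (fun D => rk D.1) hF1 (Fintype.card ι) (fun D => rk_le_card (fg_of_le D.2.2 hL))
    (fun k => -(2 * k) * Real.log q - k * Real.log m)
  refine ⟨D.1, D.2.1, D.2.2, fun D' h1 h2 => ?_⟩
  have hq' : (0 : ℝ) < q := by exact_mod_cast hq
  have hlog : ∀ E : {D : Lat ι // D₀ ≤ D ∧ D ≤ L},
      Real.log (F E) = 2 * rk E.1 * Real.log q + Real.log (cv E.1) := by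
    intro E
    have h3 : ((F E : ℕ) : ℝ) = (q : ℝ) ^ (2 * rk E.1) * (cv E.1 : ℝ) := by
      exact_mod_cast (hF E).symm
    have h4 : (0 : ℝ) < (cv E.1 : ℝ) := by exact_mod_cast cv_pos E.1
    rw [h3, Real.log_mul (pow_pos hq' _).ne' h4.ne', Real.log_pow]
    push_cast
    ring
  have h5 := hD ⟨D', h1, h2⟩
  rw [hlog, hlog] at h5
  have p1 : (0 : ℝ) < (cv D.1 : ℝ) := by exact_mod_cast cv_pos D.1
  have p2 : (0 : ℝ) < (cv D' : ℝ) := by exact_mod_cast cv_pos D'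
  rw [← Real.log_le_log_iff (mul_pos p1 (pow_pos hm _)) (mul_pos p2 (pow_pos hm _)),
    Real.log_mul p1.ne' (pow_pos hm _).ne', Real.log_mul p2.ne' (pow_pos hm _).ne', Real.log_pow,
    Real.log_pow]
  dsimp only at h5
  linarith

/-- the quotient by a minimiser is stable -/
theorem hn {L D₀ : Lat ι} (hL : L.FG) (h₀ : D₀ ≤ L) {m : ℝ} (hm : 0 < m) :
    ∃ Q : Matrix ι ι ℚ, IsPrj Q ∧ D₀ ≤ L ⊓ kerM Q ∧
      (∀ x, Q *ᵥ x = 0 → x ∈ qspan (L ⊓ kerM Q)) ∧
      (cv (L ⊓ kerM Q) : ℝ) * m ^ rk D₀ ≤ (cv D₀ : ℝ) * m ^ rk (L ⊓ kerM Q) ∧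
      Stable m (mmap Q L) := by
  obtain ⟨D, hD0, hDL, hmin⟩ := exists_minimiser hL h₀ hm
  obtain ⟨Q, hQ, hker⟩ := exists_prj (qspan D)
  have hDE : D ≤ L ⊓ kerM Q := fun x hx =>
    ⟨hDL hx, mem_kerM.mpr ((hker x).mpr (Submodule.subset_span hx))⟩
  have hEfg : (L ⊓ kerM Q).FG := fg_of_le inf_le_left hL
  have hsp : qspan (L ⊓ kerM Q) = qspan D := by
    apply le_antisymm
    · exact Submodule.span_le.mpr fun x hx => (hker x).mp (mem_kerM.mp hx.2)
    · exact Submodule.span_mono hDE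
  have hrk : rk D = rk (L ⊓ kerM Q) := by
    rw [rk_eq_finrank hEfg, rk_eq_finrank (fg_of_le hDL hL), hsp]
  have hcv : (cv (L ⊓ kerM Q) : ℝ) ≤ cv D := by exact_mod_cast cv_le_of_le hDE hEfg hrk
  have hmin' : ∀ D' : Lat ι, D₀ ≤ D' → D' ≤ L →
      (cv (L ⊓ kerM Q) : ℝ) * m ^ rk D' ≤ (cv D' : ℝ) * m ^ rk (L ⊓ kerM Q) := by
    intro D' h1 h2
    rw [← hrk]
    exact (mul_le_mul_of_nonneg_right hcv (pow_pos hm _).le).trans (hmin D' h1 h2)
  have hk : ∀ x, Q *ᵥ x = 0 → x ∈ qspan (L ⊓ kerM Q) := fun x hx => by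
    rw [hsp]
    exact (hker x).mp hx
  refine ⟨Q, hQ, hD0.trans hDE, hk, hmin' D₀ le_rfl h₀, fun X hX => ?_⟩
  obtain ⟨Y, hY⟩ : ∃ Y : Lat ι, Y = L ⊓ X.comap (Q.mulVecLin.restrictScalars ℤ) := ⟨_, rfl⟩
  have hmem : ∀ x, x ∈ Y ↔ x ∈ L ∧ Q *ᵥ x ∈ X := by
    intro x
    rw [hY]
    simp
  have hYL : Y ≤ L := fun x hx => ((hmem x).mp hx).1
  have hYk : Y ⊓ kerM Q = L ⊓ kerM Q := by
    apply le_antisymm (inf_le_inf_right _ hYL)
    intro x hx
    refine ⟨(hmem x).mpr ⟨hx.1, ?_⟩, hx.2⟩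
    rw [mem_kerM.mp hx.2]
    exact X.zero_mem
  have hYm : mmap Q Y = X := by
    apply le_antisymm
    · intro y hy
      obtain ⟨x, hx, rfl⟩ := mem_mmap.mp hy
      exact ((hmem x).mp hx).2
    · intro y hy
      obtain ⟨x, hx, rfl⟩ := mem_mmap.mp (hX hy)
      exact mem_mmap.mpr ⟨x, (hmem x).mpr ⟨hx, hy⟩, rfl⟩
  have hYfg : Y.FG := fg_of_le hYL hL
  have h1 := cv_quot_eq hQ hYfg (by rw [hYk]; exact hk)
  have h2 := rk_quot Q hYfg
  rw [hYk, hYm] at h1 h2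
  have h3 := hmin' Y ((hD0.trans hDE).trans (hYk ▸ inf_le_left)) hYL
  rw [h1, h2, pow_add] at h3
  push_cast at h3
  have p1 : (0 : ℝ) < (cv (L ⊓ kerM Q) : ℝ) := by exact_mod_cast cv_pos _
  have p2 : 0 < (cv (L ⊓ kerM Q) : ℝ) * m ^ rk (L ⊓ kerM Q) := mul_pos p1 (pow_pos hm _)
  refine le_of_mul_le_mul_left ?_ p2
  linarith

theorem stable_mono {m : ℝ} {D L : Lat ι} (h : D ≤ L) (hL : Stable m L) : Stable m D := by
  intro E hE
  exact hL E (hE.trans h)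

theorem stable_ext {m : ℝ} (hm : 0 ≤ m) {Q : Matrix ι ι ℚ} (hQ : IsPrj Q) {L : Lat ι} (hL : L.FG)
    (h1 : Stable m (L ⊓ kerM Q)) (h2 : Stable m (mmap Q L)) : Stable m L := by
  intro D hD
  have hDfg := fg_of_le hD hL
  have a1 := h1 (D ⊓ kerM Q) (inf_le_inf_right _ hD)
  have a2 := h2 (mmap Q D) (Submodule.map_mono hD)
  have a3 : (cv (D ⊓ kerM Q) : ℝ) * cv (mmap Q D) ≤ cv D := by exact_mod_cast cv_quot_ge hQ hDfg
  rw [rk_quot Q hDfg, pow_add]
  exact (mul_le_mul a1 a2 (pow_nonneg hm _) ((pow_nonneg hm _).trans a1)).trans a3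

/-- real Gram matrix -/
def wrG {κ : Type} (b : κ → ι → ℚ) : Matrix κ κ ℝ := Matrix.of fun i j => ((b i ⬝ᵥ b j : ℚ) : ℝ)

theorem wrG_det {κ : Type} [Fintype κ] [DecidableEq κ] (b : κ → ι → ℚ) :
    (wrG b).det = (gdet b : ℝ) := by
  unfold gdet
  rw [show ((Matrix.of fun i j => b i ⬝ᵥ b j).det : ℝ) =
    Rat.castHom ℝ (Matrix.of fun i j => b i ⬝ᵥ b j).det from rfl, RingHom.map_det]
  rfl

theorem wrG_posDef {κ : Type} [Fintype κ] [DecidableEq κ] {b : κ → ι → ℚ}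
    (hb : LinearIndependent ℚ b) : (wrG b).PosDef := by
  have e : wrG b = (Matrix.of fun i j => (b j i : ℝ))ᴴ * (Matrix.of fun i j => (b j i : ℝ)) := by
    ext i j
    simp [wrG, Matrix.mul_apply, dotProduct]
  have h : (wrG b).PosSemidef := e ▸ posSemidef_conjTranspose_mul_self _
  rw [h.posDef_iff_det_ne_zero, wrG_det]
  exact_mod_cast ((gdet_pos_iff b).2 hb).ne'

theorem wrG_bil {κ : Type} [Fintype κ] [DecidableEq κ] (b : κ → ι → ℚ) (z w : κ → ℤ) :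
    rv z ⬝ᵥ wrG b *ᵥ rv w = (((∑ i, z i • b i) ⬝ᵥ (∑ i, w i • b i) : ℚ) : ℝ) := by
  rw [sum_dotProduct]
  simp only [dotProduct_sum, smul_dotProduct, dotProduct_smul]
  simp only [zsmul_eq_mul]
  push_cast
  refine Finset.sum_congr rfl fun i _ => ?_
  show (z i : ℝ) * ∑ j, ((b i ⬝ᵥ b j : ℚ) : ℝ) * (w j : ℝ) = _
  rw [Finset.mul_sum]
  refine Finset.sum_congr rfl fun j _ => ?_
  ring

theorem wrG_conj {κ μ : Type} [Fintype κ] [DecidableEq κ] (b : κ → ι → ℚ) (P : Matrix κ μ ℤ) :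
    (rm P)ᵀ * wrG b * rm P = wrG fun j => ∑ i, P i j • b i := by
  ext j k
  have := wrG_bil b (fun i => P i j) (fun i => P i k)
  rw [Matrix.mul_assoc]
  exact this

/-- weak reverse Minkowski for lattices (Gram matrix of a basis divided by `m`, `wrm_form`) -/
theorem wrm {β : ℝ} (hβ : 0 < β) : ∃ σ : ℝ, 0 < σ ∧
    ∀ (n : ℕ) (ι : Type) [Fintype ι] [DecidableEq ι] (L : Lat ι) (m : ℝ), 0 < m → L.FG → rk L ≤ n →
      Stable m L → ∀ X : Finset (ι → ℚ), (∀ x ∈ X, x ∈ L ∧ ((x ⬝ᵥ x : ℚ) : ℝ) ≤ σ * m * n) →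
        (X.card : ℝ) ≤ Real.exp (β * n) := by
  obtain ⟨σ, hσ, H⟩ := wrm_form hβ
  refine ⟨σ, hσ, fun n ι _ _ L m hm hL hn hst X hX => ?_⟩
  obtain ⟨b, b1, b2, -⟩ := exists_basis hL
  have b1' : LinearIndependent ℤ b := (LinearIndependent.iff_fractionRing ℤ ℚ).2 b1
  have bL : ∀ i, b i ∈ L := fun i => b2 ▸ Submodule.subset_span ⟨i, rfl⟩
  have hS : StableF (m⁻¹ • wrG b) := by
    refine ⟨(wrG_posDef b1).smul (inv_pos.2 hm), fun k P hP => ?_⟩
    have li : LinearIndependent ℚ fun j => ∑ i, P i j • b i := by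
      rw [← LinearIndependent.iff_fractionRing ℤ ℚ, Fintype.linearIndependent_iff]
      intro g hg
      have h0 : P *ᵥ g = 0 := by
        funext i
        refine Fintype.linearIndependent_iff.1 b1' (P *ᵥ g) ?_ i
        rw [← hg]
        simp only [Finset.smul_sum, mulVec, dotProduct, Finset.sum_smul, smul_smul]
        rw [Finset.sum_comm]
        simp only [mul_comm]
      exact congrFun (hP (h0.trans (mulVec_zero P).symm))
    have h1 := hst (Submodule.span ℤ (Set.range fun j => ∑ i, P i j • b i))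
      (Submodule.span_le.2 (by
        rintro _ ⟨j, rfl⟩
        exact L.sum_mem fun i _ => L.smul_mem _ (bL i)))
    rw [rk_span li, cv_span li] at h1
    rw [Matrix.mul_smul, Matrix.smul_mul, wrG_conj, det_smul, wrG_det, inv_pow,
      ← div_eq_inv_mul, le_div_iff₀ (by positivity), one_mul]
    exact h1
  have hz : ∀ x : ι → ℚ, ∃ z : Fin (rk L) → ℤ, x ∈ L → ∑ i, z i • b i = x := fun x => by
    by_cases hx : x ∈ L
    · obtain ⟨z, hz⟩ := (Submodule.mem_span_range_iff_exists_fun ℤ).1 (b2.ge hx)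
      exact ⟨z, fun _ => hz⟩
    · exact ⟨0, fun h => absurd h hx⟩
  choose z hz using hz
  have key := H n (Fin (rk L)) (by simpa using hn) _ hS (X.image z) (by
    intro y hy
    obtain ⟨x, hx, rfl⟩ := Finset.mem_image.1 hy
    rw [qf_smul]
    unfold qf
    rw [wrG_bil, hz x (hX x hx).1, ← div_eq_inv_mul, div_le_iff₀ hm]
    linarith [(hX x hx).2])
  rwa [Finset.card_image_of_injOn] at key
  intro x hx y hy h
  rw [← hz x (hX x hx).1, ← hz y (hX y hy).1, h]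

theorem cc_box (X : Finset (ι → ℚ)) : ∃ (s : ℕ) (a : Fin s → ι → ℚ),
    s = Module.finrank ℚ (Submodule.span ℚ (X : Set (ι → ℚ))) ∧ LinearIndependent ℚ a ∧
      (∀ i, a i ∈ X) ∧ ∀ x ∈ X, ∃ c : Fin s → ℚ, ∑ i, c i • a i = x ∧ ∀ i, |c i| ≤ 1 := by
  classical
  obtain ⟨a₀, h1, -, h3⟩ := Submodule.exists_fun_fin_finrank_span_eq ℚ (X : Set (ι → ℚ))
  obtain ⟨a, ha, hmax⟩ := Finset.exists_max_image (Fintype.piFinset fun _ => X) gdet
    ⟨a₀, Fintype.mem_piFinset.2 h1⟩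
  have aX := Fintype.mem_piFinset.1 ha
  have pos : 0 < gdet a := ((gdet_pos_iff a₀).2 h3).trans_le (hmax a₀ (Fintype.mem_piFinset.2 h1))
  have li := (gdet_pos_iff a).1 pos
  have sp : Submodule.span ℚ (Set.range a) = Submodule.span ℚ (X : Set (ι → ℚ)) := by
    refine Submodule.eq_of_le_of_finrank_eq (Submodule.span_mono ?_) ?_
    · rintro _ ⟨i, rfl⟩
      exact aX i
    · rw [finrank_span_eq_card li, Fintype.card_fin]
  refine ⟨_, a, rfl, li, aX, fun x hx => ?_⟩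
  obtain ⟨c, hc⟩ := (Submodule.mem_span_range_iff_exists_fun ℚ).1
    (sp.ge (Submodule.subset_span hx))
  refine ⟨c, hc, fun i => ?_⟩
  have e1 : (fun k => ∑ j, (updateRow 1 i c) k j • a j) = Function.update a i x := by
    funext k
    by_cases hk : k = i
    · subst hk
      simp [hc]
    · simp [hk, one_apply]
  have e2 : (updateRow (1 : Matrix _ _ ℚ) i c).det = c i := by
    have := det_updateRow_sum (1 : Matrix _ _ ℚ) i c
    rw [det_one, smul_eq_mul, mul_one] at this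
    rw [← this]
    congr 2
    funext k
    simp [one_apply]
  have h4 := hmax (Function.update a i x) (Fintype.mem_piFinset.2 fun k => by
    by_cases hk : k = i
    · subst hk
      simpa using hx
    · simpa [hk] using aX k)
  rw [← e1, gdet_comb, e2] at h4
  rw [← sq_le_one_iff_abs_le_one]
  exact (mul_le_iff_le_one_left pos).1 h4

/-- crude count: a maximal-volume independent subfamily of `X` has all of `X` in its unit box -/
theorem crude_count {D : Lat ι} (hD : D.FG) {μ R : ℝ} (hμ : 0 < μ) (hR : 1 ≤ R)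
    (hlow : ∀ D' : Lat ι, D' ≤ D → μ ≤ (cv D' : ℝ)) (X : Finset (ι → ℚ))
    (hX : ∀ x ∈ X, x ∈ D ∧ ((x ⬝ᵥ x : ℚ) : ℝ) ≤ R) :
    (X.card : ℝ) ^ 2 * μ ≤ (9 * R) ^ rk D := by
  classical
  obtain ⟨s, a, hs, li, aX, hc⟩ := cc_box X
  set D' : Lat ι := Submodule.span ℤ (X : Set (ι → ℚ)) with hD'
  set A : Lat ι := Submodule.span ℤ (Set.range a) with hA
  have d1 : D' ≤ D := Submodule.span_le.2 fun x hx => (hX x hx).1
  have d2 : A ≤ D' := Submodule.span_mono (by rintro _ ⟨i, rfl⟩; exact aX i)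
  have d3 : D'.FG := fg_of_le d1 hD
  have r1 : rk D' = s := by
    rw [rk_eq_finrank d3, hs, qspan, hD', Submodule.span_span_of_tower]
  have r2 : rk A = s := by rw [hA, rk_span li, Fintype.card_fin]
  obtain ⟨i0, i1⟩ := cv_index d2 d3 (r2.trans r1.symm)
  have hc' : ∀ x : X, ∃ c : Fin s → ℚ, ∑ i, c i • a i = x ∧ ∀ i, |c i| ≤ 1 := fun x => hc x x.2
  choose c hc1 hc2 using hc'
  have hfl : ∀ (x : X) i, ⌊c x i⌋ ∈ Finset.Icc (-1 : ℤ) 1 := fun x i => by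
    obtain ⟨l1, l2⟩ := abs_le.1 (hc2 x i)
    exact Finset.mem_Icc.2 ⟨Int.le_floor.2 (by simpa using l1),
      by simpa using Int.floor_le_floor l2⟩
  have fin : Finite (D'.toAddSubgroup ⧸ A.toAddSubgroup.addSubgroupOf D'.toAddSubgroup) :=
    Nat.finite_of_card_ne_zero i0
  have cnt : X.card ≤ idx A D' * 3 ^ s := by
    have := Nat.card_le_card_of_injective (α := X)
      (β := (D'.toAddSubgroup ⧸ A.toAddSubgroup.addSubgroupOf D'.toAddSubgroup) ×
        (Fin s → Finset.Icc (-1 : ℤ) 1))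
      (fun x => (QuotientAddGroup.mk ⟨x.1, Submodule.subset_span x.2⟩, fun i => ⟨_, hfl x i⟩)) ?_
    · rw [Nat.card_prod, Nat.card_fun, Nat.card_eq_finsetCard, Nat.card_eq_finsetCard,
        Nat.card_eq_fintype_card (α := Fin s), Fintype.card_fin] at this
      exact this
    · intro x y h
      obtain ⟨h1, h2⟩ := Prod.mk.inj h
      have h3 : -x.1 + y.1 ∈ A := QuotientAddGroup.eq.1 h1
      obtain ⟨z, hz⟩ := (Submodule.mem_span_range_iff_exists_fun ℤ).1 h3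
      have h4 : ∀ i, c x i + z i - c y i = 0 := by
        refine Fintype.linearIndependent_iff.1 li _ ?_
        simp only [sub_smul, add_smul, Finset.sum_sub_distrib, Finset.sum_add_distrib, hc1,
          Int.cast_smul_eq_zsmul, hz]
        abel
      have h5 : c x = c y := by
        funext i
        have e1 : ⌊c x i⌋ = ⌊c y i⌋ := congrArg Subtype.val (congrFun h2 i)
        have e2 : c y i = c x i + z i := by linarith [h4 i]
        rw [e2, Int.floor_add_intCast] at e1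
        have e3 : z i = 0 := by omega
        rw [e2, e3]
        simp
      exact Subtype.ext (by rw [← hc1 x, ← hc1 y, h5])
  have c1 : (cv A : ℝ) ≤ R ^ s := by
    have := gdet_le_prod a
    rw [hA, cv_span li]
    refine le_trans (by exact_mod_cast this : _ ≤ ∏ i, ((a i ⬝ᵥ a i : ℚ) : ℝ)) ?_
    refine (Finset.prod_le_prod (fun i _ => ?_) fun i _ => (hX _ (aX i)).2).trans (by simp)
    exact_mod_cast cg_self_nonneg (a i)
  have c2 : (idx A D' : ℝ) ^ 2 * μ ≤ R ^ s := by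
    refine le_trans ?_ c1
    rw [i1]
    push_cast
    exact mul_le_mul_of_nonneg_left (hlow D' d1) (by positivity)
  have c3 : (X.card : ℝ) ≤ idx A D' * 3 ^ s := by exact_mod_cast cnt
  calc (X.card : ℝ) ^ 2 * μ ≤ (idx A D' * 3 ^ s) ^ 2 * μ := by gcongr
    _ = 9 ^ s * ((idx A D' : ℝ) ^ 2 * μ) := by
        rw [mul_pow, ← pow_mul, mul_comm s 2, pow_mul]; norm_num; ring
    _ ≤ 9 ^ s * R ^ s := by gcongr
    _ = (9 * R) ^ s := (mul_pow _ _ _).symm
    _ ≤ _ := pow_le_pow_right₀ (by linarith) (r1 ▸ rk_mono d1 hD)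

end Crest.Agent.R152
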