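import Crest.Agent.R152.LDefs

/-! # Row 152: Plücker coordinates (auxiliary lemmas for `plucker`) -/

set_option autoImplicit false
set_option linter.unusedSectionVars false
set_option linter.unusedVariables false

open Matrix

noncomputable section

namespace Crest.Agent.R152

variable {ι : Type} [Fintype ι] [DecidableEq ι]

theorem plk_exists_minor {d : ℕ} (B : Matrix ι (Fin d) ℚ) (hB : LinearIndependent ℚ B.col) :
    ∃ f : Fin d → ι, (B.submatrix f id).det ≠ 0 := by
  obtain ⟨κ, a, ha, hsp, hli⟩ := exists_linearIndependent' ℚ B.row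
  have : Finite κ := Finite.of_injective a ha
  have : Fintype κ := Fintype.ofFinite κ
  have h1 : Module.finrank ℚ (Submodule.span ℚ (Set.range (B.row ∘ a))) = Fintype.card κ :=
    finrank_span_eq_card hli
  have h2 : B.rank = d := by
    rw [rank_eq_finrank_span_cols, finrank_span_eq_card hB, Fintype.card_fin]
  rw [hsp, ← rank_eq_finrank_span_row, h2] at h1
  let e : Fin d ≃ κ := (Fintype.equivFinOfCardEq h1.symm).symm
  refine ⟨a ∘ e, ?_⟩
  have h3 : LinearIndependent ℚ (B.submatrix (a ∘ e) id).row := hli.comp e e.injective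
  exact ((isUnit_iff_isUnit_det _).1 (linearIndependent_rows_iff_isUnit.1 h3)).ne_zero

theorem plk_main (U : Submodule ℚ (ι → ℚ)) : ∃ (I : Finset ι) (Φ : Matrix ι ι ℚ),
    I.card = Module.finrank ℚ U ∧ (∀ i j, |Φ i j| ≤ 1) ∧ Φ * mask I = Φ ∧ mask I * Φ = mask I ∧
      (∀ v, Φ *ᵥ v ∈ U) ∧ ∀ u ∈ U, Φ *ᵥ u = u := by
  set d := Module.finrank ℚ U with hd
  let b := Module.finBasis ℚ U
  let B : Matrix ι (Fin d) ℚ := Matrix.of fun i k => (b k : ι → ℚ) i
  have hB : LinearIndependent ℚ B.col := b.linearIndependent.map' U.subtype U.ker_subtype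
  have hBv : ∀ c : Fin d → ℚ, B *ᵥ c = ((∑ k, c k • b k : U) : ι → ℚ) := by
    intro c
    funext i
    simp [B, mulVec, dotProduct, Finset.sum_apply, mul_comm]
  obtain ⟨f₀, hf₀⟩ := plk_exists_minor B hB
  obtain ⟨f, -, hf⟩ := Finset.exists_max_image (Finset.univ : Finset (Fin d → ι))
    (fun f => |(B.submatrix f id).det|) ⟨f₀, Finset.mem_univ _⟩
  set A := B.submatrix f id with hA
  have hpos : 0 < |A.det| := (abs_pos.2 hf₀).trans_le (hf f₀ (Finset.mem_univ _))
  have hdet : A.det ≠ 0 := abs_pos.1 hpos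
  have hu : IsUnit A.det := isUnit_iff_ne_zero.2 hdet
  have hinj : Function.Injective f := by
    intro k l hkl
    by_contra hne
    exact hdet (det_zero_of_row_eq hne (by funext j; simp [hA, hkl]))
  let E : Matrix (Fin d) ι ℚ := (1 : Matrix ι ι ℚ).submatrix f id
  have hEB : E * B = A := by
    ext k l
    simp [E, hA, mul_apply, one_apply]
  have hEE : E * Eᵀ = 1 := by
    ext k l
    simp [E, mul_apply, one_apply, hinj.eq_iff, eq_comm]
  have hmask : mask (Finset.univ.image f) = Eᵀ * E := by
    ext i j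
    simp only [mask, E, mul_apply, transpose_apply, submatrix_apply, id, one_apply, diagonal_apply]
    by_cases hi : i ∈ Finset.univ.image f
    · obtain ⟨k, -, rfl⟩ := Finset.mem_image.1 hi
      rw [Finset.sum_eq_single k]
      · simp
      · intro l _ hl
        simp [hinj.eq_iff, hl]
      · simp
    · rw [if_neg hi, ite_self, Finset.sum_eq_zero]
      intro k _
      rw [if_neg fun h => hi (Finset.mem_image.2 ⟨k, Finset.mem_univ _, h⟩), zero_mul]
  have hC : ∀ i k, |(B * A⁻¹) i k| ≤ 1 := by
    intro i k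
    have h1 : ∑ l, (B * A⁻¹) i l • A l = B i := by
      have h2 : B * A⁻¹ * A = B := by rw [Matrix.mul_assoc, nonsing_inv_mul _ hu, Matrix.mul_one]
      funext j
      have h3 := congrFun (congrFun h2 i) j
      rw [mul_apply] at h3
      simpa [Finset.sum_apply] using h3
    have h2 := det_updateRow_sum A k ((B * A⁻¹) i)
    have h3 : A.updateRow k (B i) = B.submatrix (Function.update f k i) id := by
      ext l j
      by_cases hl : l = k
      · subst hl; simp
      · simp [updateRow_ne hl, Function.update_of_ne hl, hA]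
    rw [h1, h3, smul_eq_mul] at h2
    have h4 := hf (Function.update f k i) (Finset.mem_univ _)
    rw [h2, abs_mul] at h4
    exact le_of_mul_le_mul_right (by rwa [one_mul]) hpos
  refine ⟨Finset.univ.image f, B * A⁻¹ * E, ?_, ?_, ?_, ?_, ?_, ?_⟩
  · rw [Finset.card_image_of_injective _ hinj, Finset.card_univ, Fintype.card_fin]
  · intro i j
    rw [mul_apply]
    simp only [E, submatrix_apply, id, one_apply]
    by_cases hj : j ∈ Finset.univ.image f
    · obtain ⟨k, -, rfl⟩ := Finset.mem_image.1 hj
      rw [Finset.sum_eq_single k]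
      · simpa using hC i k
      · intro l _ hl
        simp [hinj.eq_iff, hl]
      · simp
    · rw [Finset.sum_eq_zero]
      · simp
      intro k _
      rw [if_neg fun h => hj (Finset.mem_image.2 ⟨k, Finset.mem_univ _, h⟩), mul_zero]
  · rw [hmask, Matrix.mul_assoc, ← Matrix.mul_assoc E, hEE, Matrix.one_mul]
  · rw [hmask, Matrix.mul_assoc Eᵀ, ← Matrix.mul_assoc E, ← Matrix.mul_assoc E, hEB,
      mul_nonsing_inv _ hu, Matrix.one_mul]
  · intro v
    rw [Matrix.mul_assoc, ← mulVec_mulVec, hBv]
    exact Subtype.property _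
  · intro u hu'
    have h1 : u = B *ᵥ (b.repr ⟨u, hu'⟩) := by
      rw [hBv, b.sum_repr]
    rw [h1, mulVec_mulVec, Matrix.mul_assoc, hEB, Matrix.mul_assoc, nonsing_inv_mul _ hu,
      Matrix.mul_one]

end Crest.Agent.R152
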