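import Crest.Agent.R152.LBas
import Crest.Agent.R152.LPrjAux75

/-! # Row 152: projections and Plücker coordinates -/

set_option autoImplicit false
set_option linter.unusedSectionVars false
set_option linter.unusedVariables false

open Matrix Filter Topology

noncomputable section

namespace Crest.Agent.R152

variable {ι : Type} [Fintype ι] [DecidableEq ι]

theorem exists_prj (U : Submodule ℚ (ι → ℚ)) :
    ∃ Q : Matrix ι ι ℚ, IsPrj Q ∧ ∀ x, Q *ᵥ x = 0 ↔ x ∈ U := by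
  let b := Module.finBasis ℚ U
  let B : Matrix ι (Fin (Module.finrank ℚ U)) ℚ := Matrix.of fun i j => (b j : ι → ℚ) i
  have li : LinearIndependent ℚ fun j => (b j : ι → ℚ) :=
    b.linearIndependent.map' U.subtype U.ker_subtype
  have hG : IsUnit (Bᵀ * B).det := ((gdet_pos_iff _).2 li).ne'.isUnit
  have hB : ∀ c, B *ᵥ c = ∑ j, c j • (b j : ι → ℚ) := fun c => by
    funext i
    simp [B, mulVec, dotProduct, Finset.sum_apply, mul_comm]
  have e1 : B * (Bᵀ * B)⁻¹ * Bᵀ * B = B := by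
    rw [Matrix.mul_assoc, Matrix.mul_assoc, nonsing_inv_mul _ hG, Matrix.mul_one]
  have e2 : B * (Bᵀ * B)⁻¹ * Bᵀ * (B * (Bᵀ * B)⁻¹ * Bᵀ) = B * (Bᵀ * B)⁻¹ * Bᵀ := by
    rw [← Matrix.mul_assoc, ← Matrix.mul_assoc, e1]
  refine ⟨1 - B * (Bᵀ * B)⁻¹ * Bᵀ, ⟨?_, ?_⟩, fun x => ?_⟩
  · rw [transpose_sub, transpose_one, transpose_mul, transpose_mul, transpose_transpose,
      transpose_nonsing_inv, transpose_mul, transpose_transpose, Matrix.mul_assoc]
  · rw [sub_mul, mul_sub, mul_sub, e2]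
    simp
  · rw [sub_mulVec, one_mulVec, sub_eq_zero]
    constructor
    · intro h
      rw [h, Matrix.mul_assoc, ← mulVec_mulVec, hB]
      exact U.sum_mem fun j _ => U.smul_mem _ (b j).2
    · intro h
      have : x = B *ᵥ fun j => b.repr ⟨x, h⟩ j := by
        rw [hB]
        have := congrArg U.subtype (b.sum_repr ⟨x, h⟩)
        simp only [map_sum, map_smul, Submodule.subtype_apply] at this
        exact this.symm
      rw [this, mulVec_mulVec, e1]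

theorem prj_one_sub {P : Matrix ι ι ℚ} (hP : IsPrj P) : IsPrj (1 - P) := by
  refine ⟨by rw [transpose_sub, transpose_one, hP.1], ?_⟩
  rw [sub_mul, mul_sub, mul_sub, hP.2]
  simp

theorem prj_dot {P : Matrix ι ι ℚ} (hP : IsPrj P) (x y : ι → ℚ) :
    (P *ᵥ x) ⬝ᵥ y = x ⬝ᵥ (P *ᵥ y) := by
  rw [dotProduct_mulVec, ← mulVec_transpose, hP.1]

theorem prj_idem {P : Matrix ι ι ℚ} (hP : IsPrj P) (x : ι → ℚ) : P *ᵥ (P *ᵥ x) = P *ᵥ x := by
  rw [mulVec_mulVec, hP.2]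

theorem prj_pyth {P : Matrix ι ι ℚ} (hP : IsPrj P) (x : ι → ℚ) :
    x ⬝ᵥ x = (P *ᵥ x) ⬝ᵥ (P *ᵥ x) + ((1 - P) *ᵥ x) ⬝ᵥ ((1 - P) *ᵥ x) := by
  rw [prj_dot hP, prj_idem hP, prj_dot (prj_one_sub hP), prj_idem (prj_one_sub hP), sub_mulVec,
    one_mulVec, dotProduct_sub]
  ring

theorem prj_dot_le {P : Matrix ι ι ℚ} (hP : IsPrj P) (x : ι → ℚ) :
    (P *ᵥ x) ⬝ᵥ (P *ᵥ x) ≤ x ⬝ᵥ x := by
  have h : 0 ≤ ((1 - P) *ᵥ x) ⬝ᵥ ((1 - P) *ᵥ x) :=
    Finset.sum_nonneg fun i _ => mul_self_nonneg _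
  linarith [prj_pyth hP x]

theorem prj_trace {P : Matrix ι ι ℚ} (hP : IsPrj P) : P.trace = P.rank := by
  have h : LinearMap.IsProj (LinearMap.range (toLin' P)) (toLin' P) :=
    ⟨fun x => ⟨x, rfl⟩, by
      rintro _ ⟨x, rfl⟩
      exact prj_idem hP x⟩
  rw [← trace_toLin'_eq, h.trace]
  rfl

theorem prj_rank_add {P : Matrix ι ι ℚ} (hP : IsPrj P) :
    P.rank + (1 - P).rank = Fintype.card ι := by
  have h : ((P.rank + (1 - P).rank : ℕ) : ℚ) = Fintype.card ι := by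
    rw [Nat.cast_add, ← prj_trace hP, ← prj_trace (prj_one_sub hP), trace_sub, trace_one]
    ring
  exact_mod_cast h

theorem mask_prj (Z : Finset ι) : IsPrj (mask Z) := by
  refine ⟨diagonal_transpose _, ?_⟩
  unfold mask
  rw [diagonal_mul_diagonal]
  congr 1
  funext i
  by_cases h : i ∈ Z <;> simp [h]

theorem mask_apply (Z : Finset ι) (x : ι → ℚ) (i : ι) :
    (mask Z *ᵥ x) i = if i ∈ Z then x i else 0 := by
  unfold mask
  rw [mulVec_diagonal]
  by_cases h : i ∈ Z <;> simp [h]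

theorem prj_mask_span (Z : Finset ι) : mmap (mask Z) (ZZ ι) =
    Submodule.span ℤ (Set.range fun i : Z => (Pi.single (i : ι) 1 : ι → ℚ)) := by
  have h : ∀ i, mask Z *ᵥ (Pi.single i 1 : ι → ℚ) = if i ∈ Z then Pi.single i 1 else 0 := by
    intro i
    funext j
    rw [mask_apply]
    by_cases hj : j = i
    · subst hj
      by_cases h : j ∈ Z <;> simp [h]
    · by_cases h : i ∈ Z <;> simp [h, hj]
  rw [ZZ_eq_span, mmap, Submodule.map_span]
  refine le_antisymm (Submodule.span_le.2 ?_) (Submodule.span_mono ?_)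
  · rintro _ ⟨_, ⟨i, rfl⟩, rfl⟩
    show mask Z *ᵥ (Pi.single i 1 : ι → ℚ) ∈ _
    rw [h]
    split_ifs with hi
    · exact Submodule.subset_span ⟨⟨i, hi⟩, rfl⟩
    · exact Submodule.zero_mem _
  · rintro _ ⟨i, rfl⟩
    refine ⟨_, ⟨i, rfl⟩, ?_⟩
    show mask Z *ᵥ (Pi.single (i : ι) 1 : ι → ℚ) = _
    rw [h, if_pos i.2]

theorem prj_mask_gdet (Z : Finset ι) : gdet (fun i : Z => (Pi.single (i : ι) 1 : ι → ℚ)) = 1 := by
  unfold gdet
  have : (Matrix.of fun i j : Z =>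
      (Pi.single (i : ι) 1 : ι → ℚ) ⬝ᵥ (Pi.single (j : ι) 1 : ι → ℚ)) = 1 := by
    ext i j
    rw [of_apply, single_dotProduct, one_mul, one_apply, Pi.single_apply]
    simp only [Subtype.ext_iff]
  rw [this, det_one]

theorem prj_mask_li (Z : Finset ι) :
    LinearIndependent ℚ fun i : Z => (Pi.single (i : ι) 1 : ι → ℚ) :=
  (gdet_pos_iff _).1 (by rw [prj_mask_gdet]; exact one_pos)

theorem rk_mask_ZZ (Z : Finset ι) : rk (mmap (mask Z) (ZZ ι)) = Z.card := by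
  rw [prj_mask_span, rk_span (prj_mask_li Z), Fintype.card_coe]

theorem cv_mask_ZZ (Z : Finset ι) : cv (mmap (mask Z) (ZZ ι)) = 1 := by
  rw [prj_mask_span, cv_span (prj_mask_li Z), prj_mask_gdet]

/-- information set with maximal Plücker coordinate (Cramer's rule) -/
theorem plucker (U : Submodule ℚ (ι → ℚ)) : ∃ (I : Finset ι) (Φ : Matrix ι ι ℚ),
    I.card = Module.finrank ℚ U ∧ (∀ i j, |Φ i j| ≤ 1) ∧ Φ * mask I = Φ ∧ mask I * Φ = mask I ∧
      (∀ v, Φ *ᵥ v ∈ U) ∧ ∀ u ∈ U, Φ *ᵥ u = u :=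
  plk_main U

end Crest.Agent.R152
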