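import Crest.Agent.R152.LIdx
import Crest.Agent.R152.LPrj

/-! # Row 152: Hadamard's inequality and linear images of lattices -/

set_option autoImplicit false
set_option linter.unusedSectionVars false
set_option linter.unusedVariables false

open Matrix Filter Topology

noncomputable section

namespace Crest.Agent.R152

variable {ι : Type} [Fintype ι] [DecidableEq ι]

variable {κ : Type} [Fintype κ] [DecidableEq κ]

theorem had_det_option (M : Matrix (Option κ) (Option κ) ℚ) (hM : ∀ i, M (some i) none = 0) :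
    M.det = (M.submatrix some some).det * M none none := by
  rw [← det_submatrix_equiv_self (Equiv.optionEquivSumPUnit.{0, 0} κ).symm M]
  have e : M.submatrix (Equiv.optionEquivSumPUnit.{0, 0} κ).symm
      (Equiv.optionEquivSumPUnit.{0, 0} κ).symm =
      fromBlocks (M.submatrix some some) 0 (of fun _ j => M none (some j))
        (of fun _ _ => M none none) := by
    ext (i | i) (j | j) <;> simp [hM]
  rw [e, det_fromBlocks_zero₁₂]
  simp

theorem gdet_option {b : κ → ι → ℚ} {Q : Matrix ι ι ℚ} (hQ : IsPrj Q)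
    (hk : ∀ x, Q *ᵥ x = 0 ↔ x ∈ Submodule.span ℚ (Set.range b)) (x : ι → ℚ) :
    gdet (fun o : Option κ => o.elim x b) = gdet b * ((Q *ᵥ x) ⬝ᵥ (Q *ᵥ x)) := by
  have hb : ∀ j, Q *ᵥ b j = 0 := fun j =>
    (hk _).2 (Submodule.subset_span (Set.mem_range_self j))
  have hx : x - Q *ᵥ x ∈ Submodule.span ℚ (Set.range b) := by
    rw [← hk, mulVec_sub, prj_idem hQ, sub_self]
  obtain ⟨c, hc⟩ := (Submodule.mem_span_range_iff_exists_fun ℚ).1 hx
  let C : Matrix (Option κ) (Option κ) ℚ := of fun o o' =>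
    o.elim (o'.elim 1 c) fun i => o'.elim 0 fun j => if i = j then 1 else 0
  have hC : C.det = 1 := by
    rw [had_det_option C (fun i => rfl)]
    have e : C.submatrix some some = 1 := by
      ext i j
      simp [C, one_apply]
    rw [e, det_one, one_mul]
    rfl
  have e : (fun o : Option κ => o.elim x b) =
      fun o => ∑ o', C o o' • (fun o : Option κ => o.elim (Q *ᵥ x) b) o' := by
    funext o
    rw [Fintype.sum_option]
    cases o with
    | none =>
      simp only [C, of_apply, Option.elim_none, Option.elim_some, one_smul, hc]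
      abel
    | some i =>
      simp [C]
  rw [e, gdet_comb, hC, one_pow, one_mul, gdet, had_det_option]
  · rfl
  · intro i
    show b i ⬝ᵥ (Q *ᵥ x) = 0
    rw [← prj_dot hQ, hb, zero_dotProduct]

theorem had_dot_nonneg (x : ι → ℚ) : 0 ≤ x ⬝ᵥ x :=
  Finset.sum_nonneg fun i _ => mul_self_nonneg (x i)

theorem had_fin (n : ℕ) (b : Fin n → ι → ℚ) : gdet b ≤ ∏ i, b i ⬝ᵥ b i := by
  induction n with
  | zero => simp [gdet]
  | succ n ih =>
    obtain ⟨Q, hQ, hk⟩ := exists_prj (Submodule.span ℚ (Set.range fun i : Fin n => b i.succ))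
    have h := gdet_option hQ hk (b 0)
    have e : (fun o : Option (Fin n) => o.elim (b 0) fun i => b i.succ) =
        b ∘ (finSuccEquiv n).symm := by
      funext o
      cases o <;> simp
    rw [e, gdet_equiv] at h
    rw [h, Fin.prod_univ_succ, mul_comm]
    exact mul_le_mul (prj_dot_le hQ _) (ih _) (gdet_nonneg _) (had_dot_nonneg _)

theorem gdet_le_prod (b : κ → ι → ℚ) : gdet b ≤ ∏ i, b i ⬝ᵥ b i := by
  have h := had_fin _ (b ∘ (Fintype.equivFin κ).symm)
  rw [gdet_equiv] at h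
  refine h.trans (le_of_eq ?_)
  exact Equiv.prod_comp (Fintype.equivFin κ).symm fun i => b i ⬝ᵥ b i

theorem exists_orth_basis (U : Submodule ℚ (ι → ℚ)) :
    ∃ b : Fin (Module.finrank ℚ U) → ι → ℚ, LinearIndependent ℚ b ∧
      Submodule.span ℚ (Set.range b) = U ∧ ∀ i j, i ≠ j → b i ⬝ᵥ b j = 0 := by
  let B : LinearMap.BilinForm ℚ U :=
    LinearMap.mk₂ ℚ (fun x y => (x : ι → ℚ) ⬝ᵥ (y : ι → ℚ))
      (fun x y z => by simp [add_dotProduct]) (fun c x y => by simp [smul_dotProduct])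
      (fun x y z => by simp [dotProduct_add]) (fun c x y => by simp [dotProduct_smul])
  have hB : LinearMap.IsSymm B := ⟨fun x y => by simp [B, dotProduct_comm]⟩
  have : Invertible (2 : ℚ) := invertibleOfNonzero two_ne_zero
  obtain ⟨v, hv⟩ := LinearMap.BilinForm.exists_orthogonal_basis hB
  refine ⟨fun i => (v i : ι → ℚ), ?_, ?_, fun i j hij => hv hij⟩
  · exact v.linearIndependent.map' U.subtype (Submodule.ker_subtype U)
  · have e : Set.range (fun i => (v i : ι → ℚ)) = U.subtype '' Set.range v := by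
      rw [← Set.range_comp]
      rfl
    rw [e, Submodule.span_image, v.span_eq, Submodule.map_top, Submodule.range_subtype]

theorem had_orth {b : κ → ι → ℚ} (h : ∀ i j, i ≠ j → b i ⬝ᵥ b j = 0) :
    gdet b = ∏ i, b i ⬝ᵥ b i := by
  rw [gdet, ← det_diagonal]
  congr 1
  ext i j
  by_cases hij : i = j
  · subst hij
    simp
  · simp [hij, h i j hij]

/-- Gram determinants are monotone (pass to an orthogonal basis of the span, `gdet_comb`,
`gdet_le_prod`) -/
theorem gdet_mono {μ : Type} [Fintype μ] [DecidableEq μ] (b : κ → ι → ℚ) (b' : κ → μ → ℚ) {c : ℚ}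
    (hc : 0 ≤ c)
    (h : ∀ z : κ → ℚ, (∑ i, z i • b' i) ⬝ᵥ (∑ i, z i • b' i) ≤
      c * ((∑ i, z i • b i) ⬝ᵥ (∑ i, z i • b i))) :
    gdet b' ≤ c ^ Fintype.card κ * gdet b := by
  by_cases hb : LinearIndependent ℚ b
  · obtain ⟨v, hv, hsp, ho⟩ := exists_orth_basis (Submodule.span ℚ (Set.range b))
    let e : κ ≃ Fin (Module.finrank ℚ (Submodule.span ℚ (Set.range b))) :=
      Fintype.equivFinOfCardEq (finrank_span_eq_card hb).symm
    have hm : ∀ i, ∃ z : κ → ℚ, ∑ j, z j • b j = v (e i) := fun i =>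
      (Submodule.mem_span_range_iff_exists_fun ℚ).1
        (hsp.le (Submodule.subset_span (Set.mem_range_self (e i))))
    choose C hC using hm
    have h1 := gdet_comb (of C) b
    have h2 := gdet_comb (of C) b'
    simp only [of_apply] at h1 h2
    have hpos : 0 < gdet fun i => ∑ j, C i j • b j := by
      simp only [hC]
      exact (gdet_pos_iff _).2 (hv.comp e e.injective)
    have hd : 0 < (of C).det ^ 2 := by
      rw [h1] at hpos
      exact pos_of_mul_pos_left hpos (gdet_nonneg b)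
    have h3 : (gdet fun i => ∑ j, C i j • b j) =
        ∏ i, (∑ j, C i j • b j) ⬝ᵥ (∑ j, C i j • b j) := by
      refine had_orth fun i j hij => ?_
      rw [hC, hC]
      exact ho _ _ fun h => hij (e.injective h)
    have h4 : (gdet fun i => ∑ j, C i j • b' j) ≤
        c ^ Fintype.card κ * gdet fun i => ∑ j, C i j • b j := by
      refine (gdet_le_prod _).trans ?_
      rw [h3, ← Finset.card_univ, ← Finset.prod_const, ← Finset.prod_mul_distrib]
      exact Finset.prod_le_prod (fun i _ => had_dot_nonneg _) fun i _ => h (C i)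
    rw [h1, h2, mul_left_comm] at h4
    exact le_of_mul_le_mul_left h4 hd
  · have hb' : ¬ LinearIndependent ℚ b' := by
      rw [Fintype.not_linearIndependent_iff] at hb ⊢
      obtain ⟨z, hz, hne⟩ := hb
      refine ⟨z, ?_, hne⟩
      have := h z
      rw [hz, zero_dotProduct, mul_zero] at this
      exact dotProduct_self_eq_zero.1 (le_antisymm this (had_dot_nonneg _))
    rw [← gdet_pos_iff, not_lt] at hb'
    exact hb'.trans (mul_nonneg (pow_nonneg hc _) (gdet_nonneg b))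

theorem had_qspan_span (s : Set (ι → ℚ)) : qspan (Submodule.span ℤ s) = Submodule.span ℚ s :=
  Submodule.span_span_of_tower ℤ ℚ s

theorem had_le_qspan {L : Lat ι} {x : ι → ℚ} (hx : x ∈ L) : x ∈ qspan L :=
  Submodule.subset_span hx

/-- a basis of `L` whose image is a basis of the image lattice -/
theorem had_image (P : Matrix κ ι ℚ) {L : Lat ι} (hL : L.FG)
    (hi : ∀ x ∈ L, P *ᵥ x = 0 → x = 0) : ∃ b : Fin (rk L) → ι → ℚ,
      (∀ i, b i ∈ L) ∧ qspan L = Submodule.span ℚ (Set.range b) ∧ cv L = gdet b ∧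
      rk (mmap P L) = rk L ∧ cv (mmap P L) = gdet fun i => P *ᵥ b i := by
  obtain ⟨b, hb, hsp, hcv⟩ := exists_basis hL
  have hq : qspan L = Submodule.span ℚ (Set.range b) := by
    rw [← had_qspan_span, hsp]
  have hli : LinearIndependent ℚ fun i => P *ᵥ b i := by
    refine hb.map (f := P.mulVecLin) ?_
    rw [Submodule.disjoint_def]
    intro x hx hx0
    rw [← hq] at hx
    obtain ⟨q, hq0, hqx⟩ := mem_qspan.mp hx
    have h0 : P *ᵥ x = 0 := hx0
    have h1 := hi _ hqx (by rw [mulVec_smul, h0, smul_zero])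
    exact (smul_eq_zero.mp h1).resolve_left (by exact_mod_cast hq0.ne')
  have hm : mmap P L = Submodule.span ℤ (Set.range fun i => P *ᵥ b i) := by
    have h := Submodule.map_span (P.mulVecLin.restrictScalars ℤ) (Set.range b)
    rw [hsp, ← Set.range_comp] at h
    exact h
  refine ⟨b, fun i => ?_, hq, hcv, ?_, ?_⟩
  · have h : b i ∈ Submodule.span ℤ (Set.range b) := Submodule.subset_span ⟨i, rfl⟩
    rwa [hsp] at h
  · rw [hm, rk_span hli, Fintype.card_fin]
  · rw [hm, cv_span hli]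

theorem rk_mmap_of_inj (P : Matrix κ ι ℚ) {L : Lat ι} (hL : L.FG)
    (hi : ∀ x ∈ L, P *ᵥ x = 0 → x = 0) : rk (mmap P L) = rk L := by
  obtain ⟨b, -, -, -, h, -⟩ := had_image P hL hi
  exact h

theorem cv_mmap_le (P : Matrix κ ι ℚ) {L : Lat ι} (hL : L.FG) (hi : ∀ x ∈ L, P *ᵥ x = 0 → x = 0)
    {c : ℚ} (hc : 0 ≤ c) (h : ∀ x ∈ qspan L, (P *ᵥ x) ⬝ᵥ (P *ᵥ x) ≤ c * (x ⬝ᵥ x)) :
    cv (mmap P L) ≤ c ^ rk L * cv L := by
  obtain ⟨b, hbL, hq, hcv, -, hcv'⟩ := had_image P hL hi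
  have h1 := gdet_mono b (fun i => P *ᵥ b i) hc fun z => by
    have e : ∑ i, z i • P *ᵥ b i = P *ᵥ ∑ i, z i • b i := by
      rw [mulVec_sum]
      exact Finset.sum_congr rfl fun i _ => (mulVec_smul _ _ _).symm
    rw [e]
    exact h _ (Submodule.sum_mem _ fun i _ => Submodule.smul_mem _ _ (had_le_qspan (hbL i)))
  rw [Fintype.card_fin] at h1
  rw [hcv', hcv]
  exact h1

theorem cv_mmap_iso (P : Matrix κ ι ℚ) {L : Lat ι} (hL : L.FG) {c : ℚ} (hc : 0 < c)
    (h : ∀ x ∈ qspan L, (P *ᵥ x) ⬝ᵥ (P *ᵥ x) = c * (x ⬝ᵥ x)) :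
    rk (mmap P L) = rk L ∧ cv (mmap P L) = c ^ rk L * cv L := by
  have hi : ∀ x ∈ L, P *ᵥ x = 0 → x = 0 := by
    intro x hx h0
    have h1 := h x (had_le_qspan hx)
    rw [h0, zero_dotProduct] at h1
    exact dotProduct_self_eq_zero.mp ((mul_eq_zero.mp h1.symm).resolve_left hc.ne')
  obtain ⟨b, hbL, hq, hcv, hrk, hcv'⟩ := had_image P hL hi
  refine ⟨hrk, ?_⟩
  have hp : ∀ i j, (P *ᵥ b i) ⬝ᵥ (P *ᵥ b j) = c * (b i ⬝ᵥ b j) := by
    intro i j
    have h1 := h _ (had_le_qspan (hbL i))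
    have h2 := h _ (had_le_qspan (hbL j))
    have h3 := h _ (had_le_qspan (L.add_mem (hbL i) (hbL j)))
    rw [mulVec_add] at h3
    simp only [add_dotProduct, dotProduct_add] at h3
    rw [dotProduct_comm (P *ᵥ b j) (P *ᵥ b i), dotProduct_comm (b j) (b i), h1, h2] at h3
    linarith
  have hG : (Matrix.of fun i j => (P *ᵥ b i) ⬝ᵥ (P *ᵥ b j)) =
      c • Matrix.of fun i j => b i ⬝ᵥ b j := by
    ext i j
    simp [hp]
  rw [hcv', hcv]
  unfold gdet
  rw [hG, det_smul, Fintype.card_fin]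

theorem cv_le_pow {L : Lat ι} (hL : L.FG) {μ : Type} (s : μ → ι → ℚ) (hs : ∀ i, s i ∈ L)
    (hsp : qspan L ≤ Submodule.span ℚ (Set.range s)) {R : ℚ} (hR : ∀ i, s i ⬝ᵥ s i ≤ R) :
    cv L ≤ R ^ rk L := by
  obtain ⟨f, hf, hfs, hli⟩ := Submodule.exists_fun_fin_finrank_span_eq ℚ (Set.range s)
  have hq : Submodule.span ℚ (Set.range s) = qspan L := by
    refine le_antisymm (Submodule.span_le.mpr ?_) hsp
    rintro _ ⟨i, rfl⟩
    exact had_le_qspan (hs i)
  have hr : Module.finrank ℚ (Submodule.span ℚ (Set.range s)) = rk L := by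
    rw [hq, rk_eq_finrank hL]
  have hle : Submodule.span ℤ (Set.range f) ≤ L := by
    refine Submodule.span_le.mpr ?_
    rintro _ ⟨i, rfl⟩
    obtain ⟨j, hj⟩ := hf i
    rw [← hj]
    exact hs j
  have h1 := cv_le_of_le hle hL (by rw [rk_span hli, Fintype.card_fin, hr])
  rw [cv_span hli] at h1
  refine h1.trans ((gdet_le_prod f).trans ?_)
  calc ∏ i, f i ⬝ᵥ f i ≤ ∏ _i : Fin (Module.finrank ℚ (Submodule.span ℚ (Set.range s))), R := by
        refine Finset.prod_le_prod (fun i _ => ?_) fun i _ => ?_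
        · exact Finset.sum_nonneg fun j _ => mul_self_nonneg _
        · obtain ⟨j, hj⟩ := hf i
          rw [← hj]
          exact hR j
    _ = R ^ rk L := by rw [Finset.prod_const, Finset.card_univ, Fintype.card_fin, hr]

theorem cg_amgm {r : ℕ} (t : Fin r → ℚ) (ht : ∀ i, 0 ≤ t i) {S : ℚ} (hS : ∑ i, t i ≤ S) :
    ∏ i, (1 + t i) ≤ (1 + S / (r : ℚ)) ^ r := by
  rcases Nat.eq_zero_or_pos r with rfl | hr
  · simp
  have r0 : (0 : ℝ) < r := by exact_mod_cast hr
  have S0 : (0 : ℝ) ≤ S := by exact_mod_cast (Finset.sum_nonneg fun i _ => ht i).trans hS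
  have hS' : ∑ i, (t i : ℝ) ≤ S := by exact_mod_cast hS
  have ht' : ∀ i, (0 : ℝ) ≤ t i := fun i => by exact_mod_cast ht i
  have key : ∏ i, (1 + (t i : ℝ)) ≤ (1 + (S : ℝ) / r) ^ r := by
    set m : ℝ := 1 + (S : ℝ) / r with hm
    have m0 : 0 < m := by positivity
    have h1 : ∏ i, (1 + (t i : ℝ)) ≤ ∏ i, m * Real.exp ((1 + (t i : ℝ)) / m - 1) := by
      refine Finset.prod_le_prod (fun i _ => by linarith [ht' i]) fun i _ => ?_
      have := Real.add_one_le_exp ((1 + (t i : ℝ)) / m - 1)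
      rw [sub_add_cancel, div_le_iff₀ m0] at this
      linarith
    rw [Finset.prod_mul_distrib, Finset.prod_const, Finset.card_univ, Fintype.card_fin,
      ← Real.exp_sum] at h1
    refine h1.trans (mul_le_of_le_one_right (by positivity) (Real.exp_le_one_iff.2 ?_))
    rw [Finset.sum_sub_distrib, ← Finset.sum_div, Finset.sum_add_distrib]
    simp only [Finset.sum_const, Finset.card_univ, Fintype.card_fin, nsmul_eq_mul, mul_one]
    rw [sub_nonpos, div_le_iff₀ m0, hm, mul_add, mul_div_cancel₀ _ r0.ne']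
    linarith
  exact_mod_cast key

theorem cg_self_nonneg (x : ι → ℚ) : 0 ≤ x ⬝ᵥ x :=
  Finset.sum_nonneg fun i _ => mul_self_nonneg (x i)

theorem cg_bessel (a : κ → ι → ℚ) (ha : ∀ i j, i ≠ j → a i ⬝ᵥ a j = 0) (h0 : ∀ i, a i ⬝ᵥ a i ≠ 0)
    (h : ι → ℚ) : ∑ i, (h ⬝ᵥ a i) ^ 2 / (a i ⬝ᵥ a i) ≤ h ⬝ᵥ h := by
  set p : ι → ℚ := ∑ i, ((h ⬝ᵥ a i) / (a i ⬝ᵥ a i)) • a i with hp
  have e1 : ∀ y : ι → ℚ, y ⬝ᵥ p = ∑ i, ((h ⬝ᵥ a i) / (a i ⬝ᵥ a i)) * (y ⬝ᵥ a i) := fun y => by
    rw [hp, dotProduct_sum]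
    simp only [dotProduct_smul, smul_eq_mul]
  have e2 : ∀ j, p ⬝ᵥ a j = h ⬝ᵥ a j := fun j => by
    rw [dotProduct_comm, e1, Finset.sum_eq_single j (fun i _ hi => by rw [ha j i hi.symm, mul_zero])
      (by simp), div_mul_cancel₀ _ (h0 j)]
  have e3 : p ⬝ᵥ p = h ⬝ᵥ p := by
    rw [e1, e1]
    simp only [e2]
  have e4 : h ⬝ᵥ p = ∑ i, (h ⬝ᵥ a i) ^ 2 / (a i ⬝ᵥ a i) := by
    rw [e1]
    exact Finset.sum_congr rfl fun i _ => by ring
  have := cg_self_nonneg (h - p)
  rw [sub_dotProduct, dotProduct_sub, dotProduct_sub, dotProduct_comm p h, e3, e4] at this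
  linarith

/-- graph of a map with orthogonal values: orthogonal basis, Hadamard, Bessel, AM-GM -/
theorem cv_graph_le {L : Lat ι} (hL : L.FG) (H : Matrix ι ι ℚ)
    (hH : ∀ x ∈ qspan L, x ⬝ᵥ (H *ᵥ x) = 0) :
    rk (mmap (1 + H) L) = rk L ∧
      cv (mmap (1 + H) L) ≤ (1 + (∑ i, ∑ j, H i j ^ 2) / (rk L : ℚ)) ^ rk L * cv L := by
  have pyth : ∀ x ∈ qspan L, ((1 + H) *ᵥ x) ⬝ᵥ ((1 + H) *ᵥ x) = x ⬝ᵥ x + (H *ᵥ x) ⬝ᵥ (H *ᵥ x) := by
    intro x hx
    rw [add_mulVec, one_mulVec, add_dotProduct, dotProduct_add, dotProduct_add,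
      dotProduct_comm (H *ᵥ x) x, hH x hx]
    ring
  have inj : ∀ x ∈ qspan L, (1 + H) *ᵥ x = 0 → x = 0 := by
    intro x hx h
    have h1 := pyth x hx
    rw [h, dotProduct_zero] at h1
    exact dotProduct_self_eq_zero.1
      (le_antisymm (by linarith [cg_self_nonneg (H *ᵥ x)]) (cg_self_nonneg x))
  refine ⟨rk_mmap_of_inj _ hL fun x hx => inj x (Submodule.subset_span hx), ?_⟩
  obtain ⟨b, b1, b2, b3⟩ := exists_basis hL
  have hoa := exists_orth_basis (qspan L)
  rw [← rk_eq_finrank hL] at hoa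
  obtain ⟨a, a1, a2, a3⟩ := hoa
  have bL : ∀ i, b i ∈ qspan L := fun i =>
    Submodule.subset_span (show b i ∈ L from b2 ▸ Submodule.subset_span ⟨i, rfl⟩)
  have aL : ∀ i, a i ∈ qspan L := fun i => a2 ▸ Submodule.subset_span ⟨i, rfl⟩
  have hC : ∀ i, ∃ c : Fin (rk L) → ℚ, ∑ j, c j • a j = b i := fun i =>
    (Submodule.mem_span_range_iff_exists_fun ℚ).1 (a2 ▸ bL i)
  choose C hC using hC
  have li : LinearIndependent ℚ fun i => (1 + H) *ᵥ b i := by
    rw [Fintype.linearIndependent_iff] at b1 ⊢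
    intro g hg
    refine b1 g (inj _ (Submodule.sum_mem _ fun i _ => Submodule.smul_mem _ _ (bL i)) ?_)
    rw [mulVec_sum]
    simpa only [mulVec_smul] using hg
  have em : mmap (1 + H) L = Submodule.span ℤ (Set.range fun i => (1 + H) *ᵥ b i) := by
    conv_lhs => rw [← b2]
    unfold mmap
    rw [Submodule.map_span, ← Set.range_comp]
    rfl
  have g1 : gdet b = (Matrix.of C).det ^ 2 * gdet a := by
    rw [← gdet_comb]
    congr 1
    funext i
    exact (hC i).symm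
  have g2 : gdet (fun i => (1 + H) *ᵥ b i) =
      (Matrix.of C).det ^ 2 * gdet fun i => (1 + H) *ᵥ a i := by
    rw [← gdet_comb]
    congr 1
    funext i
    rw [← hC i, mulVec_sum]
    simp only [mulVec_smul, of_apply]
  have a0 : ∀ i, a i ⬝ᵥ a i ≠ 0 := fun i h => a1.ne_zero i (dotProduct_self_eq_zero.1 h)
  have g3 : gdet a = ∏ i, a i ⬝ᵥ a i := by
    unfold gdet
    rw [← det_diagonal]
    congr 1
    ext i j
    by_cases hij : i = j
    · subst hij; simp
    · simp [hij, a3 i j hij]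
  have g4 : ∑ i, (H *ᵥ a i) ⬝ᵥ (H *ᵥ a i) / (a i ⬝ᵥ a i) ≤ ∑ i, ∑ j, H i j ^ 2 := by
    have e : ∀ i, (H *ᵥ a i) ⬝ᵥ (H *ᵥ a i) / (a i ⬝ᵥ a i) =
        ∑ k, (H k ⬝ᵥ a i) ^ 2 / (a i ⬝ᵥ a i) := fun i => by
      rw [← Finset.sum_div]
      congr 1
      exact Finset.sum_congr rfl fun k _ => (pow_two _).symm
    simp only [e]
    rw [Finset.sum_comm]
    refine Finset.sum_le_sum fun k _ => (cg_bessel a a3 a0 (H k)).trans (le_of_eq ?_)
    exact Finset.sum_congr rfl fun j _ => (pow_two _).symm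
  have g5 := cg_amgm _ (fun i => div_nonneg (cg_self_nonneg (H *ᵥ a i)) (cg_self_nonneg (a i))) g4
  have g6 : ∏ i, ((1 + H) *ᵥ a i) ⬝ᵥ ((1 + H) *ᵥ a i) =
      (∏ i, (1 + (H *ᵥ a i) ⬝ᵥ (H *ᵥ a i) / (a i ⬝ᵥ a i))) * ∏ i, a i ⬝ᵥ a i := by
    rw [← Finset.prod_mul_distrib]
    refine Finset.prod_congr rfl fun i _ => ?_
    rw [pyth _ (aL i), add_mul, one_mul, div_mul_cancel₀ _ (a0 i)]
  have g7 := gdet_le_prod fun i => (1 + H) *ᵥ a i
  have p0 : 0 ≤ ∏ i, a i ⬝ᵥ a i := Finset.prod_nonneg fun i _ => cg_self_nonneg _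
  rw [em, cv_span li, g2, b3, g1, g3, mul_left_comm]
  refine mul_le_mul_of_nonneg_left (g7.trans ?_) (sq_nonneg _)
  rw [g6]
  exact mul_le_mul_of_nonneg_right g5 p0

/-- graph of one linear functional (matrix determinant lemma) -/
theorem cv_graph_one {X : Lat ι} (hX : X.FG) {γ e : ι → ℚ} (hγ : γ ∈ qspan X)
    (he : ∀ x ∈ X, e ⬝ᵥ x = 0) (he1 : e ⬝ᵥ e = 1) :
    cv (mmap (1 + vecMulVec e γ) X) = (1 + γ ⬝ᵥ γ) * cv X := by
  have hP : ∀ x, (1 + vecMulVec e γ) *ᵥ x = x + (γ ⬝ᵥ x) • e := by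
    intro x
    rw [add_mulVec, one_mulVec, vecMulVec_mulVec, op_smul_eq_smul]
  have hi : ∀ x ∈ X, (1 + vecMulVec e γ) *ᵥ x = 0 → x = 0 := by
    intro x hx h0
    have h1 := congrArg (fun y => y ⬝ᵥ x) h0
    simp only [hP, add_dotProduct, smul_dotProduct, he x hx, smul_zero, add_zero,
      zero_dotProduct] at h1
    exact dotProduct_self_eq_zero.mp h1
  obtain ⟨b, hbL, hq, hcv, -, hcv'⟩ := had_image _ hX hi
  rw [hq] at hγ
  obtain ⟨c, hc⟩ := (Submodule.mem_span_range_iff_exists_fun ℚ).mp hγ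
  have hv : (Matrix.of fun i j => b i ⬝ᵥ b j) *ᵥ c = fun i => γ ⬝ᵥ b i := by
    funext i
    rw [← hc, sum_dotProduct]
    simp only [mulVec, smul_dotProduct, smul_eq_mul]
    rw [dotProduct]
    exact Finset.sum_congr rfl fun j _ => by
      rw [Matrix.of_apply, dotProduct_comm (b i), mul_comm]
  have hvc : (fun i => γ ⬝ᵥ b i) ⬝ᵥ c = γ ⬝ᵥ γ := by
    conv_rhs => rw [← hc]
    conv_rhs => enter [1]; rw [hc]
    rw [dotProduct_sum, dotProduct]
    exact Finset.sum_congr rfl fun j _ => by rw [dotProduct_smul, smul_eq_mul, mul_comm]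
  have hG : (Matrix.of fun i j =>
      ((1 + vecMulVec e γ) *ᵥ b i) ⬝ᵥ ((1 + vecMulVec e γ) *ᵥ b j)) =
      (Matrix.of fun i j => b i ⬝ᵥ b j) * (1 + vecMulVec c fun i => γ ⬝ᵥ b i) := by
    rw [Matrix.mul_add, Matrix.mul_one, mul_vecMulVec, hv]
    ext i j
    have h1 : b i ⬝ᵥ e = 0 := by rw [dotProduct_comm]; exact he _ (hbL i)
    simp only [hP, Matrix.of_apply, Matrix.add_apply, vecMulVec_apply, add_dotProduct,
      dotProduct_add, smul_dotProduct, dotProduct_smul, he _ (hbL j), h1, he1, smul_eq_mul]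
    ring
  rw [hcv', hcv]
  unfold gdet
  rw [hG, det_mul, vecMulVec_eq Unit, det_one_add_replicateCol_mul_replicateRow, hvc, mul_comm]

end Crest.Agent.R152
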