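import Crest.Agent.R152.LBas

/-! # Row 152: auxiliary facts for overlattices and integral pairings -/

set_option autoImplicit false
set_option linter.unusedSectionVars false
set_option linter.unusedVariables false

open Matrix Filter Topology

noncomputable section

namespace Crest.Agent.R152

variable {ι : Type} [Fintype ι] [DecidableEq ι]

theorem li2_pair {κ : Type} [Fintype κ] [DecidableEq κ] {b c : κ → ι → ℚ}
    (hb : LinearIndependent ℚ b) (hc : LinearIndependent ℚ c)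
    (hs : ∀ i, c i ∈ Submodule.span ℚ (Set.range b)) (hp : ∀ i j, ∃ m : ℤ, b i ⬝ᵥ c j = m) :
    1 ≤ gdet b * gdet c := by
  have h1 : ∀ i, ∃ z : κ → ℚ, ∑ j, z j • b j = c i := fun i =>
    (Submodule.mem_span_range_iff_exists_fun ℚ).1 (hs i)
  choose C hC using h1
  choose M hM using hp
  have hc' : gdet c = (Matrix.of C).det ^ 2 * gdet b := by
    rw [← gdet_comb (Matrix.of C) b]
    congr 1
    funext i
    exact (hC i).symm
  have hm : ((Matrix.of M).map (Int.cast : ℤ → ℚ)) =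
      (Matrix.of fun i j => b i ⬝ᵥ b j) * (Matrix.of C)ᵀ := by
    ext i j
    simp only [Matrix.map_apply, Matrix.of_apply, Matrix.mul_apply, Matrix.transpose_apply]
    rw [← hM i j, ← hC j, dotProduct_sum]
    refine Finset.sum_congr rfl fun k _ => ?_
    rw [dotProduct_smul, smul_eq_mul, mul_comm]
  have hd : (((Matrix.of M).det : ℤ) : ℚ) = gdet b * (Matrix.of C).det := by
    have : (((Matrix.of M).det : ℤ) : ℚ) = ((Matrix.of M).map (Int.cast : ℤ → ℚ)).det :=
      (Int.castRingHom ℚ).map_det (Matrix.of M)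
    rw [this, hm, Matrix.det_mul, Matrix.det_transpose]
    rfl
  have he : gdet b * gdet c = (((Matrix.of M).det : ℤ) : ℚ) ^ 2 := by
    rw [hd, hc']; ring
  have hpos : 0 < gdet b * gdet c := mul_pos ((gdet_pos_iff b).2 hb) ((gdet_pos_iff c).2 hc)
  rw [he] at hpos ⊢
  have h0 : (0 : ℤ) < (Matrix.of M).det ^ 2 := by exact_mod_cast hpos
  have h1 : (1 : ℤ) ≤ (Matrix.of M).det ^ 2 := h0
  exact_mod_cast h1

/-- Cauchy's theorem for an overlattice -/
theorem li2_cauchy {L C : Lat ι} {p : ℕ} (hp : p.Prime) (h0 : idx L C ≠ 0) (hd : p ∣ idx L C) :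
    ∃ w ∈ C, w ∉ L ∧ (p : ℤ) • w ∈ L := by
  have : Fact p.Prime := ⟨hp⟩
  have hc : Nat.card (C.toAddSubgroup ⧸ L.toAddSubgroup.addSubgroupOf C.toAddSubgroup) = idx L C := rfl
  have : Finite (C.toAddSubgroup ⧸ L.toAddSubgroup.addSubgroupOf C.toAddSubgroup) :=
    Nat.finite_of_card_ne_zero (hc ▸ h0)
  obtain ⟨x, hx⟩ := exists_prime_addOrderOf_dvd_card' (G := C.toAddSubgroup ⧸
    L.toAddSubgroup.addSubgroupOf C.toAddSubgroup) p (hc ▸ hd)
  obtain ⟨w, rfl⟩ := QuotientAddGroup.mk_surjective x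
  refine ⟨w.1, w.2, ?_, ?_⟩
  · intro hw
    have : (QuotientAddGroup.mk w : C.toAddSubgroup ⧸
        L.toAddSubgroup.addSubgroupOf C.toAddSubgroup) = 0 :=
      (QuotientAddGroup.eq_zero_iff w).2 hw
    rw [this, addOrderOf_zero] at hx
    exact hp.one_lt.ne hx
  · have h1 := addOrderOf_nsmul_eq_zero (QuotientAddGroup.mk w : C.toAddSubgroup ⧸
        L.toAddSubgroup.addSubgroupOf C.toAddSubgroup)
    rw [hx, ← QuotientAddGroup.mk_nsmul, QuotientAddGroup.eq_zero_iff] at h1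
    have h2 : p • w.1 ∈ L := h1
    rwa [natCast_zsmul]

/-- representatives of `p⁻¹ L / L` -/
theorem li2_reps {L : Lat ι} (hL : L.FG) {p : ℕ} (hp : 0 < p) :
    ∃ u : (Fin (rk L) → Fin p) → ι → ℚ, (∀ r, (p : ℤ) • u r ∈ L) ∧
      ∀ w, (p : ℤ) • w ∈ L → ∃ r, w - u r ∈ L := by
  obtain ⟨b, hb, hsp, -⟩ := exists_basis hL
  have hbL : ∀ i, b i ∈ L := fun i => hsp ▸ Submodule.subset_span ⟨i, rfl⟩
  have hp' : (p : ℚ) ≠ 0 := by exact_mod_cast hp.ne'
  refine ⟨fun r => ∑ i, (((r i : ℕ) : ℚ) / p) • b i, fun r => ?_, fun w hw => ?_⟩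
  · rw [Finset.smul_sum]
    refine L.sum_mem fun i _ => ?_
    have : (p : ℤ) • ((((r i : ℕ) : ℚ) / p) • b i) = ((r i : ℕ) : ℤ) • b i := by
      rw [← Int.cast_smul_eq_zsmul ℚ, ← Int.cast_smul_eq_zsmul ℚ, smul_smul]
      congr 1
      push_cast
      field_simp
    rw [this]
    exact L.smul_mem _ (hbL i)
  · rw [← hsp] at hw
    obtain ⟨a, ha⟩ := (Submodule.mem_span_range_iff_exists_fun ℤ).1 hw
    have hpz : (0 : ℤ) < p := by exact_mod_cast hp
    refine ⟨fun i => ⟨(a i % p).toNat, ?_⟩, ?_⟩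
    · have h1 := Int.emod_lt_of_pos (a i) hpz
      have h2 := Int.emod_nonneg (a i) hpz.ne'
      omega
    · have hw' : w = ∑ i, ((a i : ℚ) / p) • b i := by
        have h1 : (p : ℚ) • w = ∑ i, (a i : ℚ) • b i := by
          rw [← Int.cast_natCast, Int.cast_smul_eq_zsmul, ← ha]
          exact Finset.sum_congr rfl fun i _ => (Int.cast_smul_eq_zsmul ℚ _ _).symm
        have h2 : w = (p : ℚ)⁻¹ • ((p : ℚ) • w) := by
          rw [smul_smul, inv_mul_cancel₀ hp', one_smul]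
        rw [h2, h1, Finset.smul_sum]
        refine Finset.sum_congr rfl fun i _ => ?_
        rw [smul_smul, div_eq_inv_mul]
      rw [hw', ← Finset.sum_sub_distrib]
      refine L.sum_mem fun i _ => ?_
      have h2 := Int.emod_nonneg (a i) hpz.ne'
      have h3 : ((a i : ℚ) / p) • b i - ((((a i % p).toNat : ℕ) : ℚ) / p) • b i =
          (a i / p : ℤ) • b i := by
        rw [← Int.cast_smul_eq_zsmul ℚ, ← sub_smul]
        congr 1
        have h4 : (((a i % p).toNat : ℕ) : ℚ) = ((a i % p : ℤ) : ℚ) := by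
          rw [← Int.cast_natCast, Int.toNat_of_nonneg h2]
        have h5 : (a i : ℚ) = (p : ℚ) * ((a i / p : ℤ) : ℚ) + ((a i % p : ℤ) : ℚ) := by
          have := Int.mul_ediv_add_emod (a i) p
          exact_mod_cast this.symm
        rw [h4]
        field_simp
        linarith
      simp only
      rw [h3]
      exact L.smul_mem _ (hbL i)

theorem li2_rk_sup {L : Lat ι} (hL : L.FG) {p : ℕ} (hp : 0 < p) {w : ι → ℚ}
    (hw : (p : ℤ) • w ∈ L) :
    (L ⊔ Submodule.span ℤ {w}).FG ∧ rk (L ⊔ Submodule.span ℤ {w}) = rk L := by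
  have hfg : (L ⊔ Submodule.span ℤ {w}).FG := hL.sup (Submodule.fg_span_singleton w)
  refine ⟨hfg, ?_⟩
  have hq : qspan (L ⊔ Submodule.span ℤ {w}) = qspan L := by
    apply le_antisymm
    · refine Submodule.span_le.2 fun x hx => ?_
      obtain ⟨y, hy, z, hz, rfl⟩ := Submodule.mem_sup.1 hx
      obtain ⟨k, rfl⟩ := Submodule.mem_span_singleton.1 hz
      refine mem_qspan.2 ⟨p, hp, ?_⟩
      rw [← Int.cast_natCast, Int.cast_smul_eq_zsmul, smul_add, smul_comm]
      exact L.add_mem (L.smul_mem _ hy) (L.smul_mem _ hw)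
    · exact Submodule.span_mono (fun x hx => Submodule.mem_sup_left hx)
  rw [rk_eq_finrank hfg, rk_eq_finrank hL, hq]

theorem li2_count (m h : ℕ) : ∀ (hh : h ≠ 0) (L : Lat ι) (hL : L.FG) (hr : rk L ≤ m)
    (𝒞 : Finset (Lat ι)) (h𝒞 : ∀ C ∈ 𝒞, L ≤ C ∧ idx L C = h), 𝒞.card ≤ h ^ m := by
  induction h using Nat.strong_induction_on with
  | _ h ih =>
  intro hh L hL hr 𝒞 h𝒞
  classical
  by_cases h1 : h = 1
  · subst h1
    rw [one_pow]
    refine Finset.card_le_one.2 fun C hC C' hC' => ?_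
    have key : ∀ C ∈ 𝒞, C = L := fun C hC =>
      le_antisymm (fun x hx => (AddSubgroup.relIndex_eq_one.1 (h𝒞 C hC).2) hx) (h𝒞 C hC).1
    rw [key C hC, key C' hC']
  have hp : (Nat.minFac h).Prime := Nat.minFac_prime h1
  obtain ⟨u, hu, hu'⟩ := li2_reps hL hp.pos
  have hcover : 𝒞 ⊆ Finset.univ.biUnion fun r => 𝒞.filter fun C => u r ∈ C ∧ u r ∉ L := by
    intro C hC
    obtain ⟨hLC, hi⟩ := h𝒞 C hC
    obtain ⟨w, hwC, hwL, hpw⟩ := li2_cauchy (L := L) (C := C) hp (hi ▸ hh) (hi ▸ Nat.minFac_dvd h)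
    obtain ⟨r, hr⟩ := hu' w hpw
    refine Finset.mem_biUnion.2 ⟨r, Finset.mem_univ _, Finset.mem_filter.2 ⟨hC, ?_, ?_⟩⟩
    · have := C.sub_mem hwC (hLC hr)
      rwa [sub_sub_cancel] at this
    · intro h2
      have := L.add_mem hr h2
      rw [sub_add_cancel] at this
      exact hwL this
  have hfib : ∀ r, (𝒞.filter fun C => u r ∈ C ∧ u r ∉ L).card ≤ (h / Nat.minFac h) ^ m := by
    intro r
    rcases (𝒞.filter fun C => u r ∈ C ∧ u r ∉ L).eq_empty_or_nonempty with he | ⟨C₀, hC₀⟩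
    · rw [he]; exact Nat.zero_le _
    obtain ⟨hfg, hrk⟩ := li2_rk_sup hL hp.pos (hu r)
    set F : Lat ι := L ⊔ Submodule.span ℤ {u r} with hF
    have hmul : ∀ C ∈ 𝒞.filter fun C => u r ∈ C ∧ u r ∉ L, F ≤ C ∧ idx L F * idx F C = h := by
      intro C hC
      obtain ⟨hC, h2, h3⟩ := Finset.mem_filter.1 hC
      have hFC : F ≤ C := sup_le (h𝒞 C hC).1 ((Submodule.span_singleton_le_iff_mem _ _).2 h2)
      refine ⟨hFC, ?_⟩
      rw [← (h𝒞 C hC).2]
      exact AddSubgroup.relIndex_mul_relIndex _ _ _ (fun x hx => Submodule.mem_sup_left hx)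
        (fun x hx => hFC hx)
    have hd1 : idx L F ≠ 1 := by
      intro h2
      exact (Finset.mem_filter.1 hC₀).2.2 ((AddSubgroup.relIndex_eq_one.1 h2)
        (Submodule.mem_sup_right (Submodule.mem_span_singleton_self _)))
    have hm0 := (hmul C₀ hC₀).2
    have hd0 : idx L F ≠ 0 := by
      intro h2
      rw [h2, zero_mul] at hm0
      exact hh hm0.symm
    have hdvd : idx L F ∣ h := ⟨_, hm0.symm⟩
    have hge : Nat.minFac h ≤ idx L F := Nat.minFac_le_of_dvd (by omega) hdvd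
    have hlt : h / idx L F < h := Nat.div_lt_self (by omega) (by omega)
    have hne : h / idx L F ≠ 0 :=
      (Nat.div_pos (Nat.le_of_dvd (by omega) hdvd) (by omega)).ne'
    refine (ih _ hlt hne F hfg (hrk ▸ hr) _ fun C hC => ⟨(hmul C hC).1, ?_⟩).trans
      (Nat.pow_le_pow_left (Nat.div_le_div_left hge hp.pos) m)
    rw [← (hmul C hC).2, Nat.mul_div_cancel_left _ (by omega)]
  calc 𝒞.card ≤ _ := Finset.card_le_card hcover
    _ ≤ ∑ r, (𝒞.filter fun C => u r ∈ C ∧ u r ∉ L).card := Finset.card_biUnion_le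
    _ ≤ ∑ _r : Fin (rk L) → Fin (Nat.minFac h), (h / Nat.minFac h) ^ m :=
        Finset.sum_le_sum fun r _ => hfib r
    _ = Nat.minFac h ^ rk L * (h / Nat.minFac h) ^ m := by simp
    _ ≤ Nat.minFac h ^ m * (h / Nat.minFac h) ^ m :=
        Nat.mul_le_mul_right _ (Nat.pow_le_pow_right hp.pos hr)
    _ = h ^ m := by rw [← mul_pow, Nat.mul_div_cancel' (Nat.minFac_dvd h)]

theorem li2_cv_pair {X Y : Lat ι} (hX : X.FG) (hY : Y.FG) (hs : qspan X = qspan Y)
    (hp : ∀ x ∈ X, ∀ y ∈ Y, ∃ m : ℤ, x ⬝ᵥ y = m) : 1 ≤ cv X * cv Y := by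
  obtain ⟨b, hb, hbs, hbv⟩ := exists_basis hX
  obtain ⟨c, hc, hcs, hcv⟩ := exists_basis hY
  have hr : rk X = rk Y := by rw [rk_eq_finrank hX, rk_eq_finrank hY, hs]
  have hbX : ∀ i, b i ∈ X := fun i => hbs ▸ Submodule.subset_span ⟨i, rfl⟩
  have hcY : ∀ i, c i ∈ Y := fun i => hcs ▸ Submodule.subset_span ⟨i, rfl⟩
  rw [hbv, hcv, ← gdet_equiv (finCongr hr) c]
  refine li2_pair hb (hc.comp _ (finCongr hr).injective) (fun i => ?_)
    (fun i j => hp _ (hbX i) _ (hcY _))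
  have h1 : c (finCongr hr i) ∈ qspan X := hs ▸ Submodule.subset_span (hcY _)
  have h2 : qspan X = Submodule.span ℚ (Set.range b) := by
    unfold qspan
    conv_lhs => rw [← hbs]
    exact Submodule.span_span_of_tower ℤ ℚ _
  rw [← h2]
  exact h1

end Crest.Agent.R152
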