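import Crest.Agent.R152.LBas
import Crest.Agent.R152.LIdxAux2

/-! # Row 152: lattices, integrality and index -/

set_option autoImplicit false
set_option linter.unusedSectionVars false
set_option linter.unusedVariables false

open Matrix Filter Topology

noncomputable section

namespace Crest.Agent.R152

variable {ι : Type} [Fintype ι] [DecidableEq ι]

theorem idx_qsmul_mem {L : Lat ι} {x : ι → ℚ} (hx : x ∈ L) (n : ℕ) : (n : ℚ) • x ∈ L := by
  rw [Nat.cast_smul_eq_nsmul]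
  exact nsmul_mem hx n

theorem idx_den_vec (x : ι → ℚ) : ∃ q : ℕ, 0 < q ∧ (q : ℚ) • x ∈ ZZ ι := by
  refine ⟨∏ i, (x i).den, Finset.prod_pos fun i _ => (x i).den_pos, fun i => ?_⟩
  obtain ⟨c, hc⟩ : (x i).den ∣ ∏ i, (x i).den := Finset.dvd_prod_of_mem _ (Finset.mem_univ i)
  refine ⟨c * (x i).num, ?_⟩
  rw [hc, Pi.smul_apply, smul_eq_mul]
  push_cast
  rw [← Rat.mul_den_eq_num (x i)]
  ring

theorem exists_den {L : Lat ι} (hL : L.FG) : ∃ q : ℕ, 0 < q ∧ ∀ x ∈ L, (q : ℚ) • x ∈ ZZ ι := by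
  obtain ⟨s, rfl⟩ := hL
  choose d hd hdm using fun x : ι → ℚ => idx_den_vec x
  refine ⟨∏ y ∈ s, d y, Finset.prod_pos fun y _ => hd y, fun x hx => ?_⟩
  induction hx using Submodule.span_induction with
  | mem y hy =>
    obtain ⟨c, hc⟩ : d y ∣ ∏ y ∈ s, d y := Finset.dvd_prod_of_mem _ hy
    rw [hc, mul_comm, Nat.cast_mul, mul_smul]
    exact idx_qsmul_mem (hdm y) c
  | zero => simp
  | add y z _ _ hy hz => rw [smul_add]; exact add_mem hy hz
  | smul a y _ hy => rw [smul_comm]; exact Submodule.smul_mem _ a hy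

theorem cv_den {L : Lat ι} (hL : L.FG) {q : ℕ} (hq : 0 < q) (h : ∀ x ∈ L, (q : ℚ) • x ∈ ZZ ι) :
    ∃ m : ℕ, 1 ≤ m ∧ (q : ℚ) ^ (2 * rk L) * cv L = m := by
  obtain ⟨b, hb, hs, hc⟩ := exists_basis hL
  have hm : ∀ i, (q : ℚ) • b i ∈ ZZ ι := fun i =>
    h _ (hs ▸ Submodule.subset_span ⟨i, rfl⟩)
  choose a ha using fun i => mem_ZZ.1 (hm i)
  let N : Matrix (Fin (rk L)) (Fin (rk L)) ℤ := Matrix.of fun i j => a i ⬝ᵥ a j
  have hN : (N.det : ℚ) = (q : ℚ) ^ (2 * rk L) * cv L := by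
    rw [hc, gdet, Int.cast_det, pow_mul]
    have e : N.map (fun x : ℤ => (x : ℚ))
        = ((q : ℚ) ^ 2) • (Matrix.of fun i j => b i ⬝ᵥ b j) := by
      ext i j
      simp only [N, Matrix.map_apply, Matrix.of_apply, Matrix.smul_apply, dotProduct, smul_eq_mul]
      push_cast
      rw [Finset.mul_sum]
      refine Finset.sum_congr rfl fun k _ => ?_
      rw [← ha i k, ← ha j k]
      simp only [Pi.smul_apply, smul_eq_mul]
      ring
    rw [e, Matrix.det_smul, Fintype.card_fin]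
  have hpos : 0 < N.det := by
    have : (0 : ℚ) < (N.det : ℚ) := by
      rw [hN]
      exact mul_pos (pow_pos (by exact_mod_cast hq) _) (cv_pos L)
    exact_mod_cast this
  refine ⟨N.det.toNat, by omega, ?_⟩
  rw [← hN]
  have : ((N.det.toNat : ℕ) : ℤ) = N.det := Int.toNat_of_nonneg hpos.le
  exact_mod_cast this.symm

theorem one_le_cv {L : Lat ι} (h : L ≤ ZZ ι) : 1 ≤ cv L := by
  obtain ⟨m, hm, he⟩ := cv_den (fg_of_le h ZZ_fg) (q := 1) one_pos fun x hx => by
    simpa using h hx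
  simp only [Nat.cast_one, one_pow, one_mul] at he
  rw [he]
  exact_mod_cast hm

/-- the index of the span of integer combinations of an independent family -/
theorem idx_span_comb {κ : Type} [Fintype κ] [DecidableEq κ] {b c : κ → ι → ℚ}
    (hb : LinearIndependent ℚ b) (hc : LinearIndependent ℚ c) (C : Matrix κ κ ℤ)
    (hC : ∀ i, c i = ∑ j, C i j • b j) :
    idx (Submodule.span ℤ (Set.range c)) (Submodule.span ℤ (Set.range b)) = C.det.natAbs := by
  have hbz : LinearIndependent ℤ b := hb.restrict_scalars' ℤ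
  have hcz : LinearIndependent ℤ c := hc.restrict_scalars' ℤ
  have hle : Submodule.span ℤ (Set.range c) ≤ Submodule.span ℤ (Set.range b) := by
    rw [Submodule.span_le]
    rintro _ ⟨i, rfl⟩
    rw [hC i]
    exact Submodule.sum_mem _ fun j _ =>
      Submodule.smul_mem _ _ (Submodule.subset_span ⟨j, rfl⟩)
  unfold idx
  rw [AddSubgroup.relIndex_eq_natAbs_det _ _ hle (Module.Basis.span hcz) (Module.Basis.span hbz)]
  congr 1
  rw [Module.Basis.det_apply, ← Matrix.det_transpose C]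
  congr 1
  ext i j
  rw [Module.Basis.toMatrix_apply, Matrix.transpose_apply]
  have e : (⟨(Module.Basis.span hcz j : ι → ℚ), hle (SetLike.coe_mem _)⟩ :
      Submodule.span ℤ (Set.range b)) = ∑ k, C j k • Module.Basis.span hbz k := by
    apply Subtype.ext
    simp only [Module.Basis.coe_span_apply, AddSubmonoidClass.coe_finsetSum, SetLike.val_smul]
    exact hC j
  have e2 : (Module.Basis.span hbz).repr (∑ k, C j k • Module.Basis.span hbz k) i = C j i := by
    rw [Module.Basis.repr_sum_self]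
  rw [← e2, ← e]
  rfl

theorem cv_index {D L : Lat ι} (h : D ≤ L) (hL : L.FG) (hr : rk D = rk L) :
    idx D L ≠ 0 ∧ cv D = (idx D L : ℚ) ^ 2 * cv L := by
  have hD := fg_of_le h hL
  obtain ⟨b, hb, hs, hc⟩ := exists_basis hL
  obtain ⟨d, hd, hsd, hcd⟩ := exists_basis hD
  let e : Fin (rk L) ≃ Fin (rk D) := finCongr hr.symm
  have hd' : LinearIndependent ℚ (d ∘ e) := hd.comp e e.injective
  have hsd' : Submodule.span ℤ (Set.range (d ∘ e)) = D := by
    rw [e.surjective.range_comp, hsd]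
  have hmem : ∀ i, (d ∘ e) i ∈ Submodule.span ℤ (Set.range b) := fun i => by
    rw [hs]
    exact h (hsd'.le (Submodule.subset_span ⟨i, rfl⟩))
  choose C hC using fun i => (Submodule.mem_span_range_iff_exists_fun ℤ).1 (hmem i)
  have hi := idx_span_comb hb hd' (Matrix.of C) fun i => (hC i).symm
  rw [hsd', hs] at hi
  have hg : gdet (d ∘ e) = (((Matrix.of C).det : ℤ) : ℚ) ^ 2 * gdet b := by
    rw [Int.cast_det, ← gdet_comb]
    congr 1
    funext i
    rw [← hC i]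
    refine Finset.sum_congr rfl fun j _ => ?_
    simp only [Matrix.map_apply, Matrix.of_apply, Int.cast_smul_eq_zsmul]
  rw [gdet_equiv, ← hcd, ← hc] at hg
  have hsq : ((idx D L : ℕ) : ℚ) ^ 2 = (((Matrix.of C).det : ℤ) : ℚ) ^ 2 := by
    rw [hi, Nat.cast_natAbs, Int.cast_abs, sq_abs]
  refine ⟨fun h0 => ?_, by rw [hsq, hg]⟩
  have hp := cv_pos D
  rw [hg, ← hsq, h0] at hp
  simp at hp

theorem rk_eq_of_idx {D L : Lat ι} (h : D ≤ L) (hL : L.FG) (hi : idx D L ≠ 0) : rk D = rk L := by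
  have : Module.Finite ℤ L.toAddSubgroup := (Module.Finite.iff_fg.mpr hL : Module.Finite ℤ L)
  have : D.toAddSubgroup.IsFiniteRelIndex L.toAddSubgroup := ⟨hi⟩
  exact AddSubgroup.finrank_eq_of_isFiniteRelIndex (A := D.toAddSubgroup) (B := L.toAddSubgroup) h

theorem cv_le_of_le {D L : Lat ι} (h : D ≤ L) (hL : L.FG) (hr : rk D = rk L) : cv L ≤ cv D := by
  obtain ⟨h0, he⟩ := cv_index h hL hr
  have h1 : (1 : ℚ) ≤ (idx D L : ℚ) := by exact_mod_cast Nat.one_le_iff_ne_zero.2 h0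
  have hp := cv_pos L
  rw [he]
  have : (1 : ℚ) ≤ (idx D L : ℚ) ^ 2 := one_le_pow₀ h1
  nlinarith

theorem idx_smul_mem {D L : Lat ι} {x : ι → ℚ} (hx : x ∈ L) : ((idx D L : ℕ) : ℚ) • x ∈ D := by
  rw [Nat.cast_smul_eq_nsmul]
  exact D.toAddSubgroup.nsmul_relIndex_mem (K := L.toAddSubgroup) hx

/-- every rational subspace is spanned by its integer points -/
theorem ker_le_qspan {κ : Type} [Fintype κ] (Q : Matrix κ ι ℚ) {L : Lat ι} (h : ZZ ι ≤ L) {x : ι → ℚ}
    (hx : Q *ᵥ x = 0) : x ∈ qspan (L ⊓ kerM Q) := by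
  classical
  obtain ⟨q, hq, hm⟩ := idx_den_vec x
  refine mem_qspan.2 ⟨q, hq, h hm, ?_⟩
  apply mem_kerM.2
  rw [Matrix.mulVec_smul, hx, smul_zero]

/-- two lattices in the same space with integral pairing -/
theorem cv_pair {X Y : Lat ι} (hX : X.FG) (hY : Y.FG) (hs : qspan X = qspan Y)
    (hp : ∀ x ∈ X, ∀ y ∈ Y, ∃ m : ℤ, x ⬝ᵥ y = m) : 1 ≤ cv X * cv Y := by
  exact li2_cv_pair hX hY hs hp

/-- at most `h ^ m` overlattices of index `h` (Cauchy: pass to an overlattice of prime index) -/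
theorem overlattice_count (m h : ℕ) (hh : h ≠ 0) (L : Lat ι) (hL : L.FG) (hr : rk L ≤ m)
    (𝒞 : Finset (Lat ι)) (h𝒞 : ∀ C ∈ 𝒞, L ≤ C ∧ idx L C = h) : 𝒞.card ≤ h ^ m := by
  exact li2_count m h hh L hL hr 𝒞 h𝒞

end Crest.Agent.R152
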