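import Crest.Agent.R152.LHad

/-! # Row 152: quotient lattices, supermodularity, heights -/

set_option autoImplicit false
set_option linter.unusedSectionVars false
set_option linter.unusedVariables false

open Matrix Filter Topology

noncomputable section

namespace Crest.Agent.R152

variable {ι : Type} [Fintype ι] [DecidableEq ι]

/-- a basis of `L` adapted to `L ⊓ kerM Q` -/
theorem quo_basis {κ : Type} [Fintype κ] [DecidableEq κ] (Q : Matrix κ ι ℚ) {L : Lat ι}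
    (hL : L.FG) : ∃ (a : Fin (rk (L ⊓ kerM Q)) → ι → ℚ) (b : Fin (rk (mmap Q L)) → ι → ℚ),
      Submodule.span ℤ (Set.range a) = L ⊓ kerM Q ∧ cv (L ⊓ kerM Q) = gdet a ∧
      cv (mmap Q L) = gdet (fun j => Q *ᵥ b j) ∧ LinearIndependent ℚ (Sum.elim a b) ∧
      Submodule.span ℤ (Set.range (Sum.elim a b)) = L := by
  obtain ⟨a, ha, hsa, hca⟩ := exists_basis (fg_of_le (D := L ⊓ kerM Q) inf_le_left hL)
  obtain ⟨c, hc, hsc, hcc⟩ := exists_basis (fg_mmap Q hL)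
  have hcm : ∀ j, ∃ x ∈ L, Q *ᵥ x = c j := fun j =>
    mem_mmap.1 (hsc ▸ Submodule.subset_span (Set.mem_range_self j))
  choose b hbL hb using hcm
  have ham : ∀ i, a i ∈ L ⊓ kerM Q := fun i =>
    hsa ▸ Submodule.subset_span (Set.mem_range_self i)
  have haQ : ∀ i, Q *ᵥ a i = 0 := fun i => mem_kerM.1 (ham i).2
  refine ⟨a, b, hsa, hca, by simpa only [hb] using hcc, ?_, le_antisymm ?_ ?_⟩
  · rw [Fintype.linearIndependent_iff] at ha hc ⊢
    intro g hg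
    rw [Fintype.sum_sum_type] at hg
    simp only [Sum.elim_inl, Sum.elim_inr] at hg
    have h1 := congrArg Q.mulVecLin hg
    simp only [map_add, map_sum, map_smul, mulVecLin_apply, haQ, hb, smul_zero,
      Finset.sum_const_zero, zero_add, map_zero] at h1
    have h2 := hc _ h1
    simp only [h2, zero_smul, Finset.sum_const_zero, add_zero] at hg
    have h3 := ha _ hg
    rintro (i | j)
    · exact h3 i
    · exact h2 j
  · rw [Submodule.span_le]
    rintro _ ⟨i | j, rfl⟩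
    · exact (ham i).1
    · exact hbL j
  · intro x hx
    have h1 : Q *ᵥ x ∈ Submodule.span ℤ (Set.range c) := by
      rw [hsc]; exact mem_mmap.2 ⟨x, hx, rfl⟩
    obtain ⟨z, hz⟩ := (Submodule.mem_span_range_iff_exists_fun ℤ).1 h1
    have h2 : x - ∑ j, z j • b j ∈ L ⊓ kerM Q := by
      refine ⟨L.sub_mem hx (L.sum_mem fun j _ => L.smul_mem _ (hbL j)), mem_kerM.2 ?_⟩
      change Q.mulVecLin _ = 0
      simp only [map_sub, map_sum, map_zsmul, mulVecLin_apply, hb, hz, sub_self]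
    rw [← hsa] at h2
    have h3 : x = (x - ∑ j, z j • b j) + ∑ j, z j • b j := by abel
    rw [h3]
    refine Submodule.add_mem _ (Submodule.span_mono ?_ h2) (Submodule.sum_mem _ fun j _ =>
      Submodule.smul_mem _ _ (Submodule.subset_span ⟨Sum.inr j, rfl⟩))
    rintro _ ⟨i, rfl⟩
    exact ⟨Sum.inl i, rfl⟩

theorem rk_quot {κ : Type} [Fintype κ] [DecidableEq κ] (Q : Matrix κ ι ℚ) {L : Lat ι} (hL : L.FG) :
    rk L = rk (L ⊓ kerM Q) + rk (mmap Q L) := by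
  obtain ⟨a, b, -, -, -, hli, hsp⟩ := quo_basis Q hL
  have := rk_span hli
  rw [hsp] at this
  simpa using this

theorem cv_quot_eq {Q : Matrix ι ι ℚ} (hQ : IsPrj Q) {L : Lat ι} (hL : L.FG)
    (hk : ∀ x, Q *ᵥ x = 0 → x ∈ qspan (L ⊓ kerM Q)) :
    cv L = cv (L ⊓ kerM Q) * cv (mmap Q L) := by
  obtain ⟨a, b, hsa, hca, hcb, hli, hsp⟩ := quo_basis Q hL
  have h0 := cv_span hli
  rw [hsp] at h0
  have haQ : ∀ i, Q *ᵥ a i = 0 := fun i =>
    mem_kerM.1 (hsa ▸ Submodule.subset_span (Set.mem_range_self i) : a i ∈ L ⊓ kerM Q).2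
  have ht : ∀ j, ∃ t : Fin (rk (L ⊓ kerM Q)) → ℚ, ∑ i, t i • a i = Q *ᵥ b j - b j := by
    intro j
    have := hk (Q *ᵥ b j - b j) (by rw [mulVec_sub, prj_idem hQ, sub_self])
    rw [qspan, ← hsa, Submodule.span_span_of_tower] at this
    exact (Submodule.mem_span_range_iff_exists_fun ℚ).1 this
  choose t ht using ht
  have h1 := gdet_comb (fromBlocks 1 0 (Matrix.of t) 1) (Sum.elim a b)
  rw [det_fromBlocks_zero₁₂, det_one, det_one, mul_one, one_pow, one_mul] at h1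
  have h2 : (fun i => ∑ j, fromBlocks (1 : Matrix _ _ ℚ) 0 (Matrix.of t) 1 i j • Sum.elim a b j) =
      Sum.elim a fun j => Q *ᵥ b j := by
    funext i
    rw [Fintype.sum_sum_type]
    rcases i with i | j
    · simp [one_apply]
    · simp [one_apply, ht]
  rw [h0, ← h1, h2, hca, hcb, gdet, gdet, gdet, ← det_fromBlocks_zero₂₁ _ 0]
  congr 1
  ext (i | i) (j | j)
  · rfl
  · simp [← prj_dot hQ, haQ]
  · simp [prj_dot hQ, haQ]
  · rfl

theorem cv_quot_ge {Q : Matrix ι ι ℚ} (hQ : IsPrj Q) {L : Lat ι} (hL : L.FG) :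
    cv (L ⊓ kerM Q) * cv (mmap Q L) ≤ cv L := by
  obtain ⟨P, hP, hker⟩ := exists_prj (qspan (L ⊓ kerM Q))
  have hU : ∀ x ∈ qspan (L ⊓ kerM Q), Q *ᵥ x = 0 := by
    have : qspan (L ⊓ kerM Q) ≤ LinearMap.ker Q.mulVecLin :=
      Submodule.span_le.2 fun x hx => mem_kerM.1 hx.2
    exact fun x hx => this hx
  have hin : ∀ x ∈ L, Q *ᵥ x = 0 → P *ᵥ x = 0 := fun x hx h0 =>
    (hker x).2 (Submodule.subset_span ⟨hx, mem_kerM.2 h0⟩)
  have he : L ⊓ kerM P = L ⊓ kerM Q := by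
    ext x
    simp only [Submodule.mem_inf, mem_kerM]
    exact ⟨fun h => ⟨h.1, hU x ((hker x).1 h.2)⟩, fun h => ⟨h.1, hin x h.1 h.2⟩⟩
  have hQP : ∀ x, Q *ᵥ (P *ᵥ x) = Q *ᵥ x := by
    intro x
    have := hU _ ((hker (P *ᵥ x - x)).1 (by rw [mulVec_sub, prj_idem hP, sub_self]))
    rwa [mulVec_sub, sub_eq_zero] at this
  have hm : mmap Q (mmap P L) = mmap Q L := by
    ext y
    simp only [mem_mmap]
    constructor
    · rintro ⟨_, ⟨x, hx, rfl⟩, rfl⟩
      exact ⟨x, hx, (hQP x).symm⟩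
    · rintro ⟨x, hx, rfl⟩
      exact ⟨_, ⟨x, hx, rfl⟩, hQP x⟩
  have h1 := cv_quot_eq hP hL (by rw [he]; exact fun x hx => (hker x).1 hx)
  have h2 := cv_mmap_le Q (fg_mmap P hL) (by
    intro y hy h0
    obtain ⟨x, hx, rfl⟩ := mem_mmap.1 hy
    exact hin x hx (by rwa [hQP] at h0)) zero_le_one
    fun x _ => by rw [one_mul]; exact prj_dot_le hQ x
  rw [hm, one_pow, one_mul] at h2
  rw [h1, he]
  exact mul_le_mul_of_nonneg_left h2 (cv_pos _).le

theorem rk_sup_inf {X Y : Lat ι} (hX : X.FG) (hY : Y.FG) :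
    rk (X ⊔ Y) + rk (X ⊓ Y) = rk X + rk Y := by
  haveI : Module.Finite ℤ X := Module.Finite.iff_fg.mpr hX
  haveI : Module.Finite ℤ Y := Module.Finite.iff_fg.mpr hY
  haveI : Module.Finite ℤ (X ⊔ Y : Lat ι) := Module.Finite.iff_fg.mpr (hX.sup hY)
  haveI : Module.Finite ℤ (X ⊓ Y : Lat ι) := Module.Finite.iff_fg.mpr (fg_of_le inf_le_left hX)
  have h := Submodule.rank_sup_add_rank_inf_eq X Y
  rw [← Module.finrank_eq_rank, ← Module.finrank_eq_rank, ← Module.finrank_eq_rank,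
    ← Module.finrank_eq_rank] at h
  unfold rk
  exact_mod_cast h

theorem lquo_rk_eq {X Y : Lat ι} (hX : X.FG) (hY : Y.FG) (h : qspan X = qspan Y) :
    rk X = rk Y := by
  rw [rk_eq_finrank hX, rk_eq_finrank hY, h]

theorem lquo_qspan_mono {X Y : Lat ι} (h : X ≤ Y) : qspan X ≤ qspan Y :=
  Submodule.span_mono h

theorem lquo_sup_inf_eq {X Y : Lat ι} (hX : X.FG) (hY : Y.FG) (h : rk X = rk (X ⊔ Y)) :
    cv (X ⊔ Y) * cv (X ⊓ Y) = cv X * cv Y := by
  have h1 := rk_sup_inf hX hY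
  have h2 := (cv_index le_sup_left (hX.sup hY) h).2
  have h3 := (cv_index (D := X ⊓ Y) inf_le_right hY (by omega)).2
  have h4 : idx X (X ⊔ Y) = idx (X ⊓ Y) Y := by
    unfold idx
    rw [Submodule.sup_toAddSubgroup, AddSubgroup.relIndex_sup_left]
    exact (AddSubgroup.inf_relIndex_right _ _).symm
  rw [h2, h3, h4]
  ring

theorem cv_sup_inf {X Y : Lat ι} (hX : X.FG) (hY : Y.FG) :
    cv (X ⊔ Y) * cv (X ⊓ Y) ≤ cv X * cv Y := by
  obtain ⟨Q, hQ, hk⟩ := exists_prj (qspan X)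
  have hXK : X ≤ kerM Q := fun x hx => mem_kerM.2 ((hk x).2 (Submodule.subset_span hx))
  have e1 : (X ⊔ Y) ⊓ kerM Q = X ⊔ Y ⊓ kerM Q := sup_inf_assoc_of_le Y hXK
  have e2 : X ⊓ Y = X ⊓ (Y ⊓ kerM Q) := by
    rw [inf_comm Y, ← inf_assoc, inf_eq_left.2 hXK]
  have e3 : mmap Q (X ⊔ Y) = mmap Q Y := by
    apply le_antisymm
    · intro y hy
      obtain ⟨x, hx, rfl⟩ := mem_mmap.1 hy
      obtain ⟨a, ha, b, hb, rfl⟩ := Submodule.mem_sup.1 hx
      exact mem_mmap.2 ⟨b, hb, by rw [mulVec_add, mem_kerM.1 (hXK ha), zero_add]⟩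
    · exact Submodule.map_mono le_sup_right
  have hY' : (Y ⊓ kerM Q).FG := fg_of_le inf_le_left hY
  have h1 := cv_quot_eq hQ (hX.sup hY) fun x hx =>
    lquo_qspan_mono (le_inf le_sup_left hXK) ((hk x).1 hx)
  have h2 := cv_quot_ge hQ hY
  have h3 := lquo_sup_inf_eq hX hY' (lquo_rk_eq hX (hX.sup hY') (le_antisymm
    (lquo_qspan_mono le_sup_left)
    (Submodule.span_le.2 fun x hx => (hk x).1 (mem_kerM.1 (sup_le hXK inf_le_right hx)))))
  rw [h1, e1, e3, e2, mul_right_comm, h3, mul_assoc]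
  exact mul_le_mul_of_nonneg_left h2 (cv_pos X).le

theorem cv_mmap_ZZ {P : Matrix ι ι ℚ} (hP : IsPrj P) :
    cv (ZZ ι ⊓ kerM P) * cv (mmap P (ZZ ι)) = 1 := by
  rw [← cv_quot_eq hP ZZ_fg fun x hx => ker_le_qspan P le_rfl hx, cv_ZZ]

theorem lquo_height_le {P : Matrix ι ι ℚ} (hP : IsPrj P) :
    cv (ZZ ι ⊓ kerM P) ≤ cv (ZZ ι ⊓ kerM (1 - P)) := by
  have hfix : ∀ y ∈ ZZ ι ⊓ kerM (1 - P), P *ᵥ y = y := fun y hy => by
    have := mem_kerM.1 hy.2
    rw [sub_mulVec, one_mulVec, sub_eq_zero] at this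
    exact this.symm
  have h1 := cv_mmap_ZZ hP
  have h2 := cv_pair (X := mmap P (ZZ ι)) (Y := ZZ ι ⊓ kerM (1 - P)) (fg_mmap P ZZ_fg)
    (fg_of_le inf_le_left ZZ_fg) (le_antisymm
      (Submodule.span_le.2 fun y hy => by
        obtain ⟨x, hx, rfl⟩ := mem_mmap.1 hy
        exact ker_le_qspan (1 - P) le_rfl (by rw [sub_mulVec, one_mulVec, prj_idem hP, sub_self]))
      (lquo_qspan_mono fun y hy => mem_mmap.2 ⟨y, hy.1, hfix y hy⟩))
    fun x hx y hy => by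
      obtain ⟨z, hz, rfl⟩ := mem_mmap.1 hx
      rw [prj_dot hP, hfix y hy]
      choose a ha using mem_ZZ.1 hz
      choose b hb using mem_ZZ.1 hy.1
      exact ⟨∑ i, a i * b i, by simp [dotProduct, ha, hb]⟩
  have h3 := cv_pos (ZZ ι ⊓ kerM P)
  calc cv (ZZ ι ⊓ kerM P) = cv (ZZ ι ⊓ kerM P) * 1 := (mul_one _).symm
    _ ≤ _ := mul_le_mul_of_nonneg_left h2 h3.le
    _ = _ := by rw [← mul_assoc, h1, one_mul]

/-- a rational subspace and its orthogonal complement have the same height -/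
theorem height_dual {P : Matrix ι ι ℚ} (hP : IsPrj P) :
    cv (ZZ ι ⊓ kerM (1 - P)) = cv (ZZ ι ⊓ kerM P) := by
  have h := lquo_height_le (prj_one_sub hP)
  rw [sub_sub_cancel] at h
  exact le_antisymm h (lquo_height_le hP)

/-- sublattices of a coordinate projection of `M ⊇ ℤ^ι` are not denser than `M` -/
theorem cv_le_of_mask {M : Lat ι} (hM : M.FG) (hZ : ZZ ι ≤ M) (Z : Finset ι) {D : Lat ι}
    (hD : D ≤ mmap (mask Z) M) : cv M ≤ cv D := by
  set D' : Lat ι := M ⊓ D.comap ((mask Z).mulVecLin.restrictScalars ℤ) with hD'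
  have mem : ∀ w, w ∈ D' ↔ w ∈ M ∧ mask Z *ᵥ w ∈ D := fun w => Iff.rfl
  have hf : D'.FG := fg_of_le inf_le_left hM
  have e1 : mmap (mask Z) D' = D := by
    apply le_antisymm
    · intro y hy
      obtain ⟨x, hx, rfl⟩ := mem_mmap.1 hy
      exact ((mem x).1 hx).2
    · intro y hy
      obtain ⟨x, hx, rfl⟩ := mem_mmap.1 (hD hy)
      exact mem_mmap.2 ⟨x, (mem x).2 ⟨hx, hy⟩, rfl⟩
  have e2 : D' ⊓ kerM (mask Z) = M ⊓ kerM (mask Z) := by
    apply le_antisymm (inf_le_inf_right _ inf_le_left)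
    intro x hx
    exact ⟨(mem x).2 ⟨hx.1, by rw [mem_kerM.1 hx.2]; exact D.zero_mem⟩, hx.2⟩
  have h1 := cv_quot_eq (mask_prj Z) hf fun x hx => by
    rw [e2]; exact ker_le_qspan _ hZ hx
  rw [e1, e2] at h1
  have h2 := cv_mmap_ZZ (mask_prj Z)
  rw [cv_mask_ZZ, mul_one] at h2
  have hMK : (M ⊓ kerM (mask Z)).FG := fg_of_le inf_le_left hM
  have h3 := cv_le_of_le (D := ZZ ι ⊓ kerM (mask Z)) (inf_le_inf_right _ hZ) hMK
    (lquo_rk_eq (fg_of_le inf_le_left ZZ_fg) hMK (le_antisymm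
      (lquo_qspan_mono (inf_le_inf_right _ hZ))
      (Submodule.span_le.2 fun x hx => ker_le_qspan _ le_rfl (mem_kerM.1 hx.2))))
  have h4 : cv M ≤ cv (D' ⊔ ZZ ι) := by
    refine cv_le_of_le (sup_le inf_le_left hZ) hM (le_antisymm (rk_mono (sup_le inf_le_left hZ) hM) ?_)
    exact (rk_le_card hM).trans (rk_ZZ.ge.trans (rk_mono le_sup_right (hf.sup ZZ_fg)))
  have h5 := cv_sup_inf hf ZZ_fg
  have h6 := one_le_cv (L := D' ⊓ ZZ ι) inf_le_right
  have h7 := cv_pos (D' ⊔ ZZ ι)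
  have h8 := cv_pos D
  rw [cv_ZZ, mul_one, h1] at h5
  rw [h2] at h3
  nlinarith

end Crest.Agent.R152
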