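import Crest.Agent.R152.MBasic

/-! # Row 152, module M: asymptotic inequalities -/

set_option autoImplicit false
set_option linter.unusedSectionVars false
set_option linter.unusedVariables false

open Matrix Filter Topology Finset Crest.FinProb Crest.Agent.Lib.BoolCube

noncomputable section

namespace Crest.Agent.R152

variable {ι : Type} [Fintype ι] [DecidableEq ι]

/-- the length of the tuple -/
def ell (c : ℝ) (s K₀ m : ℕ) : ℕ := ⌊c * m / (2 * s * K₀ * Real.log m)⌋₊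

theorem asym_pow_exp (A : ℝ) (hA : 0 < A) (n : ℕ) {b : ℝ} (hb : 0 < b) :
    ∀ᶠ m : ℕ in atTop, A * (m : ℝ) ^ n ≤ Real.exp (b * m) := by
  have h := (isLittleO_pow_exp_pos_mul_atTop n hb).def (c := 1 / A) (by positivity)
  filter_upwards [tendsto_natCast_atTop_atTop.eventually h] with m hm
  rw [Real.norm_eq_abs, Real.norm_eq_abs, abs_of_nonneg (by positivity),
    abs_of_nonneg (Real.exp_pos _).le, div_mul_eq_mul_div, one_mul, le_div_iff₀ hA] at hm
  linarith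

theorem asym_log_le (A : ℝ) (hA : 0 < A) {b : ℝ} (hb : 0 < b) :
    ∀ᶠ m : ℕ in atTop, A * Real.log m ≤ b * m := by
  have h := Real.isLittleO_log_id_atTop.def (c := b / A) (by positivity)
  filter_upwards [tendsto_natCast_atTop_atTop.eventually h] with m hm
  simp only [id, Real.norm_eq_abs] at hm
  rw [abs_of_nonneg (Real.log_natCast_nonneg m), abs_of_nonneg (Nat.cast_nonneg m),
    div_mul_eq_mul_div, le_div_iff₀ hA] at hm
  linarith

/-- the right side of `small_ball` for `N = m ^ K₀`, `T = m ^ 5`, `D₀ = δ m / 8`, `c = ξ (1 - θ) δ / 8` -/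
theorem asym_sb {c : ℝ} (hc : 0 < c) {s K₀ : ℕ} (hs : 1 ≤ s) (hK : 1 ≤ K₀) :
    ∀ᶠ m : ℕ in atTop,
      (2 ^ s * (1 / ((m ^ K₀ : ℕ) : ℝ) ^ s +
          Real.exp (-(2 * (1 / (64 * (m : ℝ) ^ 2)) ^ 2 * ((m ^ 5 : ℕ) : ℝ))))) ^ ell c s K₀ m +
        (2 * ((m ^ K₀ : ℕ) : ℝ) + 1) ^ s * (3 * ((m ^ K₀ : ℕ) : ℝ) * Real.exp (-(c * m))) ≤
      ((4 * (m : ℝ) ^ (-((K₀ : ℝ) * s / (s + 1)))) ^ ell c s K₀ m) ^ (s + 1) := by
  have hs' : (1 : ℝ) ≤ s := by exact_mod_cast hs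
  have hK' : (1 : ℝ) ≤ K₀ := by exact_mod_cast hK
  filter_upwards [eventually_ge_atTop 2, asym_pow_exp 1 one_pos (K₀ * s) (b := 1 / 2048) (by norm_num),
    asym_pow_exp (3 ^ (s + 1)) (by positivity) (K₀ * (s + 1)) (half_pos hc),
    asym_log_le (2 * s * K₀) (by positivity) hc] with m hm h1 h2 h3
  have hm2 : (2 : ℝ) ≤ m := by exact_mod_cast hm
  have hm0 : (0 : ℝ) < m := by linarith
  have hlog : 0 < Real.log m := Real.log_pos (by linarith)
  have hden : 0 < 2 * s * K₀ * Real.log m := by positivity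
  set l := ell c s K₀ m with hl
  have hl1 : 1 ≤ l := Nat.le_floor (by rw [le_div_iff₀ hden]; push_cast; linarith)
  have hl2 : (l : ℝ) * (2 * s * K₀ * Real.log m) ≤ c * m := by
    rw [← le_div_iff₀ hden]
    exact Nat.floor_le (by positivity)
  push_cast
  set N : ℝ := (m : ℝ) ^ K₀ with hN
  have hN1 : 1 ≤ N := one_le_pow₀ (by linarith)
  have hNs : 0 < N ^ s := by positivity
  have eR : ((4 * (m : ℝ) ^ (-((K₀ : ℝ) * s / (s + 1)))) ^ l) ^ (s + 1) =
      (2 ^ ((s + 1) * l)) ^ 2 * (1 / N ^ s) ^ l := by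
    have e1 : ((m : ℝ) ^ (-((K₀ : ℝ) * s / (s + 1)))) ^ (s + 1) = 1 / N ^ s := by
      rw [← Real.rpow_natCast, ← Real.rpow_mul hm0.le, hN, ← pow_mul, one_div,
        ← Real.rpow_natCast, ← Real.rpow_neg hm0.le]
      congr 1
      push_cast
      field_simp
    have e2 : ((4 : ℝ) ^ (s + 1)) ^ l = (2 ^ ((s + 1) * l)) ^ 2 := by
      rw [show (4 : ℝ) = 2 ^ 2 by norm_num, ← pow_mul, ← pow_mul, ← pow_mul]
      congr 1; ring
    rw [← pow_mul, mul_comm l, pow_mul, mul_pow, e1, mul_pow, e2]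
  have e1 : Real.exp (-(2 * (1 / (64 * (m : ℝ) ^ 2)) ^ 2 * (m : ℝ) ^ 5)) ≤ 1 / N ^ s := by
    have : 2 * (1 / (64 * (m : ℝ) ^ 2)) ^ 2 * (m : ℝ) ^ 5 = 1 / 2048 * m := by
      field_simp; norm_num
    rw [this, Real.exp_neg, ← one_div]
    refine one_div_le_one_div_of_le hNs ?_
    rw [hN, ← pow_mul]
    linarith
  have e2 : (2 ^ s * (1 / N ^ s +
      Real.exp (-(2 * (1 / (64 * (m : ℝ) ^ 2)) ^ 2 * (m : ℝ) ^ 5)))) ^ l ≤
      2 ^ ((s + 1) * l) * (1 / N ^ s) ^ l := by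
    rw [pow_mul, ← mul_pow]
    refine pow_le_pow_left₀ (by positivity) ?_ _
    rw [pow_succ (2 : ℝ) s, mul_assoc ((2 : ℝ) ^ s)]
    exact mul_le_mul_of_nonneg_left (by linarith) (by positivity)
  have e3 : Real.exp (-(c / 2 * m)) ≤ (1 / N ^ s) ^ l := by
    rw [one_div, inv_pow, Real.exp_neg]
    refine inv_anti₀ (by positivity) ?_
    rw [hN, ← pow_mul, ← pow_mul, ← Real.exp_log (pow_pos hm0 _), Real.log_pow]
    refine Real.exp_le_exp.mpr ?_
    push_cast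
    nlinarith
  have e4 : (2 * N + 1) ^ s * (3 * N * Real.exp (-(c * m))) ≤ Real.exp (-(c / 2 * m)) := by
    have f1 : (2 * N + 1) ^ s * (3 * N) ≤ Real.exp (c / 2 * m) := by
      calc (2 * N + 1) ^ s * (3 * N) ≤ (3 * N) ^ s * (3 * N) :=
            mul_le_mul_of_nonneg_right (pow_le_pow_left₀ (by positivity) (by linarith) _)
              (by positivity)
        _ = 3 ^ (s + 1) * (m : ℝ) ^ (K₀ * (s + 1)) := by rw [← pow_succ, mul_pow, hN, ← pow_mul]
        _ ≤ _ := h2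
    calc (2 * N + 1) ^ s * (3 * N * Real.exp (-(c * m)))
        = (2 * N + 1) ^ s * (3 * N) * Real.exp (-(c * m)) := by ring
      _ ≤ Real.exp (c / 2 * m) * Real.exp (-(c * m)) :=
          mul_le_mul_of_nonneg_right f1 (Real.exp_pos _).le
      _ = _ := by rw [← Real.exp_add]; congr 1; ring
  have e5 : (2 : ℝ) ≤ 2 ^ ((s + 1) * l) := by
    calc (2 : ℝ) = 2 ^ 1 := by norm_num
      _ ≤ _ := pow_le_pow_right₀ (by norm_num) (Nat.mul_pos (Nat.succ_pos _) hl1)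
  rw [eR]
  have hp : 0 < (1 / N ^ s) ^ l := by positivity
  set a : ℝ := 2 ^ ((s + 1) * l)
  set b : ℝ := (1 / N ^ s) ^ l
  have : (a + 1) * b ≤ a ^ 2 * b := mul_le_mul_of_nonneg_right (by nlinarith) hp.le
  linarith

theorem asym_card {δ : ℝ} (hδ : 0 < δ) :
    ∀ᶠ m : ℕ in atTop, 2 * (16 * (m : ℝ) ^ 2) ^ (δ * m / 8) ≤ (m : ℝ) ^ (δ * m / 2) := by
  filter_upwards [eventually_ge_atTop 6,
    tendsto_natCast_atTop_atTop.eventually_ge_atTop (8 / δ)] with m hm h1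
  have hm6 : (6 : ℝ) ≤ m := by exact_mod_cast hm
  have hm0 : (0 : ℝ) < m := by linarith
  have ht : 1 ≤ δ * m / 8 := by
    rw [div_le_iff₀ hδ] at h1
    linarith
  have e1 : (m : ℝ) ^ (δ * m / 2) = ((m : ℝ) ^ 2 / 16) ^ (δ * m / 8) *
      (16 * (m : ℝ) ^ 2) ^ (δ * m / 8) := by
    rw [← Real.mul_rpow (by positivity) (by positivity),
      show (m : ℝ) ^ 2 / 16 * (16 * (m : ℝ) ^ 2) = (m : ℝ) ^ 4 by ring, ← Real.rpow_natCast,
      ← Real.rpow_mul hm0.le]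
    congr 1; push_cast; ring
  have e2 : (2 : ℝ) ≤ (m : ℝ) ^ 2 / 16 := by nlinarith
  have e3 : (m : ℝ) ^ 2 / 16 ≤ ((m : ℝ) ^ 2 / 16) ^ (δ * m / 8) := by
    conv_lhs => rw [← Real.rpow_one ((m : ℝ) ^ 2 / 16)]
    exact Real.rpow_le_rpow_of_exponent_le (by linarith) ht
  rw [e1]
  exact mul_le_mul_of_nonneg_right (e2.trans e3) (by positivity)

/-- the final count: `dim ≤ (1 - ε/4) m`, `free ≥ (1 - ε/32) m` -/
theorem asym_total {ε c : ℝ} (hε : 0 < ε) (hε1 : ε ≤ 1) (hc : 0 < c) {s K₀ : ℕ}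
    (hs : 32 / ε ≤ s) (hK : 96 / ε ≤ K₀) :
    ∀ᶠ m : ℕ in atTop, ∀ dim free : ℕ, (dim : ℝ) ≤ (1 - ε / 4) * m → (1 - ε / 32) * m ≤ free →
      Real.exp (2 * (c * ε / (512 * s)) * (m : ℝ) ^ 2) * 2 ^ m *
        (((2 * (2 * ((m ^ 5 : ℕ) : ℝ) * (3 * m)) * (m : ℝ) ^ 2 /
            (2 * ((m ^ 5 : ℕ) : ℝ) * (2 / (m : ℝ) ^ (K₀ + 7))) + 3) ^ dim) ^ ell c s K₀ m *
          ((4 * (m : ℝ) ^ (-((K₀ : ℝ) * s / (s + 1)))) ^ ell c s K₀ m) ^ free) ≤
      Real.exp (-(c * ε / (128 * s) * (m : ℝ) ^ 2)) := by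
  have s0 : (0 : ℝ) < s := (by positivity : (0 : ℝ) < 32 / ε).trans_le hs
  have K0 : (0 : ℝ) < K₀ := (by positivity : (0 : ℝ) < 96 / ε).trans_le hK
  rw [div_le_iff₀ hε] at hs hK
  have t0 := tendsto_natCast_atTop_atTop (R := ℝ)
  filter_upwards [t0.eventually (Real.isLittleO_log_id_atTop.def
      (show 0 < c / (2 * s * K₀) by positivity)), t0.eventually_ge_atTop 4,
    t0.eventually_ge_atTop (256 * s / (c * ε)),
    (Real.tendsto_log_atTop.comp t0).eventually_ge_atTop 3] with m h1 h2 h3 h4 dim free hd hf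
  have m0 : (0 : ℝ) < m := by linarith
  simp only [Function.comp_apply] at h4
  have L0 : 0 < Real.log m := by linarith
  rw [id, Real.norm_of_nonneg L0.le, Real.norm_of_nonneg m0.le] at h1
  have hl : c * m ≤ 4 * s * K₀ * Real.log m * ell c s K₀ m := by
    have a0 : 0 < 2 * s * K₀ * Real.log m := by positivity
    have a1 : 1 ≤ c * m / (2 * s * K₀ * Real.log m) := by
      rw [div_mul_eq_mul_div, le_div_iff₀ (by positivity)] at h1
      rw [one_le_div a0]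
      linarith
    have a2 : (1 : ℝ) ≤ ell c s K₀ m := by exact_mod_cast Nat.le_floor (by exact_mod_cast a1)
    have a3 : c * m / (2 * s * K₀ * Real.log m) < ell c s K₀ m + 1 := Nat.lt_floor_add_one _
    rw [div_lt_iff₀ a0] at a3
    linarith [mul_le_mul_of_nonneg_right a2 a0.le]
  have b1 : 2 * (2 * ((m ^ 5 : ℕ) : ℝ) * (3 * m)) * (m : ℝ) ^ 2 /
      (2 * ((m ^ 5 : ℕ) : ℝ) * (2 / (m : ℝ) ^ (K₀ + 7))) + 3 ≤
      Real.exp ((K₀ + 11) * Real.log m) := by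
    have a1 : Real.exp ((K₀ + 11) * Real.log m) = m * (m : ℝ) ^ (K₀ + 10) := by
      rw [← pow_succ', ← Real.exp_log (pow_pos m0 _), Real.log_pow]
      push_cast
      ring_nf
    have a2 : 2 * (2 * ((m ^ 5 : ℕ) : ℝ) * (3 * m)) * (m : ℝ) ^ 2 /
        (2 * ((m ^ 5 : ℕ) : ℝ) * (2 / (m : ℝ) ^ (K₀ + 7))) = 3 * (m : ℝ) ^ (K₀ + 10) := by
      push_cast
      field_simp
      ring
    have a3 : (m : ℝ) ≤ (m : ℝ) ^ (K₀ + 10) := le_self_pow₀ (by linarith) (by omega)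
    rw [a1, a2]
    linarith [mul_le_mul_of_nonneg_right h2 (pow_pos m0 (K₀ + 10)).le]
  have b2 : 4 * (m : ℝ) ^ (-((K₀ : ℝ) * s / (s + 1))) ≤
      Real.exp ((1 - (1 - ε / 32) * K₀) * Real.log m) := by
    have a1 : (1 - ε / 32) * K₀ ≤ (K₀ : ℝ) * s / (s + 1) := by
      rw [le_div_iff₀ (by positivity)]
      have : (1 - ε / 32) * (s + 1) ≤ s := by linarith
      linarith [mul_le_mul_of_nonneg_left this K0.le]
    rw [Real.rpow_def_of_pos m0, sub_mul, sub_eq_add_neg, Real.exp_add]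
    refine mul_le_mul ?_ (Real.exp_le_exp.2 ?_) (Real.exp_pos _).le (Real.exp_pos _).le
    · linarith [Real.add_one_le_exp (1 * Real.log m)]
    · linarith [mul_le_mul_of_nonneg_right a1 L0.le]
  have b3 : (2 : ℝ) ≤ Real.exp 1 := by linarith [Real.add_one_le_exp 1]
  have hK' : (96 : ℝ) ≤ K₀ := hK.trans (mul_le_of_le_one_right K0.le hε1)
  have c1 : (dim : ℝ) * ((K₀ + 11) * Real.log m) + free * ((1 - (1 - ε / 32) * K₀) * Real.log m) ≤
      -(ε * K₀ / 16) * (Real.log m * m) := by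
    have a1 : (1 - (1 - ε / 32) * K₀) * Real.log m ≤ 0 :=
      mul_nonpos_of_nonpos_of_nonneg (by linarith [mul_le_of_le_one_left K0.le hε1]) L0.le
    have a2 : (1 - ε / 4) * (K₀ + 11) + (1 - ε / 32) * (1 - (1 - ε / 32) * K₀) ≤
        -(ε * K₀ / 16) := by
      linarith [mul_pos (mul_pos hε hε) K0]
    linarith [mul_le_mul_of_nonneg_right hd (show 0 ≤ (K₀ + 11) * Real.log m by positivity),
      mul_le_mul_of_nonpos_right hf a1, mul_le_mul_of_nonneg_right a2 (mul_pos L0 m0).le]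
  refine le_trans (mul_le_mul (mul_le_mul_of_nonneg_left (pow_le_pow_left₀ zero_le_two b3 m)
    (Real.exp_pos _).le) (mul_le_mul (pow_le_pow_left₀ (by positivity) (pow_le_pow_left₀
      (by positivity) b1 dim) _) (pow_le_pow_left₀ (by positivity) (pow_le_pow_left₀
      (by positivity) b2 _) free) (by positivity) (by positivity)) (by positivity)
      (by positivity)) ?_
  simp only [← Real.exp_nat_mul, ← Real.exp_add]
  refine Real.exp_le_exp.2 ?_
  have d1 : (m : ℝ) ≤ c * ε / s * (m : ℝ) ^ 2 / 256 := by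
    rw [div_le_iff₀ (by positivity)] at h3
    rw [div_mul_eq_mul_div, div_div, le_div_iff₀ (by positivity)]
    linarith [mul_le_mul_of_nonneg_left h3 m0.le]
  have d2 : c * ε / s * (m : ℝ) ^ 2 ≤ 4 * (ε * K₀ * (Real.log m * m) * ell c s K₀ m) := by
    rw [div_mul_eq_mul_div, div_le_iff₀ s0]
    linarith [mul_le_mul_of_nonneg_left hl (mul_pos hε m0).le]
  have d3 : c * ε / (512 * s) = c * ε / s / 512 := by rw [div_div, mul_comm (s : ℝ)]
  have d4 : c * ε / (128 * s) = c * ε / s / 128 := by rw [div_div, mul_comm (s : ℝ)]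
  rw [d3, d4]
  linarith [mul_le_mul_of_nonneg_left c1 (Nat.cast_nonneg (α := ℝ) (ell c s K₀ m))]

end Crest.Agent.R152
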