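import Crest.Agent.R152.MDefs

/-! # Row 152, module M: basic facts on `nz`, signs and probabilities -/

set_option autoImplicit false
set_option linter.unusedSectionVars false
set_option linter.unusedVariables false

open Matrix Filter Topology Finset Crest.FinProb Crest.Agent.Lib.BoolCube

noncomputable section

namespace Crest.Agent.R152

variable {ι : Type} [Fintype ι] [DecidableEq ι]

theorem nz_nonneg (t : ℝ) : 0 ≤ nz t := by
  exact abs_nonneg _

theorem nz_le_abs_sub (t : ℝ) (z : ℤ) : nz t ≤ |t - z| := by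
  exact round_le t z

theorem nz_le_half (t : ℝ) : nz t ≤ 1 / 2 := by
  exact abs_sub_round t

theorem nz_add_le (s t : ℝ) : nz (s + t) ≤ nz s + nz t := by
  refine (nz_le_abs_sub _ (round s + round t)).trans ?_
  have e : s + t - ((round s + round t : ℤ) : ℝ) = (s - round s) + (t - round t) := by
    push_cast; ring
  rw [e]
  exact abs_add_le _ _

theorem nz_neg (t : ℝ) : nz (-t) = nz t := by
  have h : ∀ t : ℝ, nz (-t) ≤ nz t := fun t => by
    refine (nz_le_abs_sub _ (-round t)).trans (le_of_eq ?_)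
    rw [← abs_neg]
    unfold nz
    congr 1
    push_cast; ring
  have h2 := h (-t)
  rw [neg_neg] at h2
  exact le_antisymm (h t) h2

theorem nz_sub_le (s t : ℝ) : nz (s - t) ≤ nz s + nz t := by
  rw [sub_eq_add_neg, ← nz_neg t]
  exact nz_add_le _ _

theorem nz_add_int (t : ℝ) (z : ℤ) : nz (t + z) = nz t := by
  unfold nz
  rw [round_add_intCast]
  congr 1
  push_cast; ring

theorem nz_le_add_abs (s t : ℝ) : nz s ≤ nz t + |s - t| := by
  have h1 := nz_add_le t (s - t)
  have h2 := nz_le_abs_sub (s - t) 0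
  rw [add_sub_cancel] at h1
  rw [Int.cast_zero, sub_zero] at h2
  linarith

theorem nz_sum_le {α : Type} (s : Finset α) (f : α → ℝ) : nz (∑ a ∈ s, f a) ≤ ∑ a ∈ s, nz (f a) := by
  classical
  induction s using Finset.induction_on with
  | empty => simp [nz]
  | insert a s ha ih =>
    rw [Finset.sum_insert ha, Finset.sum_insert ha]
    exact (nz_add_le _ _).trans (by linarith)

theorem nz_int_mul_le (z : ℤ) (t : ℝ) : nz (z * t) ≤ |(z : ℝ)| * nz t := by
  refine (nz_le_abs_sub _ (z * round t)).trans (le_of_eq ?_)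
  unfold nz
  rw [← abs_mul]
  congr 1
  push_cast; ring

theorem one_sub_cos_ge (t : ℝ) : 8 * nz t ^ 2 ≤ 1 - Real.cos (2 * Real.pi * t) := by
  have e : Real.cos (2 * Real.pi * t) = Real.cos (2 * Real.pi * (t - round t)) := by
    rw [← Real.cos_sub_int_mul_two_pi (2 * Real.pi * t) (round t)]
    congr 1; ring
  have hp := Real.pi_pos
  have h1 : |2 * Real.pi * (t - round t)| ≤ Real.pi := by
    rw [abs_mul, abs_of_pos (by positivity : 0 < 2 * Real.pi)]
    nlinarith [abs_sub_round t]
  have h2 := Real.cos_le_one_sub_mul_cos_sq h1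
  have e2 : 2 / Real.pi ^ 2 * (2 * Real.pi * (t - round t)) ^ 2 = 8 * (t - round t) ^ 2 := by
    field_simp; ring
  rw [e, nz, sq_abs]
  linarith

theorem sg_abs (b : Bool) : |sg b| = 1 := by
  cases b <;> simp [sg]

theorem sg_injective : Function.Injective sg := by
  intro a b h
  cases a <;> cases b <;> simp_all [sg]

theorem sgv_injective : Function.Injective (sgv : (ι → Bool) → ι → ℤ) := by
  intro x y h
  funext i
  exact sg_injective (congrFun h i)

theorem sm_symm (b : Sym2 ι → Bool) : (sm b)ᵀ = sm b := by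
  ext i j
  simp only [sm, transpose_apply, of_apply, Sym2.eq_swap]

theorem sgv_sub_normSq (x x' : ι → Bool) :
    rv (sgv x - sgv x') ⬝ᵥ rv (sgv x - sgv x') ≤ 4 * Fintype.card ι := by
  have h : ∀ i, rv (sgv x - sgv x') i * rv (sgv x - sgv x') i ≤ 4 := fun i => by
    simp only [rv, sgv, sg, Pi.sub_apply]
    split_ifs <;> norm_num
  refine (Finset.sum_le_sum fun i _ => h i).trans (le_of_eq ?_)
  simp [mul_comm]

/-- a sign matrix moves sup norms by at most a factor `card ι` -/
theorem abs_sm_mulVec_le (b : Sym2 ι → Bool) (y : ι → ℝ) {η : ℝ} (hy : ∀ j, |y j| ≤ η) (i : ι) :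
    |(rm (sm b) *ᵥ y) i| ≤ Fintype.card ι * η := by
  refine (Finset.abs_sum_le_sum_abs _ _).trans
    ((Finset.sum_le_sum fun j _ => (?_ : _ ≤ η)).trans (le_of_eq (by simp)))
  have h : |((sg (b s(i, j)) : ℤ) : ℝ)| = 1 := by exact_mod_cast sg_abs _
  change |((sg (b s(i, j)) : ℤ) : ℝ) * y j| ≤ η
  rw [abs_mul, h, one_mul]
  exact hy j

theorem th_lt_one {p : ℝ} (h0 : 0 < p) (h1 : p < 1) : th p < 1 := by
  exact max_lt h1 (by linarith)

theorem th_pos (p : ℝ) : 0 < th p := by
  have h1 := le_max_left p (1 - p)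
  have h2 := le_max_right p (1 - p)
  unfold th
  linarith

end Crest.Agent.R152
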