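import Crest.Agent.R152.MQuot
import Crest.Agent.R152.WMain

/-! # Row 152, module M: cube-rich subspaces of small height are cheap -/

set_option autoImplicit false
set_option linter.unusedSectionVars false
set_option linter.unusedVariables false

open Matrix Filter Topology Finset Crest.FinProb Crest.Agent.Lib.BoolCube

noncomputable section

namespace Crest.Agent.R152

variable {ι : Type} [Fintype ι] [DecidableEq ι]

theorem pot_pos {s : ℝ} (hs : 0 < s) (M : Submodule ℤ (ι → ℤ)) : 0 < pot s M := by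
  exact mul_pos (pow_pos hs _) (gram_pos Matrix.PosDef.one M)

theorem MCheapA_one_le_gram (M : Submodule ℤ (ι → ℤ)) : 1 ≤ gram 1 M := by
  obtain ⟨n, hn, h⟩ := gram_one_nat M
  rw [h]
  exact_mod_cast hn

theorem one_le_pot {s : ℝ} (hs : 1 ≤ s) (M : Submodule ℤ (ι → ℤ)) : 1 ≤ pot s M := by
  exact one_le_mul_of_one_le_of_one_le (one_le_pow₀ hs) (MCheapA_one_le_gram M)

theorem pot_submod {s : ℝ} (hs : 0 < s) {M M' : Submodule ℤ (ι → ℤ)} (hM : SatIn M ⊤)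
    (hM' : SatIn M' ⊤) : pot s (M ⊔ M') * pot s (M ⊓ M') ≤ pot s M * pot s M' := by
  have h := mul_le_mul_of_nonneg_left (gram_submod Matrix.PosDef.one hM hM')
    (pow_pos hs (rk M + rk M')).le
  unfold pot
  rw [mul_mul_mul_comm, ← pow_add, rk_sup_add_inf, mul_mul_mul_comm (s ^ rk M), ← pow_add]
  exact h

/-- for natural `s` the potential takes natural values -/
theorem exists_isMin {s : ℕ} (hs : 1 ≤ s) (X : Finset (ι → ℤ)) : ∃ M, IsMin (s : ℝ) X M := by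
  classical
  have hnat : ∀ M : Submodule ℤ (ι → ℤ), ∃ n : ℕ, pot (s : ℝ) M = n := fun M => by
    obtain ⟨n, -, h⟩ := gram_one_nat M
    exact ⟨s ^ rk M * n, by rw [pot, h]; push_cast; rfl⟩
  have hex : ∃ n : ℕ, ∃ M : Submodule ℤ (ι → ℤ), (∀ g ∈ X, g ∈ M) ∧ pot (s : ℝ) M = n := by
    obtain ⟨n, hn⟩ := hnat ⊤
    exact ⟨n, ⊤, fun _ _ => trivial, hn⟩
  obtain ⟨M, hM, hMn⟩ := Nat.find_spec hex
  obtain ⟨M₁, h1, h2, h3, h4⟩ := exists_sat Matrix.PosDef.one (le_top : M ≤ ⊤)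
  refine ⟨M₁, fun g hg => h1 (hM g hg), h2, fun M' hM' => ?_⟩
  obtain ⟨n, hn⟩ := hnat M'
  have h5 : pot (s : ℝ) M₁ ≤ pot (s : ℝ) M := by
    rw [pot, pot, h3]
    exact mul_le_mul_of_nonneg_left h4 (by positivity)
  rw [hn]
  refine h5.trans ?_
  rw [hMn]
  exact_mod_cast Nat.find_min' hex ⟨M', hM', hn⟩

/-- the minimiser is almost contained in any dense lattice containing the samples
(saturate `L₀`, then `pot_submod`) -/
theorem isMin_sup_rank {s : ℝ} (hs : 1 ≤ s) {X : Finset (ι → ℤ)} {M L₀ : Submodule ℤ (ι → ℤ)}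
    (hM : IsMin s X M) (hX : ∀ g ∈ X, g ∈ L₀) :
    s ^ rk (M ⊔ L₀) ≤ s ^ rk L₀ * gram 1 L₀ := by
  have hs0 : 0 < s := one_pos.trans_le hs
  obtain ⟨L₁, h1, h2, h3, h4⟩ := exists_sat Matrix.PosDef.one (le_top : L₀ ≤ ⊤)
  have h5 := pot_submod hs0 hM.2.1 h2
  have h6 := hM.2.2 (M ⊓ L₁) fun g hg => ⟨hM.1 g hg, h1 (hX g hg)⟩
  have h7 : pot s (M ⊔ L₁) ≤ pot s L₁ := by
    have := (mul_le_mul_of_nonneg_left h6 (pot_pos hs0 (M ⊔ L₁)).le).trans h5
    rw [mul_comm] at this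
    exact le_of_mul_le_mul_left this (pot_pos hs0 M)
  calc s ^ rk (M ⊔ L₀) ≤ s ^ rk (M ⊔ L₁) := pow_le_pow_right₀ hs (rk_mono (sup_le_sup_left h1 M))
    _ ≤ pot s (M ⊔ L₁) := le_mul_of_one_le_right (by positivity) (MCheapA_one_le_gram _)
    _ ≤ pot s L₁ := h7
    _ ≤ s ^ rk L₀ * gram 1 L₀ := by
      rw [pot, h3]
      exact mul_le_mul_of_nonneg_left h4 (by positivity)

/-- Samples that raise the potential at scale `s²` by a factor at most `s ^ b` lie in few lattices of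
rank at most `rk M + b`.  Let `π, G₂` be the quotient by `M` (`exists_quot`, `L = ⊤`); `s • G₂` is stable by
minimality.  If `M'` is the minimiser for `insert g X`, `M'' = M' ⊔ M`, then `pot (s²) M'' ≤ s^b pot (s²) M`
(`pot_submod`, `M' ⊓ M` contains `X`), `pot s M ≤ pot s M''`; so `N = π M''` has rank `≤ b` and
`gram (s • G₂) N ≤ s ^ b`; `short_gens`, `wrm_form`, `finite_short`. -/
theorem cheap_step {β : ℝ} (hβ : 0 < β) {s : ℕ} (hs : 2 ≤ s) (b : ℕ) :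
    ∃ m₀ : ℕ, ∀ (ι : Type) [Fintype ι] [DecidableEq ι], m₀ ≤ Fintype.card ι →
      ∀ (X : Finset (ι → ℤ)) (M M₂ : Submodule ℤ (ι → ℤ)),
        IsMin (s : ℝ) X M → IsMin ((s ^ 2 : ℕ) : ℝ) X M₂ →
        ∃ 𝓛 : Finset (Submodule ℤ (ι → ℤ)),
          (𝓛.card : ℝ) ≤ Real.exp (β * b * Fintype.card ι) ∧ (∀ L ∈ 𝓛, rk L ≤ rk M + b) ∧
          ∀ (g : ι → ℤ) (M' : Submodule ℤ (ι → ℤ)), IsMin ((s ^ 2 : ℕ) : ℝ) (insert g X) M' →
            pot ((s ^ 2 : ℕ) : ℝ) M' ≤ (s : ℝ) ^ b * pot ((s ^ 2 : ℕ) : ℝ) M₂ → ∃ L ∈ 𝓛, g ∈ L := by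
  obtain ⟨σ, hσ, hw⟩ := wrm_form hβ
  obtain ⟨C, hC, hg⟩ := short_gens b
  refine ⟨⌈C * (s : ℝ) ^ b / σ⌉₊, fun ι _ _ hn X M M₂ hM hM₂ => ?_⟩
  classical
  have hn' : C * (s : ℝ) ^ b ≤ σ * Fintype.card ι := by
    rw [mul_comm σ, ← div_le_iff₀ hσ]
    exact Nat.ceil_le.1 hn
  have s1 : (1 : ℝ) < s := by exact_mod_cast hs
  have s0 : (0 : ℝ) < s := by linarith
  have s2 : (0 : ℝ) < ((s ^ 2 : ℕ) : ℝ) := by positivity
  obtain ⟨l, G₂, π, q1, q2, -, q4, -, q6⟩ := exists_quot (G := 1) Matrix.PosDef.one hM.2.1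
  have hS : ((s : ℝ) • G₂).PosDef := q1.smul s0
  have hmem : ∀ (N : Submodule ℤ (Fin l → ℤ)) (x : ι → ℤ),
      x ∈ (N.comap π).map (⊤ : Submodule ℤ (ι → ℤ)).subtype ↔ π ⟨x, trivial⟩ ∈ N := fun N x =>
    ⟨fun ⟨y, hy, e⟩ => by subst e; exact hy, fun h => ⟨⟨x, trivial⟩, h, rfl⟩⟩
  have h1 : ∀ N, 1 ≤ gram ((s : ℝ) • G₂) N := by
    intro N
    have h2 := hM.2.2 ((N.comap π).map (⊤ : Submodule ℤ (ι → ℤ)).subtype) fun g hg' =>
      (hmem N g).2 (by rw [(q4 ⟨g, trivial⟩).2 (hM.1 g hg')]; exact N.zero_mem)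
    have e : pot s ((N.comap π).map (⊤ : Submodule ℤ (ι → ℤ)).subtype) =
        pot s M * gram ((s : ℝ) • G₂) N := by
      show (s : ℝ) ^ rk _ * gram 1 _ = (s : ℝ) ^ rk M * gram 1 M * _
      rw [(q6 N).1, (q6 N).2, gram_smul, pow_add]
      ring
    rw [e] at h2
    exact (le_mul_iff_one_le_right (pot_pos s0 M)).1 h2
  have hSt := (stableF_iff_gram hS).2 h1
  let Y := (finite_short hS 0 (σ * Fintype.card ι)).toFinset
  have hY : ∀ z, z ∈ Y ↔ qf ((s : ℝ) • G₂) (rv z) ≤ σ * Fintype.card ι := fun z => by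
    rw [Set.Finite.mem_toFinset]
    show (0 - rv z) ⬝ᵥ _ *ᵥ (0 - rv z) ≤ _ ↔ rv z ⬝ᵥ _ *ᵥ rv z ≤ _
    rw [zero_sub, mulVec_neg, neg_dotProduct_neg]
  have hl : Fintype.card (Fin l) ≤ Fintype.card ι := by
    rw [Fintype.card_fin, ← rk_top (ι := ι)]
    omega
  have hYc := hw _ (Fin l) hl _ hSt Y fun z hz => (hY z).1 hz
  refine ⟨(Fintype.piFinset fun _ : Fin b => Y).image fun v =>
    ((Submodule.span ℤ (Set.range v)).comap π).map (⊤ : Submodule ℤ (ι → ℤ)).subtype, ?_,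
    fun L hL => ?_, fun g M' hM' hp => ?_⟩
  · refine (Nat.cast_le.2 Finset.card_image_le).trans ?_
    rw [Fintype.card_piFinset_const, Nat.cast_pow, mul_right_comm, mul_comm, Real.exp_nat_mul]
    exact pow_le_pow_left₀ (Nat.cast_nonneg _) hYc b
  · obtain ⟨v, -, rfl⟩ := Finset.mem_image.1 hL
    rw [(q6 _).1]
    exact Nat.add_le_add_left (rk_span_le v) _
  let N : Submodule ℤ (Fin l → ℤ) :=
    ((M' ⊔ M).comap (⊤ : Submodule ℤ (ι → ℤ)).subtype).map π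
  have eN : (N.comap π).map (⊤ : Submodule ℤ (ι → ℤ)).subtype = M' ⊔ M := by
    ext x
    rw [hmem]
    refine ⟨fun ⟨y, hy, e⟩ => ?_, fun h => ⟨⟨x, trivial⟩, h, rfl⟩⟩
    have h2 : x - y ∈ M := (q4 (⟨x, trivial⟩ - y)).1 (by rw [map_sub, e, sub_self])
    have h3 := (M' ⊔ M).add_mem (Submodule.mem_sup_right h2) hy
    rwa [Submodule.subtype_apply, sub_add_cancel] at h3
  have p1 := pot_submod s2 hM'.2.1 hM.2.1
  have p2 := hM₂.2.2 (M' ⊓ M) fun x hx => ⟨hM'.1 x (Finset.mem_insert_of_mem hx), hM.1 x hx⟩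
  have p3 : pot ((s ^ 2 : ℕ) : ℝ) (M' ⊔ M) =
      pot ((s ^ 2 : ℕ) : ℝ) M * ((s : ℝ) ^ rk N * gram ((s : ℝ) • G₂) N) := by
    rw [← eN]
    show ((s ^ 2 : ℕ) : ℝ) ^ rk _ * gram 1 _ = ((s ^ 2 : ℕ) : ℝ) ^ rk M * gram 1 M * _
    rw [(q6 N).1, (q6 N).2, gram_smul, pow_add, Nat.cast_pow]
    ring
  have p4 : (s : ℝ) ^ rk N * gram ((s : ℝ) • G₂) N ≤ (s : ℝ) ^ b := by
    refine le_of_mul_le_mul_left (le_of_mul_le_mul_right ?_ (pot_pos s2 M₂)) (pot_pos s2 M)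
    rw [← p3]
    refine ((mul_le_mul_of_nonneg_left p2 (pot_pos s2 _).le).trans p1).trans ?_
    refine (mul_le_mul_of_nonneg_right hp (pot_pos s2 M).le).trans (le_of_eq ?_)
    ring
  have p5 : rk N ≤ b := (pow_le_pow_iff_right₀ s1).1
    ((le_mul_of_one_le_right (by positivity) (h1 N)).trans p4)
  have p6 : gram ((s : ℝ) • G₂) N ≤ (s : ℝ) ^ b :=
    (le_mul_of_one_le_left (zero_le_one.trans (h1 N)) (one_le_pow₀ s1.le)).trans p4
  obtain ⟨v, v1, v2⟩ := hg (Fin l) _ hSt N p5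
  refine ⟨_, Finset.mem_image.2 ⟨v, Fintype.mem_piFinset.2 fun a => (hY _).2
    ((v1 a).trans ((mul_le_mul_of_nonneg_left p6 hC.le).trans hn')), rfl⟩, (hmem _ g).2 (v2 ?_)⟩
  exact ⟨⟨g, trivial⟩, Submodule.mem_sup_left (hM'.1 g (Finset.mem_insert_self _ _)), rfl⟩

/-- greedy choice of samples: while the minimiser has rank `< ε m / 2` some sample raises the potential
by a factor `> s ^ b` (`cheap_step`, `odlyzko`); the potential lies in `[1, s ^ (2 m)]` -/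
theorem cheap_greedy {ε : ℝ} (hε : 0 < ε) {s : ℕ} (hs : 2 ≤ s) {b : ℕ} (hb : 1 ≤ b) :
    ∃ m₀ : ℕ, ∀ (ι : Type) [Fintype ι] [DecidableEq ι], m₀ ≤ Fintype.card ι →
      ∀ mn : Finset (ι → ℤ) → Submodule ℤ (ι → ℤ), (∀ X, IsMin (s : ℝ) X (mn X)) →
      ∀ (S₁ : Finset (ι → Bool)) (x₁ : ι → Bool), Real.exp (ε * Fintype.card ι) ≤ S₁.card →
        ∃ X : Finset (ι → ℤ), (∀ g ∈ X, ∃ x ∈ S₁, g = sgv x - sgv x₁) ∧
          b * X.card ≤ 2 * Fintype.card ι ∧ ε * Fintype.card ι / 2 ≤ rk (mn X) := by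
  have b0 : (0 : ℝ) < b := by exact_mod_cast hb
  obtain ⟨m₀, H⟩ := cheap_step (β := ε / (4 * b)) (by positivity) hs b
  refine ⟨max m₀ ⌈2 * b / ε⌉₊, fun ι _ _ hm mn hmn S₁ x₁ hS => ?_⟩
  have hm1 : 2 * b ≤ ε * Fintype.card ι := by
    have : 2 * b / ε ≤ Fintype.card ι := Nat.ceil_le.1 (le_of_max_le_right hm)
    rw [div_le_iff₀ hε] at this
    linarith
  have s1 : (1 : ℝ) < s := by exact_mod_cast hs
  have hs2 : 1 ≤ s ^ 2 := Nat.one_le_pow _ _ (by omega)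
  choose mn₂ hmn₂ using fun X : Finset (ι → ℤ) => exists_isMin hs2 X
  have up : ∀ X, pot ((s ^ 2 : ℕ) : ℝ) (mn₂ X) ≤ (s : ℝ) ^ (2 * Fintype.card ι) := fun X => by
    refine ((hmn₂ X).2.2 ⊤ fun _ _ => Submodule.mem_top).trans (le_of_eq ?_)
    unfold pot
    rw [rk_top, gram_one_top, mul_one, pow_mul]
    push_cast
    rfl
  by_contra hcon
  have key : ∀ k : ℕ, ∃ X : Finset (ι → ℤ), (∀ g ∈ X, ∃ x ∈ S₁, g = sgv x - sgv x₁) ∧ X.card ≤ k ∧
      (s : ℝ) ^ (b * k) ≤ pot ((s ^ 2 : ℕ) : ℝ) (mn₂ X) := by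
    intro k
    induction k with
    | zero => exact ⟨∅, by simp, by simp, by
        rw [mul_zero, pow_zero]
        exact one_le_pot (by exact_mod_cast hs2) _⟩
    | succ k ih =>
      obtain ⟨X, h1, h2, h3⟩ := ih
      have h4 : b * k ≤ 2 * Fintype.card ι := (pow_le_pow_iff_right₀ s1).1 (h3.trans (up X))
      have h5 : (rk (mn X) : ℝ) < ε * Fintype.card ι / 2 := by
        by_contra h
        exact hcon ⟨X, h1, (Nat.mul_le_mul_left b h2).trans h4, not_lt.1 h⟩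
      obtain ⟨𝓛, l1, l2, l3⟩ := H ι (le_of_max_le_left hm) X _ _ (hmn X) (hmn₂ X)
      by_contra hno
      have h6 : ∀ x ∈ S₁, ∃ L ∈ 𝓛, sgv x - sgv x₁ ∈ L := by
        intro x hx
        refine l3 _ _ (hmn₂ _) ?_
        by_contra hlt
        refine hno ⟨insert (sgv x - sgv x₁) X, ?_, (card_insert_le _ _).trans (by omega), ?_⟩
        · intro g hg
          rcases mem_insert.1 hg with rfl | hg
          · exact ⟨x, hx, rfl⟩
          · exact h1 g hg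
        · rw [mul_add, mul_one, pow_add, mul_comm]
          exact (mul_le_mul_of_nonneg_left h3 (by positivity)).trans (not_le.1 hlt).le
      classical
      have h7 : S₁.card ≤ 𝓛.card * 2 ^ (rk (mn X) + b) := by
        have hsub : S₁ ⊆ 𝓛.biUnion fun L => S₁.filter fun x => sgv x - sgv x₁ ∈ L := by
          intro x hx
          obtain ⟨L, hL, h⟩ := h6 x hx
          exact mem_biUnion.2 ⟨L, hL, mem_filter.2 ⟨hx, h⟩⟩
        refine (card_le_card hsub).trans (card_biUnion_le_card_mul _ _ _ fun L hL => ?_)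
        refine (odlyzko L _ fun x hx x' hx' => ?_).trans (Nat.pow_le_pow_right two_pos (l2 L hL))
        have := L.sub_mem (mem_filter.1 hx).2 (mem_filter.1 hx').2
        rwa [sub_sub_sub_cancel_right] at this
      have h8 : (2 : ℝ) ^ (rk (mn X) + b) ≤ Real.exp (7 / 10 * (rk (mn X) + b)) := by
        have e2 : (2 : ℝ) ≤ Real.exp (7 / 10) := by
          rw [← Real.log_le_iff_le_exp two_pos]
          linarith [Real.log_two_lt_d9]
        refine (pow_le_pow_left₀ two_pos.le e2 _).trans (le_of_eq ?_)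
        rw [← Real.exp_nat_mul]
        push_cast
        rw [mul_comm]
      have h9 : (S₁.card : ℝ) ≤ 𝓛.card * 2 ^ (rk (mn X) + b) := by exact_mod_cast h7
      have h10 := hS.trans (h9.trans (mul_le_mul l1 h8 (by positivity) (by positivity)))
      have e : ε / (4 * b) * b = ε / 4 := by field_simp
      rw [← Real.exp_add, Real.exp_le_exp, e] at h10
      linarith
  obtain ⟨X, -, -, h3⟩ := key (2 * Fintype.card ι + 1)
  have h4 := (pow_le_pow_iff_right₀ s1).1 (h3.trans (up X))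
  nlinarith

/-- the number of small sets of vectors with entries in `{0, 2, -2}` -/
theorem card_samples (k : ℕ) : ∃ 𝓧 : Finset (Finset (ι → ℤ)),
    𝓧.card ≤ (3 ^ Fintype.card ι + 1) ^ k ∧
      ∀ X : Finset (ι → ℤ), X.card ≤ k → (∀ g ∈ X, ∃ x x' : ι → Bool, g = sgv x - sgv x') → X ∈ 𝓧 := by
  set U : Finset (ι → ℤ) := Fintype.piFinset fun _ => ({0, 2, -2} : Finset ℤ) with hU
  have hc : U.card = 3 ^ Fintype.card ι := by
    rw [hU, Fintype.card_piFinset, Finset.prod_const, Finset.card_univ]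
    rfl
  refine ⟨(Fintype.piFinset fun _ : Fin k => Finset.insertNone U).image
    fun f => Finset.eraseNone (Finset.univ.image f), Finset.card_image_le.trans ?_,
    fun X hk hX => ?_⟩
  · rw [Fintype.card_piFinset, Finset.prod_const, Finset.card_univ, Fintype.card_fin,
      Finset.card_insertNone, hc]
  · refine Finset.mem_image.2 ⟨fun i => X.toList[(i : ℕ)]?, Fintype.mem_piFinset.2 fun i => ?_, ?_⟩
    · refine Finset.mem_insertNone.2 fun g hg => ?_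
      obtain ⟨x, x', rfl⟩ := hX g (Finset.mem_toList.1 (List.mem_of_getElem? hg))
      refine Fintype.mem_piFinset.2 fun j => ?_
      simp only [Pi.sub_apply, sgv, sg]
      cases x j <;> cases x' j <;> simp
    · ext g
      simp only [Finset.mem_eraseNone, Finset.mem_image, Finset.mem_univ, true_and]
      refine ⟨fun ⟨i, hi⟩ => Finset.mem_toList.1 (List.mem_of_getElem? hi), fun hg => ?_⟩
      obtain ⟨i, hi⟩ := List.mem_iff_getElem?.1 (Finset.mem_toList.2 hg)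
      have := (List.getElem?_eq_some_iff.1 hi).1
      rw [Finset.length_toList] at this
      exact ⟨⟨i, this.trans_le hk⟩, hi⟩

/-- `b = ⌈2 / d⌉`, `s ≥ (2 τ) ^ (1 / d₁)` -/
theorem cheap {ε d d₁ τ : ℝ} (hε : 0 < ε) (hd : 0 < d) (hd₁ : 0 < d₁) (hτ : 1 ≤ τ) :
    ∃ m₀ : ℕ, ∀ (ι : Type) [Fintype ι] [DecidableEq ι], m₀ ≤ Fintype.card ι →
      ∃ 𝓕 : Finset (Submodule ℤ (ι → ℤ)),
        (𝓕.card : ℝ) ≤ Real.exp (2 * d * (Fintype.card ι : ℝ) ^ 2) ∧
        ∀ (L₀ : Submodule ℤ (ι → ℤ)) (S₁ : Finset (ι → Bool)),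
          gram 1 L₀ ≤ 2 * τ ^ Fintype.card ι → Real.exp (ε * Fintype.card ι) ≤ S₁.card →
          (∀ x ∈ S₁, ∀ x' ∈ S₁, sgv x - sgv x' ∈ L₀) →
          ∃ M ∈ 𝓕, ε * Fintype.card ι / 2 ≤ rk M ∧
            (rk (M ⊔ L₀) : ℝ) ≤ rk L₀ + d₁ * Fintype.card ι := by
  classical
  set s : ℕ := ⌈(2 * τ) ^ (1 / d₁)⌉₊ + 2 with hs
  have hs2 : 2 ≤ s := by omega
  have hs1 : (1 : ℝ) < s := by exact_mod_cast hs2
  have hsτ : 2 * τ ≤ (s : ℝ) ^ d₁ := by
    have h1 : (2 * τ) ^ (1 / d₁) ≤ (s : ℝ) := (Nat.le_ceil _).trans (by rw [hs]; push_cast; linarith)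
    have h2 := Real.rpow_le_rpow (by positivity) h1 hd₁.le
    rwa [← Real.rpow_mul (by positivity), one_div_mul_cancel hd₁.ne', Real.rpow_one] at h2
  set b : ℕ := ⌈2 / d⌉₊ with hb
  have hb1 : 1 ≤ b := Nat.ceil_pos.2 (by positivity)
  have hbd : 2 ≤ d * b := by
    have := Nat.le_ceil (2 / d)
    rwa [div_le_iff₀' hd] at this
  obtain ⟨m₀, hm₀⟩ := cheap_greedy hε hs2 hb1
  refine ⟨max m₀ 1, fun ι _ _ hm => ?_⟩
  have hm1 : 1 ≤ Fintype.card ι := le_of_max_le_right hm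
  choose mn hmn using fun X : Finset (ι → ℤ) => exists_isMin (s := s) (by omega) X
  obtain ⟨𝓧, h𝓧, h𝓧'⟩ := card_samples (ι := ι) ⌊d * Fintype.card ι⌋₊
  refine ⟨𝓧.image mn, ?_, fun L₀ S₁ hg hS hL => ?_⟩
  · have h1 : 3 ^ Fintype.card ι + 1 ≤ 4 ^ Fintype.card ι :=
      Nat.pow_lt_pow_left (by omega) (by omega)
    have h2 : (𝓧.image mn).card ≤ (4 ^ Fintype.card ι) ^ ⌊d * Fintype.card ι⌋₊ :=
      Finset.card_image_le.trans (h𝓧.trans (Nat.pow_le_pow_left h1 _))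
    have h3 : (4 : ℝ) ≤ Real.exp 2 := by
      have := Real.add_one_le_exp 1
      rw [show (2 : ℝ) = 1 + 1 by norm_num, Real.exp_add]
      nlinarith
    calc ((𝓧.image mn).card : ℝ) ≤ (4 ^ Fintype.card ι) ^ ⌊d * Fintype.card ι⌋₊ := by
          exact_mod_cast h2
      _ ≤ (Real.exp 2 ^ Fintype.card ι) ^ ⌊d * Fintype.card ι⌋₊ := by gcongr
      _ ≤ _ := by
        rw [← Real.exp_nat_mul, ← Real.exp_nat_mul, Real.exp_le_exp]
        have := mul_le_mul_of_nonneg_right (Nat.floor_le (a := d * Fintype.card ι) (by positivity))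
          (show (0 : ℝ) ≤ Fintype.card ι * 2 by positivity)
        linarith
  · obtain ⟨x₁, hx₁⟩ : S₁.Nonempty := by
      rw [← Finset.card_pos]
      exact_mod_cast (Real.exp_pos _).trans_le hS
    obtain ⟨X, hX1, hX2, hX3⟩ := hm₀ ι (le_of_max_le_left hm) mn hmn S₁ x₁ hS
    have hXk : X.card ≤ ⌊d * Fintype.card ι⌋₊ := by
      refine Nat.le_floor ?_
      have h1 : (b : ℝ) * X.card ≤ 2 * Fintype.card ι := by exact_mod_cast hX2
      have h2 := mul_le_mul_of_nonneg_left h1 hd.le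
      have h3 := mul_le_mul_of_nonneg_right hbd (Nat.cast_nonneg (α := ℝ) X.card)
      linarith
    refine ⟨mn X, Finset.mem_image_of_mem _ (h𝓧' X hXk fun g hg => ?_), hX3, ?_⟩
    · obtain ⟨x, -, rfl⟩ := hX1 g hg
      exact ⟨x, x₁, rfl⟩
    have h1 := isMin_sup_rank hs1.le (hmn X) (L₀ := L₀) fun g hg => by
      obtain ⟨x, hx, rfl⟩ := hX1 g hg
      exact hL x hx x₁ hx₁
    have h2 : gram 1 L₀ ≤ (s : ℝ) ^ (d₁ * Fintype.card ι) := by
      rw [Real.rpow_mul (by positivity), Real.rpow_natCast]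
      refine hg.trans (le_trans ?_ (pow_le_pow_left₀ (by positivity) hsτ _))
      rw [mul_pow]
      exact mul_le_mul_of_nonneg_right (le_self_pow₀ one_le_two (by omega)) (by positivity)
    have h3 := h1.trans (mul_le_mul_of_nonneg_left h2 (by positivity))
    rwa [← Real.rpow_natCast, ← Real.rpow_natCast, ← Real.rpow_add (by positivity),
      Real.rpow_le_rpow_left_iff hs1] at h3

end Crest.Agent.R152
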