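import Crest.Agent.R152.MLat

/-! # Row 152, module M: auxiliary lemmas for `exists_maxminor` and `torus_cover` -/

set_option autoImplicit false
set_option linter.unusedSectionVars false
set_option linter.unusedVariables false

open Matrix Finset

noncomputable section

namespace Crest.Agent.R152

variable {ι : Type} [Fintype ι] [DecidableEq ι]

theorem mcA_det_rm {t : ℕ} (B : Matrix (Fin t) (Fin t) ℤ) : (rm B).det = (B.det : ℝ) := by
  have := (Int.castRingHom ℝ).map_det B
  simpa [rm, RingHom.mapMatrix_apply] using this.symm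

theorem mcA_exists_minor {t : ℕ} (Z : Matrix ι (Fin t) ℤ) (hZ : Function.Injective Z.mulVec) :
    ∃ e : Fin t → ι, (Z.submatrix e id).det ≠ 0 := by
  have hinj := rm_injective Z hZ
  obtain ⟨κ, a, ha, hspan, hli⟩ := exists_linearIndependent' ℝ (rm Z).row
  have : Finite κ := Finite.of_injective a ha
  have : Fintype κ := Fintype.ofFinite κ
  have hrank : (rm Z).rank = t := by
    have h1 : Function.Injective (rm Z).mulVecLin := hinj
    rw [Matrix.rank, LinearMap.finrank_range_of_inj h1]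
    simp
  have hcard : Fintype.card κ = t := by
    rw [← finrank_span_eq_card hli, hspan, ← Matrix.rank_eq_finrank_span_row, hrank]
  let ε : Fin t ≃ κ := (Fintype.equivFinOfCardEq hcard).symm
  refine ⟨a ∘ ε, ?_⟩
  have hli' : LinearIndependent ℝ (rm (Z.submatrix (a ∘ ε) id)).row :=
    hli.comp ε ε.injective
  rw [Matrix.linearIndependent_rows_iff_isUnit, Matrix.isUnit_iff_isUnit_det, mcA_det_rm] at hli'
  exact_mod_cast hli'.ne_zero

theorem mcA_maxminor {t : ℕ} (Z : Matrix ι (Fin t) ℤ) (hZ : Function.Injective Z.mulVec) :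
    ∃ (e : Fin t → ι) (C : Matrix ι (Fin t) ℝ), Function.Injective e ∧
      (Z.submatrix e id).det ≠ 0 ∧
      (((Z.submatrix e id).det : ℝ)) ^ 2 ≤ ((rm Z)ᵀ * rm Z).det ∧
      (∀ i a, |C i a| ≤ 1) ∧ rm Z = C * rm (Z.submatrix e id) := by
  obtain ⟨e₀, he₀⟩ := mcA_exists_minor Z hZ
  have : Nonempty (Fin t → ι) := ⟨e₀⟩
  obtain ⟨e, he⟩ := Finite.exists_max fun e : Fin t → ι => |(Z.submatrix e id).det|
  have hne : (Z.submatrix e id).det ≠ 0 := by
    intro h
    have h1 := he e₀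
    rw [h, abs_zero] at h1
    exact he₀ (abs_nonpos_iff.mp h1)
  have hinj : Function.Injective e := by
    intro a b hab
    by_contra hab'
    refine hne (Matrix.det_zero_of_row_eq hab' ?_)
    funext j
    simp [hab]
  set B := Z.submatrix e id with hB
  have hdet : (rm B).det = (B.det : ℝ) := mcA_det_rm B
  have hne' : (rm B).det ≠ 0 := by
    rw [hdet]
    exact_mod_cast hne
  have hZB : rm Z = rm Z * (rm B)⁻¹ * rm B := by
    rw [Matrix.mul_assoc, Matrix.nonsing_inv_mul _ (isUnit_iff_ne_zero.mpr hne'), Matrix.mul_one]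
  refine ⟨e, rm Z * (rm B)⁻¹, hinj, hne, ?_, ?_, hZB⟩
  · have h1 : ((B.det : ℝ)) ^ 2 = ((rm B)ᵀ * rm B).det := by
      rw [Matrix.det_mul, Matrix.det_transpose, hdet, sq]
    rw [h1]
    refine det_mono ?_ ?_ fun x => ?_
    · simpa using Matrix.posSemidef_conjTranspose_mul_self (rm B)
    · simpa using Matrix.isHermitian_conjTranspose_mul_self (rm Z)
    · have h2 := qf_conj (1 : Matrix (Fin t) (Fin t) ℝ) (rm B) x
      have h3 := qf_conj (1 : Matrix ι ι ℝ) (rm Z) x
      rw [Matrix.mul_one] at h2 h3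
      rw [h2, h3]
      simp only [qf, Matrix.one_mulVec, dotProduct]
      have h4 : ∀ a, (rm B *ᵥ x) a = (rm Z *ᵥ x) (e a) := fun a => rfl
      simp only [h4]
      rw [← Finset.sum_image (s := Finset.univ) (g := e)
        (f := fun i => (rm Z *ᵥ x) i * (rm Z *ᵥ x) i) (fun a _ b _ h => hinj h)]
      exact Finset.sum_le_sum_of_subset_of_nonneg (Finset.subset_univ _)
        fun i _ _ => mul_self_nonneg _
  · intro i a
    set C := rm Z * (rm B)⁻¹ with hC
    have hrow : (rm Z) i = ∑ k, C i k • (rm B) k := by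
      funext j
      have := congrFun (congrFun hZB i) j
      rw [this, Matrix.mul_apply]
      simp
    have h1 : ((rm B).updateRow a ((rm Z) i)).det = C i a * (rm B).det := by
      rw [hrow, Matrix.det_updateRow_sum, smul_eq_mul]
    have h2 : (rm B).updateRow a ((rm Z) i) = rm (Z.submatrix (Function.update e a i) id) := by
      ext k j
      by_cases hk : k = a
      · subst hk
        simp [rm]
      · simp [rm, Matrix.updateRow_ne hk, Function.update_of_ne hk, hB]
    rw [h2, mcA_det_rm, hdet] at h1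
    have h3 : |((Z.submatrix (Function.update e a i) id).det : ℝ)| ≤ |(B.det : ℝ)| := by
      exact_mod_cast he (Function.update e a i)
    rw [h1, abs_mul] at h3
    have h4 : 0 < |(B.det : ℝ)| := abs_pos.mpr (by exact_mod_cast hne)
    nlinarith

theorem mcA_card_quot {t : ℕ} (B : Matrix (Fin t) (Fin t) ℤ) (hB : B.det ≠ 0) :
    Nat.card ((Fin t → ℤ) ⧸ LinearMap.range B.mulVecLin) = B.det.natAbs := by
  have hinj : Function.Injective B.mulVecLin := by
    rw [← LinearMap.ker_eq_bot, LinearMap.ker_eq_bot']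
    intro x hx
    exact Matrix.eq_zero_of_mulVec_eq_zero hB hx
  rw [← Submodule.natAbs_det_equiv _ (LinearEquiv.ofInjective B.mulVecLin hinj)]
  congr 1
  rw [← LinearMap.det_toLin' B]
  congr 1

theorem mcA_torus (L : Submodule ℤ (ι → ℤ)) :
    ∃ (N : ℕ) (f : (ι → ℝ) → ℕ) (ψ : (ι → ℝ) → ι → ℝ), (N : ℝ) ^ 2 ≤ gram 1 L ∧
      (∀ y, f y < N ∧ ψ y ∈ perp L ∧ ∀ j, |ψ y j| ≤ Fintype.card ι) ∧
      ∀ y y', IntOn L y → IntOn L y' → f y = f y' →
        ∃ z : ι → ℤ, y - y' = ψ y - ψ y' + rv z := by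
  classical
  obtain ⟨Z, hZ, hL⟩ := exists_basis_matrix L
  obtain ⟨e, C, he, hne, hle, hC, hZC⟩ := mcA_maxminor Z hZ
  set B := Z.submatrix e id with hB
  have hgram : gram 1 L = ((rm Z)ᵀ * rm Z).det := by
    have := (gram_eq (1 : Matrix ι ι ℝ) Z hZ).2
    rw [hL, Matrix.mul_one] at this
    exact this
  have hneT : Bᵀ.det ≠ 0 := by rwa [Matrix.det_transpose]
  have hcard := mcA_card_quot Bᵀ hneT
  rw [Matrix.det_transpose] at hcard
  have : Finite ((Fin (rk L) → ℤ) ⧸ LinearMap.range Bᵀ.mulVecLin) :=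
    Nat.finite_of_card_ne_zero (by rw [hcard]; exact Int.natAbs_ne_zero.mpr hne)
  -- the selection matrix
  let E : Matrix ι (Fin (rk L)) ℤ := Matrix.of fun j a => if e a = j then 1 else 0
  have hZE : Zᵀ * E = Bᵀ := by
    ext b a
    simp [Matrix.mul_apply, E, hB]
  have hZE' : (rm Z)ᵀ * rm E = (rm B)ᵀ := by
    ext b a
    simp [Matrix.mul_apply, E, hB, rm]
  have hEon : ∀ (u : Fin (rk L) → ℝ) (a : Fin (rk L)), (rm E *ᵥ u) (e a) = u a := by
    intro u a
    simp [Matrix.mulVec, dotProduct, E, rm, he.eq_iff]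
  have hEoff : ∀ (u : Fin (rk L) → ℝ) (j : ι), j ∉ Set.range e → (rm E *ᵥ u) j = 0 := by
    intro u j hj
    have : ∀ a, e a ≠ j := fun a h => hj ⟨a, h⟩
    simp [Matrix.mulVec, dotProduct, E, rm, this]
  let w : (ι → ℝ) → ι → ℝ := fun y j => if j ∈ Set.range e then 0 else Int.fract (y j)
  let n : (ι → ℝ) → ι → ℤ := fun y j => if j ∈ Set.range e then 0 else ⌊y j⌋
  let ψ : (ι → ℝ) → ι → ℝ := fun y => w y - rm E *ᵥ (Cᵀ *ᵥ w y)
  let u : (ι → ℝ) → Fin (rk L) → ℝ := fun y a => y (e a) + (Cᵀ *ᵥ w y) a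
  let k : (ι → ℝ) → Fin (rk L) → ℤ := fun y a => round (((rm B)ᵀ *ᵥ u y) a)
  have hw : ∀ y j, |w y j| ≤ 1 := by
    intro y j
    simp only [w]
    split_ifs
    · simp
    · rw [abs_of_nonneg (Int.fract_nonneg _)]
      exact (Int.fract_lt_one _).le
  have hψ0 : ∀ y, (rm Z)ᵀ *ᵥ ψ y = 0 := by
    intro y
    simp only [ψ]
    rw [Matrix.mulVec_sub, Matrix.mulVec_mulVec, hZE', Matrix.mulVec_mulVec, ← Matrix.transpose_mul,
      ← hZC, sub_self]
  have hdec : ∀ y, y = ψ y + rv (n y) + rm E *ᵥ u y := by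
    intro y
    funext j
    by_cases hj : j ∈ Set.range e
    · obtain ⟨a, rfl⟩ := hj
      have h1 : w y (e a) = 0 := if_pos ⟨a, rfl⟩
      have h2 : n y (e a) = 0 := if_pos ⟨a, rfl⟩
      simp only [Pi.add_apply, Pi.sub_apply, ψ, hEon, h1, h2, rv, u]
      simp
    · simp only [Pi.add_apply, Pi.sub_apply, ψ, hEoff _ j hj, w, n, rv, if_neg hj]
      have := Int.fract_add_floor (y j)
      linarith
  have hcol : ∀ (a : Fin (rk L)) (y : ι → ℝ),
      rv (Z *ᵥ Pi.single a 1) ⬝ᵥ y = ((rm Z)ᵀ *ᵥ y) a := by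
    intro a y
    rw [Matrix.mulVec_single_one]
    simp [rv, rm, Matrix.mulVec, dotProduct]
  have hk : ∀ y, IntOn L y → (rm B)ᵀ *ᵥ u y = rv (k y) := by
    intro y hy
    funext a
    obtain ⟨z, hz⟩ := hy (Z *ᵥ Pi.single a 1) (hL.le ⟨Pi.single a 1, rfl⟩)
    rw [hcol] at hz
    have h1 : (rm Z)ᵀ *ᵥ y = (rm Z)ᵀ *ᵥ rv (n y) + (rm B)ᵀ *ᵥ u y := by
      conv_lhs => rw [hdec y]
      rw [Matrix.mulVec_add, Matrix.mulVec_add, hψ0, zero_add, Matrix.mulVec_mulVec, hZE']
    have h2 : ((rm Z)ᵀ *ᵥ rv (n y)) a = ((Zᵀ *ᵥ n y) a : ℤ) := by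
      simp [rv, rm, Matrix.mulVec, dotProduct]
    have h3 : ((rm B)ᵀ *ᵥ u y) a = ((z - (Zᵀ *ᵥ n y) a : ℤ) : ℝ) := by
      have := congrFun h1 a
      rw [Pi.add_apply, hz, h2] at this
      push_cast
      linarith
    simp only [rv, k]
    rw [h3, round_intCast]
  refine ⟨Nat.card ((Fin (rk L) → ℤ) ⧸ LinearMap.range Bᵀ.mulVecLin),
    fun y => (Finite.equivFin ((Fin (rk L) → ℤ) ⧸ LinearMap.range Bᵀ.mulVecLin)
      (Submodule.Quotient.mk (k y)) : ℕ), ψ, ?_, fun y => ⟨?_, ?_, ?_⟩, ?_⟩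
  · rw [hcard, hgram, Nat.cast_natAbs, Int.cast_abs, sq_abs]
    exact hle
  · exact Fin.is_lt _
  · intro g hg
    obtain ⟨c, rfl⟩ := hL.ge hg
    have : rv (Z.mulVecLin c) = rm Z *ᵥ rv c := by
      funext j
      simp [rv, rm, Matrix.mulVec, dotProduct]
    rw [this, dotProduct_comm, Matrix.dotProduct_mulVec, ← Matrix.mulVec_transpose, hψ0,
      zero_dotProduct]
  · intro j
    by_cases hj : j ∈ Set.range e
    · obtain ⟨a, rfl⟩ := hj
      have h1 : ψ y (e a) = -∑ i, C i a * w y i := by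
        have h0 : w y (e a) = 0 := if_pos ⟨a, rfl⟩
        simp only [ψ, Pi.sub_apply, hEon, h0, zero_sub]
        simp [Matrix.mulVec, dotProduct]
      rw [h1, abs_neg]
      refine (Finset.abs_sum_le_sum_abs _ _).trans ?_
      have h2 : ∀ i ∈ (Finset.univ : Finset ι), |C i a * w y i| ≤ 1 := by
        intro i _
        rw [abs_mul]
        exact mul_le_one₀ (hC i a) (abs_nonneg _) (hw y i)
      simpa using Finset.sum_le_sum h2
    · have h1 : ψ y j = w y j := by
        simp only [ψ, Pi.sub_apply, hEoff _ j hj, sub_zero]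
      rw [h1]
      refine (hw y j).trans ?_
      have : 0 < Fintype.card ι := Fintype.card_pos_iff.mpr ⟨j⟩
      exact_mod_cast this
  · intro y y' hy hy' hf
    have h1 : (Submodule.Quotient.mk (k y) : (Fin (rk L) → ℤ) ⧸ LinearMap.range Bᵀ.mulVecLin) =
        Submodule.Quotient.mk (k y') := (Finite.equivFin _).injective (Fin.ext hf)
    rw [Submodule.Quotient.eq] at h1
    obtain ⟨m, hm⟩ := h1
    have h2 : (rm B)ᵀ *ᵥ (u y - u y' - rv m) = 0 := by
      rw [Matrix.mulVec_sub, Matrix.mulVec_sub, hk y hy, hk y' hy']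
      funext a
      have := congrFun hm a
      simp only [Matrix.mulVecLin_apply, Matrix.mulVec, dotProduct, Pi.sub_apply,
        Matrix.transpose_apply] at this
      have h3 : ((∑ x, B x a * m x : ℤ) : ℝ) = ((k y a - k y' a : ℤ) : ℝ) := by rw [this]
      push_cast at h3
      simp only [rv, rm, Matrix.mulVec, dotProduct, Pi.sub_apply, Matrix.transpose_apply,
        Matrix.map_apply, Pi.zero_apply]
      linarith
    have h4 : (rm B)ᵀ.det ≠ 0 := by
      rw [Matrix.det_transpose, mcA_det_rm]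
      exact_mod_cast hne
    have h5 := Matrix.eq_zero_of_mulVec_eq_zero h4 h2
    have h6 : u y = u y' + rv m := by
      rw [sub_sub, sub_eq_zero] at h5
      exact h5
    have h7 : rv (E *ᵥ m) = rm E *ᵥ rv m := by
      funext j
      simp [rv, rm, Matrix.mulVec, dotProduct]
    refine ⟨n y - n y' + E *ᵥ m, ?_⟩
    have h8 : rv (n y - n y' + E *ᵥ m) = rv (n y) - rv (n y') + rm E *ᵥ rv m := by
      rw [← h7]
      funext j
      simp [rv]
    rw [h8]
    have h9 := hdec y
    have h10 := hdec y'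
    rw [h6, Matrix.mulVec_add] at h9
    calc y - y' = (ψ y + rv (n y) + (rm E *ᵥ u y' + rm E *ᵥ rv m)) -
          (ψ y' + rv (n y') + rm E *ᵥ u y') := by rw [← h9, ← h10]
      _ = _ := by abel

end Crest.Agent.R152
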