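import Crest.Agent.R152.MLat
import Crest.Agent.R152.MCoverAux1

/-! # Row 152, module M: coverings -/

set_option autoImplicit false
set_option linter.unusedSectionVars false
set_option linter.unusedVariables false

open Matrix Filter Topology Finset Crest.FinProb Crest.Agent.Lib.BoolCube

noncomputable section

namespace Crest.Agent.R152

variable {ι : Type} [Fintype ι] [DecidableEq ι]

/-- an information set of maximal determinant: all rows are combinations of the rows `e a` with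
coefficients bounded by one -/
theorem exists_maxminor {t : ℕ} (Z : Matrix ι (Fin t) ℤ) (hZ : Function.Injective Z.mulVec) :
    ∃ (e : Fin t → ι) (C : Matrix ι (Fin t) ℝ), Function.Injective e ∧
      (Z.submatrix e id).det ≠ 0 ∧
      (((Z.submatrix e id).det : ℝ)) ^ 2 ≤ ((rm Z)ᵀ * rm Z).det ∧
      (∀ i a, |C i a| ≤ 1) ∧ rm Z = C * rm (Z.submatrix e id) :=
  mcA_maxminor Z hZ

/-- The closed subgroup `{y | y pairs integrally with L}` of the torus is covered by at most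
`covol L` translates of a box in `perp L`.  With `Z, e, C` from `exists_maxminor`: put `w j = fract (y j)` off the
range of `e`, `ψ y j = w j` there and `ψ y (e a) = - ∑_{j ∉ range e} w j * C j a`; `f y` is the class of the
integer vector `Zᵀ (y - ⌊y⌋ off range e - ψ y)` modulo `(Z.submatrix e id)ᵀ ℤ^t`
(`Submodule.natAbs_det_equiv` / index of the image lattice `= |det|`). -/
theorem torus_cover (L : Submodule ℤ (ι → ℤ)) :
    ∃ (N : ℕ) (f : (ι → ℝ) → ℕ) (ψ : (ι → ℝ) → ι → ℝ), (N : ℝ) ^ 2 ≤ gram 1 L ∧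
      (∀ y, f y < N ∧ ψ y ∈ perp L ∧ ∀ j, |ψ y j| ≤ Fintype.card ι) ∧
      ∀ y y', IntOn L y → IntOn L y' → f y = f y' →
        ∃ z : ι → ℤ, y - y' = ψ y - ψ y' + rv z :=
  mcA_torus L

/-- an orthonormal basis of the complement of `W` in `X` -/
theorem cell_basis (W X : Submodule ℝ (ι → ℝ)) (hWX : W ≤ X) :
    ∃ (k : ℕ) (u : Fin k → ι → ℝ), Module.finrank ℝ W + k = Module.finrank ℝ X ∧
      (∀ a j, |u a j| ≤ 1) ∧ ∀ x ∈ X, x - ∑ a, (x ⬝ᵥ u a) • u a ∈ W := by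
  let e : EuclideanSpace ℝ ι ≃ₗ[ℝ] (ι → ℝ) := WithLp.linearEquiv 2 ℝ (ι → ℝ)
  let W' : Submodule ℝ (EuclideanSpace ℝ ι) := W.map (e.symm : (ι → ℝ) →ₗ[ℝ] _)
  let X' : Submodule ℝ (EuclideanSpace ℝ ι) := X.map (e.symm : (ι → ℝ) →ₗ[ℝ] _)
  have hle : W' ≤ X' := Submodule.map_mono hWX
  let U : Submodule ℝ (EuclideanSpace ℝ ι) := W'ᗮ ⊓ X'
  let b := stdOrthonormalBasis ℝ U
  refine ⟨Module.finrank ℝ U, fun a => e (b a), ?_, fun a j => ?_, fun x hx => ?_⟩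
  · have := Submodule.finrank_add_inf_finrank_orthogonal hle
    rwa [LinearEquiv.finrank_map_eq, LinearEquiv.finrank_map_eq] at this
  · have h1 : ‖(b a : EuclideanSpace ℝ ι)‖ = 1 := b.orthonormal.1 a
    have h2 := PiLp.norm_apply_le (b a : EuclideanSpace ℝ ι) j
    rw [h1, Real.norm_eq_abs] at h2
    exact h2
  · have hx' : e.symm x ∈ W' ⊔ U := by
      rw [Submodule.sup_orthogonal_inf_of_hasOrthogonalProjection hle]
      exact ⟨x, hx, rfl⟩
    obtain ⟨_, ⟨w, hw, rfl⟩, v, hv, hwv⟩ := Submodule.mem_sup.1 hx'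
    have hc : ∀ a, x ⬝ᵥ e (b a) = inner ℝ (b a) (⟨v, hv⟩ : U) := by
      intro a
      have h1 : x ⬝ᵥ e (b a) = inner ℝ (b a : EuclideanSpace ℝ ι) (e.symm x) := by
        rw [EuclideanSpace.inner_eq_star_dotProduct]
        rfl
      rw [h1, ← hwv, inner_add_right, 
        Submodule.inner_left_of_mem_orthogonal (K := W') ⟨w, hw, rfl⟩ (b a).2.1, zero_add]
      rfl
    have hs : ∑ a, (x ⬝ᵥ e (b a)) • e (b a) = e v := by
      have := congrArg (fun y : U => e (y : EuclideanSpace ℝ ι)) (b.sum_repr' ⟨v, hv⟩)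
      simp only [AddSubmonoidClass.coe_finsetSum, SetLike.val_smul, map_sum, map_smul] at this
      simp only [hc]
      exact this
    have hxe : x = w + e v := by
      have := congrArg e hwv
      rw [map_add] at this
      exact this.symm
    rw [hs, hxe, add_sub_cancel_right]
    exact hw

/-- cells for the coordinates in an orthonormal basis of the complement of `W` in `X`
(work in `EuclideanSpace ℝ ι`; mesh `η / card ι`) -/
theorem cell_cover (W X : Submodule ℝ (ι → ℝ)) (hWX : W ≤ X) (r : ℕ)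
    (hr : Module.finrank ℝ X ≤ Module.finrank ℝ W + r) {R η : ℝ} (hR : 0 ≤ R) (hη : 0 < η) :
    ∃ (N : ℕ) (f : (ι → ℝ) → ℕ), (N : ℝ) ≤ (2 * R * (Fintype.card ι : ℝ) ^ 2 / η + 3) ^ r ∧
      (∀ x, (∀ j, |x j| ≤ R) → f x < N) ∧
      ∀ x ∈ X, ∀ x' ∈ X, (∀ j, |x j| ≤ R) → (∀ j, |x' j| ≤ R) → f x = f x' →
        ∃ w ∈ W, ∀ j, |x j - x' j - w j| ≤ η := by
  obtain ⟨k, u, hk, hu, hW⟩ := cell_basis W X hWX
  have hb1 : (1 : ℝ) ≤ 2 * R * (Fintype.card ι : ℝ) ^ 2 / η + 3 := by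
    have : 0 ≤ 2 * R * (Fintype.card ι : ℝ) ^ 2 / η := by positivity
    linarith
  rcases isEmpty_or_nonempty ι with hι | hι
  · refine ⟨1, fun _ => 0, by simpa using one_le_pow₀ hb1, fun _ _ => one_pos,
      fun x _ x' _ _ _ _ => ⟨0, zero_mem _, fun j => isEmptyElim j⟩⟩
  have hkr : k ≤ r := by omega
  have hkm : k ≤ Fintype.card ι := by
    have := Submodule.finrank_le X
    rw [Module.finrank_fintype_fun_eq_card] at this
    omega
  obtain ⟨m, hm⟩ : ∃ m : ℝ, m = Fintype.card ι := ⟨_, rfl⟩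
  have hm0 : 0 < m := by
    rw [hm]
    exact_mod_cast Fintype.card_pos
  have hc : ∀ x : ι → ℝ, (∀ j, |x j| ≤ R) → ∀ a, |x ⬝ᵥ u a| ≤ R * m := by
    intro x hx a
    refine (Finset.abs_sum_le_sum_abs _ _).trans ?_
    calc ∑ j, |x j * u a j| ≤ ∑ _j : ι, R := Finset.sum_le_sum fun j _ => by
          rw [abs_mul]
          exact (mul_le_of_le_one_right (abs_nonneg _) (hu a j)).trans (hx j)
      _ = R * m := by rw [hm]; simp [mul_comm]
  rw [← hm] at hb1 ⊢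
  let n : (ι → ℝ) → Fin k → ℕ := fun x a => ⌊(x ⬝ᵥ u a + R * m) * (m / η)⌋₊
  let M : ℕ := ⌊2 * R * m ^ 2 / η⌋₊ + 1
  have hn : ∀ x : ι → ℝ, (∀ j, |x j| ≤ R) → ∀ a, n x a < M := by
    intro x hx a
    refine Nat.lt_succ_of_le (Nat.floor_mono ?_)
    have h1 := (abs_le.1 (hc x hx a)).2
    calc (x ⬝ᵥ u a + R * m) * (m / η) ≤ (R * m + R * m) * (m / η) := by gcongr
      _ = 2 * R * m ^ 2 / η := by ring
  classical
  refine ⟨M ^ k, fun x => if h : ∀ a, n x a < M then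
    (finFunctionFinEquiv fun a => (⟨n x a, h a⟩ : Fin M) : ℕ) else 0, ?_, fun x hx => ?_, ?_⟩
  · have hM : (M : ℝ) ≤ 2 * R * m ^ 2 / η + 3 := by
      have := Nat.floor_le (a := 2 * R * m ^ 2 / η) (by positivity)
      simp only [M]
      push_cast
      linarith
    push_cast
    exact (pow_le_pow_left₀ (by positivity) hM k).trans (pow_le_pow_right₀ hb1 hkr)
  · simp only [dif_pos (hn x hx)]
    exact Fin.is_lt _
  · intro x hx x' hx' hb hb' hf
    simp only [dif_pos (hn x hb), dif_pos (hn x' hb')] at hf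
    have hf' := finFunctionFinEquiv.injective (Fin.ext hf)
    have hd : ∀ a, |x ⬝ᵥ u a - x' ⬝ᵥ u a| ≤ η / m := by
      intro a
      have h0 : n x a = n x' a := congrArg Fin.val (congrFun hf' a)
      have p1 : 0 ≤ (x ⬝ᵥ u a + R * m) * (m / η) :=
        mul_nonneg (by linarith [(abs_le.1 (hc x hb a)).1]) (by positivity)
      have p2 : 0 ≤ (x' ⬝ᵥ u a + R * m) * (m / η) :=
        mul_nonneg (by linarith [(abs_le.1 (hc x' hb' a)).1]) (by positivity)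
      have a1 := Nat.floor_le p1
      have a2 := Nat.lt_floor_add_one ((x ⬝ᵥ u a + R * m) * (m / η))
      have a3 := Nat.floor_le p2
      have a4 := Nat.lt_floor_add_one ((x' ⬝ᵥ u a + R * m) * (m / η))
      have h0' : ((⌊(x ⬝ᵥ u a + R * m) * (m / η)⌋₊ : ℕ) : ℝ) =
          (⌊(x' ⬝ᵥ u a + R * m) * (m / η)⌋₊ : ℕ) := by exact_mod_cast h0
      have h3 : |(x ⬝ᵥ u a - x' ⬝ᵥ u a) * (m / η)| ≤ 1 := by
        rw [abs_le]
        constructor <;> nlinarith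
      rw [abs_mul, abs_of_pos (by positivity : 0 < m / η), ← le_div_iff₀ (by positivity)] at h3
      rwa [one_div_div] at h3
    refine ⟨(x - ∑ a, (x ⬝ᵥ u a) • u a) - (x' - ∑ a, (x' ⬝ᵥ u a) • u a),
      sub_mem (hW x hx) (hW x' hx'), fun j => ?_⟩
    have e : x j - x' j - ((x - ∑ a, (x ⬝ᵥ u a) • u a) - (x' - ∑ a, (x' ⬝ᵥ u a) • u a)) j =
        ∑ a, (x ⬝ᵥ u a - x' ⬝ᵥ u a) * u a j := by
      simp only [Pi.sub_apply, Finset.sum_apply, Pi.smul_apply, smul_eq_mul, sub_mul,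
        Finset.sum_sub_distrib]
      ring
    rw [e]
    refine (Finset.abs_sum_le_sum_abs _ _).trans ?_
    calc ∑ a, |(x ⬝ᵥ u a - x' ⬝ᵥ u a) * u a j| ≤ ∑ _a : Fin k, η / m :=
          Finset.sum_le_sum fun a _ => by
            rw [abs_mul]
            exact (mul_le_of_le_one_right (abs_nonneg _) (hu a j)).trans (hd a)
      _ = k * (η / m) := by simp
      _ ≤ m * (η / m) := by
          gcongr
          rw [hm]
          exact_mod_cast hkm
      _ = η := by field_simp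

/-- a net of a box in a subspace -/
theorem exists_net (V : Submodule ℝ (ι → ℝ)) {R η : ℝ} (hR : 0 ≤ R) (hη : 0 < η) :
    ∃ Nt : Finset (ι → ℝ),
      (Nt.card : ℝ) ≤ (2 * R * (Fintype.card ι : ℝ) ^ 2 / η + 3) ^ Module.finrank ℝ V ∧
      ∀ v ∈ V, (∀ j, |v j| ≤ R) → ∃ v' ∈ Nt, ∀ j, |v j - v' j| ≤ η := by
  classical
  obtain ⟨N, f, hN, hf, hcell⟩ := cell_cover ⊥ V bot_le (Module.finrank ℝ V) (by simp) hR hη
  have hrep : ∀ n : ℕ, ∃ y : ι → ℝ, (∃ v ∈ V, (∀ j, |v j| ≤ R) ∧ f v = n) →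
      y ∈ V ∧ (∀ j, |y j| ≤ R) ∧ f y = n := by
    intro n
    by_cases h : ∃ v ∈ V, (∀ j, |v j| ≤ R) ∧ f v = n
    · obtain ⟨v, hv⟩ := h
      exact ⟨v, fun _ => hv⟩
    · exact ⟨0, fun h' => absurd h' h⟩
  choose y hy using hrep
  refine ⟨(Finset.range N).image y, ?_, fun v hv hb => ?_⟩
  · refine le_trans ?_ hN
    exact_mod_cast Finset.card_image_le.trans (Finset.card_range N).le
  · obtain ⟨h1, h2, h3⟩ := hy (f v) ⟨v, hv, hb, rfl⟩
    obtain ⟨w, hw, hd⟩ := hcell v hv _ h1 hb h2 h3.symm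
    rw [Submodule.mem_bot] at hw
    subst hw
    exact ⟨y (f v), Finset.mem_image_of_mem _ (Finset.mem_range.2 (hf v hb)),
      fun j => by simpa using hd j⟩

theorem ec_spec {r : ℕ} {S : Matrix (Fin r) (Fin r) ℝ} (hS : S.PosSemidef) :
    ∃ (U : Matrix (Fin r) (Fin r) ℝ) (lam : Fin r → ℝ), (∀ a, 0 ≤ lam a) ∧ U * Uᵀ = 1 ∧
      Uᵀ * U = 1 ∧ S = U * diagonal lam * Uᵀ := by
  refine ⟨hS.1.eigenvectorUnitary, hS.1.eigenvalues, hS.eigenvalues_nonneg, ?_, ?_, ?_⟩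
  · simpa [Matrix.star_eq_conjTranspose] using
      Matrix.mem_unitaryGroup_iff.1 hS.1.eigenvectorUnitary.2
  · simpa [Matrix.star_eq_conjTranspose] using
      Matrix.mem_unitaryGroup_iff'.1 hS.1.eigenvectorUnitary.2
  · conv_lhs => rw [hS.1.spectral_theorem, Unitary.conjStarAlgAut_apply]
    simp [Matrix.star_eq_conjTranspose]

theorem ec_floor {x y h : ℝ} (hh : 0 < h) (hx : 0 ≤ x) (hy : 0 ≤ y)
    (e : ⌊x / h⌋₊ = ⌊y / h⌋₊) : |x - y| ≤ h := by
  have h1 := Nat.floor_le (div_nonneg hx hh.le)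
  have h2 := Nat.floor_le (div_nonneg hy hh.le)
  have h3 := Nat.lt_floor_add_one (x / h)
  have h4 := Nat.lt_floor_add_one (y / h)
  rw [e] at h1 h3
  rw [le_div_iff₀ hh] at h1 h2
  rw [div_lt_iff₀ hh] at h3 h4
  rw [abs_le]
  constructor <;> nlinarith

/-- cells adapted to an ellipsoid (spectral theorem for `Ψᵀ Ψ`, mesh `η / (r √(1 + λ_a))`) -/
theorem ell_cover {r : ℕ} (Ψ : Matrix ι (Fin r) ℝ) {η : ℝ} (hη : 0 < η) (hη1 : η ≤ 1) :
    ∃ (N : ℕ) (f : (Fin r → ℝ) → ℕ),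
      (N : ℝ) ≤ (5 * ((r : ℝ) + 1) ^ 2 / η) ^ r * Real.sqrt (1 + Ψᵀ * Ψ).det ∧
      (∀ c, (∀ a, |c a| ≤ 1) → f c < N) ∧
      ∀ c c', (∀ a, |c a| ≤ 1) → (∀ a, |c' a| ≤ 1) → f c = f c' →
        ∀ j, |(Ψ *ᵥ (c - c')) j| ≤ η := by
  have hS : (Ψᵀ * Ψ).PosSemidef := by
    simpa using Matrix.posSemidef_conjTranspose_mul_self Ψ
  obtain ⟨U, lam, hlam, hU1, hU2, hSU⟩ := ec_spec hS
  have hr0 : (0 : ℝ) ≤ r := Nat.cast_nonneg r
  set q : Fin r → ℝ := fun a => Real.sqrt (1 + lam a) with hq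
  have hq1 : ∀ a, 1 ≤ q a := fun a => Real.one_le_sqrt.2 (by linarith [hlam a])
  have hq2 : ∀ a, q a ^ 2 = 1 + lam a := fun a => Real.sq_sqrt (by linarith [hlam a])
  set h : Fin r → ℝ := fun a => η / (((r : ℝ) + 1) * q a) with hh
  have hhp : ∀ a, 0 < h a := fun a => by
    have := hq1 a
    simp only [hh]
    positivity
  set m : Fin r → ℕ := fun a => ⌊2 * (r : ℝ) / h a⌋₊ with hm
  have hdet : (1 + Ψᵀ * Ψ).det = ∏ a, (1 + lam a) := by
    have : 1 + Ψᵀ * Ψ = U * diagonal (fun a => 1 + lam a) * Uᵀ := by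
      rw [hSU, ← diagonal_add, diagonal_one, Matrix.mul_add, Matrix.add_mul, Matrix.mul_one, hU1]
    rw [this, det_mul_comm, ← Matrix.mul_assoc, hU2, Matrix.one_mul, det_diagonal]
  have hUabs : ∀ i a, |U i a| ≤ 1 := by
    intro i a
    have h1 : ∑ b, U i b * U i b = 1 := by
      have := congrFun (congrFun hU1 i) i
      simpa [Matrix.mul_apply] using this
    have h2 : U i a * U i a ≤ ∑ b, U i b * U i b :=
      Finset.single_le_sum (f := fun b => U i b * U i b) (fun b _ => mul_self_nonneg _)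
        (Finset.mem_univ a)
    exact abs_le_one_iff_mul_self_le_one.2 (h1 ▸ h2)
  have ht : ∀ c : Fin r → ℝ, (∀ a, |c a| ≤ 1) → ∀ a, |(Uᵀ *ᵥ c) a| ≤ r := by
    intro c hc a
    simp only [mulVec, dotProduct, transpose_apply]
    calc |∑ i, U i a * c i| ≤ ∑ i, |U i a * c i| := Finset.abs_sum_le_sum_abs _ _
      _ ≤ ∑ _i : Fin r, (1 : ℝ) := Finset.sum_le_sum fun i _ => by
          rw [abs_mul]
          exact mul_le_one₀ (hUabs i a) (abs_nonneg _) (hc i)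
      _ = r := by simp
  let g : (Fin r → ℝ) → (∀ a, Fin (m a + 1)) := fun c a =>
    ⟨min ⌊((Uᵀ *ᵥ c) a + r) / h a⌋₊ (m a), Nat.lt_succ_of_le (min_le_right _ _)⟩
  refine ⟨Fintype.card (∀ a, Fin (m a + 1)), fun c => Fintype.equivFin _ (g c), ?_,
    fun c _ => (Fintype.equivFin _ (g c)).2, fun c c' hc hc' e j => ?_⟩
  · rw [Fintype.card_pi, hdet, Real.sqrt_prod _ fun a _ => by linarith [hlam a]]
    simp only [Fintype.card_fin]
    push_cast
    calc ∏ a, ((m a : ℝ) + 1) ≤ ∏ a, (5 * ((r : ℝ) + 1) ^ 2 / η * q a) := by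
          refine Finset.prod_le_prod (fun a _ => by positivity) fun a _ => ?_
          have h1 : (m a : ℝ) ≤ 2 * (r : ℝ) / h a := Nat.floor_le (div_nonneg (by linarith) (hhp a).le)
          have hqa := hq1 a
          have h2 : 2 * (r : ℝ) / h a = 2 * r * (r + 1) * q a / η := by
            simp only [hh]
            field_simp
          rw [h2, le_div_iff₀ hη] at h1
          rw [div_mul_eq_mul_div, le_div_iff₀ hη]
          have h3 : 0 ≤ (3 * (r : ℝ) ^ 2 + 8 * r + 4) * q a := by positivity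
          nlinarith
      _ = _ := by
          rw [Finset.prod_mul_distrib, Finset.prod_const, Finset.card_univ, Fintype.card_fin]
  · have e1 : g c = g c' := (Fintype.equivFin _).injective (Fin.ext e)
    have hmin : ∀ d : Fin r → ℝ, (∀ a, |d a| ≤ 1) → ∀ a,
        min ⌊((Uᵀ *ᵥ d) a + r) / h a⌋₊ (m a) = ⌊((Uᵀ *ᵥ d) a + r) / h a⌋₊ := by
      intro d hd a
      refine min_eq_left (Nat.floor_le_floor (div_le_div_of_nonneg_right ?_ (hhp a).le))
      linarith [(abs_le.1 (ht d hd a)).2]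
    have hta : ∀ a, |(Uᵀ *ᵥ (c - c')) a| ≤ h a := by
      intro a
      have e2 := congrArg Fin.val (congrFun e1 a)
      simp only [g] at e2
      rw [hmin c hc, hmin c' hc'] at e2
      have := ec_floor (hhp a) (by linarith [(abs_le.1 (ht c hc a)).1])
        (by linarith [(abs_le.1 (ht c' hc' a)).1]) e2
      rw [mulVec_sub, Pi.sub_apply]
      convert this using 2
      ring
    set d := c - c' with hd
    have hn : (Ψ *ᵥ d) ⬝ᵥ (Ψ *ᵥ d) = ∑ a, lam a * ((Uᵀ *ᵥ d) a) ^ 2 := by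
      have e3 : (Ψ *ᵥ d) ⬝ᵥ (Ψ *ᵥ d) = d ⬝ᵥ ((Ψᵀ * Ψ) *ᵥ d) := by
        rw [← mulVec_mulVec, dotProduct_mulVec d, vecMul_transpose]
      rw [e3, hSU, ← mulVec_mulVec, ← mulVec_mulVec, dotProduct_mulVec, ← mulVec_transpose]
      simp only [dotProduct, mulVec_diagonal]
      exact Finset.sum_congr rfl fun a _ => by ring
    have hb : ∀ a, lam a * ((Uᵀ *ᵥ d) a) ^ 2 ≤ η ^ 2 / ((r : ℝ) + 1) ^ 2 := by
      intro a
      have h1 : ((Uᵀ *ᵥ d) a) ^ 2 ≤ h a ^ 2 := by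
        rw [← sq_abs]
        exact pow_le_pow_left₀ (abs_nonneg _) (hta a) 2
      have hqa := hq1 a
      have h2 : q a ^ 2 * h a ^ 2 = η ^ 2 / ((r : ℝ) + 1) ^ 2 := by
        simp only [hh]
        field_simp
      rw [← h2, hq2]
      nlinarith [mul_le_mul_of_nonneg_left h1 (hlam a), sq_nonneg (h a)]
    have hsum : (Ψ *ᵥ d) ⬝ᵥ (Ψ *ᵥ d) ≤ η ^ 2 := by
      rw [hn]
      calc _ ≤ ∑ _a : Fin r, η ^ 2 / ((r : ℝ) + 1) ^ 2 := Finset.sum_le_sum fun a _ => hb a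
        _ = r * (η ^ 2 / ((r : ℝ) + 1) ^ 2) := by simp
        _ ≤ η ^ 2 := by
          rw [← mul_div_assoc, div_le_iff₀ (by positivity)]
          have : 0 ≤ η ^ 2 * ((r : ℝ) ^ 2 + r + 1) := by positivity
          nlinarith
    have hj : (Ψ *ᵥ d) j * (Ψ *ᵥ d) j ≤ (Ψ *ᵥ d) ⬝ᵥ (Ψ *ᵥ d) :=
      Finset.single_le_sum (f := fun i => (Ψ *ᵥ d) i * (Ψ *ᵥ d) i)
        (fun i _ => mul_self_nonneg _) (Finset.mem_univ j)
    exact abs_le_of_sq_le_sq' (by nlinarith) hη.le |> abs_le.2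

/-- `Ψ = Z (Zᵀ Z)⁻¹ Zᵀ Φ`; `Matrix.det_one_add_mul_comm` -/
theorem exists_proj (L : Submodule ℤ (ι → ℤ)) {r : ℕ} (Φ : Matrix ι (Fin r) ℝ) :
    ∃ Ψ : Matrix ι (Fin r) ℝ, (∀ c, Φ *ᵥ c - Ψ *ᵥ c ∈ perp L) ∧
      (1 + Ψᵀ * Ψ).det * gram 1 L = gram (1 + Φ * Φᵀ) L := by
  obtain ⟨P, hP, hL⟩ := exists_basis_matrix L
  have hg : ∀ G : Matrix ι ι ℝ, gram G L = ((rm P)ᵀ * G * rm P).det := fun G => by
    rw [← (gram_eq G P hP).2, hL]
  set Z := rm P with hZ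
  set A := Zᵀ * Z with hA
  have hAdet : gram 1 L = A.det := by rw [hg, Matrix.mul_one]
  have hAu : IsUnit A.det := by
    rw [← hAdet]
    exact (gram_pos Matrix.PosDef.one L).ne'.isUnit
  have hAt : (A⁻¹)ᵀ = A⁻¹ := by
    rw [transpose_nonsing_inv, hA, transpose_mul, transpose_transpose]
  set B := Zᵀ * Φ with hB
  refine ⟨Z * (A⁻¹ * B), fun c g hg' => ?_, ?_⟩
  · rw [← hL] at hg'
    obtain ⟨x, rfl⟩ := hg'
    have e1 : rv (P.mulVecLin x) = Z *ᵥ rv x := by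
      funext i
      simp [rv, hZ, rm, mulVec, dotProduct]
    have e2 : Zᵀ * (Φ - Z * (A⁻¹ * B)) = 0 := by
      rw [Matrix.mul_sub, ← Matrix.mul_assoc, ← hA, ← Matrix.mul_assoc, mul_nonsing_inv _ hAu,
        Matrix.one_mul, sub_self]
    rw [e1, ← sub_mulVec, dotProduct_comm, dotProduct_mulVec, ← mulVec_transpose, mulVec_mulVec,
      e2, zero_mulVec, zero_dotProduct]
  · have e3 : (Z * (A⁻¹ * B))ᵀ * (Z * (A⁻¹ * B)) = Bᵀ * (A⁻¹ * B) := by
      rw [transpose_mul, transpose_mul, hAt, Matrix.mul_assoc, ← Matrix.mul_assoc Zᵀ, ← hA,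
        ← Matrix.mul_assoc A, mul_nonsing_inv _ hAu, Matrix.one_mul, Matrix.mul_assoc]
    rw [e3, det_one_add_mul_comm, hAdet, mul_comm, ← det_mul, hg]
    congr 1
    rw [Matrix.mul_add, Matrix.mul_one, Matrix.mul_assoc A⁻¹, ← Matrix.mul_assoc A,
      mul_nonsing_inv _ hAu, Matrix.one_mul, Matrix.mul_add, Matrix.add_mul, Matrix.mul_one, hB,
      transpose_mul, transpose_transpose]
    simp only [Matrix.mul_assoc, hA]

theorem mc_pigeon {α β : Type} (H : Finset α) (t : Finset β) (F : α → β)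
    (hF : ∀ a ∈ H, F a ∈ t) :
    ∃ H₁ ⊆ H, H.card ≤ H₁.card * t.card ∧ ∀ a ∈ H₁, ∀ a' ∈ H₁, F a = F a' := by
  classical
  rcases H.eq_empty_or_nonempty with rfl | ⟨a, ha⟩
  · exact ⟨∅, Finset.Subset.rfl, Nat.zero_le _, fun a ha => absurd ha (notMem_empty a)⟩
  obtain ⟨b, -, hb⟩ := exists_max_image t (fun b => (H.filter fun a => F a = b).card) ⟨_, hF a ha⟩
  exact ⟨_, filter_subset _ _, card_le_mul_card_image_of_maps_to hF _ hb,
    fun a ha a' ha' => (mem_filter.1 ha).2.trans (mem_filter.1 ha').2.symm⟩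

/-- pigeonhole over the three coverings (`W = perp M ⊓ perp L`, `X = perp L`) -/
theorem cover {L M : Submodule ℤ (ι → ℤ)} {r r₀ : ℕ} (hrk : rk (M ⊔ L) ≤ rk L + r₀)
    (Φ : Matrix ι (Fin r) ℝ) (H : Finset ((ι → ℝ) × (Fin r → ℝ))) (hint : ∀ h ∈ H, IntOn L h.1)
    (hc : ∀ h ∈ H, ∀ a, |h.2 a| ≤ 1) {η : ℝ} (hη : 0 < η) (hη1 : η ≤ 1) :
    ∃ H₁ ⊆ H, (H.card : ℝ) ≤ gram (1 + Φ * Φᵀ) L * (5 * ((r : ℝ) + 1) ^ 2 / η) ^ r *
        (2 * (Fintype.card ι : ℝ) ^ 3 / η + 3) ^ r₀ * H₁.card ∧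
      ∀ h ∈ H₁, ∀ h' ∈ H₁, ∃ (z : ι → ℤ) (v : ι → ℝ), v ∈ perp M ∧
        (∀ j, |v j| ≤ 2 * Fintype.card ι + 1) ∧
        ∀ j, |pt Φ h j - pt Φ h' j - z j - v j| ≤ 2 * η := by
  obtain ⟨Ψ, hΨ, hdet⟩ := exists_proj L Φ
  obtain ⟨N₁, f₁, ψ, n1, a1, b1⟩ := torus_cover L
  have hm : (0 : ℝ) ≤ Fintype.card ι := Nat.cast_nonneg _
  obtain ⟨N₂, f₂, n2, a2, b2⟩ := cell_cover (perp (M ⊔ L)) (perp L)
    ((perp_sup M L).le.trans inf_le_right) r₀
    (by have := finrank_perp L; have := finrank_perp (M ⊔ L); omega) hm hη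
  obtain ⟨N₃, f₃, n3, a3, b3⟩ := ell_cover Ψ hη hη1
  obtain ⟨y, hy⟩ : ∃ y : (ι → ℝ) × (Fin r → ℝ) → ι → ℝ,
    y = fun h => h.1 + (Φ *ᵥ h.2 - Ψ *ᵥ h.2) := ⟨_, rfl⟩
  have hy1 : ∀ h ∈ H, IntOn L (y h) := fun h hh g hg => by
    rw [hy]
    beta_reduce
    rw [dotProduct_add, hΨ h.2 g hg, add_zero]
    exact hint h hh g hg
  obtain ⟨H₁, h1, h2, h3⟩ := mc_pigeon H (range N₁ ×ˢ range N₃ ×ˢ range N₂)
    (fun h => (f₁ (y h), f₃ h.2, f₂ (ψ (y h)))) fun h hh => mem_product.2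
      ⟨mem_range.2 (a1 _).1, mem_product.2 ⟨mem_range.2 (a3 _ (hc h hh)),
        mem_range.2 (a2 _ (a1 _).2.2)⟩⟩
  refine ⟨H₁, h1, (Nat.cast_le.2 h2).trans ?_, fun h hh h' hh' => ?_⟩
  · have hP : (Φ * Φᵀ).PosSemidef := posSemidef_self_mul_conjTranspose Φ
    obtain ⟨n, g1, g2⟩ := gram_one_nat L
    have g3 : 1 ≤ gram 1 L := g2 ▸ Nat.one_le_cast.2 g1
    have g4 : gram 1 L ≤ gram (1 + Φ * Φᵀ) L :=
      gram_mono PosSemidef.one (isHermitian_one.add hP.isHermitian) (fun x => by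
        change x ⬝ᵥ 1 *ᵥ x ≤ x ⬝ᵥ (1 + Φ * Φᵀ) *ᵥ x
        rw [add_mulVec, dotProduct_add]
        exact le_add_of_nonneg_right (hP.dotProduct_mulVec_nonneg x)) L
    have g5 : 0 ≤ (1 + Ψᵀ * Ψ).det :=
      nonneg_of_mul_nonneg_left (hdet ▸ by linarith) (by linarith : 0 < gram 1 L)
    have g6 : N₁ * Real.sqrt (1 + Ψᵀ * Ψ).det ≤ gram (1 + Φ * Φᵀ) L := by
      refine le_of_pow_le_pow_left₀ two_ne_zero (by linarith) ?_
      rw [mul_pow, Real.sq_sqrt g5]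
      nlinarith [mul_le_mul_of_nonneg_right n1 g5]
    rw [card_product, card_product, card_range, card_range, card_range, Nat.cast_mul, Nat.cast_mul,
      Nat.cast_mul, mul_comm, ← mul_assoc]
    refine mul_le_mul_of_nonneg_right (mul_le_mul ?_ (n2.trans_eq (by ring_nf)) (by positivity)
      (mul_nonneg (by linarith) (by positivity))) (Nat.cast_nonneg _)
    refine (mul_le_mul_of_nonneg_left n3 (Nat.cast_nonneg _)).trans ?_
    rw [mul_left_comm, mul_comm]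
    exact mul_le_mul_of_nonneg_right g6 (by positivity)
  · have e := h3 h hh h' hh'
    rw [Prod.mk.injEq, Prod.mk.injEq] at e
    obtain ⟨z, hz⟩ := b1 _ _ (hy1 h (h1 hh)) (hy1 h' (h1 hh')) e.1
    obtain ⟨w, hw, hw'⟩ := b2 _ (a1 _).2.1 _ (a1 _).2.1 (a1 _).2.2 (a1 _).2.2 e.2.2
    refine ⟨z, w, ((perp_sup M L).le.trans inf_le_left) hw, fun j => ?_, fun j => ?_⟩
    · have c1 := abs_le.1 (hw' j)
      have c2 := abs_le.1 ((a1 (y h)).2.2 j)
      have c3 := abs_le.1 ((a1 (y h')).2.2 j)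
      exact abs_le.2 ⟨by linarith, by linarith⟩
    · have c1 := abs_le.1 (hw' j)
      have c2 := abs_le.1 (b3 _ _ (hc h (h1 hh)) (hc h' (h1 hh')) e.2.1 j)
      have c3 : y h j - y h' j = ψ (y h) j - ψ (y h') j + z j := congrFun hz j
      have c4 : ∀ k : (ι → ℝ) × (Fin r → ℝ), pt Φ k j = y k j + (Ψ *ᵥ k.2) j := fun k => by
        rw [hy]
        change k.1 j + (Φ *ᵥ k.2) j = k.1 j + ((Φ *ᵥ k.2) j - (Ψ *ᵥ k.2) j) + (Ψ *ᵥ k.2) j
        ring
      rw [mulVec_sub, Pi.sub_apply] at c2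
      rw [c4, c4]
      exact abs_le.2 ⟨by linarith, by linarith⟩

end Crest.Agent.R152
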