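import Crest.Agent.R152.WDefs
import Crest.Agent.Lib.BoolCube.Basic

/-!
# Row 152, module M (master theorem): definitions

`MMain.master`: outside an event of probability `exp (-c m²)`, a symmetric sign matrix `A` has no
"dual datum" (`Bad`): a large set `S` of sign vectors together with a huge separated set of points `y`
with `A y` almost integral and `y` almost orthogonal (mod 1) to `S - S`.
-/

set_option autoImplicit false

open Matrix Finset Crest.FinProb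

noncomputable section

namespace Crest.Agent.R152

variable {ι : Type} [Fintype ι] [DecidableEq ι]

/-- the sign of a coin -/
def sg (b : Bool) : ℤ := if b then 1 else -1

/-- the sign vector of an outcome -/
def sgv (x : ι → Bool) : ι → ℤ := fun i => sg (x i)

/-- the symmetric sign matrix of an outcome (`symSignMatrix n b = sm b` by `rfl`) -/
def sm (b : Sym2 ι → Bool) : Matrix ι ι ℤ := Matrix.of fun i j => sg (b s(i, j))

/-- distance to the nearest integer -/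
def nz (t : ℝ) : ℝ := |t - round t|

/-- the largest atom of one coin -/
def th (p : ℝ) : ℝ := max p (1 - p)

/-! ### lattices -/

/-- rank of a sublattice of `ℤ^ι` -/
def rk (M : Submodule ℤ (ι → ℤ)) : ℕ := Module.finrank ℤ M

/-- squared covolume of a sublattice of `ℤ^ι` for the form `G` -/
def gram (G : Matrix ι ι ℝ) (M : Submodule ℤ (ι → ℤ)) : ℝ :=
  (Matrix.of fun a b : Fin (Module.finrank ℤ M) =>
    rv (Module.finBasis ℤ M a : ι → ℤ) ⬝ᵥ G *ᵥ rv (Module.finBasis ℤ M b : ι → ℤ)).det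

/-- `M` is saturated in `L` -/
def SatIn (M L : Submodule ℤ (ι → ℤ)) : Prop :=
  M ≤ L ∧ ∀ x ∈ L, ∀ c : ℤ, c ≠ 0 → c • x ∈ M → x ∈ M

/-- real orthogonal complement of a sublattice -/
def perp (M : Submodule ℤ (ι → ℤ)) : Submodule ℝ (ι → ℝ) where
  carrier := {y | ∀ g ∈ M, rv g ⬝ᵥ y = 0}
  add_mem' := by
    intro a b ha hb g hg
    rw [dotProduct_add, ha g hg, hb g hg, add_zero]
  zero_mem' := by
    intro g hg
    exact dotProduct_zero _
  smul_mem' := by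
    intro c a ha g hg
    rw [dotProduct_smul, ha g hg, smul_zero]

/-- `y` pairs integrally with the lattice `L` -/
def IntOn (L : Submodule ℤ (ι → ℤ)) (y : ι → ℝ) : Prop := ∀ g ∈ L, ∃ z : ℤ, rv g ⬝ᵥ y = z

/-- the potential `s ^ rank · covolume²` -/
def pot (s : ℝ) (M : Submodule ℤ (ι → ℤ)) : ℝ := s ^ rk M * gram 1 M

/-- `M` is a saturated minimiser of `pot s` among the lattices containing `X` -/
def IsMin (s : ℝ) (X : Finset (ι → ℤ)) (M : Submodule ℤ (ι → ℤ)) : Prop :=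
  (∀ g ∈ X, g ∈ M) ∧ SatIn M ⊤ ∧
    ∀ M' : Submodule ℤ (ι → ℤ), (∀ g ∈ X, g ∈ M') → pot s M ≤ pot s M'

/-! ### separated sets, the seminorm, small ball probabilities -/

/-- the multiples `2 k (u - u')`, `1 ≤ k ≤ N`, stay `1/(4 m)`-far from `ℤ^ι` -/
def Far (N : ℕ) (u u' : ι → ℝ) : Prop :=
  ∀ k : ℕ, 1 ≤ k → k ≤ N → ∃ j, 1 / (4 * (Fintype.card ι : ℝ)) ≤ nz (2 * k * (u j - u' j))

/-- the seminorm on `ℤ^ι` attached to a finite set of points -/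
def sn (H : Finset (ι → ℝ)) (a : ι → ℤ) : ℝ :=
  Real.sqrt ((∑ u ∈ H, ∑ u' ∈ H, nz (rv a ⬝ᵥ (u - u')) ^ 2) / (H.card : ℝ) ^ 2)

/-- no non-trivial `{0,1,-1}` combination of the vectors `2 k e_j`, `j ∈ D`, has small seminorm -/
def Dissoc (H : Finset (ι → ℝ)) (ν : ℝ) (k : ℕ) (D : Finset ι) : Prop :=
  ∀ e : ι → ℤ, (∀ j, e j = 0 ∨ e j = 1 ∨ e j = -1) → (∀ j, j ∉ D → e j = 0) →
    sn H ((2 * k : ℤ) • e) ≤ ν → e = 0

/-- the sign vector restricted to `I` -/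
def sgI (I : Finset ι) (x : ι → Bool) : ι → ℤ := fun j => if j ∈ I then sg (x j) else 0

/-- joint small ball probability mod 1 of the points `Y i`, with fresh signs on `I` -/
def sb (p : ℝ) (I : Finset ι) {l : ℕ} (Y : Fin l → ι → ℝ) (z : Fin l → ℝ) (ρ : ℝ) : ℝ :=
  bernoulliProb p {x : ι → Bool | ∀ i, nz (rv (sgI I x) ⬝ᵥ Y i - z i) ≤ ρ}

/-- sum of `T` differences -/
def dsum {T : ℕ} (ω : Fin T → (ι → ℝ) × (ι → ℝ)) : ι → ℝ := ∑ t, ((ω t).1 - (ω t).2)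

/-- all sequences of `T` pairs from `H` -/
def seqs (H : Finset (ι → ℝ)) (T : ℕ) : Finset (Fin T → (ι → ℝ) × (ι → ℝ)) :=
  Fintype.piFinset fun _ => H ×ˢ H

/-- `y` is within `η` of a point of `V` of sup norm at most `R`, and `A y` is within `η` of `ℤ^ι` -/
def Near (A : Matrix ι ι ℤ) (V : Submodule ℝ (ι → ℝ)) (R η : ℝ) (y : ι → ℝ) : Prop :=
  (∃ v ∈ V, (∀ j, |v j| ≤ R) ∧ ∀ j, |y j - v j| ≤ η) ∧ ∀ j, nz ((rm A *ᵥ y) j) ≤ η

/-! ### the bad event -/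

/-- the point of a pair (torsion part, coefficients of the real part) -/
def pt {r : ℕ} (Φ : Matrix ι (Fin r) ℝ) (h : (ι → ℝ) × (Fin r → ℝ)) : ι → ℝ := h.1 + Φ *ᵥ h.2

/-- a dual datum for `A`; `m = card ι` -/
def Bad (ε δ δ' : ℝ) (K : ℕ) (A : Matrix ι ι ℤ) : Prop :=
  ∃ (S : Finset (ι → Bool)) (r : ℕ) (Φ : Matrix ι (Fin r) ℝ) (H : Finset ((ι → ℝ) × (Fin r → ℝ))),
    Real.exp (ε * Fintype.card ι) ≤ S.card ∧
    (r : ℝ) ≤ δ' * Fintype.card ι ∧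
    (Fintype.card ι : ℝ) ^ (δ * Fintype.card ι) ≤ H.card ∧
    (∀ x ∈ S, ∀ x' ∈ S,
      (rv (sgv x - sgv x') ᵥ* Φ) ⬝ᵥ (rv (sgv x - sgv x') ᵥ* Φ) ≤ Fintype.card ι) ∧
    (∀ x ∈ S, ∀ x' ∈ S, ∀ h ∈ H, ∃ z : ℤ, rv (sgv x - sgv x') ⬝ᵥ h.1 = z) ∧
    (∀ h ∈ H, ∀ a, |h.2 a| ≤ 1) ∧
    (∀ h ∈ H, ∀ j, nz ((rm A *ᵥ pt Φ h) j) ≤ 1 / (Fintype.card ι : ℝ) ^ K) ∧
    (∀ h ∈ H, ∀ h' ∈ H, h ≠ h' → Far (Fintype.card ι ^ K) (pt Φ h) (pt Φ h'))

end Crest.Agent.R152
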