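import Crest.Agent.R152.MFilt
import Crest.Agent.R152.MCheap
import Crest.Agent.R152.MCover

/-! # Row 152, module M: from a dual datum to a cheap subspace -/

set_option autoImplicit false
set_option linter.unusedSectionVars false
set_option linter.unusedVariables false

open Matrix Filter Topology Finset Crest.FinProb Crest.Agent.Lib.BoolCube

noncomputable section

namespace Crest.Agent.R152

variable {ι : Type} [Fintype ι] [DecidableEq ι]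

theorem md_qf {r : ℕ} (Φ : Matrix ι (Fin r) ℝ) (x : ι → ℝ) :
    qf (1 + Φ * Φᵀ) x = x ⬝ᵥ x + (x ᵥ* Φ) ⬝ᵥ (x ᵥ* Φ) := by
  unfold qf
  rw [Matrix.add_mulVec, Matrix.one_mulVec, dotProduct_add, ← Matrix.mulVec_mulVec,
    Matrix.dotProduct_mulVec, Matrix.mulVec_transpose]

theorem md_dot_nonneg {κ : Type} [Fintype κ] (x : κ → ℝ) : 0 ≤ x ⬝ᵥ x :=
  Finset.sum_nonneg fun i _ => mul_self_nonneg _

theorem md_posDef {r : ℕ} (Φ : Matrix ι (Fin r) ℝ) : (1 + Φ * Φᵀ).PosDef := by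
  have h1 : (1 : Matrix ι ι ℝ).PosDef := Matrix.PosDef.one
  have h2 : (Φ * Φᵀ).PosSemidef := by
    have := Matrix.posSemidef_self_mul_conjTranspose Φ
    simpa using this
  exact h1.add_posSemidef h2

/-- the lattice of integer vectors pairing integrally with the torsion parts -/
def mdLam {r : ℕ} (H : Finset ((ι → ℝ) × (Fin r → ℝ))) : Submodule ℤ (ι → ℤ) where
  carrier := {g | ∀ h ∈ H, ∃ z : ℤ, rv g ⬝ᵥ h.1 = z}
  add_mem' := by
    intro a b ha hb h hh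
    obtain ⟨z, hz⟩ := ha h hh
    obtain ⟨w, hw⟩ := hb h hh
    refine ⟨z + w, ?_⟩
    have : rv (a + b) = rv a + rv b := by ext i; simp [rv]
    rw [this, add_dotProduct, hz, hw]; push_cast; ring
  zero_mem' := by
    intro h hh
    refine ⟨0, ?_⟩
    have : rv (0 : ι → ℤ) = 0 := by ext i; simp [rv]
    rw [this, zero_dotProduct]; simp
  smul_mem' := by
    intro c a ha h hh
    obtain ⟨z, hz⟩ := ha h hh
    refine ⟨c * z, ?_⟩
    have : rv (c • a) = (c : ℝ) • rv a := by ext i; simp [rv]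
    rw [this, smul_dotProduct, hz]; push_cast; simp

theorem md_count {δ τ : ℝ} (hδ : 0 < δ) (hδ1 : δ ≤ 1) (hτ : 1 ≤ τ) (K : ℕ) :
    ∀ᶠ m : ℕ in atTop, ∀ r r₀ : ℕ, (r : ℝ) ≤ δ / (8 * (K + 4)) * m →
      (r₀ : ℝ) ≤ δ / (8 * (K + 4)) * m →
      2 * τ ^ m * (5 * ((r : ℝ) + 1) ^ 2 / (1 / (m : ℝ) ^ K)) ^ r *
        (2 * (m : ℝ) ^ 3 / (1 / (m : ℝ) ^ K) + 3) ^ r₀ ≤ (m : ℝ) ^ (δ * m / 2) := by
  have ht : Tendsto (fun m : ℕ => (m : ℝ) ^ (δ / 4)) atTop atTop :=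
    (tendsto_rpow_atTop (by positivity)).comp tendsto_natCast_atTop_atTop
  filter_upwards [ht.eventually_ge_atTop (2 * τ), eventually_ge_atTop 5] with m hm h5 r r₀ hr hr₀
  have hm5 : (5 : ℝ) ≤ m := by exact_mod_cast h5
  have hm1 : (1 : ℝ) ≤ m := by linarith
  have hm0 : (0 : ℝ) < m := by linarith
  have hK4 : (4 : ℝ) ≤ K + 4 := by have : (0 : ℝ) ≤ K := Nat.cast_nonneg K; linarith
  have hd : δ / (8 * (K + 4)) ≤ 1 / 32 := by
    rw [div_le_div_iff₀ (by positivity) (by norm_num)]; nlinarith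
  have hr1 : (r : ℝ) + 1 ≤ m := by nlinarith
  have hpK : (1 : ℝ) ≤ (m : ℝ) ^ K := one_le_pow₀ hm1
  have hb1 : 5 * ((r : ℝ) + 1) ^ 2 / (1 / (m : ℝ) ^ K) ≤ (m : ℝ) ^ (K + 4) := by
    rw [div_div_eq_mul_div, div_one, pow_add, mul_comm ((m : ℝ) ^ K)]
    refine mul_le_mul_of_nonneg_right ?_ (by positivity)
    have h2 : ((r : ℝ) + 1) ^ 2 ≤ (m : ℝ) ^ 2 := pow_le_pow_left₀ (by positivity) hr1 2
    have h3 : (5 : ℝ) ≤ (m : ℝ) ^ 2 := by nlinarith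
    calc 5 * ((r : ℝ) + 1) ^ 2 ≤ (m : ℝ) ^ 2 * (m : ℝ) ^ 2 :=
          mul_le_mul h3 h2 (by positivity) (by positivity)
      _ = _ := by ring
  have hb2 : 2 * (m : ℝ) ^ 3 / (1 / (m : ℝ) ^ K) + 3 ≤ (m : ℝ) ^ (K + 4) := by
    rw [div_div_eq_mul_div, div_one, pow_add]
    have h3 : (1 : ℝ) ≤ (m : ℝ) ^ 3 := one_le_pow₀ hm1
    have h4 : (1 : ℝ) ≤ (m : ℝ) ^ 3 * (m : ℝ) ^ K := one_le_mul_of_one_le_of_one_le h3 hpK
    have h6 : (m : ℝ) ^ K * (m : ℝ) ^ 4 = m * ((m : ℝ) ^ 3 * (m : ℝ) ^ K) := by ring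
    rw [h6]; nlinarith
  have key : ∀ q : ℕ, (q : ℝ) ≤ δ / (8 * (K + 4)) * m →
      ((m : ℝ) ^ (K + 4)) ^ q ≤ (m : ℝ) ^ (δ * m / 8) := by
    intro q hq
    rw [← pow_mul, ← Real.rpow_natCast]
    refine Real.rpow_le_rpow_of_exponent_le hm1 ?_
    push_cast
    have : ((K : ℝ) + 4) * (δ / (8 * (K + 4)) * m) = δ * m / 8 := by field_simp
    rw [← this]
    exact mul_le_mul_of_nonneg_left hq (by positivity)
  have h1 : (5 * ((r : ℝ) + 1) ^ 2 / (1 / (m : ℝ) ^ K)) ^ r ≤ (m : ℝ) ^ (δ * m / 8) :=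
    (pow_le_pow_left₀ (by positivity) hb1 r).trans (key r hr)
  have h2 : (2 * (m : ℝ) ^ 3 / (1 / (m : ℝ) ^ K) + 3) ^ r₀ ≤ (m : ℝ) ^ (δ * m / 8) :=
    (pow_le_pow_left₀ (by positivity) hb2 r₀).trans (key r₀ hr₀)
  have h3 : 2 * τ ^ m ≤ (m : ℝ) ^ (δ * m / 4) := by
    have e : (m : ℝ) ^ (δ * m / 4) = ((m : ℝ) ^ (δ / 4)) ^ m := by
      rw [← Real.rpow_natCast, ← Real.rpow_mul hm0.le]; congr 1; ring
    rw [e]
    have h2m : (2 : ℝ) ≤ 2 ^ m := by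
      calc (2 : ℝ) = 2 ^ 1 := by norm_num
        _ ≤ 2 ^ m := pow_le_pow_right₀ (by norm_num) (by omega)
    calc 2 * τ ^ m ≤ 2 ^ m * τ ^ m := mul_le_mul_of_nonneg_right h2m (by positivity)
      _ = (2 * τ) ^ m := (mul_pow _ _ _).symm
      _ ≤ _ := pow_le_pow_left₀ (by positivity) hm m
  calc _ ≤ (m : ℝ) ^ (δ * m / 4) * (m : ℝ) ^ (δ * m / 8) * (m : ℝ) ^ (δ * m / 8) := by
        refine mul_le_mul (mul_le_mul h3 h1 (by positivity) (by positivity)) h2 (by positivity)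
          (by positivity)
    _ = _ := by rw [← Real.rpow_add hm0, ← Real.rpow_add hm0]; congr 1; ring

/-- Deterministic part I.  `filt` with `β = ε / 2`, `G = 1 + Φ Φᵀ`, `Λ = {g | ∀ h ∈ H, g·h.1 ∈ ℤ}`; `cheap`
with `ε / 2`, `d₁ = δ / (8 (K + 4))`; `cover` with `η = m^{-K}`, `r₀ = ⌊d₁ m⌋`; then
`H₂ = {pt h - pt h₀ - z h}`, `V = perp M`.  The covering number is at most
`2 τ^m · m^{(K+3) δ' m} · m^{(K+4) d₁ m} ≤ m^{δ m / 2}`. -/
theorem bad_to_near {ε δ d : ℝ} (hε : 0 < ε) (hδ : 0 < δ) (hδ1 : δ ≤ 1) (hd : 0 < d) (K : ℕ) :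
    ∃ m₀ : ℕ, ∀ (ι : Type) [Fintype ι] [DecidableEq ι], m₀ ≤ Fintype.card ι →
      ∃ 𝓥 : Finset (Submodule ℝ (ι → ℝ)),
        (𝓥.card : ℝ) ≤ Real.exp (2 * d * (Fintype.card ι : ℝ) ^ 2) ∧
        (∀ V ∈ 𝓥, (Module.finrank ℝ V : ℝ) ≤ (1 - ε / 4) * Fintype.card ι) ∧
        ∀ A : Matrix ι ι ℤ, Bad ε δ (δ / (8 * (K + 4))) K A →
          ∃ V ∈ 𝓥, ∃ H₂ : Finset (ι → ℝ),
            (Fintype.card ι : ℝ) ^ (δ * Fintype.card ι / 2) ≤ H₂.card ∧
            (∀ u ∈ H₂, Near A V (3 * Fintype.card ι) (2 / (Fintype.card ι : ℝ) ^ K) u) ∧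
            ∀ u ∈ H₂, ∀ u' ∈ H₂, u ≠ u' → Far (Fintype.card ι ^ K) u u' := by
  classical
  obtain ⟨τ, hτ, hfilt⟩ := filt (β := ε / 2) (by positivity)
  have hd₁ : 0 < δ / (8 * ((K : ℝ) + 4)) := by positivity
  obtain ⟨m₁, hm₁⟩ := cheap (ε := ε / 2) (by positivity) hd hd₁ hτ
  obtain ⟨m₂, hm₂⟩ := eventually_atTop.1 (md_count hδ hδ1 hτ K)
  refine ⟨max (max m₁ m₂) 1, ?_⟩
  intro ι _ _ hm
  set m := Fintype.card ι with hm_def
  have hm1 : 1 ≤ m := le_trans (le_max_right _ _) hm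
  have hmR : (1 : ℝ) ≤ m := by exact_mod_cast hm1
  have hm0 : (0 : ℝ) < m := by linarith
  obtain ⟨𝓕, h𝓕card, h𝓕⟩ := hm₁ ι (le_trans (le_trans (le_max_left _ _) (le_max_left _ _)) hm)
  have hcount := hm₂ m (le_trans (le_trans (le_max_right _ _) (le_max_left _ _)) hm)
  refine ⟨(𝓕.filter fun M => ε / 2 * m / 2 ≤ (rk M : ℝ)).image perp, ?_, ?_, ?_⟩
  · refine le_trans ?_ h𝓕card
    exact_mod_cast Finset.card_image_le.trans (Finset.card_filter_le _ _)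
  · intro V hV
    obtain ⟨M, hM, rfl⟩ := Finset.mem_image.1 hV
    have h1 := (Finset.mem_filter.1 hM).2
    have h2 : (Module.finrank ℝ (perp M) : ℝ) + rk M = m := by exact_mod_cast finrank_perp M
    linarith
  intro A hA
  obtain ⟨S, r, Φ, H, hS, hr, hH, hΦ, hint, hc, hAy, hfar⟩ := hA
  obtain ⟨L₀, hL₀, hgram, S₁, hS₁, hS₁card, hS₁L⟩ := hfilt ι (1 + Φ * Φᵀ) (md_posDef Φ)
    (fun x => by rw [md_qf]; have := md_dot_nonneg (x ᵥ* Φ); linarith) (mdLam H) S (by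
      intro x hx x' hx'
      refine ⟨fun h hh => hint x hx x' hx' h hh, ?_⟩
      rw [md_qf]
      have h1 := sgv_sub_normSq x x'
      have h2 := hΦ x hx x' hx'
      linarith)
  have hg1 : gram 1 L₀ ≤ 2 * τ ^ m := by
    refine le_trans (gram_mono Matrix.PosSemidef.one (md_posDef Φ).isHermitian ?_ L₀) hgram
    intro x
    rw [md_qf]
    have := md_dot_nonneg (x ᵥ* Φ)
    simp only [qf, Matrix.one_mulVec]
    linarith
  have hS₁big : Real.exp (ε / 2 * m) ≤ S₁.card := by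
    have h1 : Real.exp (ε * m) = Real.exp (ε / 2 * m) * Real.exp (ε / 2 * m) := by
      rw [← Real.exp_add]; congr 1; ring
    have h2 := hS.trans hS₁card
    rw [h1] at h2
    exact le_of_mul_le_mul_left h2 (Real.exp_pos _)
  obtain ⟨M, hM, hMrk, hMsup⟩ := h𝓕 L₀ S₁ hg1 hS₁big hS₁L
  set r₀ : ℕ := rk (M ⊔ L₀) - rk L₀ with hr₀
  have hrkle : rk L₀ ≤ rk (M ⊔ L₀) := rk_mono le_sup_right
  have hr₀R : (r₀ : ℝ) ≤ δ / (8 * (K + 4)) * m := by
    rw [hr₀, Nat.cast_sub hrkle]; linarith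
  have hη : (0 : ℝ) < 1 / (m : ℝ) ^ K := by positivity
  have hη1 : 1 / (m : ℝ) ^ K ≤ 1 := by
    rw [div_le_one (by positivity)]; exact one_le_pow₀ hmR
  obtain ⟨H₁, hH₁, hH₁card, hH₁near⟩ := cover (L := L₀) (M := M) (r₀ := r₀) (by omega) Φ H
    (fun h hh g hg => hL₀ hg h hh) hc hη hη1
  have hH₁big : (m : ℝ) ^ (δ * m / 2) ≤ H₁.card := by
    have h1 : (m : ℝ) ^ (δ * m) = (m : ℝ) ^ (δ * m / 2) * (m : ℝ) ^ (δ * m / 2) := by
      rw [← Real.rpow_add hm0]; congr 1; ring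
    have h2 : (H.card : ℝ) ≤ (m : ℝ) ^ (δ * m / 2) * H₁.card := by
      refine hH₁card.trans (mul_le_mul_of_nonneg_right ?_ (Nat.cast_nonneg _))
      refine le_trans ?_ (hcount r r₀ hr hr₀R)
      refine mul_le_mul_of_nonneg_right (mul_le_mul_of_nonneg_right hgram (by positivity))
        (by positivity)
    have h3 := hH.trans h2
    rw [h1] at h3
    exact le_of_mul_le_mul_left h3 (by positivity)
  have hne : H₁.Nonempty := by
    rw [← Finset.card_pos]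
    have : (0 : ℝ) < H₁.card := lt_of_lt_of_le (by positivity) hH₁big
    exact_mod_cast this
  obtain ⟨h₀, hh₀⟩ := hne
  choose! z v hv using fun h hh => hH₁near h hh h₀ hh₀
  set u : (ι → ℝ) × (Fin r → ℝ) → ι → ℝ := fun h => pt Φ h - pt Φ h₀ - rv (z h) with hu
  have hufar : ∀ h ∈ H₁, ∀ h' ∈ H₁, h ≠ h' → Far (m ^ K) (u h) (u h') := by
    intro h hh h' hh' hne k hk1 hk
    obtain ⟨j, hj⟩ := hfar h (hH₁ hh) h' (hH₁ hh') hne k hk1 hk
    refine ⟨j, hj.trans (le_of_eq ?_)⟩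
    have e : 2 * (k : ℝ) * (u h j - u h' j) =
        2 * k * (pt Φ h j - pt Φ h' j) + ((2 * k * (z h' j - z h j) : ℤ) : ℝ) := by
      simp only [hu, Pi.sub_apply, rv]; push_cast; ring
    rw [e, nz_add_int]
  have hinj : Set.InjOn u H₁ := by
    intro h hh h' hh' heq
    by_contra hne
    obtain ⟨j, hj⟩ := hufar h hh h' hh' hne 1 le_rfl (Nat.one_le_pow _ _ hm1)
    rw [heq] at hj
    simp only [sub_self, mul_zero] at hj
    have h0 : nz 0 = 0 := by simp [nz]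
    rw [h0] at hj
    have : (0 : ℝ) < 1 / (4 * (m : ℝ)) := by positivity
    linarith
  refine ⟨perp M, Finset.mem_image.2 ⟨M, Finset.mem_filter.2 ⟨hM, hMrk⟩, rfl⟩, H₁.image u, ?_, ?_, ?_⟩
  · rw [Finset.card_image_of_injOn hinj]; exact hH₁big
  · intro y hy
    obtain ⟨h, hh, rfl⟩ := Finset.mem_image.1 hy
    obtain ⟨hv1, hv2, hv3⟩ := hv h hh
    refine ⟨⟨v h, hv1, fun j => (hv2 j).trans (by linarith), fun j => ?_⟩, fun j => ?_⟩
    · have := hv3 j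
      have e : 2 * (1 / (m : ℝ) ^ K) = 2 / (m : ℝ) ^ K := by ring
      rw [e] at this
      simpa only [hu, Pi.sub_apply, rv] using this
    · have e : (rm A *ᵥ u h) j = (rm A *ᵥ pt Φ h) j - (rm A *ᵥ pt Φ h₀) j +
          ((-(A *ᵥ z h) j : ℤ) : ℝ) := by
        simp only [hu, Matrix.mulVec_sub, Pi.sub_apply]
        have : (rm A *ᵥ rv (z h)) j = (((A *ᵥ z h) j : ℤ) : ℝ) := by
          simp [rm, rv, Matrix.mulVec, dotProduct]
        rw [this]; push_cast; ring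
      rw [e, nz_add_int]
      refine (nz_sub_le _ _).trans ?_
      have h1 := hAy h (hH₁ hh) j
      have h2 := hAy h₀ (hH₁ hh₀) j
      have e2 : 2 / (m : ℝ) ^ K = 1 / (m : ℝ) ^ K + 1 / (m : ℝ) ^ K := by ring
      rw [e2]; linarith
  · intro y hy y' hy' hne
    obtain ⟨h, hh, rfl⟩ := Finset.mem_image.1 hy
    obtain ⟨h', hh', rfl⟩ := Finset.mem_image.1 hy'
    exact hufar h hh h' hh' (fun e => hne (by rw [e]))

end Crest.Agent.R152
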