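import Crest.Agent.R152.MProb

/-! # Row 152, module M: random subsets (auxiliary file for `MDiss`) -/

set_option autoImplicit false
set_option linter.unusedSectionVars false
set_option linter.unusedVariables false

open Matrix Filter Topology Finset Crest.FinProb Crest.Agent.Lib.BoolCube

noncomputable section

namespace Crest.Agent.R152

variable {ι : Type} [Fintype ι] [DecidableEq ι]

theorem MDiss_E_card (ξ : ℝ) :
    E ξ (fun x : ι → Bool => ((univ.filter fun i => x i = true).card : ℝ)) = ξ * Fintype.card ι := by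
  have h1 : ∀ x : ι → Bool, ((univ.filter fun i => x i = true).card : ℝ) =
      ∑ i, ∏ j, (if j = i then (if x j = true then (1 : ℝ) else 0) else 1) := fun x => by
    simp only [Finset.prod_ite_eq', mem_univ, if_true]
    rw [Finset.card_filter]
    push_cast
    rfl
  rw [E_congr h1, E_sum]
  have h2 : ∀ i : ι, E ξ (fun x : ι → Bool =>
      ∏ j, (if j = i then (if x j = true then (1 : ℝ) else 0) else 1)) = ξ := fun i => by
    rw [E_prod fun j b => if j = i then (if b = true then (1 : ℝ) else 0) else 1]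
    rw [Finset.prod_eq_single i (fun j _ hj => by simp [hj]) (by simp)]
    simp
  simp only [h2, sum_const, card_univ, nsmul_eq_mul, mul_comm]

theorem MDiss_E_pow (ξ θ : ℝ) (D : Finset ι) :
    E ξ (fun x : ι → Bool => θ ^ (D ∩ univ.filter fun i => x i = true).card) =
      (1 - ξ * (1 - θ)) ^ D.card := by
  have h1 : ∀ x : ι → Bool, θ ^ (D ∩ univ.filter fun i => x i = true).card =
      ∏ j, (if j ∈ D then (if x j = true then θ else 1) else 1) := fun x => by
    rw [Finset.prod_ite_mem, univ_inter, Finset.prod_ite, prod_const_one, mul_one, prod_const,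
      Finset.inter_filter, inter_univ]
  rw [E_congr h1, E_prod fun j b => if j ∈ D then (if b = true then θ else 1) else 1]
  have h2 : ∀ j, ξ * (if j ∈ D then (if true = true then θ else 1) else 1) +
      (1 - ξ) * (if j ∈ D then (if false = true then θ else 1) else 1) =
      if j ∈ D then 1 - ξ * (1 - θ) else 1 := fun j => by
    by_cases h : j ∈ D
    · simp only [h, if_true, Bool.false_eq_true, if_false]; ring
    · simp only [h, if_false]; ring
  rw [Finset.prod_congr rfl fun j _ => h2 j, Finset.prod_ite_mem, univ_inter, prod_const]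

theorem MDiss_exists_I {N : ℕ} (D : ℕ → Finset ι) {D₀ ξ θ : ℝ}
    (hD : ∀ k ∈ Finset.Icc 1 N, D₀ ≤ (D k).card)
    (hξ : 0 < ξ) (hξ1 : ξ ≤ 1) (hθ : 0 ≤ θ) (hθ1 : θ ≤ 1) :
    ∃ I : Finset ι, (I.card : ℝ) ≤ 3 * ξ * Fintype.card ι ∧
      ∑ k ∈ Finset.Icc 1 N, θ ^ (D k ∩ I).card ≤ 3 * N * Real.exp (-(ξ * (1 - θ) * D₀)) := by
  rcases Nat.eq_zero_or_pos N with rfl | hN
  · exact ⟨∅, by simp only [card_empty, Nat.cast_zero]; positivity, by simp⟩
  obtain ⟨b, hb⟩ : ∃ b : ℝ, b = N * Real.exp (-(ξ * (1 - θ) * D₀)) := ⟨_, rfl⟩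
  have hb0 : 0 < b := by rw [hb]; positivity
  have hq : 0 ≤ ξ * (1 - θ) := mul_nonneg hξ.le (by linarith)
  have hY : E ξ (fun x : ι → Bool =>
      ∑ k ∈ Finset.Icc 1 N, θ ^ (D k ∩ univ.filter fun i => x i = true).card) ≤ b := by
    rw [E_sum, hb]
    refine (Finset.sum_le_card_nsmul _ _ (Real.exp (-(ξ * (1 - θ) * D₀))) fun k hk => ?_).trans
      (by simp)
    rw [MDiss_E_pow]
    calc (1 - ξ * (1 - θ)) ^ (D k).card ≤ Real.exp (-(ξ * (1 - θ))) ^ (D k).card :=
          pow_le_pow_left₀ (by nlinarith) (by linarith [Real.add_one_le_exp (-(ξ * (1 - θ)))]) _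
      _ = Real.exp (-(ξ * (1 - θ) * (D k).card)) := by
          rw [← Real.exp_nat_mul]; congr 1; ring
      _ ≤ _ := Real.exp_le_exp.2 (neg_le_neg (mul_le_mul_of_nonneg_left (hD k hk) hq))
  by_contra hcon
  have hc : ∀ I : Finset ι, (I.card : ℝ) ≤ 3 * ξ * Fintype.card ι →
      3 * b ≤ ∑ k ∈ Finset.Icc 1 N, θ ^ (D k ∩ I).card := fun I hI => by
    by_contra h
    exact hcon ⟨I, hI, by rw [mul_assoc, ← hb]; exact (not_le.1 h).le⟩
  rcases Nat.eq_zero_or_pos (Fintype.card ι) with hm | hm
  · have h := E_mono hξ.le hξ1 (F := fun _ : ι → Bool => 3 * b) fun x =>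
      hc (univ.filter fun i => x i = true) (by
        have := Finset.card_le_univ (univ.filter fun i => x i = true)
        rw [hm] at this ⊢
        simp [Nat.le_zero.1 this])
    rw [E_const] at h
    linarith
  · have ha0 : 0 < ξ * Fintype.card ι := by positivity
    have h := E_mono hξ.le hξ1 (F := fun _ : ι → Bool => 3 * (ξ * Fintype.card ι * b))
      (G := fun x => b * ((univ.filter fun i => x i = true).card : ℝ) + ξ * Fintype.card ι *
        ∑ k ∈ Finset.Icc 1 N, θ ^ (D k ∩ univ.filter fun i => x i = true).card) fun x => by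
      have p1 : 0 ≤ ∑ k ∈ Finset.Icc 1 N, θ ^ (D k ∩ univ.filter fun i => x i = true).card :=
        Finset.sum_nonneg fun k _ => pow_nonneg hθ _
      have p2 : (0 : ℝ) ≤ (univ.filter fun i => x i = true).card := Nat.cast_nonneg _
      by_cases hI : ((univ.filter fun i => x i = true).card : ℝ) ≤ 3 * ξ * Fintype.card ι
      · have := mul_le_mul_of_nonneg_left (hc _ hI) ha0.le
        nlinarith
      · have := mul_le_mul_of_nonneg_left (not_le.1 hI).le hb0.le
        nlinarith
    rw [E_const, E_add, E_const_mul, E_const_mul, MDiss_E_card] at h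
    have := mul_le_mul_of_nonneg_left hY ha0.le
    nlinarith [mul_pos ha0 hb0]

/-- the difference of the two combinations when only the block `u.succ` changes -/
theorem MDiss_diff {s : ℕ} (k : Fin s → ℤ) (u : Fin s) (I J : Finset ι) (hJ : J ⊆ I)
    (x x' : Fin (s + 1) × ι → Bool)
    (h : ∀ q : Fin (s + 1) × ι, ¬ (q.1 = u.succ ∧ q.2 ∈ J) → x q = x' q) :
    ∑ v, k v • (sgI I (fun j => x (v.succ, j)) - sgI I (fun j => x (0, j))) +
      -∑ v, k v • (sgI I (fun j => x' (v.succ, j)) - sgI I (fun j => x' (0, j))) =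
    (2 * ((k u).natAbs : ℕ) : ℤ) • fun j => if j ∈ J then (k u).sign *
      (if x (u.succ, j) = x' (u.succ, j) then 0 else sg (x (u.succ, j))) else 0 := by
  have h0 : (fun j => x (0, j)) = fun j => x' (0, j) :=
    funext fun j => h _ fun hq => (Fin.succ_ne_zero u) hq.1.symm
  rw [← sub_eq_add_neg, ← Finset.sum_sub_distrib, Finset.sum_eq_single u (fun v _ hv => ?_) (by simp)]
  · funext j
    rw [h0]
    simp only [Pi.sub_apply, Pi.smul_apply, smul_eq_mul, sgI]
    have e1 : ((k u).natAbs : ℤ) * (k u).sign = k u := by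
      rw [mul_comm, Int.sign_mul_natAbs]
    by_cases hj : j ∈ J
    · simp only [hj, hJ hj, if_true]
      generalize x (u.succ, j) = a
      generalize x' (u.succ, j) = a'
      rw [Int.natCast_natAbs] at e1
      rcases a with _ | _ <;> rcases a' with _ | _ <;> simp [sg] <;> linarith
    · have := h (u.succ, j) fun hq => hj hq.2
      simp only [hj, if_false, this]
      ring
  · have h1 : (fun j => x (v.succ, j)) = fun j => x' (v.succ, j) :=
      funext fun j => h _ fun hq => hv (Fin.succ_injective _ hq.1)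
    rw [h0, h1, sub_self]

end Crest.Agent.R152
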