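import Crest.Agent.R152.MProb
import Crest.Agent.R152.MDissAux1

/-! # Row 152, module M: the seminorm and dissociated sets -/

set_option autoImplicit false
set_option linter.unusedSectionVars false
set_option linter.unusedVariables false

open Matrix Filter Topology Finset Crest.FinProb Crest.Agent.Lib.BoolCube

noncomputable section

namespace Crest.Agent.R152

variable {ι : Type} [Fintype ι] [DecidableEq ι]

theorem sn_nonneg (H : Finset (ι → ℝ)) (a : ι → ℤ) : 0 ≤ sn H a := by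
  exact Real.sqrt_nonneg _

theorem sn_neg (H : Finset (ι → ℝ)) (a : ι → ℤ) : sn H (-a) = sn H a := by
  have e : rv (-a) = -rv a := funext fun i => by simp [rv]
  simp only [sn, e, neg_dotProduct, nz_neg]

theorem dis_mink {α : Type} (s : Finset α) (f g h : α → ℝ) (h0 : ∀ x, 0 ≤ h x)
    (hh : ∀ x, h x ≤ f x + g x) :
    √(∑ x ∈ s, h x ^ 2) ≤ √(∑ x ∈ s, f x ^ 2) + √(∑ x ∈ s, g x ^ 2) := by
  have a1 := Real.sum_mul_le_sqrt_mul_sqrt s f g
  have a2 := Real.sq_sqrt (sum_nonneg fun x (_ : x ∈ s) => sq_nonneg (f x))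
  have a3 := Real.sq_sqrt (sum_nonneg fun x (_ : x ∈ s) => sq_nonneg (g x))
  have a4 : ∑ x ∈ s, h x ^ 2 ≤
      ∑ x ∈ s, f x ^ 2 + 2 * ∑ x ∈ s, f x * g x + ∑ x ∈ s, g x ^ 2 := by
    rw [mul_sum, ← sum_add_distrib, ← sum_add_distrib]
    refine sum_le_sum fun x _ => (pow_le_pow_left₀ (h0 x) (hh x) 2).trans (le_of_eq ?_)
    ring
  rw [Real.sqrt_le_iff]
  exact ⟨by positivity, by nlinarith⟩

/-- Minkowski -/
theorem sn_add_le (H : Finset (ι → ℝ)) (a b : ι → ℤ) : sn H (a + b) ≤ sn H a + sn H b := by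
  have e : rv (a + b) = rv a + rv b := funext fun i => by simp [rv]
  simp only [sn, Real.sqrt_div' _ (sq_nonneg (H.card : ℝ)), ← sum_product']
  rw [← add_div]
  refine div_le_div_of_nonneg_right (dis_mink _ _ _ _ (fun x => nz_nonneg _) fun x => ?_)
    (Real.sqrt_nonneg _)
  rw [e, add_dotProduct]
  exact nz_add_le _ _

theorem dis_nz_zero : nz 0 = 0 := by simp [nz]

theorem dis_sign {z : ℤ} (hz : z = 0 ∨ z = 1 ∨ z = -1) (t : ℝ) : nz (z * t) ≤ nz t := by
  rcases hz with rfl | rfl | rfl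
  · simpa [dis_nz_zero] using nz_nonneg t
  · simp
  · simp [nz_neg]

/-- a maximal dissociated set -/
theorem dis_max (H : Finset (ι → ℝ)) {ν : ℝ} (k : ℕ) :
    ∃ D : Finset ι, Dissoc H ν k D ∧ ∀ j, j ∉ D → ∃ e : ι → ℤ,
      (∀ i, e i = 0 ∨ e i = 1 ∨ e i = -1) ∧ (∀ i, i ∉ insert j D → e i = 0) ∧ e j = 1 ∧
      sn H ((2 * k : ℤ) • e) ≤ ν := by
  classical
  obtain ⟨D, hD, hmax⟩ := exists_max_image (univ.filter fun D : Finset ι => Dissoc H ν k D) card
    ⟨∅, mem_filter.2 ⟨mem_univ _, fun e _ h _ => funext fun j => h j (notMem_empty j)⟩⟩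
  have hD' := (mem_filter.1 hD).2
  refine ⟨D, hD', fun j hj => ?_⟩
  have h1 : ¬ Dissoc H ν k (insert j D) := fun h => by
    have := hmax _ (mem_filter.2 ⟨mem_univ _, h⟩)
    rw [card_insert_of_notMem hj] at this
    omega
  unfold Dissoc at h1
  push Not at h1
  obtain ⟨e, e1, e2, e3, e4⟩ := h1
  rcases e1 j with h | h | h
  · refine absurd (hD' e e1 (fun i hi => ?_) e3) e4
    by_cases hij : i = j
    · rw [hij, h]
    · exact e2 i (by simp [hij, hi])
  · exact ⟨e, e1, e2, h, e3⟩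
  · refine ⟨-e, fun i => ?_, fun i hi => by simp [e2 i hi], by simp [h], by rwa [smul_neg, sn_neg]⟩
    rcases e1 i with h | h | h <;> simp [h]

/-- averaging and Markov -/
theorem dis_half {α : Type} (H : Finset α) (hH : H.Nonempty) (F : α → α → ℝ)
    (h0 : ∀ u u', 0 ≤ F u u') {c : ℝ} (hc : 0 < c)
    (h : ∑ u ∈ H, ∑ u' ∈ H, F u u' ≤ c * (H.card : ℝ) ^ 2) :
    ∃ u₀, ∃ G ⊆ H, (H.card : ℝ) ≤ 2 * G.card ∧ ∀ u ∈ G, F u u₀ ≤ 2 * c := by
  classical
  rw [sum_comm] at h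
  obtain ⟨u₀, -, hu⟩ := exists_le_of_sum_le (s := H) (f := fun u' => ∑ u ∈ H, F u u')
    (g := fun _ => c * H.card) hH (by
      rw [sum_const, nsmul_eq_mul]
      linarith)
  refine ⟨u₀, H.filter fun u => F u u₀ ≤ 2 * c, filter_subset _ _, ?_,
    fun u hu => (mem_filter.1 hu).2⟩
  have a1 := card_filter_add_card_filter_not (s := H) fun u => F u u₀ ≤ 2 * c
  have a2 : ((H.filter fun u => ¬ F u u₀ ≤ 2 * c).card : ℝ) * (2 * c) ≤ ∑ u ∈ H, F u u₀ := by
    refine le_trans ?_ (sum_le_sum_of_subset_of_nonneg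
      (filter_subset (fun u => ¬ F u u₀ ≤ 2 * c) H) fun u _ _ => h0 _ _)
    rw [← nsmul_eq_mul]
    exact card_nsmul_le_sum _ _ _ fun u hu => (not_le.1 (mem_filter.1 hu).2).le
  have a3 : ((H.filter fun u => F u u₀ ≤ 2 * c).card : ℝ) +
      (H.filter fun u => ¬ F u u₀ ≤ 2 * c).card = H.card := by exact_mod_cast a1
  have a4 : ((H.filter fun u => ¬ F u u₀ ≤ 2 * c).card : ℝ) * 2 ≤ H.card :=
    le_of_mul_le_mul_right (by linarith) hc
  linarith

theorem dis_cell {M : ℝ} (hM : 0 < M) {x y : ℝ}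
    (h : ⌊M * Int.fract x⌋₊ = ⌊M * Int.fract y⌋₊) : nz (x - y) ≤ 1 / M := by
  have a1 := Nat.floor_le (mul_nonneg hM.le (Int.fract_nonneg x))
  have a2 := Nat.floor_le (mul_nonneg hM.le (Int.fract_nonneg y))
  have a3 := Nat.lt_floor_add_one (M * Int.fract x)
  have a4 := Nat.lt_floor_add_one (M * Int.fract y)
  rw [h] at a1 a3
  refine (nz_le_abs_sub _ (⌊x⌋ - ⌊y⌋)).trans ?_
  have e : x - y - ((⌊x⌋ - ⌊y⌋ : ℤ) : ℝ) = Int.fract x - Int.fract y := by
    simp only [Int.fract, Int.cast_sub]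
    ring
  rw [e, le_div_iff₀ hM, ← abs_of_pos hM, ← abs_mul, abs_le]
  constructor <;> linarith

/-- Take `D` maximal.  Every `j ∉ D` has `e⁽ʲ⁾` supported on `D ∪ {j}` with `e⁽ʲ⁾ j = 1` and small seminorm.
Averaging gives `u₀` such that at least half of the `u ∈ H` satisfy
`∑_j nz (2k e⁽ʲ⁾·(u - u₀))² ≤ 2 m ν²`; two such points with the same cells `⌊16 m² fract (2 k u i)⌋`, `i ∈ D`,
are `1/(8m)`-close mod 1 in every coordinate. -/
theorem exists_dissoc (hm : 1 ≤ Fintype.card ι) (H : Finset (ι → ℝ)) {N k : ℕ} (hk1 : 1 ≤ k)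
    (hk : k ≤ N) (hfar : ∀ u ∈ H, ∀ u' ∈ H, u ≠ u' → Far N u u') :
    ∃ D : Finset ι, Dissoc H (1 / (64 * (Fintype.card ι : ℝ) ^ 2)) k D ∧
      (H.card : ℝ) ≤ 2 * (16 * (Fintype.card ι : ℝ) ^ 2) ^ D.card := by
  classical
  obtain ⟨D, hD, hj⟩ := dis_max H (ν := 1 / (64 * (Fintype.card ι : ℝ) ^ 2)) k
  refine ⟨D, hD, ?_⟩
  rcases H.eq_empty_or_nonempty with rfl | hH
  · simp
  have hm' : (1 : ℝ) ≤ Fintype.card ι := by exact_mod_cast hm
  obtain ⟨m, hmm⟩ : ∃ m : ℝ, m = Fintype.card ι := ⟨_, rfl⟩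
  rw [← hmm] at hm' hj
  have hm0 : 0 < m := by linarith
  have hh : (0 : ℝ) < H.card := by exact_mod_cast hH.card_pos
  choose! e e1 e2 e3 e4 using hj
  obtain ⟨u₀, G, hG, hc, hF⟩ := dis_half H hH
    (fun u u' => ∑ j ∈ Dᶜ, nz (rv ((2 * k : ℤ) • e j) ⬝ᵥ (u - u')) ^ 2)
    (fun u u' => sum_nonneg fun j _ => sq_nonneg _) (c := m * (1 / (64 * m ^ 2)) ^ 2)
    (by positivity) (by
      rw [sum_congr rfl fun u _ => sum_comm, sum_comm]
      refine (sum_le_card_nsmul _ _ ((1 / (64 * m ^ 2)) ^ 2 * (H.card : ℝ) ^ 2)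
        fun j hj => ?_).trans ?_
      · have := e4 j (mem_compl.1 hj)
        rw [sn, Real.sqrt_le_iff, div_le_iff₀ (by positivity)] at this
        exact this.2
      · rw [nsmul_eq_mul, mul_assoc, hmm]
        refine mul_le_mul_of_nonneg_right ?_ (by positivity)
        exact_mod_cast card_le_univ _)
  have hF' : ∀ u ∈ G, ∀ j, j ∉ D → nz (rv ((2 * k : ℤ) • e j) ⬝ᵥ (u - u₀)) ≤ 1 / (32 * m) := by
    intro u hu j hj
    have a1 := (single_le_sum (f := fun j => nz (rv ((2 * k : ℤ) • e j) ⬝ᵥ (u - u₀)) ^ 2)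
      (fun j _ => sq_nonneg _) (mem_compl.2 hj)).trans (hF u hu)
    refine (sq_le_sq₀ (nz_nonneg _) (by positivity)).1 (a1.trans ?_)
    have : (1 / (32 * m)) ^ 2 = 2 * (2 * m * m * (1 / (64 * m ^ 2)) ^ 2) := by
      field_simp
      ring
    rw [this]
    gcongr
    nlinarith
  have hcard : G.card ≤ (16 * Fintype.card ι ^ 2) ^ D.card := by
    have hM : (0 : ℝ) < 16 * m ^ 2 := by positivity
    refine le_trans (card_le_card_of_injOn (t := Fintype.piFinset fun _ : D =>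
      range (16 * Fintype.card ι ^ 2))
      (fun u (i : D) => ⌊16 * m ^ 2 * Int.fract (2 * k * u i)⌋₊) (fun u _ => ?_)
      fun u hu u' hu' huu => ?_) (by simp)
    · refine mem_coe.2 (Fintype.mem_piFinset.2 fun i => mem_range.2 ?_)
      rw [Nat.floor_lt (mul_nonneg hM.le (Int.fract_nonneg _))]
      push_cast
      rw [← hmm]
      exact mul_lt_of_lt_one_right hM (Int.fract_lt_one _)
    by_contra hne
    obtain ⟨j, hj⟩ := hfar u (hG hu) u' (hG hu') hne k hk1 hk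
    rw [← hmm] at hj
    have b1 : ∀ i ∈ D, nz (2 * k * (u i - u' i)) ≤ 1 / (16 * m ^ 2) := fun i hi => by
      rw [mul_sub]
      exact dis_cell hM (congrFun huu ⟨i, hi⟩)
    have b2 : 1 / (16 * m ^ 2) * m = 2 * (1 / (32 * m)) := by
      field_simp
      ring
    have b3 : 1 / (4 * m) = 8 * (1 / (32 * m)) := by
      field_simp
      ring
    have b4 : 0 < 1 / (32 * m) := by positivity
    have b5 : 0 < 1 / (16 * m ^ 2) := by positivity
    by_cases hjD : j ∈ D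
    · have := b1 j hjD
      nlinarith
    · have c1 : 2 * k * (u j - u' j) =
          (rv ((2 * k : ℤ) • e j) ⬝ᵥ (u - u₀) - rv ((2 * k : ℤ) • e j) ⬝ᵥ (u' - u₀)) -
            ∑ i ∈ D, (e j i : ℝ) * (2 * k * (u i - u' i)) := by
        rw [← dotProduct_sub, sub_sub_sub_cancel_right, eq_sub_iff_add_eq, dotProduct,
          ← sum_subset (subset_univ (insert j D)) fun i _ hi => by simp [rv, e2 j hjD i hi],
          sum_insert hjD]
        congr 1
        · simp [rv, e3 j hjD]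
        · refine sum_congr rfl fun i _ => ?_
          simp only [rv, Pi.smul_apply, smul_eq_mul, Pi.sub_apply]
          push_cast
          ring
      have c2 := nz_sub_le (rv ((2 * k : ℤ) • e j) ⬝ᵥ (u - u₀)) (rv ((2 * k : ℤ) • e j) ⬝ᵥ (u' - u₀))
      have c3 : nz (∑ i ∈ D, (e j i : ℝ) * (2 * k * (u i - u' i))) ≤ 1 / (16 * m ^ 2) * m := by
        refine (nz_sum_le _ _).trans ((sum_le_card_nsmul _ _ (1 / (16 * m ^ 2))
          fun i hi => (dis_sign (e1 j hjD i) _).trans (b1 i hi)).trans ?_)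
        rw [nsmul_eq_mul, mul_comm]
        refine mul_le_mul_of_nonneg_left ?_ b5.le
        rw [hmm]
        exact_mod_cast card_le_univ _
      have c4 := hF' u hu j hjD
      have c5 := hF' u' hu' j hjD
      rw [c1] at hj
      have c6 := hj.trans (nz_sub_le _ _)
      linarith
  refine hc.trans (mul_le_mul_of_nonneg_left ?_ zero_le_two)
  exact_mod_cast hcard

/-- a random subset of density `ξ` (Markov twice) -/
theorem exists_I {N : ℕ} (D : ℕ → Finset ι) {D₀ ξ θ : ℝ} (hD : ∀ k ∈ Finset.Icc 1 N, D₀ ≤ (D k).card)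
    (hξ : 0 < ξ) (hξ1 : ξ ≤ 1) (hθ : 0 ≤ θ) (hθ1 : θ ≤ 1) :
    ∃ I : Finset ι, (I.card : ℝ) ≤ 3 * ξ * Fintype.card ι ∧
      ∑ k ∈ Finset.Icc 1 N, θ ^ (D k ∩ I).card ≤ 3 * N * Real.exp (-(ξ * (1 - θ) * D₀)) := by
  exact MDiss_exists_I D hD hξ hξ1 hθ hθ1

/-- For fixed `k ≠ 0` pick `u` with `k u ≠ 0`; on the event, the coordinates `(u.succ, j)`,
`j ∈ D |k u| ∩ I`, are determined by the others (`sn_add_le`, `Dissoc`). -/
theorem bad_prob {p : ℝ} (h0 : 0 ≤ p) (h1 : p ≤ 1) (H : Finset (ι → ℝ)) {ν : ℝ} {N s : ℕ}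
    (D : ℕ → Finset ι) (hD : ∀ k ∈ Finset.Icc 1 N, Dissoc H ν k (D k)) (I : Finset ι) :
    bernoulliProb p {x : Fin (s + 1) × ι → Bool | ∃ k : Fin s → ℤ, k ≠ 0 ∧ (∀ u, |k u| ≤ N) ∧
        sn H (∑ u, k u • (sgI I (fun j => x (u.succ, j)) - sgI I (fun j => x (0, j)))) ≤ ν / 2} ≤
      (2 * N + 1) ^ s * ∑ k ∈ Finset.Icc 1 N, th p ^ (D k ∩ I).card := by
  classical
  have hth : ∀ n : ℕ, 0 ≤ th p ^ n := fun n => pow_nonneg (th_pos p).le n
  refine (prob_le_sum h0 h1 ((Fintype.piFinset fun _ : Fin s => Finset.Icc (-(N : ℤ)) N).erase 0) _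
    (fun k => {x | sn H (∑ u, k u • (sgI I (fun j => x (u.succ, j)) - sgI I (fun j => x (0, j)))) ≤
      ν / 2}) ?_).trans ?_
  · rintro x ⟨k, hk0, hk, hx⟩
    exact ⟨k, Finset.mem_erase.2 ⟨hk0, Fintype.mem_piFinset.2 fun u =>
      Finset.mem_Icc.2 (abs_le.1 (hk u))⟩, hx⟩
  refine (Finset.sum_le_card_nsmul _ _ (∑ k ∈ Finset.Icc 1 N, th p ^ (D k ∩ I).card)
    fun k hk => ?_).trans ?_
  · obtain ⟨hk0, hk⟩ := Finset.mem_erase.1 hk
    obtain ⟨u, hu⟩ := Function.ne_iff.1 hk0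
    have hu' : k u ≠ 0 := hu
    have hb := Finset.mem_Icc.1 (Fintype.mem_piFinset.1 hk u)
    have hκ : (k u).natAbs ∈ Finset.Icc 1 N := Finset.mem_Icc.2 ⟨by omega, by omega⟩
    refine le_trans ?_ (Finset.single_le_sum (f := fun k => th p ^ (D k ∩ I).card)
      (fun k _ => hth _) hκ)
    have hcard : ((D (k u).natAbs ∩ I).map ⟨fun j => (u.succ, j), fun a b h => (Prod.mk.inj h).2⟩).card =
        (D (k u).natAbs ∩ I).card := Finset.card_map _
    rw [← hcard]
    refine prob_le_pow_of_determined h0 h1 _ _ fun x hx x' hx' hxx q hq => ?_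
    obtain ⟨j, hj, rfl⟩ := Finset.mem_map.1 hq
    have hd := MDiss_diff k u I (D (k u).natAbs ∩ I) Finset.inter_subset_right x x' fun q hq' =>
      hxx q fun hq'' => hq' (by
        obtain ⟨j, hj, rfl⟩ := Finset.mem_map.1 hq''
        exact ⟨rfl, hj⟩)
    have hs := sn_add_le H
      (∑ v, k v • (sgI I (fun j => x (v.succ, j)) - sgI I (fun j => x (0, j))))
      (-∑ v, k v • (sgI I (fun j => x' (v.succ, j)) - sgI I (fun j => x' (0, j))))
    rw [sn_neg, hd] at hs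
    have hx1 : sn H (∑ v, k v • (sgI I (fun j => x (v.succ, j)) - sgI I (fun j => x (0, j)))) ≤
      ν / 2 := hx
    have hx2 : sn H (∑ v, k v • (sgI I (fun j => x' (v.succ, j)) - sgI I (fun j => x' (0, j)))) ≤
      ν / 2 := hx'
    have hsg : (k u).sign = 1 ∨ (k u).sign = -1 := by
      rcases lt_or_gt_of_ne hu' with h | h
      · exact Or.inr (Int.sign_eq_neg_one_of_neg h)
      · exact Or.inl (Int.sign_eq_one_of_pos h)
    have he := hD _ hκ _ (fun i => ?_) (fun i hi => ?_) (hs.trans (by linarith))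
    · have := congrFun he j
      simp only [hj, if_true, Pi.zero_apply] at this
      by_contra hne
      have hne' : x (u.succ, j) ≠ x' (u.succ, j) := hne
      rw [if_neg hne'] at this
      have h2 := sg_abs (x (u.succ, j))
      rcases hsg with h | h <;> rw [h] at this <;> simp at this <;> simp [this] at h2
    · split_ifs
      · simp
      · rcases hsg with h | h <;> rw [h] <;> cases x (u.succ, i) <;> simp [sg]
      · simp
    · rw [if_neg fun h => hi (Finset.mem_inter.1 h).1]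
  · rw [nsmul_eq_mul]
    refine mul_le_mul_of_nonneg_right ?_ (Finset.sum_nonneg fun k _ => hth _)
    have h2 : ((Fintype.piFinset fun _ : Fin s => Finset.Icc (-(N : ℤ)) N).erase 0).card ≤
        (2 * N + 1) ^ s := by
      refine Finset.card_erase_le.trans ?_
      rw [Fintype.card_piFinset_const, Int.card_Icc]
      refine Nat.pow_le_pow_left (by omega) s
    exact_mod_cast h2

end Crest.Agent.R152
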