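import Crest.Agent.R152.MQuot
import Crest.Agent.R152.WMain

/-! # Row 152, module M: a dense sublattice carrying many sign vectors -/

set_option autoImplicit false
set_option linter.unusedSectionVars false
set_option linter.unusedVariables false

open Matrix Filter Topology Finset Crest.FinProb Crest.Agent.Lib.BoolCube

noncomputable section

namespace Crest.Agent.R152

variable {ι : Type} [Fintype ι] [DecidableEq ι]

theorem filt_gram_rk_zero (G : Matrix ι ι ℝ) {N : Submodule ℤ (ι → ℤ)} (h : rk N = 0) :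
    gram G N = 1 := by
  have : IsEmpty (Fin (Module.finrank ℤ N)) := by
    rw [show Module.finrank ℤ N = 0 from h]
    infer_instance
  exact Matrix.det_isEmpty

theorem filt_near_min {G : Matrix ι ι ℝ} (hG : G.PosDef) (hG1 : ∀ x, x ⬝ᵥ x ≤ qf G x) {τ : ℝ}
    (hτ : 1 ≤ τ) (Λ : Submodule ℤ (ι → ℤ)) :
    ∃ M, SatIn M Λ ∧ ∀ M' ≤ Λ, gram G M / τ ^ rk M ≤ 2 * (gram G M' / τ ^ rk M') := by
  have hτ0 : 0 < τ := by linarith
  let A : Set ℝ := (fun M => gram G M / τ ^ rk M) '' {M | M ≤ Λ}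
  have hne : A.Nonempty := ⟨_, ⊥, show ⊥ ≤ Λ from bot_le, rfl⟩
  have hlb : ∀ a ∈ A, 1 / τ ^ Fintype.card ι ≤ a := by
    rintro _ ⟨M, -, rfl⟩
    obtain ⟨n, hn, hn'⟩ := gram_one_nat M
    have h1 : gram 1 M ≤ gram G M :=
      gram_mono Matrix.PosSemidef.one hG.isHermitian (fun x => by simpa [qf] using hG1 x) M
    have h2 : (1 : ℝ) ≤ gram G M := by
      have : (1 : ℝ) ≤ n := by exact_mod_cast hn
      linarith
    exact div_le_div₀ (by linarith) h2 (pow_pos hτ0 _) (pow_le_pow_right₀ hτ (rk_le_card M))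
  have hpos : 0 < sInf A := lt_of_lt_of_le (by positivity) (le_csInf hne hlb)
  obtain ⟨_, ⟨M, hM, rfl⟩, hlt⟩ := exists_lt_of_csInf_lt hne (show sInf A < 2 * sInf A by linarith)
  obtain ⟨M', -, hsat, hrk, hg⟩ := exists_sat hG (show M ≤ Λ from hM)
  refine ⟨M', hsat, fun M'' h'' => ?_⟩
  have h1 : sInf A ≤ gram G M'' / τ ^ rk M'' := csInf_le ⟨_, hlb⟩ ⟨M'', h'', rfl⟩
  have h2 : gram G M' / τ ^ rk M' ≤ gram G M / τ ^ rk M := by
    rw [hrk]
    exact div_le_div_of_nonneg_right hg (pow_pos hτ0 _).le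
  have h3 : gram G M / τ ^ rk M < 2 * sInf A := hlt
  linarith

/-- Take `σ` from `wrm_form`, `τ = max 1 (10 / σ)`, a lattice `M ≤ Λ` with `gram G M / τ ^ rk M` at most
twice the infimum, saturate it, and apply `wrm_form` to `(2 / τ) • G₂` (`exists_quot`); the largest fibre of
`x ↦ π (sgv x - sgv x₀)` is `S₁`. -/
theorem filt {β : ℝ} (hβ : 0 < β) : ∃ τ : ℝ, 1 ≤ τ ∧ ∀ (ι : Type) [Fintype ι] [DecidableEq ι]
    (G : Matrix ι ι ℝ), G.PosDef → (∀ x, x ⬝ᵥ x ≤ qf G x) →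
    ∀ (Λ : Submodule ℤ (ι → ℤ)) (S : Finset (ι → Bool)),
      (∀ x ∈ S, ∀ x' ∈ S, sgv x - sgv x' ∈ Λ ∧
        qf G (rv (sgv x - sgv x')) ≤ 5 * Fintype.card ι) →
      ∃ L₀ : Submodule ℤ (ι → ℤ), L₀ ≤ Λ ∧ gram G L₀ ≤ 2 * τ ^ Fintype.card ι ∧
        ∃ S₁ ⊆ S, (S.card : ℝ) ≤ Real.exp (β * Fintype.card ι) * S₁.card ∧
          ∀ x ∈ S₁, ∀ x' ∈ S₁, sgv x - sgv x' ∈ L₀ := by
  classical
  obtain ⟨σ, hσ, hw⟩ := wrm_form hβ
  refine ⟨max 1 (10 / σ), le_max_left _ _, ?_⟩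
  set τ := max 1 (10 / σ) with hτ
  have hτ1 : 1 ≤ τ := le_max_left _ _
  have hτ0 : 0 < τ := by linarith
  have hτσ : 10 ≤ τ * σ := (div_le_iff₀ hσ).1 (le_max_right _ _)
  intro ι _ _ G hG hG1 Λ S hS
  have hpow : (1 : ℝ) ≤ τ ^ Fintype.card ι := one_le_pow₀ hτ1
  rcases S.eq_empty_or_nonempty with rfl | ⟨x₀, hx₀⟩
  · refine ⟨⊥, bot_le, ?_, ∅, Finset.Subset.refl _, by simp, by simp⟩
    rw [gram_bot]
    linarith
  obtain ⟨M, hM, hmin⟩ := filt_near_min hG hG1 hτ1 Λ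
  obtain ⟨l, G₂, π, hG₂, hl, -, hker, hq, hN⟩ := exists_quot hG hM
  have hst : StableF ((2 / τ) • G₂) := by
    have hpd : ((2 / τ) • G₂).PosDef := hG₂.smul (by positivity)
    rw [stableF_iff_gram hpd]
    intro N
    rcases Nat.eq_zero_or_pos (rk N) with h0 | h0
    · rw [filt_gram_rk_zero _ h0]
    · have h1 := hmin ((N.comap π).map Λ.subtype) (Submodule.map_subtype_le _ _)
      rw [(hN N).1, (hN N).2, pow_add] at h1
      have h2 := gram_pos hG M
      have h3 : 0 < τ ^ rk M := pow_pos hτ0 _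
      have h4 : 0 < τ ^ rk N := pow_pos hτ0 _
      have h5 : 1 ≤ 2 * (gram G₂ N / τ ^ rk N) := by
        have e : 2 * (gram G M * gram G₂ N / (τ ^ rk M * τ ^ rk N)) =
            gram G M / τ ^ rk M * (2 * (gram G₂ N / τ ^ rk N)) := by
          field_simp
        rw [e] at h1
        exact (le_mul_iff_one_le_right (div_pos h2 h3)).1 h1
      have h6 : (2 : ℝ) ≤ 2 ^ rk N := le_self_pow₀ (by norm_num) h0.ne'
      have h7 : 0 ≤ gram G₂ N / τ ^ rk N := div_nonneg (gram_pos hG₂ N).le h4.le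
      rw [gram_smul, div_pow, div_mul_eq_mul_div, mul_div_assoc]
      exact h5.trans (mul_le_mul_of_nonneg_right h6 h7)
  let φ : (ι → Bool) → Fin l → ℤ := fun x =>
    if h : sgv x - sgv x₀ ∈ Λ then π ⟨_, h⟩ else 0
  have hφ : ∀ x (hx : x ∈ S), φ x = π ⟨_, (hS x hx x₀ hx₀).1⟩ := fun x hx =>
    dif_pos (hS x hx x₀ hx₀).1
  have hX : ((S.image φ).card : ℝ) ≤ Real.exp (β * Fintype.card ι) := by
    refine hw (Fintype.card ι) (Fin l) ?_ _ hst _ fun z hz => ?_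
    · have := rk_le_card Λ
      rw [Fintype.card_fin]
      omega
    · obtain ⟨x, hx, rfl⟩ := Finset.mem_image.1 hz
      rw [qf_smul, hφ x hx]
      have h1 := (hq ⟨_, (hS x hx x₀ hx₀).1⟩).trans (hS x hx x₀ hx₀).2
      have h2 : (0 : ℝ) ≤ Fintype.card ι := Nat.cast_nonneg _
      calc 2 / τ * qf G₂ (rv (π ⟨_, (hS x hx x₀ hx₀).1⟩)) ≤ 2 / τ * (5 * Fintype.card ι) :=
            mul_le_mul_of_nonneg_left h1 (by positivity)
        _ = 10 / τ * Fintype.card ι := by ring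
        _ ≤ σ * Fintype.card ι := by
            refine mul_le_mul_of_nonneg_right ?_ h2
            rw [div_le_iff₀ hτ0]
            linarith
  obtain ⟨y, -, hy⟩ := Finset.exists_max_image (S.image φ)
    (fun y => (S.filter fun x => φ x = y).card) ⟨_, Finset.mem_image_of_mem φ hx₀⟩
  refine ⟨M, hM.1, ?_, S.filter fun x => φ x = y, Finset.filter_subset _ _, ?_, ?_⟩
  · have h1 := hmin ⊥ bot_le
    rw [gram_bot, rk_bot, pow_zero, div_one, mul_one, div_le_iff₀ (pow_pos hτ0 _)] at h1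
    exact h1.trans (mul_le_mul_of_nonneg_left (pow_le_pow_right₀ hτ1 (rk_le_card M)) (by norm_num))
  · have h1 : (S.card : ℝ) ≤ ((S.filter fun x => φ x = y).card : ℝ) * (S.image φ).card := by
      exact_mod_cast Finset.card_le_mul_card_image S _ hy
    rw [mul_comm]
    exact h1.trans (mul_le_mul_of_nonneg_left hX (Nat.cast_nonneg _))
  · intro x hx x' hx'
    rw [Finset.mem_filter] at hx hx'
    have h1 : π (⟨_, (hS x hx.1 x₀ hx₀).1⟩ - ⟨_, (hS x' hx'.1 x₀ hx₀).1⟩) = 0 := by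
      rw [map_sub, ← hφ x hx.1, ← hφ x' hx'.1, hx.2, hx'.2, sub_self]
    have h2 := (hker _).1 h1
    simpa using h2

end Crest.Agent.R152
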