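import Crest.Agent.R152.WDefs

/-! # Row 152: auxiliary lemmas for `WForm` (simultaneous diagonalisation) -/

set_option autoImplicit false
set_option linter.unusedSectionVars false
set_option linter.unusedVariables false

open Matrix

noncomputable section

namespace Crest.Agent.R152

variable {ι : Type} [Fintype ι] [DecidableEq ι]

theorem wfb_herm_diag {M : Matrix ι ι ℝ} (hM : M.IsHermitian) :
    ∃ (U : Matrix ι ι ℝ) (d : ι → ℝ), Uᵀ * U = 1 ∧ Uᵀ * M * U = diagonal d := by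
  refine ⟨hM.eigenvectorUnitary, hM.eigenvalues, ?_, ?_⟩
  · have h := Unitary.coe_star_mul_self hM.eigenvectorUnitary
    rw [star_eq_conjTranspose, conjTranspose_eq_transpose_of_trivial] at h
    exact h
  · have h := hM.conjStarAlgAut_star_eigenvectorUnitary
    rw [Unitary.conjStarAlgAut_apply] at h
    simp only [Unitary.coe_star, star_star] at h
    rw [star_eq_conjTranspose, conjTranspose_eq_transpose_of_trivial] at h
    rw [h]
    rfl

theorem wfb_qf_conj (T C : Matrix ι ι ℝ) (x : ι → ℝ) : qf (Cᵀ * T * C) x = qf T (C *ᵥ x) := by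
  unfold qf
  rw [← mulVec_mulVec, ← mulVec_mulVec, dotProduct_mulVec, vecMul_transpose]

theorem wfb_isUnit_of {U : Matrix ι ι ℝ} {T : Matrix ι ι ℝ} (h : Uᵀ * T * U = 1) :
    IsUnit U.det := by
  have h1 := congrArg det h
  rw [det_mul, det_mul, det_one] at h1
  exact IsUnit.of_mul_eq_one_right _ h1

theorem wfb_posDef_conj {T C : Matrix ι ι ℝ} (hT : T.PosDef) (hC : IsUnit C.det) :
    (Cᵀ * T * C).PosDef := by
  have h := hT.conjTranspose_mul_mul_same (B := C)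
    (mulVec_injective_iff_isUnit.2 ((isUnit_iff_isUnit_det C).2 hC))
  rwa [conjTranspose_eq_transpose_of_trivial] at h

theorem wfb_herm_conj {T : Matrix ι ι ℝ} (hT : T.IsHermitian) (C : Matrix ι ι ℝ) :
    (Cᵀ * T * C).IsHermitian := by
  have h := isHermitian_conjTranspose_mul_mul C hT
  rwa [conjTranspose_eq_transpose_of_trivial] at h

theorem wfb_normalize {T : Matrix ι ι ℝ} (hT : T.PosDef) :
    ∃ C : Matrix ι ι ℝ, Cᵀ * T * C = 1 := by
  obtain ⟨U, d, hU, hd⟩ := wfb_herm_diag hT.isHermitian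
  have hUu : IsUnit U.det := wfb_isUnit_of (T := 1) (by rw [Matrix.mul_one]; exact hU)
  have hp : (diagonal d).PosDef := hd ▸ wfb_posDef_conj hT hUu
  have hdp : ∀ i, 0 < d i := posDef_diagonal_iff.1 hp
  refine ⟨U * diagonal fun i => (Real.sqrt (d i))⁻¹, ?_⟩
  have : (U * diagonal fun i => (Real.sqrt (d i))⁻¹)ᵀ * T *
      (U * diagonal fun i => (Real.sqrt (d i))⁻¹) =
      (diagonal fun i => (Real.sqrt (d i))⁻¹) * (Uᵀ * T * U) *
        diagonal fun i => (Real.sqrt (d i))⁻¹ := by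
    rw [transpose_mul, diagonal_transpose]
    simp only [Matrix.mul_assoc]
  rw [this, hd, diagonal_mul_diagonal, diagonal_mul_diagonal, ← diagonal_one]
  congr 1
  funext i
  have h1 : 0 < Real.sqrt (d i) := Real.sqrt_pos.2 (hdp i)
  have h2 : Real.sqrt (d i) * Real.sqrt (d i) = d i := Real.mul_self_sqrt (hdp i).le
  field_simp
  nlinarith

theorem wfb_simdiag {T T' : Matrix ι ι ℝ} (hT : T.PosDef) (hT' : T'.IsHermitian) :
    ∃ (C : Matrix ι ι ℝ) (d : ι → ℝ), IsUnit C.det ∧ Cᵀ * T * C = 1 ∧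
      Cᵀ * T' * C = diagonal d := by
  obtain ⟨C, hC⟩ := wfb_normalize hT
  obtain ⟨U, d, hU, hd⟩ := wfb_herm_diag (wfb_herm_conj hT' C)
  have key : ∀ S : Matrix ι ι ℝ, (C * U)ᵀ * S * (C * U) = Uᵀ * (Cᵀ * S * C) * U := by
    intro S
    rw [transpose_mul]
    simp only [Matrix.mul_assoc]
  have h1 : (C * U)ᵀ * T * (C * U) = 1 := by rw [key, hC, Matrix.mul_one, hU]
  exact ⟨C * U, d, wfb_isUnit_of h1, h1, by rw [key, hd]⟩

theorem wfb_simdiag_exp {T T' : Matrix ι ι ℝ} (hT : T.PosDef) (hT' : T'.PosDef) :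
    ∃ (C : Matrix ι ι ℝ) (d : ι → ℝ), IsUnit C.det ∧ Cᵀ * T * C = 1 ∧
      Cᵀ * T' * C = diagonal fun i => Real.exp (d i) := by
  obtain ⟨C, d, hC, h1, h2⟩ := wfb_simdiag hT hT'.isHermitian
  have hp : (diagonal d).PosDef := h2 ▸ wfb_posDef_conj hT' hC
  have hdp : ∀ i, 0 < d i := posDef_diagonal_iff.1 hp
  refine ⟨C, fun i => Real.log (d i), hC, h1, ?_⟩
  rw [h2]
  congr 1
  funext i
  rw [Real.exp_log (hdp i)]

theorem wfb_qf_diag_single (d : ι → ℝ) (i : ι) : qf (diagonal d) (Pi.single i 1) = d i := by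
  unfold qf
  rw [single_dotProduct, mulVec_diagonal]
  simp

theorem wfb_qf_nonneg {A : Matrix ι ι ℝ} (hA : A.PosSemidef) (x : ι → ℝ) : 0 ≤ qf A x := by
  have h := hA.dotProduct_mulVec_nonneg x
  rwa [star_trivial] at h

theorem wfb_det_mono {A B : Matrix ι ι ℝ} (hA : A.PosSemidef) (hB : B.IsHermitian)
    (hle : ∀ x, qf A x ≤ qf B x) : A.det ≤ B.det := by
  have hBs : B.PosSemidef := by
    refine PosSemidef.of_dotProduct_mulVec_nonneg hB fun x => ?_
    rw [star_trivial]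
    exact (wfb_qf_nonneg hA x).trans (hle x)
  by_cases hp : B.PosDef
  · obtain ⟨C, d, hC, h1, h2⟩ := wfb_simdiag hp hA.isHermitian
    have hd0 : ∀ i, 0 ≤ d i := fun i => by
      rw [← wfb_qf_diag_single d i, ← h2, wfb_qf_conj]
      exact wfb_qf_nonneg hA _
    have hd1 : ∀ i, d i ≤ 1 := fun i => by
      have h3 := hle (C *ᵥ Pi.single i 1)
      rw [← wfb_qf_conj, ← wfb_qf_conj, h1, h2, wfb_qf_diag_single, ← diagonal_one,
        wfb_qf_diag_single] at h3
      exact h3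
    have e1 := congrArg det h1
    have e2 := congrArg det h2
    rw [det_mul, det_mul, det_transpose, det_one] at e1
    rw [det_mul, det_mul, det_transpose, det_diagonal] at e2
    have hprod : ∏ i, d i ≤ 1 := Finset.prod_le_one (fun i _ => hd0 i) fun i _ => hd1 i
    have hc : 0 < C.det * C.det := mul_self_pos.2 hC.ne_zero
    have : C.det * C.det * A.det ≤ C.det * C.det * B.det := by nlinarith
    exact le_of_mul_le_mul_left this hc
  · have : ∃ x : ι → ℝ, x ≠ 0 ∧ qf B x ≤ 0 := by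
      by_contra hcon
      push Not at hcon
      refine hp (PosDef.of_dotProduct_mulVec_pos hB fun x hx => ?_)
      rw [star_trivial]
      exact hcon x hx
    obtain ⟨x, hx, hx0⟩ := this
    have h0 : qf A x = 0 := le_antisymm ((hle x).trans hx0) (wfb_qf_nonneg hA x)
    have h1 : A *ᵥ x = 0 := by
      rw [← hA.dotProduct_mulVec_zero_iff x, star_trivial]
      exact h0
    have h2 : A.det = 0 := exists_mulVec_eq_zero_iff.1 ⟨x, hx, h1⟩
    rw [h2]
    exact hBs.det_nonneg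

theorem wfb_qf_symm {A : Matrix ι ι ℝ} (hA : A.IsHermitian) (x y : ι → ℝ) :
    x ⬝ᵥ A *ᵥ y = y ⬝ᵥ A *ᵥ x := by
  have h : Aᵀ = A := by
    have := hA.eq
    rwa [conjTranspose_eq_transpose_of_trivial] at this
  rw [dotProduct_mulVec, ← vecMul_transpose, h, dotProduct_comm]

/-- `2 x·z - A(z) ≤ A⁻¹(x)` -/
theorem wfb_legendre {A : Matrix ι ι ℝ} (hA : A.PosDef) (x z : ι → ℝ) :
    2 * (x ⬝ᵥ z) - qf A z ≤ qf A⁻¹ x := by
  have hu : IsUnit A.det := (isUnit_iff_isUnit_det A).1 hA.isUnit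
  set w := A⁻¹ *ᵥ x with hw
  have hx : A *ᵥ w = x := by rw [hw, mulVec_mulVec, mul_nonsing_inv _ hu, one_mulVec]
  have h0 := wfb_qf_nonneg hA.posSemidef (w - z)
  unfold qf at h0 ⊢
  rw [mulVec_sub, sub_dotProduct, dotProduct_sub, dotProduct_sub,
    wfb_qf_symm hA.isHermitian w z, hx] at h0
  rw [← hw, dotProduct_comm x w, dotProduct_comm x z]
  linarith

theorem wfb_qf_inv_le {A B : Matrix ι ι ℝ} (hA : A.PosDef) (hB : B.PosDef) {c : ℝ} (hc : 0 < c)
    (hle : ∀ x, qf A x ≤ c * qf B x) (x : ι → ℝ) : qf B⁻¹ x ≤ c * qf A⁻¹ x := by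
  have hu : IsUnit B.det := (isUnit_iff_isUnit_det B).1 hB.isUnit
  set y := B⁻¹ *ᵥ x with hy
  have hx : B *ᵥ y = x := by rw [hy, mulVec_mulVec, mul_nonsing_inv _ hu, one_mulVec]
  have h1 := wfb_legendre hA x (c⁻¹ • y)
  have h2 := hle (c⁻¹ • y)
  have h3 : qf B (c⁻¹ • y) = c⁻¹ * c⁻¹ * (x ⬝ᵥ y) := by
    unfold qf
    rw [mulVec_smul, hx, smul_dotProduct, dotProduct_smul, dotProduct_comm y x, smul_eq_mul,
      smul_eq_mul, mul_assoc]
  have h4 : qf B⁻¹ x = x ⬝ᵥ y := rfl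
  rw [dotProduct_smul, smul_eq_mul] at h1
  rw [h3] at h2
  rw [h4]
  have h5 : c⁻¹ * (x ⬝ᵥ y) ≤ qf A⁻¹ x := by
    have : c * (c⁻¹ * c⁻¹ * (x ⬝ᵥ y)) = c⁻¹ * (x ⬝ᵥ y) := by field_simp
    linarith
  have h6 := mul_le_mul_of_nonneg_left h5 hc.le
  rwa [← mul_assoc, mul_inv_cancel₀ hc.ne', one_mul] at h6

end Crest.Agent.R152
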