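import Crest.Agent.R152.WDefs
import Crest.Agent.R152.WFormAuxB

/-! # Row 152: facts on positive definite forms -/

set_option autoImplicit false
set_option linter.unusedSectionVars false
set_option linter.unusedVariables false

open MeasureTheory Set Matrix Filter Topology

noncomputable section

namespace Crest.Agent.R152

variable {ι : Type} [Fintype ι] [DecidableEq ι]

theorem qf_smul (c : ℝ) (T : Matrix ι ι ℝ) (x : ι → ℝ) : qf (c • T) x = c * qf T x := by
  simp [qf, Matrix.smul_mulVec]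

theorem qf_conj {κ : Type} [Fintype κ] [DecidableEq κ] (T : Matrix ι ι ℝ) (C : Matrix ι κ ℝ)
    (x : κ → ℝ) : qf (Cᵀ * T * C) x = qf T (C *ᵥ x) := by
  simp only [qf, ← Matrix.mulVec_mulVec]
  rw [Matrix.dotProduct_mulVec, Matrix.vecMul_transpose]

lemma WFormA_sq_le (x : ι → ℝ) (i : ι) : x i ^ 2 ≤ x ⬝ᵥ x := by
  rw [sq]
  exact Finset.single_le_sum (f := fun j => x j * x j) (fun j _ => mul_self_nonneg _)
    (Finset.mem_univ i)

theorem qf_coercive {T : Matrix ι ι ℝ} (hT : T.PosDef) :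
    ∃ c : ℝ, 0 < c ∧ ∀ x, c * (x ⬝ᵥ x) ≤ qf T x := by
  have hc : Continuous (qf T) := by unfold qf; fun_prop
  obtain ⟨c, hc0, hc1⟩ := (isCompact_sphere (0 : ι → ℝ) 1).exists_forall_le' (a := 0)
    hc.continuousOn fun x hx => by
      have hx0 : x ≠ 0 := by
        rintro rfl
        simp at hx
      simpa [qf] using hT.dotProduct_mulVec_pos hx0
  refine ⟨c / (Fintype.card ι + 1), by positivity, fun x => ?_⟩
  rcases eq_or_ne x 0 with rfl | hx
  · simp [qf]
  have hn : 0 < ‖x‖ := norm_pos_iff.2 hx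
  have h1 := hc1 (‖x‖⁻¹ • x) (by simp [norm_smul, hn.ne'])
  have h2 : qf T x = ‖x‖ ^ 2 * qf T (‖x‖⁻¹ • x) := by
    simp only [qf, Matrix.mulVec_smul, smul_dotProduct, dotProduct_smul, smul_eq_mul]
    field_simp
  have h3 : x ⬝ᵥ x ≤ Fintype.card ι * ‖x‖ ^ 2 := by
    have := Finset.sum_le_card_nsmul Finset.univ (fun i => x i * x i) (‖x‖ ^ 2) fun i _ => by
      rw [← sq, ← sq_abs]
      exact pow_le_pow_left₀ (abs_nonneg _) (norm_le_pi_norm x i) 2
    simpa [dotProduct] using this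
  rw [h2, div_mul_eq_mul_div, div_le_iff₀ (by positivity)]
  have h4 : 0 < ‖x‖ ^ 2 := by positivity
  have h5 : (0 : ℝ) ≤ Fintype.card ι := Nat.cast_nonneg _
  have h6 := mul_le_mul_of_nonneg_left h1 (mul_nonneg h4.le (add_nonneg h5 zero_le_one))
  nlinarith [mul_le_mul_of_nonneg_left h3 hc0.le, mul_pos hc0 h4]

/-- simultaneous diagonalisation -/
theorem simdiag {T T' : Matrix ι ι ℝ} (hT : T.PosDef) (hT' : T'.PosDef) :
    ∃ (C : Matrix ι ι ℝ) (d : ι → ℝ), IsUnit C.det ∧ Cᵀ * T * C = 1 ∧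
      Cᵀ * T' * C = diagonal fun i => Real.exp (d i) :=
  wfb_simdiag_exp hT hT'

/-- the determinant is monotone for the Loewner order -/
theorem det_mono {A B : Matrix ι ι ℝ} (hA : A.PosSemidef) (hB : B.IsHermitian)
    (hle : ∀ x, qf A x ≤ qf B x) : A.det ≤ B.det :=
  wfb_det_mono hA hB hle

/-- the inverse is antitone -/
theorem qf_inv_le {A B : Matrix ι ι ℝ} (hA : A.PosDef) (hB : B.PosDef) {c : ℝ} (hc : 0 < c)
    (hle : ∀ x, qf A x ≤ c * qf B x) (x : ι → ℝ) : qf B⁻¹ x ≤ c * qf A⁻¹ x :=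
  wfb_qf_inv_le hA hB hc hle x

lemma WFormA_abs_le (A : Matrix ι ι ℝ) (x : ι → ℝ) :
    |qf A x| ≤ (∑ i, ∑ j, |A i j|) * (x ⬝ᵥ x) := by
  have e : qf A x = ∑ i, ∑ j, x i * (A i j * x j) := by
    simp only [qf, Matrix.mulVec, dotProduct, Finset.mul_sum]
  rw [e, Finset.sum_mul]
  refine (Finset.abs_sum_le_sum_abs _ _).trans (Finset.sum_le_sum fun i _ => ?_)
  rw [Finset.sum_mul]
  refine (Finset.abs_sum_le_sum_abs _ _).trans (Finset.sum_le_sum fun j _ => ?_)
  rw [mul_left_comm, abs_mul]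
  refine mul_le_mul_of_nonneg_left ?_ (abs_nonneg _)
  have h1 := WFormA_sq_le x i
  have h2 := WFormA_sq_le x j
  rw [abs_le]
  constructor <;> nlinarith [sq_nonneg (x i + x j), sq_nonneg (x i - x j)]

/-- forms near a positive definite form are comparable with it -/
theorem qf_near {T : Matrix ι ι ℝ} (hT : T.PosDef) {η : ℝ} (hη : 0 < η) :
    ∀ᶠ T' in 𝓝 T, ∀ x, qf T' x ≤ (1 + η) * qf T x ∧ qf T x ≤ (1 + η) * qf T' x := by
  obtain ⟨c, hc, hcT⟩ := qf_coercive hT
  have hδ : Continuous fun T' : Matrix ι ι ℝ => ∑ i, ∑ j, |(T' - T) i j| := by fun_prop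
  have hev := (hδ.tendsto T).eventually_le_const (u := c * (η / (1 + η)))
    (by simp only [sub_self, Matrix.zero_apply, abs_zero, Finset.sum_const_zero]; positivity)
  filter_upwards [hev] with T' hT' x
  have h0 : 0 ≤ x ⬝ᵥ x := Finset.sum_nonneg fun i _ => mul_self_nonneg _
  have h1 := WFormA_abs_le (T' - T) x
  have h2 : qf (T' - T) x = qf T' x - qf T x := by simp [qf, Matrix.sub_mulVec]
  have h3 := hcT x
  have h4 : 0 ≤ qf T x := le_trans (by positivity) h3
  have h5 : |qf T' x - qf T x| ≤ η / (1 + η) * qf T x := by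
    rw [← h2]
    refine h1.trans ((mul_le_mul_of_nonneg_right hT' h0).trans ?_)
    rw [mul_comm c, mul_assoc]
    exact mul_le_mul_of_nonneg_left h3 (by positivity)
  rw [div_mul_eq_mul_div, le_div_iff₀ (by positivity)] at h5
  have h6 := le_abs_self (qf T' x - qf T x)
  have h7 := neg_abs_le (qf T' x - qf T x)
  have h8 := abs_nonneg (qf T' x - qf T x)
  constructor <;> nlinarith

/-- only finitely many integer points in an ellipsoid -/
theorem finite_short {T : Matrix ι ι ℝ} (hT : T.PosDef) (x : ι → ℝ) (R : ℝ) :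
    {z : ι → ℤ | qf T (x - rv z) ≤ R}.Finite := by
  obtain ⟨c, hc, hcT⟩ := qf_coercive hT
  refine (Set.finite_Icc (fun i => ⌊x i - (R / c + 1)⌋) fun i => ⌈x i + (R / c + 1)⌉).subset
    fun z hz => ?_
  have h : ∀ i, (x i - z i) ^ 2 ≤ R / c := fun i => by
    rw [le_div_iff₀ hc, mul_comm]
    exact ((mul_le_mul_of_nonneg_left (WFormA_sq_le (x - rv z) i) hc.le).trans (hcT _)).trans hz
  refine ⟨fun i => ?_, fun i => ?_⟩
  · refine Int.floor_le_iff.2 ?_
    nlinarith [h i, sq_nonneg (x i - z i - 1)]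
  · refine Int.le_ceil_iff.2 ?_
    nlinarith [h i, sq_nonneg (x i - z i + 1)]

end Crest.Agent.R152
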