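import Crest.Agent.R152.MDefs
import Crest.Agent.R152.WForm

/-! # Row 152, module M: basis matrices of sublattices -/

set_option autoImplicit false
set_option linter.unusedSectionVars false

open Matrix Finset

noncomputable section

namespace Crest.Agent.R152

variable {ι : Type} [Fintype ι] [DecidableEq ι]

/-- the matrix of the chosen basis -/
def mlaB (M : Submodule ℤ (ι → ℤ)) : Matrix ι (Fin (rk M)) ℤ :=
  Matrix.of fun i a => (Module.finBasis ℤ M a : ι → ℤ) i

theorem mla_gram (G : Matrix ι ι ℝ) (M : Submodule ℤ (ι → ℤ)) :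
    gram G M = ((rm (mlaB M))ᵀ * G * rm (mlaB M)).det := by
  unfold gram
  congr 1
  ext a b
  rw [Matrix.mul_assoc]
  rfl

theorem mla_mulVec (M : Submodule ℤ (ι → ℤ)) (c : Fin (rk M) → ℤ) :
    mlaB M *ᵥ c = ((Module.finBasis ℤ M).equivFun.symm c : M) := by
  rw [Module.Basis.equivFun_symm_apply]
  ext i
  simp only [mulVec, dotProduct, mlaB, of_apply, Submodule.coe_sum, Submodule.coe_smul,
    Finset.sum_apply, Pi.smul_apply, smul_eq_mul]
  exact Finset.sum_congr rfl fun a _ => mul_comm _ _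

theorem mla_inj (M : Submodule ℤ (ι → ℤ)) : Function.Injective (mlaB M).mulVec := by
  intro c c' h
  rw [mla_mulVec, mla_mulVec] at h
  exact (Module.finBasis ℤ M).equivFun.symm.injective (Subtype.ext h)

theorem mla_range (M : Submodule ℤ (ι → ℤ)) : LinearMap.range (mlaB M).mulVecLin = M := by
  ext x
  simp only [LinearMap.mem_range, mulVecLin_apply, mla_mulVec]
  constructor
  · rintro ⟨c, rfl⟩
    exact Subtype.property _
  · intro hx
    exact ⟨(Module.finBasis ℤ M).equivFun ⟨x, hx⟩, by rw [LinearEquiv.symm_apply_apply]⟩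

theorem mla_rm_mul {α β γ : Type} [Fintype β] (P : Matrix α β ℤ) (Q : Matrix β γ ℤ) :
    rm (P * Q) = rm P * rm Q := Matrix.map_mul (f := Int.castRingHom ℝ)

theorem mla_rm_det {κ : Type} [Fintype κ] [DecidableEq κ] (P : Matrix κ κ ℤ) :
    (rm P).det = (P.det : ℝ) := ((Int.castRingHom ℝ).map_det P).symm

theorem mla_factor {κ κ' : Type} [Fintype κ] [DecidableEq κ] [Fintype κ'] {P : Matrix ι κ ℤ}
    {P' : Matrix ι κ' ℤ} (h : LinearMap.range P.mulVecLin ≤ LinearMap.range P'.mulVecLin) :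
    ∃ A : Matrix κ' κ ℤ, P = P' * A := by
  choose c hc using fun j : κ => h ⟨Pi.single j 1, rfl⟩
  refine ⟨Matrix.of fun a j => c j a, ?_⟩
  ext i j
  have := congrFun (hc j) i
  simp only [mulVecLin_apply, mulVec_single_one, col_apply] at this
  rw [← this]
  rfl

theorem mla_cancel {κ : Type} [Fintype κ] [DecidableEq κ] {P : Matrix ι κ ℤ}
    (hP : Function.Injective P.mulVec) {A : Matrix κ κ ℤ} (h : P = P * A) : A = 1 := by
  ext a j
  have : A *ᵥ Pi.single j 1 = Pi.single j 1 := hP (by rw [mulVec_mulVec, ← h])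
  have h2 := congrFun this a
  simp only [mulVec_single_one, col_apply] at h2
  rw [h2, Matrix.one_apply, Pi.single_apply]

theorem mla_det_eq {κ : Type} [Fintype κ] [DecidableEq κ] (G : Matrix ι ι ℝ) {P P' : Matrix ι κ ℤ}
    (hP : Function.Injective P.mulVec)
    (h : LinearMap.range P.mulVecLin = LinearMap.range P'.mulVecLin) :
    ((rm P)ᵀ * G * rm P).det = ((rm P')ᵀ * G * rm P').det := by
  obtain ⟨A, hA⟩ := mla_factor h.le
  obtain ⟨B, hB⟩ := mla_factor h.ge
  have h1 : B * A = 1 := mla_cancel hP (by rw [← Matrix.mul_assoc, ← hB, ← hA])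
  have h2 : B.det * A.det = 1 := by rw [← det_mul, h1, det_one]
  have h3 : A.det * A.det = 1 := by
    rcases Int.eq_one_or_neg_one_of_mul_eq_one' h2 with h | h <;> rw [h.2] <;> norm_num
  have h4 : ((A.det : ℝ)) * A.det = 1 := by exact_mod_cast h3
  have h5 : (rm P)ᵀ * G * rm P = (rm A)ᵀ * ((rm P')ᵀ * G * rm P') * rm A := by
    rw [hA, mla_rm_mul, transpose_mul]
    simp only [Matrix.mul_assoc]
  rw [h5, det_mul, det_mul, det_transpose, mla_rm_det]
  linear_combination ((rm P')ᵀ * G * rm P').det * h4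

theorem mla_gram_eq {κ : Type} [Fintype κ] [DecidableEq κ] (G : Matrix ι ι ℝ) (P : Matrix ι κ ℤ)
    (hP : Function.Injective P.mulVec) :
    rk (LinearMap.range P.mulVecLin) = Fintype.card κ ∧
      gram G (LinearMap.range P.mulVecLin) = ((rm P)ᵀ * G * rm P).det := by
  have h1 : rk (LinearMap.range P.mulVecLin) = Fintype.card κ := by
    unfold rk
    rw [LinearMap.finrank_range_of_inj (f := P.mulVecLin) hP]
    simp
  refine ⟨h1, ?_⟩
  set M := LinearMap.range P.mulVecLin with hM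
  let e : κ ≃ Fin (rk M) := Fintype.equivFinOfCardEq h1.symm
  have h2 : LinearMap.range P.mulVecLin =
      LinearMap.range ((mlaB M).submatrix id e).mulVecLin := by
    refine hM.symm.trans ((mla_range M).symm.trans ?_)
    ext x
    simp only [LinearMap.mem_range, mulVecLin_apply, submatrix_mulVec_equiv, Function.comp_id]
    constructor
    · rintro ⟨c, rfl⟩
      exact ⟨c ∘ e, by rw [Function.comp_assoc, Equiv.self_comp_symm, Function.comp_id]⟩
    · rintro ⟨c, rfl⟩
      exact ⟨_, rfl⟩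
  rw [mla_det_eq G hP h2, mla_gram, ← det_submatrix_equiv_self e]
  rfl

theorem mla_det_ne {κ : Type} [Fintype κ] [DecidableEq κ] (P : Matrix ι κ ℤ)
    (hP : Function.Injective P.mulVec) : (Pᵀ * P).det ≠ 0 := by
  intro h
  obtain ⟨v, hv, h0⟩ := Matrix.exists_mulVec_eq_zero_iff.2 h
  apply hv
  apply hP
  have h1 : (P *ᵥ v) ⬝ᵥ (P *ᵥ v) = 0 := by
    have := congrArg (fun w => v ⬝ᵥ w) h0
    simp only [dotProduct_zero] at this
    rwa [← mulVec_mulVec, dotProduct_mulVec, vecMul_transpose] at this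
  rw [mulVec_zero]
  exact dotProduct_self_eq_zero.1 h1

theorem mla_rm_inj {κ : Type} [Fintype κ] [DecidableEq κ] (P : Matrix ι κ ℤ)
    (hP : Function.Injective P.mulVec) : Function.Injective (rm P).mulVec := by
  have h1 : ((rm P)ᵀ * rm P).det ≠ 0 := by
    have : (rm P)ᵀ * rm P = rm (Pᵀ * P) := by rw [mla_rm_mul]; rfl
    rw [this, mla_rm_det]
    exact_mod_cast mla_det_ne P hP
  have h2 := Matrix.mulVec_injective_iff_isUnit.2
    ((Matrix.isUnit_iff_isUnit_det _).2 (Ne.isUnit h1))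
  intro x y h
  apply h2
  rw [← mulVec_mulVec, ← mulVec_mulVec, h]

theorem mla_gram_pos {G : Matrix ι ι ℝ} (hG : G.PosDef) (M : Submodule ℤ (ι → ℤ)) :
    0 < gram G M := by
  rw [mla_gram]
  have := hG.conjTranspose_mul_mul_same (mla_rm_inj _ (mla_inj M))
  rw [conjTranspose_eq_transpose_of_trivial] at this
  exact this.det_pos

theorem mla_gram_one_nat (M : Submodule ℤ (ι → ℤ)) : ∃ n : ℕ, 1 ≤ n ∧ gram 1 M = n := by
  have h1 : gram 1 M = (((mlaB M)ᵀ * mlaB M).det : ℝ) := by
    rw [mla_gram, Matrix.mul_one, ← mla_rm_det, mla_rm_mul]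
    rfl
  have h2 := mla_gram_pos (G := (1 : Matrix ι ι ℝ)) PosDef.one M
  rw [h1] at h2 ⊢
  have h3 : 0 < ((mlaB M)ᵀ * mlaB M).det := by exact_mod_cast h2
  obtain ⟨n, hn⟩ := Int.eq_ofNat_of_zero_le h3.le
  rw [hn] at h3 ⊢
  exact ⟨n, by exact_mod_cast h3, by simp⟩

theorem mla_gram_mono {G G' : Matrix ι ι ℝ} (hG : G.PosSemidef) (hG' : G'.IsHermitian)
    (h : ∀ x, qf G x ≤ qf G' x) (M : Submodule ℤ (ι → ℤ)) : gram G M ≤ gram G' M := by
  rw [mla_gram, mla_gram]
  refine det_mono ?_ ?_ fun x => by rw [qf_conj, qf_conj]; exact h _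
  · have := hG.conjTranspose_mul_mul_same (rm (mlaB M))
    rwa [conjTranspose_eq_transpose_of_trivial] at this
  · have := isHermitian_conjTranspose_mul_mul (rm (mlaB M)) hG'
    rwa [conjTranspose_eq_transpose_of_trivial] at this

end Crest.Agent.R152
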