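import Crest.Agent.R152.WDefs

/-! # Row 152: unimodular completion of an injective integer matrix -/

set_option autoImplicit false
set_option linter.unusedSectionVars false
set_option linter.unusedVariables false

open MeasureTheory Set Matrix Filter Topology

noncomputable section

namespace Crest.Agent.R152

variable {ι : Type} [Fintype ι] [DecidableEq ι]

/-- the saturation of the column lattice of `P` is a direct summand of `ℤ^ι`
(`Submodule.smithNormalForm` / `Module.Basis.SmithNormalForm`) -/
theorem exists_unimodular {k : ℕ} (P : Matrix ι (Fin k) ℤ) (hP : Function.Injective P.mulVec) :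
    ∃ (l : ℕ) (U : Matrix ι (Fin k ⊕ Fin l) ℤ) (U' : Matrix (Fin k ⊕ Fin l) ι ℤ)
      (Q : Matrix (Fin k) (Fin k) ℤ),
      k + l = Fintype.card ι ∧ U * U' = 1 ∧ U' * U = 1 ∧ Q.det ≠ 0 ∧
        P = U.submatrix id Sum.inl * Q := by
  classical
  obtain ⟨n, snf⟩ := (LinearMap.range P.mulVecLin).smithNormalForm (Pi.basisFun ℤ ι)
  have hn : n = k := by
    have h1 := Module.finrank_eq_card_basis snf.bN
    rw [LinearMap.finrank_range_of_inj (f := P.mulVecLin) hP] at h1
    simpa using h1.symm
  subst hn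
  let S : Set ι := Set.range snf.f
  let e : Fin n ⊕ Fin (Fintype.card (Sᶜ : Set ι)) ≃ ι :=
    (Equiv.sumCongr (Equiv.ofInjective snf.f snf.f.injective) (Fintype.equivFin _).symm).trans
      (Equiv.Set.sumCompl S)
  have he : ∀ j, e (Sum.inr j) ∉ Set.range snf.f := fun j =>
    ((Fintype.equivFin (Sᶜ : Set ι)).symm j).2
  let b := snf.bM.reindex e.symm
  let U := (Pi.basisFun ℤ ι).toMatrix b
  let U' := b.toMatrix (Pi.basisFun ℤ ι)
  have h1 : U * U' = 1 := Module.Basis.toMatrix_mul_toMatrix_flip _ _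
  have h2 : U' * U = 1 := Module.Basis.toMatrix_mul_toMatrix_flip _ _
  have h3 : ∀ j c, (U' * P) (Sum.inr j) c = 0 := by
    intro j c
    have h4 := snf.repr_eq_zero_of_notMem_range
      ⟨P.mulVecLin (Pi.single c 1), LinearMap.mem_range_self _ _⟩ (he j)
    have h5 : P.mulVecLin (Pi.single c 1) = ∑ i, P i c • Pi.basisFun ℤ ι i := by
      ext i
      simp [Finset.sum_apply, Pi.single_apply]
    simp only [h5, map_sum, map_smul, Finsupp.coe_finsetSum, Finset.sum_apply, Finsupp.coe_smul,
      Pi.smul_apply, smul_eq_mul] at h4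
    rw [Matrix.mul_apply, ← h4]
    refine Finset.sum_congr rfl fun i _ => ?_
    rw [mul_comm]
    simp [U', b, Module.Basis.toMatrix_apply]
  have h4 : P = U.submatrix id Sum.inl * (U' * P).submatrix Sum.inl id := by
    ext i c
    conv_lhs => rw [← Matrix.one_mul P, ← h1, Matrix.mul_assoc]
    rw [Matrix.mul_apply, Matrix.mul_apply, Fintype.sum_sum_type]
    simp [h3]
  refine ⟨_, U, U', (U' * P).submatrix Sum.inl id, ?_, h1, h2, ?_, h4⟩
  · simpa using Fintype.card_congr e
  · intro h0
    obtain ⟨v, hv, hv0⟩ := Matrix.exists_mulVec_eq_zero_iff.2 h0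
    refine hv (hP ?_)
    rw [h4, ← Matrix.mulVec_mulVec, hv0, Matrix.mulVec_zero, Matrix.mulVec_zero]

end Crest.Agent.R152
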