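import Crest.Agent.R152.MBasic
import Crest.Agent.R152.MLatAuxA
import Crest.Agent.R152.WUni

/-! # Row 152, module M: covolumes of sublattices -/

set_option autoImplicit false
set_option linter.unusedSectionVars false
set_option linter.unusedVariables false

open Matrix Filter Topology Finset Crest.FinProb Crest.Agent.Lib.BoolCube

noncomputable section

namespace Crest.Agent.R152

variable {ι : Type} [Fintype ι] [DecidableEq ι]

/-- rank and covolume can be computed from any basis matrix -/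
theorem gram_eq {κ : Type} [Fintype κ] [DecidableEq κ] (G : Matrix ι ι ℝ) (P : Matrix ι κ ℤ)
    (hP : Function.Injective P.mulVec) :
    rk (LinearMap.range P.mulVecLin) = Fintype.card κ ∧
      gram G (LinearMap.range P.mulVecLin) = ((rm P)ᵀ * G * rm P).det := by
  exact mla_gram_eq G P hP

theorem exists_basis_matrix (M : Submodule ℤ (ι → ℤ)) :
    ∃ P : Matrix ι (Fin (rk M)) ℤ, Function.Injective P.mulVec ∧
      LinearMap.range P.mulVecLin = M := by
  exact ⟨mlaB M, mla_inj M, mla_range M⟩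

/-- an injective integer matrix is injective over the reals -/
theorem rm_injective {κ : Type} [Fintype κ] [DecidableEq κ] (P : Matrix ι κ ℤ)
    (hP : Function.Injective P.mulVec) : Function.Injective (rm P).mulVec := by
  exact mla_rm_inj P hP

theorem gram_pos {G : Matrix ι ι ℝ} (hG : G.PosDef) (M : Submodule ℤ (ι → ℤ)) : 0 < gram G M := by
  exact mla_gram_pos hG M

theorem gram_bot (G : Matrix ι ι ℝ) : gram G ⊥ = 1 := by
  rw [mla_gram]
  exact det_eq_one_of_card_eq_zero (by simp [rk])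

theorem rk_bot : rk (⊥ : Submodule ℤ (ι → ℤ)) = 0 := by
  simp [rk]

theorem gram_one_top : gram 1 (⊤ : Submodule ℤ (ι → ℤ)) = 1 := by
  have h := (gram_eq 1 (1 : Matrix ι ι ℤ) fun x y h => by simpa using h).2
  rw [mulVecLin_one, LinearMap.range_id] at h
  rw [h, det_mul, det_mul, det_transpose, mla_rm_det]
  simp

theorem rk_top : rk (⊤ : Submodule ℤ (ι → ℤ)) = Fintype.card ι := by
  simp [rk]

theorem rk_mono {M M' : Submodule ℤ (ι → ℤ)} (h : M ≤ M') : rk M ≤ rk M' := by
  exact Submodule.finrank_mono h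

theorem rk_le_card (M : Submodule ℤ (ι → ℤ)) : rk M ≤ Fintype.card ι := by
  exact (rk_mono le_top).trans rk_top.le

theorem rk_sup_add_inf (M M' : Submodule ℤ (ι → ℤ)) :
    rk (M ⊔ M') + rk (M ⊓ M') = rk M + rk M' := by
  have h := Submodule.rank_sup_add_rank_inf_eq M M'
  rw [← Module.finrank_eq_rank, ← Module.finrank_eq_rank, ← Module.finrank_eq_rank,
    ← Module.finrank_eq_rank] at h
  unfold rk
  exact_mod_cast h

theorem rk_span_le {b : ℕ} (v : Fin b → ι → ℤ) : rk (Submodule.span ℤ (Set.range v)) ≤ b := by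
  exact (finrank_range_le_card v).trans (Fintype.card_fin b).le

theorem gram_smul (c : ℝ) (G : Matrix ι ι ℝ) (M : Submodule ℤ (ι → ℤ)) :
    gram (c • G) M = c ^ rk M * gram G M := by
  rw [mla_gram, mla_gram, Matrix.mul_smul, Matrix.smul_mul, det_smul, Fintype.card_fin]

theorem gram_one_nat (M : Submodule ℤ (ι → ℤ)) : ∃ n : ℕ, 1 ≤ n ∧ gram 1 M = n := by
  exact mla_gram_one_nat M

theorem gram_mono {G G' : Matrix ι ι ℝ} (hG : G.PosSemidef) (hG' : G'.IsHermitian)
    (h : ∀ x, qf G x ≤ qf G' x) (M : Submodule ℤ (ι → ℤ)) : gram G M ≤ gram G' M := by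
  exact mla_gram_mono hG hG' h M

/-- stability in terms of `gram` -/
theorem stableF_iff_gram {G : Matrix ι ι ℝ} (hG : G.PosDef) :
    StableF G ↔ ∀ N : Submodule ℤ (ι → ℤ), 1 ≤ gram G N := by
  refine ⟨fun h N => ?_, fun h => ⟨hG, fun k P hP => ?_⟩⟩
  · rw [mla_gram]
    exact h.2 _ _ (mla_inj N)
  · rw [← (gram_eq G P hP).2]
    exact h _

theorem mlb_rv_mulVec {κ : Type} [Fintype κ] (P : Matrix ι κ ℤ) (z : κ → ℤ) :
    rv (P *ᵥ z) = rm P *ᵥ rv z := by
  funext i
  simp [rv, rm, mulVec, dotProduct]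

theorem mlb_gram_le {G : Matrix ι ι ℝ} (hG : G.PosDef) {k : ℕ} (P P' : Matrix ι (Fin k) ℤ)
    (hP : Function.Injective P.mulVec) (hP' : Function.Injective P'.mulVec)
    (h : LinearMap.range P.mulVecLin ≤ LinearMap.range P'.mulVecLin) :
    gram G (LinearMap.range P'.mulVecLin) ≤ gram G (LinearMap.range P.mulVecLin) := by
  have hc : ∀ a : Fin k, ∃ z, P' *ᵥ z = P *ᵥ Pi.single a 1 := fun a => h ⟨Pi.single a 1, rfl⟩
  choose z hz using hc
  let Q : Matrix (Fin k) (Fin k) ℤ := Matrix.of fun b a => z a b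
  have hQ : P = P' * Q := by
    ext i a
    have h1 := congrFun (hz a) i
    rw [mulVec_single_one] at h1
    exact h1.symm
  have hdet : Q.det ≠ 0 := by
    intro h0
    obtain ⟨v, hv, hQv⟩ := Matrix.exists_mulVec_eq_zero_iff.2 h0
    refine hv (hP ?_)
    rw [hQ, ← mulVec_mulVec, hQv, mulVec_zero, mulVec_zero]
  have h0 := gram_pos hG (LinearMap.range P'.mulVecLin)
  have hm : rm P = rm P' * rm Q := by
    rw [hQ]
    exact Matrix.map_mul (f := Int.castRingHom ℝ)
  have hd : (rm Q).det = (Q.det : ℝ) := ((Int.castRingHom ℝ).map_det Q).symm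
  have h1 : (1 : ℝ) ≤ (Q.det : ℝ) * Q.det := by
    have : 1 ≤ Q.det * Q.det := by
      have := mul_self_pos.2 hdet
      omega
    exact_mod_cast this
  rw [(gram_eq G P' hP').2] at h0 ⊢
  rw [(gram_eq G P hP).2, hm, transpose_mul,
    show (rm Q)ᵀ * (rm P')ᵀ * G * (rm P' * rm Q) = (rm Q)ᵀ * ((rm P')ᵀ * G * rm P') * rm Q by
      simp only [Matrix.mul_assoc],
    det_mul ((rm Q)ᵀ * _), det_mul (rm Q)ᵀ, det_transpose, hd]
  nlinarith

/-- saturation lowers the covolume and keeps the rank -/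
theorem exists_sat {G : Matrix ι ι ℝ} (hG : G.PosDef) {M L : Submodule ℤ (ι → ℤ)} (h : M ≤ L) :
    ∃ M' : Submodule ℤ (ι → ℤ), M ≤ M' ∧ SatIn M' L ∧ rk M' = rk M ∧ gram G M' ≤ gram G M := by
  let M' : Submodule ℤ (ι → ℤ) :=
    { carrier := {x | x ∈ L ∧ ∃ c : ℤ, c ≠ 0 ∧ c • x ∈ M}
      add_mem' := by
        rintro a b ⟨ha, c, hc, hca⟩ ⟨hb, d, hd, hdb⟩
        refine ⟨L.add_mem ha hb, c * d, mul_ne_zero hc hd, ?_⟩
        rw [smul_add]
        refine M.add_mem ?_ ?_
        · rw [mul_comm, mul_smul]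
          exact M.smul_mem _ hca
        · rw [mul_smul]
          exact M.smul_mem _ hdb
      zero_mem' := ⟨L.zero_mem, 1, one_ne_zero, by simp⟩
      smul_mem' := by
        rintro e a ⟨ha, c, hc, hca⟩
        refine ⟨L.smul_mem _ ha, c, hc, ?_⟩
        rw [smul_comm]
        exact M.smul_mem _ hca }
  have hmem : ∀ x, x ∈ M' ↔ x ∈ L ∧ ∃ c : ℤ, c ≠ 0 ∧ c • x ∈ M := fun _ => Iff.rfl
  have hle : M ≤ M' := fun x hx => (hmem x).2 ⟨h hx, 1, one_ne_zero, by simpa using hx⟩
  have hr : rk M' = rk M := by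
    refine le_antisymm ?_ (rk_mono hle)
    let b := Module.finBasis ℤ M'
    have hb : ∀ j, ∃ c : ℤ, c ≠ 0 ∧ c • (b j : ι → ℤ) ∈ M := fun j => ((hmem _).1 (b j).2).2
    choose c hc hcb using hb
    have hli : LinearIndependent ℤ fun j => (⟨c j • (b j : ι → ℤ), hcb j⟩ : M) := by
      refine Fintype.linearIndependent_iff.2 fun g hg j => ?_
      have h1 : ∑ j, (g j * c j) • b j = 0 := by
        apply Subtype.ext
        have h2 := congrArg Subtype.val hg
        simpa [mul_smul] using h2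
      exact (mul_eq_zero.1 (Fintype.linearIndependent_iff.1 b.linearIndependent _ h1 j)).resolve_right
        (hc j)
    simpa [rk] using hli.fintype_card_le_finrank
  refine ⟨M', hle, ⟨fun x hx => ((hmem x).1 hx).1, fun x hx c hc hcx => ?_⟩, hr, ?_⟩
  · obtain ⟨-, d, hd, hdx⟩ := (hmem _).1 hcx
    exact (hmem x).2 ⟨hx, d * c, mul_ne_zero hd hc, by rwa [mul_smul]⟩
  · obtain ⟨P, hP, hPM⟩ := exists_basis_matrix M
    obtain ⟨P', hP', hPM'⟩ : ∃ P : Matrix ι (Fin (rk M)) ℤ, Function.Injective P.mulVec ∧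
        LinearMap.range P.mulVecLin = M' := hr ▸ exists_basis_matrix M'
    have key := mlb_gram_le hG P P' hP hP' (by rw [hPM, hPM']; exact hle)
    rwa [hPM, hPM'] at key

theorem finrank_perp (M : Submodule ℤ (ι → ℤ)) :
    Module.finrank ℝ (perp M) + rk M = Fintype.card ι := by
  obtain ⟨P, hP, hPM⟩ := exists_basis_matrix M
  have hker : perp M = LinearMap.ker (rm P)ᵀ.mulVecLin := by
    ext y
    rw [LinearMap.mem_ker, mulVecLin_apply]
    have hdot : ∀ z : Fin (rk M) → ℤ, rv (P *ᵥ z) ⬝ᵥ y = rv z ⬝ᵥ ((rm P)ᵀ *ᵥ y) := by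
      intro z
      rw [mlb_rv_mulVec, dotProduct_mulVec, vecMul_transpose]
    constructor
    · intro hy
      funext a
      have h1 := hy (P *ᵥ Pi.single a 1) (hPM.le ⟨Pi.single a 1, rfl⟩)
      have h2 : rv (Pi.single a (1 : ℤ)) = Pi.single a (1 : ℝ) := by
        funext j
        by_cases hj : j = a <;> simp [rv, hj]
      rw [hdot, h2, single_one_dotProduct] at h1
      exact h1
    · intro hy g hg
      obtain ⟨z, rfl⟩ := hPM.ge hg
      rw [mulVecLin_apply, hdot, hy, dotProduct_zero]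
  have h1 := LinearMap.finrank_range_add_finrank_ker (rm P)ᵀ.mulVecLin
  have h2 : Module.finrank ℝ (LinearMap.range (rm P)ᵀ.mulVecLin) = rk M := by
    change ((rm P)ᵀ).rank = rk M
    rw [rank_transpose]
    exact (LinearMap.finrank_range_of_inj (f := (rm P).mulVecLin) (rm_injective P hP)).trans
      (by simp)
  rw [h2, ← hker, Module.finrank_fintype_fun_eq_card] at h1
  omega

theorem perp_sup (M M' : Submodule ℤ (ι → ℤ)) : perp (M ⊔ M') = perp M ⊓ perp M' := by
  ext y
  constructor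
  · intro hy
    exact ⟨fun g hg => hy g (Submodule.mem_sup_left hg), fun g hg => hy g (Submodule.mem_sup_right hg)⟩
  · rintro ⟨h1, h2⟩ g hg
    obtain ⟨a, ha, b, hb, rfl⟩ := Submodule.mem_sup.1 hg
    have e : rv (a + b) = rv a + rv b := by
      funext j
      simp [rv]
    rw [e, add_dotProduct, h1 a ha, h2 b hb, add_zero]

/-- Odlyzko: a coset of a lattice of rank `k` contains at most `2 ^ k` sign vectors -/
theorem odlyzko (M : Submodule ℤ (ι → ℤ)) (S : Finset (ι → Bool))
    (h : ∀ x ∈ S, ∀ x' ∈ S, sgv x - sgv x' ∈ M) : S.card ≤ 2 ^ rk M := by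
  induction hn : rk M using Nat.strong_induction_on generalizing M S with
  | _ n ih =>
  by_cases hS : S.card ≤ 1
  · exact hS.trans Nat.one_le_two_pow
  obtain ⟨x, hx, x', hx', hne⟩ := Finset.one_lt_card.1 (not_le.1 hS)
  obtain ⟨j, hj⟩ := Function.ne_iff.1 hne
  let N : Submodule ℤ (ι → ℤ) := M ⊓ LinearMap.ker (LinearMap.proj j)
  have hv : (sgv x - sgv x') j ≠ 0 := by
    change sg (x j) - sg (x' j) ≠ 0
    revert hj
    cases x j <;> cases x' j <;> simp [sg]
  have hN : rk N < n := by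
    have h1 := rk_sup_add_inf N (Submodule.span ℤ {sgv x - sgv x'})
    have h2 : N ⊓ Submodule.span ℤ {sgv x - sgv x'} = ⊥ := by
      refine (Submodule.eq_bot_iff _).2 fun y hy => ?_
      obtain ⟨c, rfl⟩ := Submodule.mem_span_singleton.1 hy.2
      have h3 : c * (sgv x - sgv x') j = 0 := hy.1.2
      rw [(mul_eq_zero.1 h3).resolve_right hv, zero_smul]
    have h3 : 1 ≤ rk (Submodule.span ℤ {sgv x - sgv x'}) := by
      refine Submodule.one_le_finrank_iff.2 fun h0 => hv ?_
      rw [Submodule.span_singleton_eq_bot.1 h0]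
      rfl
    have h4 : rk (N ⊔ Submodule.span ℤ {sgv x - sgv x'}) ≤ rk M :=
      rk_mono (sup_le inf_le_left ((Submodule.span_singleton_le_iff_mem _ _).2 (h x hx x' hx')))
    rw [h2, rk_bot] at h1
    omega
  have hb : ∀ b : Bool, (S.filter fun y => y j = b).card ≤ 2 ^ rk N := by
    intro b
    refine ih _ hN N _ (fun y hy y' hy' => ?_) rfl
    rw [Finset.mem_filter] at hy hy'
    refine ⟨h y hy.1 y' hy'.1, ?_⟩
    change sg (y j) - sg (y' j) = 0
    rw [hy.2, hy'.2, sub_self]
  have h1 := Finset.card_filter_add_card_filter_not (s := S) fun y => y j = true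
  have h2 : (S.filter fun y => ¬ y j = true) = S.filter fun y => y j = false := by
    simp
  have h3 : 2 ^ (rk N + 1) ≤ 2 ^ n := Nat.pow_le_pow_right two_pos hN
  rw [h2] at h1
  have h4 := hb true
  have h5 := hb false
  rw [pow_succ] at h3
  omega

end Crest.Agent.R152
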