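import Crest.Agent.R152.MBasic

/-! # Row 152, module M: probability tools on the biased cube -/

set_option autoImplicit false
set_option linter.unusedSectionVars false
set_option linter.unusedVariables false

open Matrix Filter Topology Finset Crest.FinProb Crest.Agent.Lib.BoolCube

noncomputable section

namespace Crest.Agent.R152

variable {ι : Type} [Fintype ι] [DecidableEq ι]

variable {p : ℝ}

theorem prob_nonneg (h0 : 0 ≤ p) (h1 : p ≤ 1) (A : Set (ι → Bool)) : 0 ≤ bernoulliProb p A := by
  classical
  rw [bernoulliProb_eq_E]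
  exact E_nonneg h0 h1 fun x => by split_ifs <;> norm_num

theorem prob_le_one (h0 : 0 ≤ p) (h1 : p ≤ 1) (A : Set (ι → Bool)) : bernoulliProb p A ≤ 1 := by
  classical
  rw [bernoulliProb_eq_E]
  exact (E_mono h0 h1 fun x => by split_ifs <;> norm_num).trans (E_const (p := p) (ι := ι) 1).le

theorem prob_mono (h0 : 0 ≤ p) (h1 : p ≤ 1) {A B : Set (ι → Bool)} (h : A ⊆ B) :
    bernoulliProb p A ≤ bernoulliProb p B := by
  classical
  rw [bernoulliProb_eq_E, bernoulliProb_eq_E]
  refine E_mono h0 h1 fun x => ?_
  by_cases hx : x ∈ A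
  · simp [hx, h hx]
  · simp only [hx, if_false]; split_ifs <;> norm_num

theorem prob_union_le (h0 : 0 ≤ p) (h1 : p ≤ 1) (A B : Set (ι → Bool)) :
    bernoulliProb p (A ∪ B) ≤ bernoulliProb p A + bernoulliProb p B := by
  classical
  rw [bernoulliProb_eq_E, bernoulliProb_eq_E, bernoulliProb_eq_E, ← E_add]
  refine E_mono h0 h1 fun x => ?_
  by_cases ha : x ∈ A <;> by_cases hb : x ∈ B <;> simp [ha, hb]

/-- union bound -/
theorem prob_le_sum (h0 : 0 ≤ p) (h1 : p ≤ 1) {α : Type} (s : Finset α) (A : Set (ι → Bool))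
    (B : α → Set (ι → Bool)) (h : ∀ x ∈ A, ∃ a ∈ s, x ∈ B a) :
    bernoulliProb p A ≤ ∑ a ∈ s, bernoulliProb p (B a) := by
  classical
  simp only [bernoulliProb_eq_E]
  rw [← E_sum]
  refine E_mono h0 h1 fun x => ?_
  have hn : ∀ a ∈ s, (0 : ℝ) ≤ if x ∈ B a then 1 else 0 := fun a _ => by split_ifs <;> norm_num
  by_cases hx : x ∈ A
  · obtain ⟨a, ha, hb⟩ := h x hx
    simpa [hx, hb] using Finset.single_le_sum hn ha
  · rw [if_neg hx]; exact Finset.sum_nonneg hn

/-- resampling the coordinates in `F` -/
theorem E_resample (F : Finset ι) (f : (ι → Bool) → ℝ) :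
    E p f = E p fun w => E p fun x => f (F.piecewise x w) := by
  have inv : Function.Involutive fun q : (ι → Bool) × (ι → Bool) =>
      (F.piecewise q.2 q.1, F.piecewise q.1 q.2) := fun q => by
    ext i <;> by_cases hi : i ∈ F <;> simp [hi]
  have h1 : E p f = ∑ q : (ι → Bool) × (ι → Bool),
      bernoulliWeight p q.1 * (bernoulliWeight p q.2 * f q.1) := by
    rw [Fintype.sum_prod_type]
    refine Finset.sum_congr rfl fun w _ => ?_
    simp only [← Finset.mul_sum]
    exact congrArg _ (E_const (p := p) (ι := ι) (f w)).symm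
  rw [h1, ← Equiv.sum_comp inv.toPerm]
  simp only [E, Finset.mul_sum, ← Fintype.sum_prod_type']
  refine Finset.sum_congr rfl fun q _ => ?_
  simp only [Function.Involutive.coe_toPerm, ← mul_assoc, bw_eq, ← Finset.prod_mul_distrib]
  congr 1
  refine Finset.prod_congr rfl fun i _ => ?_
  by_cases hi : i ∈ F <;> simp [hi, mul_comm]

/-- marginals along an injection -/
theorem E_comp_inj {κ : Type} [Fintype κ] [DecidableEq κ] (e : κ → ι) (he : Function.Injective e)
    (f : (κ → Bool) → ℝ) : E p (fun x : ι → Bool => f (x ∘ e)) = E p f := by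
  have h1 : ∀ x : ι → Bool, f (x ∘ e) = ∑ y : κ → Bool, f y * ∏ i,
      Function.extend e (fun k b => if b = y k then (1 : ℝ) else 0) (fun _ _ => 1) i (x i) := by
    intro x
    have : ∀ y : κ → Bool, ∏ i, Function.extend e (fun k b => if b = y k then (1 : ℝ) else 0)
        (fun _ _ => 1) i (x i) = if x ∘ e = y then 1 else 0 := fun y => by
      rw [← Fintype.prod_of_injective e he (fun k => if x (e k) = y k then (1 : ℝ) else 0) _
        (fun i hi => by rw [Function.extend_apply' _ _ _ hi]) (fun k => by rw [he.extend_apply])]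
      simp [Finset.prod_boole, funext_iff]
    simp [this]
  simp only [h1]
  rw [E_sum]
  refine Finset.sum_congr rfl fun y _ => ?_
  rw [E_const_mul, E_prod, mul_comm, bw_eq]
  congr 1
  refine (Fintype.prod_of_injective e he _ _
    (fun i hi => by rw [Function.extend_apply' _ _ _ hi]; ring) (fun k => ?_)).symm
  rw [he.extend_apply]
  cases y k <;> simp [w1]

/-- independent blocks -/
theorem E_prod_blocks {α : Type} [Fintype α] [DecidableEq α] (f : α → (ι → Bool) → ℝ) :
    E p (fun x : α × ι → Bool => ∏ a, f a (fun i => x (a, i))) = ∏ a, E p (f a) := by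
  simp only [E]
  rw [Finset.prod_univ_sum, Fintype.piFinset_univ, ← Equiv.sum_comp (Equiv.curry α ι Bool)]
  refine Finset.sum_congr rfl fun x _ => ?_
  rw [Finset.prod_mul_distrib, bw_eq, Fintype.prod_prod_type]
  rfl

/-- an event on which the coordinates in `D` are determined by the others -/
theorem prob_le_pow_of_determined (h0 : 0 ≤ p) (h1 : p ≤ 1) (D : Finset ι) (A : Set (ι → Bool))
    (h : ∀ x ∈ A, ∀ x' ∈ A, (∀ j, j ∉ D → x j = x' j) → ∀ j ∈ D, x j = x' j) :
    bernoulliProb p A ≤ th p ^ D.card := by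
  classical
  have hth : 0 ≤ th p := le_trans h0 (le_max_left _ _)
  rw [bernoulliProb_eq_E, E_resample D]
  refine le_trans (E_mono h0 h1 fun w => ?_) (E_const (th p ^ D.card)).le
  by_cases hw : ∃ x₀ : ι → Bool, D.piecewise x₀ w ∈ A
  · obtain ⟨x₀, hx₀⟩ := hw
    refine le_trans (E_mono h0 h1 (G := fun x => ∏ i,
      (fun i b => if i ∈ D then (if b = x₀ i then (1 : ℝ) else 0) else 1) i (x i)) fun x => ?_) ?_
    · split_ifs with hx
      · refine le_of_eq (Finset.prod_eq_one fun i _ => ?_).symm
        by_cases hi : i ∈ D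
        · have := h _ hx _ hx₀ (fun j hj => by simp only [Finset.piecewise_eq_of_notMem _ _ _ hj])
            i hi
          simp only [Finset.piecewise_eq_of_mem _ _ _ hi] at this
          simp only [if_pos hi, if_pos this]
        · simp only [if_neg hi]
      · refine Finset.prod_nonneg fun i _ => ?_
        beta_reduce
        split_ifs <;> norm_num
    · refine le_trans (E_prod
        (fun i b => if i ∈ D then (if b = x₀ i then (1 : ℝ) else 0) else 1)).le ?_
      have e : th p ^ D.card = ∏ i : ι, if i ∈ D then th p else 1 := by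
        rw [Finset.prod_ite_mem, Finset.univ_inter, Finset.prod_const]
      rw [e]
      refine Finset.prod_le_prod (fun i _ => ?_) (fun i _ => ?_)
      · have : 0 ≤ 1 - p := by linarith
        split_ifs <;> positivity
      · by_cases hi : i ∈ D
        · simp only [if_pos hi]
          have a1 : p ≤ th p := le_max_left _ _
          have a2 : 1 - p ≤ th p := le_max_right _ _
          cases x₀ i <;> simp [a1, a2]
        · simp only [if_neg hi]
          linarith
  · push Not at hw
    simp only [if_neg (hw _)]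
    rw [E_const]
    positivity

/-- row exposure: the rows `j ∈ J` have fresh independent entries in the columns `I` -/
theorem prob_rows_le (h0 : 0 ≤ p) (h1 : p ≤ 1) (I J : Finset ι) (hIJ : Disjoint I J)
    (A : ι → Set (ι → Bool)) (ρ : ι → ℝ)
    (h : ∀ j ∈ J, ∀ w : ι → Bool, bernoulliProb p {x | I.piecewise x w ∈ A j} ≤ ρ j) :
    bernoulliProb p {b : Sym2 ι → Bool | ∀ j ∈ J, (fun l => b s(j, l)) ∈ A j} ≤ ∏ j ∈ J, ρ j := by
  classical
  induction J using Finset.induction_on with
  | empty => rw [Finset.prod_empty]; exact prob_le_one h0 h1 _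
  | insert j₀ J hj₀ ih =>
    have hI0 : j₀ ∉ I := fun hh => Finset.disjoint_left.1 hIJ hh (Finset.mem_insert_self _ _)
    have hIJ' : Disjoint I J := Finset.disjoint_of_subset_right (Finset.subset_insert _ _) hIJ
    have ih' := ih hIJ' fun j hj => h j (Finset.mem_insert_of_mem hj)
    have hρ := h j₀ (Finset.mem_insert_self _ _)
    have hρ0 : 0 ≤ ρ j₀ := le_trans (prob_nonneg h0 h1 _) (hρ fun _ => true)
    have he : Function.Injective (fun l : ι => s(j₀, l)) := fun l l' hl => Sym2.congr_right.1 hl
    rw [Finset.prod_insert hj₀]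
    refine le_trans ?_ (mul_le_mul_of_nonneg_left ih' hρ0)
    rw [bernoulliProb_eq_E, bernoulliProb_eq_E, E_resample (I.image fun l : ι => s(j₀, l)),
      ← E_const_mul]
    refine E_mono h0 h1 fun w => ?_
    have r1 : ∀ x : Sym2 ι → Bool, ∀ j ∈ J,
        (fun l => (I.image fun l : ι => s(j₀, l)).piecewise x w s(j, l)) = fun l => w s(j, l) := by
      intro x j hj
      funext l
      refine Finset.piecewise_eq_of_notMem _ _ _ fun hm => ?_
      obtain ⟨l', hl', e⟩ := Finset.mem_image.1 hm
      rcases Sym2.eq_iff.1 e with ⟨e1, -⟩ | ⟨-, e2⟩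
      · exact hj₀ (e1 ▸ hj)
      · exact Finset.disjoint_left.1 hIJ' hl' (e2 ▸ hj)
    have r2 : ∀ x : Sym2 ι → Bool,
        (fun l => (I.image fun l : ι => s(j₀, l)).piecewise x w s(j₀, l)) =
          I.piecewise (x ∘ fun l : ι => s(j₀, l)) (fun l => w s(j₀, l)) := by
      intro x
      funext l
      by_cases hl : l ∈ I
      · rw [Finset.piecewise_eq_of_mem _ _ _ hl,
          Finset.piecewise_eq_of_mem _ _ _ (Finset.mem_image_of_mem _ hl)]
        rfl
      · rw [Finset.piecewise_eq_of_notMem _ _ _ hl, Finset.piecewise_eq_of_notMem]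
        intro hm
        obtain ⟨l', hl', e⟩ := Finset.mem_image.1 hm
        exact hl (he e ▸ hl')
    by_cases hw : ∀ j ∈ J, (fun l => w s(j, l)) ∈ A j
    · rw [if_pos (by exact hw), mul_one]
      refine le_trans (le_of_eq ?_) (hρ fun l => w s(j₀, l))
      rw [bernoulliProb_eq_E, ← E_comp_inj _ he]
      refine E_congr fun x => if_congr ?_ rfl rfl
      simp only [Set.mem_ofPred_eq, Finset.forall_mem_insert]
      rw [r2 x]
      exact and_iff_left fun j hj => by rw [r1 x j hj]; exact hw j hj
    · rw [if_neg (by exact hw), mul_zero]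
      refine le_trans (E_mono h0 h1 fun x => ?_) (E_const 0).le
      rw [if_neg]
      intro hx
      exact hw fun j hj => by
        have := hx j (Finset.mem_insert_of_mem hj)
        rwa [r1 x j hj] at this

end Crest.Agent.R152
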