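import Crest.Agent.R152.MCover
import Crest.Agent.R152.MProb

/-! # Row 152, module M: the net argument -/

set_option autoImplicit false
set_option linter.unusedSectionVars false
set_option linter.unusedVariables false

open Matrix Filter Topology Finset Crest.FinProb Crest.Agent.Lib.BoolCube

noncomputable section

namespace Crest.Agent.R152

variable {ι : Type} [Fintype ι] [DecidableEq ι]

theorem near_dsum {A : Matrix ι ι ℤ} {V : Submodule ℝ (ι → ℝ)} {R η : ℝ} {H : Finset (ι → ℝ)}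
    (hH : ∀ u ∈ H, Near A V R η u) {T : ℕ} {ω : Fin T → (ι → ℝ) × (ι → ℝ)} (hω : ω ∈ seqs H T) :
    Near A V (2 * T * R) (2 * T * η) (dsum ω) := by
  classical
  have hm : ∀ t, (ω t).1 ∈ H ∧ (ω t).2 ∈ H := fun t =>
    Finset.mem_product.1 (Fintype.mem_piFinset.1 hω t)
  choose v₁ a₁ b₁ c₁ using fun t => (hH _ (hm t).1).1
  choose v₂ a₂ b₂ c₂ using fun t => (hH _ (hm t).2).1
  have key : ∀ (f : Fin T → ℝ) (B : ℝ), (∀ t, f t ≤ 2 * B) → ∑ t, f t ≤ 2 * T * B := fun f B hf => by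
    have := Finset.sum_le_sum fun t (_ : t ∈ (Finset.univ : Finset (Fin T))) => hf t
    simp only [Finset.sum_const, Finset.card_univ, Fintype.card_fin, nsmul_eq_mul] at this
    linarith
  refine ⟨⟨∑ t, (v₁ t - v₂ t), V.sum_mem fun t _ => V.sub_mem (a₁ t) (a₂ t), fun j => ?_,
    fun j => ?_⟩, fun j => ?_⟩
  · rw [Finset.sum_apply]
    refine (Finset.abs_sum_le_sum_abs _ _).trans (key _ _ fun t => ?_)
    have := abs_sub (v₁ t j) (v₂ t j)
    simp only [Pi.sub_apply]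
    linarith [b₁ t j, b₂ t j]
  · rw [dsum, Finset.sum_apply, Finset.sum_apply, ← Finset.sum_sub_distrib]
    refine (Finset.abs_sum_le_sum_abs _ _).trans (key _ _ fun t => ?_)
    have := abs_sub ((ω t).1 j - v₁ t j) ((ω t).2 j - v₂ t j)
    simp only [Pi.sub_apply]
    rw [show (ω t).1 j - (ω t).2 j - (v₁ t j - v₂ t j) =
      (ω t).1 j - v₁ t j - ((ω t).2 j - v₂ t j) by ring]
    linarith [c₁ t j, c₂ t j]
  · rw [dsum, Matrix.mulVec_sum, Finset.sum_apply]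
    refine (nz_sum_le _ _).trans (key _ _ fun t => ?_)
    rw [Matrix.mulVec_sub, Pi.sub_apply]
    linarith [nz_sub_le ((rm A *ᵥ (ω t).1) j) ((rm A *ᵥ (ω t).2) j), (hH _ (hm t).1).2 j,
      (hH _ (hm t).2).2 j]

theorem sb_mono {p : ℝ} (h0 : 0 ≤ p) (h1 : p ≤ 1) (I : Finset ι) {l : ℕ} {Y Y' : Fin l → ι → ℝ}
    {η ρ ρ' : ℝ} (hY : ∀ i j, |Y i j - Y' i j| ≤ η) (hρ : ρ' + Fintype.card ι * η ≤ ρ)
    (z : Fin l → ℝ) : sb p I Y' z ρ' ≤ sb p I Y z ρ := by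
  refine prob_mono h0 h1 fun x hx i => ?_
  have h2 := nz_le_add_abs (rv (sgI I x) ⬝ᵥ Y i - z i) (rv (sgI I x) ⬝ᵥ Y' i - z i)
  have h3 : |rv (sgI I x) ⬝ᵥ Y i - z i - (rv (sgI I x) ⬝ᵥ Y' i - z i)| ≤ Fintype.card ι * η := by
    rw [sub_sub_sub_cancel_right, ← dotProduct_sub, dotProduct]
    refine (Finset.abs_sum_le_sum_abs _ _).trans ?_
    have : ∀ j ∈ (Finset.univ : Finset ι), |rv (sgI I x) j * (Y i - Y' i) j| ≤ η := fun j _ => by
      rw [abs_mul]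
      have e1 : |rv (sgI I x) j| ≤ 1 := by
        simp only [rv, sgI]
        split_ifs
        · rw [← Int.cast_abs, sg_abs]; simp
        · simp
      have e2 := hY i j
      calc _ ≤ 1 * η := mul_le_mul e1 e2 (abs_nonneg _) zero_le_one
        _ = η := one_mul η
    simpa using Finset.sum_le_sum this
  have h4 := hx i
  linarith

/-- a fixed tuple: expose the rows outside `I` (`prob_rows_le` with `J = Iᶜ`) -/
theorem fixed_tuple {p : ℝ} (h0 : 0 ≤ p) (h1 : p ≤ 1) (I : Finset ι) {l : ℕ} (Y : Fin l → ι → ℝ)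
    {ρ ρ₀ : ℝ} (h : ∀ z, sb p I Y z ρ ≤ ρ₀) :
    bernoulliProb p {b : Sym2 ι → Bool | ∀ i j, nz ((rm (sm b) *ᵥ Y i) j) ≤ ρ} ≤
      ρ₀ ^ (Fintype.card ι - I.card) := by
  have key := prob_rows_le h0 h1 I Iᶜ disjoint_compl_right
    (fun _ => {x : ι → Bool | ∀ i, nz (rv (sgv x) ⬝ᵥ Y i) ≤ ρ}) (fun _ => ρ₀) (fun j _ w => by
      refine le_trans (le_of_eq ?_) (h fun i => -(rv (sgI Iᶜ w) ⬝ᵥ Y i))
      unfold sb
      congr 1
      ext x
      have e : rv (sgv (I.piecewise x w)) = rv (sgI I x) + rv (sgI Iᶜ w) := by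
        funext k
        by_cases hk : k ∈ I <;> simp [rv, sgv, sgI, hk]
      simp only [Set.mem_ofPred_eq, e, add_dotProduct, sub_neg_eq_add])
  rw [Finset.prod_const, Finset.card_compl] at key
  refine le_trans (prob_mono h0 h1 ?_) key
  intro b hb j _ i
  exact hb i j

/-- union bound over the tuples of net points (`exists_net` with mesh `η`; the net tuple `Y'` is
`2η`-close, `nz (A Y') ≤ η + 2 m η`, `sb_mono`, `fixed_tuple`) -/
theorem net_bound {p : ℝ} (h0 : 0 ≤ p) (h1 : p ≤ 1) (hm : 1 ≤ Fintype.card ι)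
    (V : Submodule ℝ (ι → ℝ)) (I : Finset ι) (l : ℕ)
    {R η ρ ρ₀ : ℝ} (hR : 0 ≤ R) (hη : 0 < η) (hρ : 5 * Fintype.card ι * η ≤ ρ) (hρ₀ : 0 ≤ ρ₀) :
    bernoulliProb p {b : Sym2 ι → Bool | ∃ Y : Fin l → ι → ℝ, (∀ i, Near (sm b) V R η (Y i)) ∧
        ∀ z, sb p I Y z ρ ≤ ρ₀} ≤
      ((2 * R * (Fintype.card ι : ℝ) ^ 2 / η + 3) ^ Module.finrank ℝ V) ^ l *
        ρ₀ ^ (Fintype.card ι - I.card) := by
  classical
  obtain ⟨Nt, hN, hnet⟩ := exists_net V hR hη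
  have hm' : (1 : ℝ) ≤ Fintype.card ι := by exact_mod_cast hm
  have key := prob_le_sum h0 h1
    ((Fintype.piFinset fun _ : Fin l => Nt).filter fun Y' =>
      ∀ z, sb p I Y' z (3 * Fintype.card ι * η) ≤ ρ₀)
    {b : Sym2 ι → Bool | ∃ Y : Fin l → ι → ℝ, (∀ i, Near (sm b) V R η (Y i)) ∧
        ∀ z, sb p I Y z ρ ≤ ρ₀}
    (fun Y' => {b : Sym2 ι → Bool | ∀ i j, nz ((rm (sm b) *ᵥ Y' i) j) ≤ 3 * Fintype.card ι * η})
    (by
      rintro b ⟨Y, hY, hs⟩
      choose v a₁ a₂ a₃ using fun i => (hY i).1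
      choose Y' b₁ b₂ using fun i => hnet (v i) (a₁ i) (a₂ i)
      have hc : ∀ i j, |Y i j - Y' i j| ≤ 2 * η := fun i j => by
        linarith [abs_sub_le (Y i j) (v i j) (Y' i j), a₃ i j, b₂ i j]
      refine ⟨Y', Finset.mem_filter.2 ⟨Fintype.mem_piFinset.2 b₁, fun z =>
        (sb_mono h0 h1 I hc (by linarith) z).trans (hs z)⟩, fun i j => ?_⟩
      have e1 := nz_le_add_abs ((rm (sm b) *ᵥ Y' i) j) ((rm (sm b) *ᵥ Y i) j)
      have e2 := abs_sm_mulVec_le b (Y i - Y' i) (hc i) j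
      rw [Matrix.mulVec_sub, Pi.sub_apply, abs_sub_comm] at e2
      have e3 := (hY i).2 j
      nlinarith)
  refine key.trans ?_
  refine (Finset.sum_le_card_nsmul _ _ (ρ₀ ^ (Fintype.card ι - I.card)) fun Y' hY' =>
    fixed_tuple h0 h1 I Y' (Finset.mem_filter.1 hY').2).trans ?_
  rw [nsmul_eq_mul]
  refine mul_le_mul_of_nonneg_right ?_ (pow_nonneg hρ₀ _)
  refine le_trans ?_ (pow_le_pow_left₀ (Nat.cast_nonneg _) hN l)
  have := Finset.card_filter_le (Fintype.piFinset fun _ : Fin l => Nt) fun Y' =>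
      ∀ z, sb p I Y' z (3 * Fintype.card ι * η) ≤ ρ₀
  rw [Fintype.card_piFinset_const] at this
  exact_mod_cast this

end Crest.Agent.R152
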