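import Crest.Agent.R152.MDiss

/-! # Row 152, module M: characters (auxiliary lemmas for `MSmall`) -/

set_option autoImplicit false
set_option linter.unusedSectionVars false
set_option linter.unusedVariables false

open Matrix Filter Topology Finset

noncomputable section

namespace Crest.Agent.R152

variable {ι : Type} [Fintype ι] [DecidableEq ι]

/-- the character `e(t)` -/
def msE (t : ℝ) : ℂ := Complex.exp (((2 * Real.pi * t : ℝ) : ℂ) * Complex.I)

theorem msE_re (t : ℝ) : (msE t).re = Real.cos (2 * Real.pi * t) :=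
  Complex.exp_ofReal_mul_I_re _

theorem msE_im (t : ℝ) : (msE t).im = Real.sin (2 * Real.pi * t) :=
  Complex.exp_ofReal_mul_I_im _

theorem msE_norm (t : ℝ) : ‖msE t‖ = 1 := Complex.norm_exp_ofReal_mul_I _

theorem msE_add (s t : ℝ) : msE (s + t) = msE s * msE t := by
  unfold msE
  rw [← Complex.exp_add]
  congr 1
  push_cast
  ring

theorem msE_sum {α : Type} (s : Finset α) (f : α → ℝ) :
    msE (∑ a ∈ s, f a) = ∏ a ∈ s, msE (f a) := by
  unfold msE
  rw [← Complex.exp_sum]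
  congr 1
  push_cast
  rw [Finset.mul_sum, Finset.sum_mul]

theorem msE_int (z : ℤ) : msE z = 1 := by
  unfold msE
  have := Complex.exp_int_mul_two_pi_mul_I z
  rw [← this]
  congr 1
  push_cast
  ring

theorem msE_normSq {α : Type} (s : Finset α) (φ : α → ℝ) :
    ‖∑ a ∈ s, msE (φ a)‖ ^ 2 = ∑ a ∈ s, ∑ b ∈ s, Real.cos (2 * Real.pi * (φ a - φ b)) := by
  rw [Complex.sq_norm, Complex.normSq_apply, Complex.re_sum, Complex.im_sum, Finset.sum_mul_sum,
    Finset.sum_mul_sum, ← Finset.sum_add_distrib]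
  refine Finset.sum_congr rfl fun a _ => ?_
  rw [← Finset.sum_add_distrib]
  refine Finset.sum_congr rfl fun b _ => ?_
  rw [msE_re, msE_re, msE_im, msE_im, mul_sub, Real.cos_sub]

theorem msE_sin_sum {α : Type} (s : Finset α) (φ : α → ℝ) :
    ∑ a ∈ s, ∑ b ∈ s, Real.sin (2 * Real.pi * (φ a - φ b)) = 0 := by
  have h : ∑ a ∈ s, ∑ b ∈ s, Real.sin (2 * Real.pi * (φ a - φ b)) =
      -∑ a ∈ s, ∑ b ∈ s, Real.sin (2 * Real.pi * (φ a - φ b)) := by
    conv_lhs => rw [Finset.sum_comm]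
    rw [← Finset.sum_neg_distrib]
    refine Finset.sum_congr rfl fun a _ => ?_
    rw [← Finset.sum_neg_distrib]
    refine Finset.sum_congr rfl fun b _ => ?_
    rw [← Real.sin_neg]
    congr 1
    ring
  linarith

theorem ms_card_seqs (H : Finset (ι → ℝ)) (T : ℕ) : (seqs H T).card = (H.card ^ 2) ^ T := by
  simp [seqs, Fintype.card_piFinset, sq]

theorem ms_char_dsum (H : Finset (ι → ℝ)) (hH : H.Nonempty) (T : ℕ) (a : ι → ℤ) {ν : ℝ}
    (hν : 0 ≤ ν) (ha : ν / 2 ≤ sn H a) :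
    ∑ ω ∈ seqs H T, Real.cos (2 * Real.pi * (rv a ⬝ᵥ dsum ω)) ≤
      (seqs H T).card * Real.exp (-(2 * ν ^ 2 * T)) := by
  set c : ℝ := ∑ u ∈ H, ∑ u' ∈ H, Real.cos (2 * Real.pi * (rv a ⬝ᵥ u - rv a ⬝ᵥ u')) with hc
  have hc0 : 0 ≤ c := by
    rw [hc, ← msE_normSq H (fun u => rv a ⬝ᵥ u)]
    positivity
  have hcc : ∑ p ∈ H ×ˢ H, msE (rv a ⬝ᵥ (p.1 - p.2)) = (c : ℂ) := by
    apply Complex.ext
    · rw [Complex.re_sum, Complex.ofReal_re, hc, Finset.sum_product]
      simp only [msE_re, dotProduct_sub]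
    · rw [Complex.im_sum, Complex.ofReal_im, Finset.sum_product]
      simp only [msE_im, dotProduct_sub]
      exact msE_sin_sum H (fun u => rv a ⬝ᵥ u)
  have h1 : ∑ ω ∈ seqs H T, msE (rv a ⬝ᵥ dsum ω) = ((c ^ T : ℝ) : ℂ) := by
    have : ∀ ω : Fin T → (ι → ℝ) × (ι → ℝ),
        msE (rv a ⬝ᵥ dsum ω) = ∏ t, msE (rv a ⬝ᵥ ((ω t).1 - (ω t).2)) := by
      intro ω
      rw [dsum, dotProduct_sum, msE_sum]
    simp only [this]
    rw [seqs, ← Finset.prod_univ_sum (fun _ : Fin T => H ×ˢ H)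
      (fun _ p => msE (rv a ⬝ᵥ (p.1 - p.2)))]
    simp only [hcc]
    simp
  have h2 : ∑ ω ∈ seqs H T, Real.cos (2 * Real.pi * (rv a ⬝ᵥ dsum ω)) = c ^ T := by
    have := congrArg Complex.re h1
    rw [Complex.re_sum, Complex.ofReal_re] at this
    simpa only [msE_re] using this
  have hHc : (0 : ℝ) < H.card := by exact_mod_cast hH.card_pos
  have h3 : c ≤ (H.card : ℝ) ^ 2 * Real.exp (-(2 * ν ^ 2)) := by
    set Sg : ℝ := ∑ u ∈ H, ∑ u' ∈ H, nz (rv a ⬝ᵥ (u - u')) ^ 2 with hSg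
    have a1 : c ≤ (H.card : ℝ) ^ 2 - 8 * Sg := by
      have : (H.card : ℝ) ^ 2 - 8 * Sg =
          ∑ u ∈ H, ∑ u' ∈ H, (1 - 8 * nz (rv a ⬝ᵥ (u - u')) ^ 2) := by
        simp only [Finset.sum_sub_distrib, hSg, Finset.mul_sum, Finset.sum_const, nsmul_eq_mul]
        ring
      rw [this, hc]
      refine Finset.sum_le_sum fun u _ => Finset.sum_le_sum fun u' _ => ?_
      have := one_sub_cos_ge (rv a ⬝ᵥ (u - u'))
      rw [dotProduct_sub] at this ⊢
      linarith
    have a2 : (ν / 2) ^ 2 ≤ Sg / (H.card : ℝ) ^ 2 := by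
      have := Real.le_sqrt (by positivity : 0 ≤ ν / 2) (y := Sg / (H.card : ℝ) ^ 2)
        (by rw [hSg]; positivity)
      exact this.1 ha
    rw [le_div_iff₀ (by positivity)] at a2
    have a3 := Real.add_one_le_exp (-(2 * ν ^ 2))
    have a4 : (H.card : ℝ) ^ 2 * (-(2 * ν ^ 2) + 1) ≤ (H.card : ℝ) ^ 2 * Real.exp (-(2 * ν ^ 2)) :=
      mul_le_mul_of_nonneg_left a3 (by positivity)
    nlinarith
  rw [h2, ms_card_seqs]
  refine le_trans (pow_le_pow_left₀ hc0 h3 T) (le_of_eq ?_)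
  rw [mul_pow, ← Real.exp_nat_mul]
  push_cast
  congr 2
  ring

theorem ms_dirichlet {N : ℕ} (hN : 1 ≤ N) {x : ℝ} (hx : nz x ≤ 1 / (4 * N)) :
    (N : ℝ) ^ 2 / 2 ≤ ‖∑ j : Fin N, msE ((j : ℕ) * x)‖ ^ 2 := by
  have hN0 : (0 : ℝ) < N := by exact_mod_cast hN
  set y : ℝ := x - round x with hy
  have hya : |y| ≤ 1 / (4 * N) := hx
  have h1 : ∑ j : Fin N, msE ((j : ℕ) * x) =
      msE (((N : ℝ) - 1) / 2 * y) * ∑ j : Fin N, msE ((((j : ℕ) : ℝ) - ((N : ℝ) - 1) / 2) * y) := by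
    rw [Finset.mul_sum]
    refine Finset.sum_congr rfl fun j _ => ?_
    rw [← msE_add, ← mul_one (msE (_ + _)), ← msE_int ((j : ℕ) * round x), ← msE_add]
    congr 1
    rw [hy]
    push_cast
    ring
  have h2 : (N : ℝ) * (Real.sqrt 2 / 2) ≤
      ‖∑ j : Fin N, msE ((((j : ℕ) : ℝ) - ((N : ℝ) - 1) / 2) * y)‖ := by
    refine le_trans ?_ (Complex.re_le_norm _)
    rw [Complex.re_sum]
    have : ∀ j : Fin N, Real.sqrt 2 / 2 ≤ (msE ((((j : ℕ) : ℝ) - ((N : ℝ) - 1) / 2) * y)).re := by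
      intro j
      rw [msE_re, ← Real.cos_pi_div_four, ← Real.cos_abs (2 * Real.pi * _)]
      refine Real.cos_le_cos_of_nonneg_of_le_pi (abs_nonneg _) (by linarith [Real.pi_pos]) ?_
      have hj : (((j : ℕ) : ℝ)) + 1 ≤ N := by exact_mod_cast j.2
      have hj0 : (0 : ℝ) ≤ ((j : ℕ) : ℝ) := Nat.cast_nonneg _
      have b1 : |((j : ℕ) : ℝ) - ((N : ℝ) - 1) / 2| ≤ N / 2 := by
        rw [abs_le]; constructor <;> linarith
      rw [abs_mul, abs_mul (_ - _), abs_of_pos (by positivity : 0 < 2 * Real.pi)]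
      have b2 : |((j : ℕ) : ℝ) - ((N : ℝ) - 1) / 2| * |y| ≤ N / 2 * (1 / (4 * N)) :=
        mul_le_mul b1 hya (abs_nonneg _) (by positivity)
      have b3 : (N : ℝ) / 2 * (1 / (4 * N)) = 1 / 8 := by field_simp; norm_num
      rw [b3] at b2
      nlinarith [Real.pi_pos]
    have h3 := Finset.card_nsmul_le_sum Finset.univ _ _ (fun j _ => this j)
    simpa using h3
  rw [h1, norm_mul, msE_norm, one_mul]
  have h4 := pow_le_pow_left₀ (by positivity) h2 2
  refine le_trans (le_of_eq ?_) h4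
  rw [mul_pow, div_pow, Real.sq_sqrt (by norm_num)]
  ring

theorem ms_rv_comb {s : ℕ} (k : Fin s → ℤ) (a : Fin s → ι → ℤ) (y : ι → ℝ) :
    rv (∑ u, k u • a u) ⬝ᵥ y = ∑ u, (k u : ℝ) * (rv (a u) ⬝ᵥ y) := by
  have : rv (∑ u, k u • a u) = ∑ u, (k u : ℝ) • rv (a u) := by
    funext i
    simp [rv, Finset.sum_apply]
  rw [this, sum_dotProduct]
  simp only [smul_dotProduct, smul_eq_mul]

theorem ms_coll_one (H : Finset (ι → ℝ)) (hH : H.Nonempty) (T : ℕ) {ν : ℝ} (hν : 0 ≤ ν) {N s : ℕ}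
    (hN : 1 ≤ N) (a : Fin s → ι → ℤ)
    (ha : ∀ k : Fin s → ℤ, k ≠ 0 → (∀ u, |k u| ≤ N) → ν / 2 ≤ sn H (∑ u, k u • a u)) :
    (((seqs H T).filter fun ω => ∀ u, nz (rv (a u) ⬝ᵥ dsum ω) ≤ 1 / (4 * N)).card : ℝ) ≤
      (seqs H T).card * (2 ^ s * (1 / (N : ℝ) ^ s + Real.exp (-(2 * ν ^ 2 * T)))) := by
  have hN0 : (0 : ℝ) < N := by exact_mod_cast hN
  set E := Real.exp (-(2 * ν ^ 2 * T)) with hE
  have hE0 : 0 < E := Real.exp_pos _
  set W : ℝ := ((seqs H T).card : ℝ) with hW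
  have hW0 : 0 ≤ W := Nat.cast_nonneg _
  let F : (Fin T → (ι → ℝ) × (ι → ℝ)) → ℝ := fun ω =>
    ∏ u, ‖∑ j : Fin N, msE ((j : ℕ) * (rv (a u) ⬝ᵥ dsum ω))‖ ^ 2
  let kk : (Fin s → Fin N) → (Fin s → Fin N) → Fin s → ℤ := fun j j' u => (j u : ℕ) - (j' u : ℕ)
  have hF : ∀ ω, F ω = ∑ j : Fin s → Fin N, ∑ j' : Fin s → Fin N,
      Real.cos (2 * Real.pi * (rv (∑ u, kk j j' u • a u) ⬝ᵥ dsum ω)) := by
    intro ω
    simp only [F]
    rw [Finset.prod_pow, ← norm_prod, Finset.prod_univ_sum, Fintype.piFinset_univ]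
    simp only [← msE_sum]
    rw [msE_normSq]
    refine Finset.sum_congr rfl fun j _ => Finset.sum_congr rfl fun j' _ => ?_
    rw [ms_rv_comb, ← Finset.sum_sub_distrib]
    congr 2
    refine Finset.sum_congr rfl fun u _ => ?_
    simp only [kk]
    push_cast
    ring
  have h1 : ∑ ω ∈ seqs H T, F ω ≤ W * ((N : ℝ) ^ s + ((N : ℝ) ^ s) ^ 2 * E) := by
    simp only [hF]
    rw [Finset.sum_comm]
    have : ∀ j : Fin s → Fin N, ∑ ω ∈ seqs H T, ∑ j' : Fin s → Fin N,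
        Real.cos (2 * Real.pi * (rv (∑ u, kk j j' u • a u) ⬝ᵥ dsum ω)) ≤
          W * (1 + (N : ℝ) ^ s * E) := by
      intro j
      rw [Finset.sum_comm]
      have b1 : ∀ j' : Fin s → Fin N, ∑ ω ∈ seqs H T,
          Real.cos (2 * Real.pi * (rv (∑ u, kk j j' u • a u) ⬝ᵥ dsum ω)) ≤
            (if j' = j then W else 0) + W * E := by
        intro j'
        split_ifs with hj
        · have := Finset.sum_le_card_nsmul (seqs H T)
            (fun ω => Real.cos (2 * Real.pi * (rv (∑ u, kk j j' u • a u) ⬝ᵥ dsum ω))) 1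
            (fun ω _ => Real.cos_le_one _)
          rw [nsmul_eq_mul, mul_one] at this
          have := mul_nonneg hW0 hE0.le
          linarith
        · rw [zero_add]
          refine ms_char_dsum H hH T _ hν (ha _ ?_ ?_)
          · intro h0
            apply hj
            funext u
            have := congrFun h0 u
            simp only [kk, Pi.zero_apply] at this
            apply Fin.ext
            omega
          · intro u
            have h1 := (j u).2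
            have h2 := (j' u).2
            simp only [kk]
            rw [abs_le]
            constructor <;> omega
      refine le_trans (Finset.sum_le_sum fun j' _ => b1 j') (le_of_eq ?_)
      rw [Finset.sum_add_distrib, Finset.sum_ite_eq']
      simp
      ring
    refine le_trans (Finset.sum_le_sum fun j _ => this j) (le_of_eq ?_)
    simp
    ring
  have h2 : (((seqs H T).filter fun ω => ∀ u, nz (rv (a u) ⬝ᵥ dsum ω) ≤ 1 / (4 * N)).card : ℝ) *
      ((N : ℝ) ^ 2 / 2) ^ s ≤ ∑ ω ∈ seqs H T, F ω := by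
    refine le_trans ?_ (Finset.sum_le_sum_of_subset_of_nonneg
      (Finset.filter_subset (fun ω => ∀ u, nz (rv (a u) ⬝ᵥ dsum ω) ≤ 1 / (4 * N)) _)
      (fun ω _ _ => Finset.prod_nonneg fun u _ => by positivity))
    rw [← nsmul_eq_mul]
    refine Finset.card_nsmul_le_sum _ _ _ fun ω hω => ?_
    have hω' := (Finset.mem_filter.1 hω).2
    have := Finset.prod_le_prod (s := Finset.univ) (f := fun _ : Fin s => (N : ℝ) ^ 2 / 2)
      (fun _ _ => by positivity) (fun u _ => ms_dirichlet hN (hω' u))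
    rw [Finset.prod_const, Finset.card_univ, Fintype.card_fin] at this
    exact this
  have h3 : 0 < ((N : ℝ) ^ 2 / 2) ^ s := by positivity
  refine le_of_mul_le_mul_right (le_trans h2 (le_trans h1 (le_of_eq ?_))) h3
  rw [div_pow, ← pow_mul (N : ℝ) 2 s, mul_comm 2 s, pow_mul]
  field_simp

end Crest.Agent.R152
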