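import Crest.Agent.R152.MDiss
import Crest.Agent.R152.MSmallAux26

/-! # Row 152, module M: tuples with a small joint small ball probability -/

set_option autoImplicit false
set_option linter.unusedSectionVars false
set_option linter.unusedVariables false

open Matrix Filter Topology Finset Crest.FinProb Crest.Agent.Lib.BoolCube

noncomputable section

namespace Crest.Agent.R152

variable {ι : Type} [Fintype ι] [DecidableEq ι]

/-- the characteristic function of `dsum` is a power; it is small when the seminorm is not small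
(`∑_{u,u'} cos (2π a·(u-u')) = |∑_u e(a·u)|² ≥ 0`, `one_sub_cos_ge`) -/
theorem char_dsum (H : Finset (ι → ℝ)) (hH : H.Nonempty) (T : ℕ) (a : ι → ℤ) {ν : ℝ} (hν : 0 ≤ ν)
    (ha : ν / 2 ≤ sn H a) :
    ∑ ω ∈ seqs H T, Real.cos (2 * Real.pi * (rv a ⬝ᵥ dsum ω)) ≤
      (seqs H T).card * Real.exp (-(2 * ν ^ 2 * T)) :=
  ms_char_dsum H hH T a hν ha

/-- the Dirichlet kernel near an integer -/
theorem dirichlet_ge {N : ℕ} (hN : 1 ≤ N) {x : ℝ} (hx : nz x ≤ 1 / (4 * N)) :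
    (N : ℝ) ^ 2 / 2 ≤ ‖∑ j : Fin N, Complex.exp (2 * Real.pi * Complex.I * ((j : ℕ) * x))‖ ^ 2 := by
  refine le_trans (ms_dirichlet hN hx) (le_of_eq ?_)
  congr 2
  refine Finset.sum_congr rfl fun j _ => ?_
  unfold msE
  congr 1
  push_cast
  ring

/-- expand `∏_u |∑_j e(j a_u·y)|² = ∑_{j,j'} cos (2π (∑_u (j_u - j'_u) a_u)·y)` -/
theorem coll_one (H : Finset (ι → ℝ)) (hH : H.Nonempty) (T : ℕ) {ν : ℝ} (hν : 0 ≤ ν) {N s : ℕ}
    (hN : 1 ≤ N) (a : Fin s → ι → ℤ)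
    (ha : ∀ k : Fin s → ℤ, k ≠ 0 → (∀ u, |k u| ≤ N) → ν / 2 ≤ sn H (∑ u, k u • a u)) :
    (((seqs H T).filter fun ω => ∀ u, nz (rv (a u) ⬝ᵥ dsum ω) ≤ 1 / (4 * N)).card : ℝ) ≤
      (seqs H T).card * (2 ^ s * (1 / (N : ℝ) ^ s + Real.exp (-(2 * ν ^ 2 * T)))) :=
  ms_coll_one H hH T hν hN a ha

/-- `s + 1` independent copies in the same small ball collide (`E_prod_blocks`) -/
theorem sb_pow_le {p : ℝ} (h0 : 0 ≤ p) (h1 : p ≤ 1) (I : Finset ι) {l : ℕ} (Y : Fin l → ι → ℝ)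
    (z : Fin l → ℝ) (ρ : ℝ) (s : ℕ) :
    sb p I Y z ρ ^ (s + 1) ≤ bernoulliProb p {x : Fin (s + 1) × ι → Bool | ∀ i, ∀ u : Fin s,
      nz (rv (sgI I (fun j => x (u.succ, j)) - sgI I (fun j => x (0, j))) ⬝ᵥ Y i) ≤ 2 * ρ} := by
  classical
  set A : Set (ι → Bool) := {x : ι → Bool | ∀ i, nz (rv (sgI I x) ⬝ᵥ Y i - z i) ≤ ρ} with hA
  have e1 : sb p I Y z ρ ^ (s + 1) =
      E p (fun x : Fin (s + 1) × ι → Bool =>
        ∏ a, (fun (_ : Fin (s + 1)) (y : ι → Bool) => if y ∈ A then (1 : ℝ) else 0) a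
          (fun i => x (a, i))) := by
    rw [E_prod_blocks (fun (_ : Fin (s + 1)) (y : ι → Bool) => if y ∈ A then (1 : ℝ) else 0),
      Finset.prod_const, Finset.card_univ, Fintype.card_fin, sb, ← hA, bernoulliProb_eq_E]
  rw [e1, bernoulliProb_eq_E]
  refine E_mono h0 h1 fun x => ?_
  by_cases hx : ∀ a : Fin (s + 1), (fun i => x (a, i)) ∈ A
  · rw [if_pos]
    · exact Finset.prod_le_one (fun a _ => by dsimp only; split_ifs <;> norm_num)
        (fun a _ => by dsimp only; split_ifs <;> norm_num)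
    · intro i u
      have a1 := hx u.succ i
      have a2 := hx 0 i
      have e : rv (sgI I (fun j => x (u.succ, j)) - sgI I (fun j => x (0, j))) ⬝ᵥ Y i =
          (rv (sgI I (fun j => x (u.succ, j))) ⬝ᵥ Y i - z i) -
            (rv (sgI I (fun j => x (0, j))) ⬝ᵥ Y i - z i) := by
        have : rv (sgI I (fun j => x (u.succ, j)) - sgI I (fun j => x (0, j))) =
            rv (sgI I (fun j => x (u.succ, j))) - rv (sgI I (fun j => x (0, j))) := by
          funext j; simp [rv]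
        rw [this, sub_dotProduct]; ring
      rw [e]
      exact (nz_sub_le _ _).trans (by linarith)
  · push Not at hx
    obtain ⟨a, ha⟩ := hx
    rw [Finset.prod_eq_zero (Finset.mem_univ a) (by dsimp only; rw [if_neg ha])]
    split_ifs <;> norm_num

/-- average the collision probability over `Y i = dsum (ω i)`, `ω ∈ (seqs H T)^l`, swap the sums,
`coll_one` for good outcomes and `bad_prob` for the others -/
theorem exists_tuple {p : ℝ} (h0 : 0 ≤ p) (h1 : p ≤ 1) (H : Finset (ι → ℝ)) (hH : H.Nonempty)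
    (T l : ℕ) {ν : ℝ} (hν : 0 ≤ ν) {N s : ℕ} (hN : 1 ≤ N) (D : ℕ → Finset ι)
    (hD : ∀ k ∈ Finset.Icc 1 N, Dissoc H ν k (D k)) (I : Finset ι) :
    ∃ Y : Fin l → ι → ℝ, (∀ i, ∃ ω ∈ seqs H T, Y i = dsum ω) ∧ ∀ z : Fin l → ℝ,
      sb p I Y z (1 / (8 * N)) ^ (s + 1) ≤
        (2 ^ s * (1 / (N : ℝ) ^ s + Real.exp (-(2 * ν ^ 2 * T)))) ^ l +
          (2 * N + 1) ^ s * ∑ k ∈ Finset.Icc 1 N, th p ^ (D k ∩ I).card := by
  classical
  set B : ℝ := 2 ^ s * (1 / (N : ℝ) ^ s + Real.exp (-(2 * ν ^ 2 * T))) with hB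
  have hB0 : 0 ≤ B := by positivity
  set a : (Fin (s + 1) × ι → Bool) → Fin s → ι → ℤ :=
    fun x u => sgI I (fun j => x (u.succ, j)) - sgI I (fun j => x (0, j)) with ha
  set Bd : Set (Fin (s + 1) × ι → Bool) := {x | ∃ k : Fin s → ℤ, k ≠ 0 ∧ (∀ u, |k u| ≤ N) ∧
    sn H (∑ u, k u • a x u) ≤ ν / 2} with hBd
  have hbad : bernoulliProb p Bd ≤ (2 * N + 1) ^ s * ∑ k ∈ Finset.Icc 1 N, th p ^ (D k ∩ I).card :=
    bad_prob h0 h1 H D hD I
  set Ω : Finset (Fin l → Fin T → (ι → ℝ) × (ι → ℝ)) := Fintype.piFinset fun _ => seqs H T with hΩ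
  have hseq : (seqs H T).Nonempty := Fintype.piFinset_nonempty.2 fun _ => hH.product hH
  have hΩne : Ω.Nonempty := Fintype.piFinset_nonempty.2 fun _ => hseq
  have hΩc : (Ω.card : ℝ) = ((seqs H T).card : ℝ) ^ l := by
    rw [hΩ, Fintype.card_piFinset, Finset.prod_const, Finset.card_univ, Fintype.card_fin,
      Nat.cast_pow]
  set C : (Fin l → Fin T → (ι → ℝ) × (ι → ℝ)) → Set (Fin (s + 1) × ι → Bool) :=
    fun ω => {x | ∀ i, ∀ u : Fin s, nz (rv (a x u) ⬝ᵥ dsum (ω i)) ≤ 1 / (4 * N)} with hC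
  have hsum : ∑ ω ∈ Ω, bernoulliProb p (C ω) ≤ ∑ ω ∈ Ω, (B ^ l + bernoulliProb p Bd) := by
    simp only [bernoulliProb_eq_E]
    rw [← E_sum, Finset.sum_const, nsmul_eq_mul, ← E_const (ι := Fin (s + 1) × ι) (p := p) (B ^ l),
      ← E_add, ← E_const_mul]
    refine E_mono h0 h1 fun x => ?_
    have hc : ∑ ω ∈ Ω, (if x ∈ C ω then (1 : ℝ) else 0) = ((Ω.filter fun ω => x ∈ C ω).card : ℝ) := by
      rw [Finset.sum_boole]
    rw [hc]
    by_cases hx : x ∈ Bd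
    · rw [if_pos hx]
      have : ((Ω.filter fun ω => x ∈ C ω).card : ℝ) ≤ Ω.card := by
        exact_mod_cast Finset.card_filter_le _ _
      have h2 : 0 ≤ (Ω.card : ℝ) * B ^ l := by positivity
      linarith
    · rw [if_neg hx, add_zero]
      have hg := coll_one H hH T hν hN (a x) fun k hk hkN => by
        by_contra hlt
        exact hx ⟨k, hk, hkN, (not_le.1 hlt).le⟩
      have e : (Ω.filter fun ω => x ∈ C ω) = Fintype.piFinset fun _ : Fin l =>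
          (seqs H T).filter fun ω => ∀ u, nz (rv (a x u) ⬝ᵥ dsum ω) ≤ 1 / (4 * N) := by
        ext ω
        simp only [hΩ, hC, Finset.mem_filter, Fintype.mem_piFinset, Set.mem_ofPred_eq, forall_and]
      rw [e, Fintype.card_piFinset, Finset.prod_const, Finset.card_univ, Fintype.card_fin,
        Nat.cast_pow, hΩc, ← mul_pow]
      exact pow_le_pow_left₀ (Nat.cast_nonneg _) hg l
  obtain ⟨ω, hω, hωC⟩ := Finset.exists_le_of_sum_le hΩne hsum
  refine ⟨fun i => dsum (ω i), fun i => ⟨ω i, Fintype.mem_piFinset.1 hω i, rfl⟩, fun z => ?_⟩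
  have h2 := sb_pow_le h0 h1 I (fun i => dsum (ω i)) z (1 / (8 * N)) s
  have e : 2 * (1 / (8 * (N : ℝ))) = 1 / (4 * N) := by
    have : (N : ℝ) ≠ 0 := by positivity
    field_simp; norm_num
  rw [e] at h2
  exact h2.trans (hωC.trans (by linarith))

/-- `exists_dissoc` for every `k`, `exists_I`, `exists_tuple` -/
theorem small_ball {p : ℝ} (h0 : 0 < p) (h1 : p < 1) (hm : 1 ≤ Fintype.card ι)
    (H : Finset (ι → ℝ)) (T l s : ℕ) {N : ℕ} (hN : 1 ≤ N)
    (hfar : ∀ u ∈ H, ∀ u' ∈ H, u ≠ u' → Far N u u') {D₀ ξ : ℝ} (hD₀ : 0 ≤ D₀)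
    (hcard : 2 * (16 * (Fintype.card ι : ℝ) ^ 2) ^ D₀ ≤ H.card) (hξ : 0 < ξ) (hξ1 : ξ ≤ 1) :
    ∃ (I : Finset ι) (Y : Fin l → ι → ℝ), (I.card : ℝ) ≤ 3 * ξ * Fintype.card ι ∧
      (∀ i, ∃ ω ∈ seqs H T, Y i = dsum ω) ∧ ∀ z : Fin l → ℝ,
      sb p I Y z (1 / (8 * N)) ^ (s + 1) ≤
        (2 ^ s * (1 / (N : ℝ) ^ s +
          Real.exp (-(2 * (1 / (64 * (Fintype.card ι : ℝ) ^ 2)) ^ 2 * T)))) ^ l +
          (2 * N + 1) ^ s * (3 * N * Real.exp (-(ξ * (1 - th p) * D₀))) := by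
  have hm' : (1 : ℝ) ≤ Fintype.card ι := by exact_mod_cast hm
  have hb : (1 : ℝ) < 16 * (Fintype.card ι : ℝ) ^ 2 := by nlinarith
  have hH : H.Nonempty := by
    rw [← Finset.card_pos]
    have : (0 : ℝ) < H.card := lt_of_lt_of_le (by positivity) hcard
    exact_mod_cast this
  have hex : ∀ k : ℕ, ∃ D : Finset ι, k ∈ Finset.Icc 1 N →
      Dissoc H (1 / (64 * (Fintype.card ι : ℝ) ^ 2)) k D ∧ D₀ ≤ D.card := by
    intro k
    by_cases hk : k ∈ Finset.Icc 1 N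
    · obtain ⟨D, hD1, hD2⟩ := exists_dissoc hm H (Finset.mem_Icc.1 hk).1 (Finset.mem_Icc.1 hk).2 hfar
      refine ⟨D, fun _ => ⟨hD1, ?_⟩⟩
      have := hcard.trans hD2
      rw [← Real.rpow_natCast _ D.card] at this
      exact (Real.rpow_le_rpow_left_iff hb).1 (by linarith)
    · exact ⟨∅, fun h => absurd h hk⟩
  choose D hD using hex
  obtain ⟨I, hI1, hI2⟩ := exists_I D (fun k hk => (hD k hk).2) hξ hξ1 (th_pos p).le
    (th_lt_one h0 h1).le
  obtain ⟨Y, hY1, hY2⟩ := exists_tuple h0.le h1.le H hH T l (s := s)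
    (ν := 1 / (64 * (Fintype.card ι : ℝ) ^ 2)) (by positivity) hN D (fun k hk => (hD k hk).1) I
  refine ⟨I, Y, hI1, hY1, fun z => (hY2 z).trans ?_⟩
  gcongr

end Crest.Agent.R152
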