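import Crest.Agent.R152.MDet
import Crest.Agent.R152.MSmall
import Crest.Agent.R152.MNet
import Crest.Agent.R152.MAsym

/-! # Row 152, module M: the master theorem -/

set_option autoImplicit false
set_option linter.unusedSectionVars false
set_option linter.unusedVariables false

open Matrix Filter Topology Finset Crest.FinProb Crest.Agent.Lib.BoolCube

noncomputable section

namespace Crest.Agent.R152

variable {ι : Type} [Fintype ι] [DecidableEq ι]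

theorem Bad.mono {ε ε' δ δ₁ δ' : ℝ} {K : ℕ} {A : Matrix ι ι ℤ} (hm : 1 ≤ Fintype.card ι)
    (h : Bad ε δ δ' K A) (hε : ε' ≤ ε) (hδ : δ₁ ≤ δ) : Bad ε' δ₁ δ' K A := by
  obtain ⟨S, r, Φ, H, h1, h2, h3, h4⟩ := h
  have hm' : (1 : ℝ) ≤ Fintype.card ι := by exact_mod_cast hm
  refine ⟨S, r, Φ, H, ?_, h2, ?_, h4⟩
  · refine le_trans (Real.exp_le_exp.2 ?_) h1
    exact mul_le_mul_of_nonneg_right hε (by linarith)
  · refine le_trans (Real.rpow_le_rpow_of_exponent_le hm' ?_) h3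
    exact mul_le_mul_of_nonneg_right hδ (by linarith)

theorem mm_far_mono {N N' : ℕ} (h : N' ≤ N) {u u' : ι → ℝ} (hf : Far N u u') : Far N' u u' :=
  fun k hk1 hk => hf k hk1 (hk.trans h)

theorem mm_master {p : ℝ} (h0 : 0 < p) (h1 : p < 1) {ε δ : ℝ} (hε : 0 < ε) (hδ : 0 < δ)
    (hε1 : ε ≤ 1) (hδ1 : δ ≤ 1) :
    ∃ (δ' c : ℝ) (K m₀ : ℕ), 0 < δ' ∧ 0 < c ∧
      ∀ (ι : Type) [Fintype ι] [DecidableEq ι], m₀ ≤ Fintype.card ι →
        bernoulliProb p {b : Sym2 ι → Bool | Bad ε δ δ' K (sm b)} ≤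
          Real.exp (-(c * (Fintype.card ι : ℝ) ^ 2)) := by
  classical
  set s : ℕ := ⌈32 / ε⌉₊ with hs_def
  set K₀ : ℕ := ⌈96 / ε⌉₊ with hK_def
  have hs : 32 / ε ≤ s := Nat.le_ceil _
  have hK : 96 / ε ≤ K₀ := Nat.le_ceil _
  have hs1 : 1 ≤ s := Nat.ceil_pos.2 (by positivity)
  have hK1 : 1 ≤ K₀ := Nat.ceil_pos.2 (by positivity)
  have hsR : (0 : ℝ) < s := by exact_mod_cast hs1
  set ξ : ℝ := ε / 96 with hξ_def
  have hξ : 0 < ξ := by positivity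
  have hξ1 : ξ ≤ 1 := by rw [hξ_def]; linarith
  have hth : 0 < 1 - th p := by have := th_lt_one h0 h1; linarith
  set c₁ : ℝ := ξ * (1 - th p) * δ / 8 with hc_def
  have hc : 0 < c₁ := by positivity
  have hd : 0 < c₁ * ε / (512 * s) := by positivity
  obtain ⟨m₁, hm₁⟩ := bad_to_near hε hδ hδ1 hd (K₀ + 7)
  have hev := ((asym_sb hc hs1 hK1).and (asym_card hδ)).and
    ((asym_total hε hε1 hc hs hK).and (eventually_ge_atTop 160))
  obtain ⟨m₂, hm₂⟩ := eventually_atTop.1 hev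
  refine ⟨δ / (8 * (((K₀ + 7 : ℕ) : ℝ) + 4)), c₁ * ε / (128 * s), K₀ + 7, max m₁ m₂, by positivity,
    by positivity, ?_⟩
  intro ι _ _ hm
  set m := Fintype.card ι with hm_def
  obtain ⟨⟨hsb, hcard⟩, htot, h160⟩ := hm₂ m (le_trans (le_max_right _ _) hm)
  obtain ⟨𝓥, h𝓥card, h𝓥dim, h𝓥⟩ := hm₁ ι (le_trans (le_max_left _ _) hm)
  have hm1 : 1 ≤ m := by omega
  have hmR : (160 : ℝ) ≤ m := by exact_mod_cast h160
  have hmpos : (0 : ℝ) < m := by linarith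
  set l := ell c₁ s K₀ m with hl_def
  set ρ₀ : ℝ := (4 * (m : ℝ) ^ (-((K₀ : ℝ) * s / (s + 1)))) ^ l with hρ₀_def
  have hρ₀ : 0 ≤ ρ₀ := by positivity
  set R : ℝ := 2 * ((m ^ 5 : ℕ) : ℝ) * (3 * m) with hR_def
  set η : ℝ := 2 * ((m ^ 5 : ℕ) : ℝ) * (2 / (m : ℝ) ^ (K₀ + 7)) with hη_def
  have hT : (0 : ℝ) < ((m ^ 5 : ℕ) : ℝ) := by positivity
  have hR : 0 ≤ R := by positivity
  have hη : 0 < η := by positivity
  have hN1 : 1 ≤ m ^ K₀ := Nat.one_le_pow _ _ hm1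
  have hρ : 5 * (m : ℝ) * η ≤ 1 / (8 * ((m ^ K₀ : ℕ) : ℝ)) := by
    rw [hη_def]
    push_cast
    have hp : (0 : ℝ) < (m : ℝ) ^ K₀ := by positivity
    have e1 : 5 * (m : ℝ) * (2 * (m : ℝ) ^ 5 * (2 / (m : ℝ) ^ (K₀ + 7))) =
        20 / ((m : ℝ) ^ K₀ * m) := by
      field_simp
      ring
    rw [e1, div_le_div_iff₀ (by positivity) (by positivity)]
    nlinarith
  set 𝓘 : Finset (Finset ι) := Finset.univ.filter fun I => (I.card : ℝ) ≤ 3 * ξ * m with h𝓘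
  have hub := prob_le_sum (ι := Sym2 ι) h0.le h1.le (𝓥 ×ˢ 𝓘)
    {b : Sym2 ι → Bool | Bad ε δ (δ / (8 * (((K₀ + 7 : ℕ) : ℝ) + 4))) (K₀ + 7) (sm b)}
    (fun q => {b : Sym2 ι → Bool | ∃ Y : Fin l → ι → ℝ, (∀ i, Near (sm b) q.1 R η (Y i)) ∧
      ∀ z, sb p q.2 Y z (1 / (8 * ((m ^ K₀ : ℕ) : ℝ))) ≤ ρ₀}) (by
      intro b hb
      obtain ⟨V, hV, H₂, hH1, hH2, hH3⟩ := h𝓥 (sm b) hb
      have hfar : ∀ u ∈ H₂, ∀ u' ∈ H₂, u ≠ u' → Far (m ^ K₀) u u' := fun u hu u' hu' hne =>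
        mm_far_mono (Nat.pow_le_pow_right hm1 (by omega)) (hH3 u hu u' hu' hne)
      obtain ⟨I, Y, hI, hY, hz⟩ := small_ball h0 h1 hm1 H₂ (m ^ 5) l s hN1 hfar
        (D₀ := δ * m / 8) (ξ := ξ) (by positivity) (hcard.trans hH1) hξ hξ1
      refine ⟨(V, I), Finset.mem_product.2 ⟨hV, ?_⟩, Y, ?_, ?_⟩
      · simp only [h𝓘, Finset.mem_filter, Finset.mem_univ, true_and]
        exact hI
      · intro i
        obtain ⟨ω, hω, hYi⟩ := hY i
        rw [hYi]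
        exact near_dsum hH2 hω
      · intro z
        have h2 := hz z
        have e : ξ * (1 - th p) * (δ * m / 8) = c₁ * m := by rw [hc_def]; ring
        rw [e] at h2
        have h3 := h2.trans hsb
        exact le_of_pow_le_pow_left₀ (Nat.succ_ne_zero s) hρ₀ h3)
  refine hub.trans ?_
  set E₁ : ℝ := Real.exp (2 * (c₁ * ε / (512 * s)) * (m : ℝ) ^ 2) with hE₁
  have hE₁pos : 0 < E₁ := Real.exp_pos _
  set B : ℝ := Real.exp (-(c₁ * ε / (128 * s) * (m : ℝ) ^ 2)) / (E₁ * 2 ^ m) with hB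
  have hBpos : 0 < B := by positivity
  have hterm : ∀ q ∈ 𝓥 ×ˢ 𝓘, bernoulliProb p {b : Sym2 ι → Bool | ∃ Y : Fin l → ι → ℝ,
      (∀ i, Near (sm b) q.1 R η (Y i)) ∧
      ∀ z, sb p q.2 Y z (1 / (8 * ((m ^ K₀ : ℕ) : ℝ))) ≤ ρ₀} ≤ B := by
    intro q hq
    obtain ⟨hq1, hq2⟩ := Finset.mem_product.1 hq
    have hI : (q.2.card : ℝ) ≤ 3 * ξ * m := by
      simpa only [h𝓘, Finset.mem_filter, Finset.mem_univ, true_and] using hq2
    refine (net_bound h0.le h1.le hm1 q.1 q.2 l hR hη hρ hρ₀).trans ?_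
    have hle : q.2.card ≤ m := Finset.card_le_univ _
    have hfree : (1 - ε / 32) * m ≤ ((m - q.2.card : ℕ) : ℝ) := by
      rw [Nat.cast_sub hle]
      have : 3 * ξ * m = ε / 32 * m := by rw [hξ_def]; ring
      linarith
    have h4 := htot (Module.finrank ℝ q.1) (m - q.2.card) (h𝓥dim _ hq1) hfree
    rw [hB, le_div_iff₀ (by positivity)]
    calc _ = E₁ * 2 ^ m * (((2 * R * (m : ℝ) ^ 2 / η + 3) ^ Module.finrank ℝ q.1) ^ l *
        ρ₀ ^ (m - q.2.card)) := by ring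
      _ ≤ _ := h4
  refine (Finset.sum_le_card_nsmul _ _ _ hterm).trans ?_
  rw [nsmul_eq_mul, Finset.card_product, Nat.cast_mul]
  have h𝓘card : (𝓘.card : ℝ) ≤ 2 ^ m := by
    have : 𝓘.card ≤ 2 ^ m := by
      calc 𝓘.card ≤ (Finset.univ : Finset (Finset ι)).card := Finset.card_filter_le _ _
        _ = 2 ^ m := by rw [Finset.card_univ, Fintype.card_finset]
    exact_mod_cast this
  calc (𝓥.card : ℝ) * 𝓘.card * B ≤ E₁ * 2 ^ m * B := by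
        refine mul_le_mul_of_nonneg_right ?_ hBpos.le
        exact mul_le_mul h𝓥card h𝓘card (by positivity) hE₁pos.le
    _ = _ := by rw [hB]; field_simp

/-- WLOG `ε, δ ≤ 1` (`Bad.mono`); `s = ⌈32/ε⌉`, `ξ = ε/96`, `K₀ = ⌈96/ε⌉`, `K = K₀ + 7`, `N = m ^ K₀`, `T = m ^ 5`,
`D₀ = δ m / 8`, `c₁ = ξ (1 - th p) δ / 8`, `l = ell c₁ s K₀ m`, `d = c₁ ε / (512 s)`; `bad_to_near`, `small_ball`,
`near_dsum`, union bound over `V ∈ 𝓥` and `I` with `net_bound` (`ρ = 1 / (8 N)`), `asym_*`. -/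
theorem master {p : ℝ} (h0 : 0 < p) (h1 : p < 1) {ε δ : ℝ} (hε : 0 < ε) (hδ : 0 < δ) :
    ∃ (δ' c : ℝ) (K m₀ : ℕ), 0 < δ' ∧ 0 < c ∧
      ∀ (ι : Type) [Fintype ι] [DecidableEq ι], m₀ ≤ Fintype.card ι →
        bernoulliProb p {b : Sym2 ι → Bool | Bad ε δ δ' K (sm b)} ≤
          Real.exp (-(c * (Fintype.card ι : ℝ) ^ 2)) := by
  obtain ⟨δ', c, K, m₀, h2, h3, h4⟩ := mm_master h0 h1 (ε := min ε 1) (δ := min δ 1)
    (lt_min hε one_pos) (lt_min hδ one_pos) (min_le_right _ _) (min_le_right _ _)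
  refine ⟨δ', c, K, max m₀ 1, h2, h3, ?_⟩
  intro ι _ _ hm
  refine le_trans (prob_mono h0.le h1.le ?_) (h4 ι (le_trans (le_max_left _ _) hm))
  intro b hb
  exact Bad.mono (le_trans (le_max_right _ _) hm) hb (min_le_left _ _) (min_le_left _ _)

end Crest.Agent.R152
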