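import Crest.Agent.R152.WForm

/-! # Row 152, module M: Schur complements, Fischer and Koteljanskii inequalities -/

set_option autoImplicit false
set_option linter.unusedSectionVars false

open Matrix

noncomputable section

namespace Crest.Agent.R152

/-- block form of a symmetric matrix -/
theorem mqa_blocks {α δ : Type} {T : Matrix (α ⊕ δ) (α ⊕ δ) ℝ} (hT : T.IsHermitian) :
    T = fromBlocks (T.submatrix Sum.inl Sum.inl) (T.submatrix Sum.inl Sum.inr)
      (T.submatrix Sum.inl Sum.inr)ᵀ (T.submatrix Sum.inr Sum.inr) := by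
  ext (i | i) (j | j)
  · rfl
  · rfl
  · simpa using (hT.apply (Sum.inr i) (Sum.inl j)).symm
  · rfl

/-- the Schur complement with respect to the first block -/
def mqa_schur {α δ : Type} [Fintype α] [DecidableEq α] (T : Matrix (α ⊕ δ) (α ⊕ δ) ℝ) :
    Matrix δ δ ℝ :=
  T.submatrix Sum.inr Sum.inr -
    (T.submatrix Sum.inl Sum.inr)ᵀ * (T.submatrix Sum.inl Sum.inl)⁻¹ * T.submatrix Sum.inl Sum.inr

theorem mqa_det {α δ : Type} [Fintype α] [DecidableEq α] [Fintype δ] [DecidableEq δ]
    {T : Matrix (α ⊕ δ) (α ⊕ δ) ℝ} (hT : T.PosDef) :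
    T.det = (T.submatrix Sum.inl Sum.inl).det * (mqa_schur T).det := by
  have hA : (T.submatrix Sum.inl Sum.inl).PosDef := hT.submatrix Sum.inl_injective
  have : Invertible (T.submatrix Sum.inl Sum.inl) :=
    invertibleOfIsUnitDet _ (isUnit_iff_ne_zero.mpr hA.det_pos.ne')
  conv_lhs => rw [mqa_blocks hT.isHermitian]
  rw [det_fromBlocks₁₁, invOf_eq_nonsing_inv]
  rfl

theorem mqa_schur_posDef {α δ : Type} [Fintype α] [DecidableEq α] [Fintype δ] [DecidableEq δ]
    {T : Matrix (α ⊕ δ) (α ⊕ δ) ℝ} (hT : T.PosDef) : (mqa_schur T).PosDef := by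
  have hA : (T.submatrix Sum.inl Sum.inl).PosDef := hT.submatrix Sum.inl_injective
  have : Invertible (T.submatrix Sum.inl Sum.inl) :=
    invertibleOfIsUnitDet _ (isUnit_iff_ne_zero.mpr hA.det_pos.ne')
  have h1 : (mqa_schur T).PosSemidef := by
    have h := hT.posSemidef
    rw [mqa_blocks hT.isHermitian, ← conjTranspose_eq_transpose_of_trivial,
      PosDef.fromBlocks₁₁ _ _ hA, conjTranspose_eq_transpose_of_trivial] at h
    exact h
  rw [h1.posDef_iff_det_ne_zero]
  intro h0
  have := hT.det_pos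
  rw [mqa_det hT, h0, mul_zero] at this
  exact lt_irrefl _ this

theorem mqa_schur_sub {α δ κ : Type} [Fintype α] [DecidableEq α]
    (T : Matrix (α ⊕ δ) (α ⊕ δ) ℝ) (e : κ → δ) :
    mqa_schur (T.submatrix (Sum.map id e) (Sum.map id e)) = (mqa_schur T).submatrix e e := by
  ext i j
  simp only [mqa_schur, Matrix.sub_apply, submatrix_apply, Matrix.mul_apply, transpose_apply,
    Sum.map_inr, Sum.map_inl, id]
  rfl

/-- Fischer's inequality -/
theorem mqa_fischer {β γ : Type} [Fintype β] [DecidableEq β] [Fintype γ] [DecidableEq γ]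
    {S : Matrix (β ⊕ γ) (β ⊕ γ) ℝ} (hS : S.PosDef) :
    S.det ≤ (S.submatrix Sum.inl Sum.inl).det * (S.submatrix Sum.inr Sum.inr).det := by
  have hA : (S.submatrix Sum.inl Sum.inl).PosDef := hS.submatrix Sum.inl_injective
  have hD : (S.submatrix Sum.inr Sum.inr).PosDef := hS.submatrix Sum.inr_injective
  rw [mqa_det hS]
  refine mul_le_mul_of_nonneg_left ?_ hA.det_pos.le
  refine det_mono (mqa_schur_posDef hS).posSemidef hD.isHermitian fun x => ?_
  have h := qf_conj (S.submatrix Sum.inl Sum.inl)⁻¹ (S.submatrix Sum.inl Sum.inr) x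
  have h0 : 0 ≤ qf (S.submatrix Sum.inl Sum.inl)⁻¹ (S.submatrix Sum.inl Sum.inr *ᵥ x) := by
    have := hA.inv.posSemidef.dotProduct_mulVec_nonneg (S.submatrix Sum.inl Sum.inr *ᵥ x)
    simpa [qf] using this
  rw [← h] at h0
  unfold qf at h0 ⊢
  unfold mqa_schur
  rw [sub_mulVec, dotProduct_sub]
  linarith

theorem mqa_koteljanskii {α β γ : Type} [Fintype α] [DecidableEq α] [Fintype β] [DecidableEq β]
    [Fintype γ] [DecidableEq γ] {T : Matrix (α ⊕ β ⊕ γ) (α ⊕ β ⊕ γ) ℝ} (hT : T.PosDef) :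
    T.det * (T.submatrix Sum.inl Sum.inl).det ≤
      (T.submatrix (Sum.map id Sum.inl) (Sum.map id Sum.inl)).det *
        (T.submatrix (Sum.map id Sum.inr) (Sum.map id Sum.inr)).det := by
  have hA : (T.submatrix Sum.inl Sum.inl).PosDef := hT.submatrix Sum.inl_injective
  have h1 : (T.submatrix (Sum.map id Sum.inl) (Sum.map id Sum.inl)).PosDef :=
    hT.submatrix (Function.injective_id.sumMap Sum.inl_injective)
  have h2 : (T.submatrix (Sum.map id Sum.inr) (Sum.map id Sum.inr)).PosDef :=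
    hT.submatrix (Function.injective_id.sumMap Sum.inr_injective)
  have hF := mqa_fischer (mqa_schur_posDef hT)
  rw [mqa_det hT, mqa_det h1, mqa_det h2, mqa_schur_sub, mqa_schur_sub]
  have e1 : (T.submatrix (Sum.map id Sum.inl) (Sum.map id Sum.inl : α ⊕ β → _)).submatrix
      Sum.inl Sum.inl = T.submatrix Sum.inl Sum.inl := rfl
  have e2 : (T.submatrix (Sum.map id Sum.inr) (Sum.map id Sum.inr : α ⊕ γ → _)).submatrix
      Sum.inl Sum.inl = T.submatrix Sum.inl Sum.inl := rfl
  rw [e1, e2]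
  have hp := hA.det_pos
  have := mul_le_mul_of_nonneg_left hF (mul_pos hp hp).le
  nlinarith

end Crest.Agent.R152
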