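import Crest.Agent.R152.WForm
import Crest.Agent.R152.WUni

/-! # Row 152: Hermite reduction and stability of blocks -/

set_option autoImplicit false
set_option linter.unusedSectionVars false
set_option linter.unusedVariables false

open MeasureTheory Set Matrix Filter Topology

noncomputable section

namespace Crest.Agent.R152

variable {ι : Type} [Fintype ι] [DecidableEq ι]

theorem stableF_rm_mul {α β γ : Type} [Fintype β] (U : Matrix α β ℤ) (P : Matrix β γ ℤ) :
    rm (U * P) = rm U * rm P := Matrix.map_mul (f := Int.castRingHom ℝ)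

theorem stableF_gen {κ : Type} [Fintype κ] [DecidableEq κ] {S : Matrix ι ι ℝ} (hS : StableF S)
    (U : Matrix ι κ ℤ) (hU : Function.Injective U.mulVec) : 1 ≤ ((rm U)ᵀ * S * rm U).det := by
  let e := (Fintype.equivFin κ).symm
  have h := hS.2 _ (U.submatrix id e) (fun x y hxy => by
    have h1 : ∀ x, U.submatrix id e *ᵥ x = U *ᵥ (x ∘ e.symm) := fun x =>
      submatrix_mulVec_equiv U x id e
    rw [h1, h1] at hxy
    exact e.symm.surjective.injective_comp_right (hU hxy))
  have e1 : (rm (U.submatrix id e))ᵀ * S * rm (U.submatrix id e) =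
      ((rm U)ᵀ * S * rm U).submatrix e e := rfl
  rwa [e1, det_submatrix_equiv_self] at h

theorem stableF_conj {κ : Type} [Fintype κ] [DecidableEq κ] {S : Matrix ι ι ℝ} (hS : StableF S)
    (U : Matrix ι κ ℤ) (hU : Function.Injective U.mulVec) : StableF ((rm U)ᵀ * S * rm U) := by
  refine ⟨?_, fun k P hP => ?_⟩
  · refine hS.1.conjTranspose_mul_mul_same (B := rm U) fun x y hxy => ?_
    refine sub_eq_zero.1 (eq_zero_of_mulVec_eq_zero (M := (rm U)ᵀ * S * rm U)
      (zero_lt_one.trans_le (stableF_gen hS U hU)).ne' ?_)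
    rw [← mulVec_mulVec, mulVec_sub, hxy, sub_self, mulVec_zero]
  · have h := hS.2 k (U * P) (fun x y hxy => by
      rw [← mulVec_mulVec, ← mulVec_mulVec] at hxy
      exact hP (hU hxy))
    rw [stableF_rm_mul, transpose_mul] at h
    simpa only [Matrix.mul_assoc] using h

theorem stableF_sub {κ : Type} [Fintype κ] [DecidableEq κ] {S : Matrix ι ι ℝ} (hS : StableF S)
    {e : κ → ι} (he : Function.Injective e) : StableF (S.submatrix e e) := by
  have h := stableF_conj hS ((1 : Matrix ι ι ℤ).submatrix id e) (fun x y hxy => by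
    funext k
    simpa [mulVec, dotProduct, one_apply, he.eq_iff] using congrFun hxy (e k))
  have e1 : (rm ((1 : Matrix ι ι ℤ).submatrix id e))ᵀ * S * rm ((1 : Matrix ι ι ℤ).submatrix id e) =
      S.submatrix e e := by
    ext i j
    simp [rm, mul_apply, one_apply]
  rwa [e1] at h

theorem stableF_one_le_det {S : Matrix ι ι ℝ} (hS : StableF S) : 1 ≤ S.det := by
  have h := stableF_gen hS (1 : Matrix ι ι ℤ) (fun x y hxy => by simpa using hxy)
  have e1 : rm (1 : Matrix ι ι ℤ) = 1 := Matrix.map_one _ Int.cast_zero Int.cast_one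
  rwa [e1, transpose_one, Matrix.one_mul, Matrix.mul_one] at h

theorem stableF_one_le_diag {S : Matrix ι ι ℝ} (hS : StableF S) (i : ι) : 1 ≤ S i i := by
  have h := stableF_one_le_det (stableF_sub hS (e := fun _ : Unit => i)
    (Function.injective_of_subsingleton _))
  rwa [det_unique] at h

/-- the Schur complement of an almost tight block is stable after scaling -/
theorem stableF_schur {κ : Type} [Fintype κ] [DecidableEq κ] {A : Matrix ι ι ℝ} {B : Matrix ι κ ℝ}
    {D : Matrix κ κ ℝ} (hS : StableF (fromBlocks A B Bᵀ D)) {c : ℝ} (hc : 1 ≤ c) (hA : A.det ≤ c) :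
    StableF A ∧ StableF (c • (D - Bᵀ * A⁻¹ * B)) := by
  have h1 : StableF A := stableF_sub hS Sum.inl_injective
  refine ⟨h1, ?_, fun k P hP => ?_⟩
  · let := h1.1.isUnit.invertible
    refine PosDef.smul ?_ (zero_lt_one.trans_le hc)
    have h2 : (D - Bᵀ * A⁻¹ * B).PosSemidef :=
      (PosDef.fromBlocks₁₁ B D h1.1).1 hS.1.posSemidef
    refine h2.posDef_iff_det_ne_zero.2 fun h3 => ?_
    have h4 := hS.1.det_pos
    rw [det_fromBlocks₁₁, invOf_eq_nonsing_inv, h3, mul_zero] at h4
    exact lt_irrefl _ h4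
  · let := h1.1.isUnit.invertible
    have h := stableF_gen hS (fromBlocks (1 : Matrix ι ι ℤ) 0 0 P) (fun x y hxy => by
      rw [fromBlocks_mulVec, fromBlocks_mulVec] at hxy
      simp only [one_mulVec, zero_mulVec, add_zero, zero_add] at hxy
      obtain ⟨a1, a2⟩ := Sum.elim_eq_iff.1 hxy
      funext i
      rcases i with i | i
      · exact congrFun a1 i
      · exact congrFun (hP a2) i)
    have e1 : rm (fromBlocks (1 : Matrix ι ι ℤ) 0 0 P) = fromBlocks 1 0 0 (rm P) := by
      unfold rm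
      rw [fromBlocks_map, Matrix.map_one _ Int.cast_zero Int.cast_one,
        Matrix.map_zero _ Int.cast_zero, Matrix.map_zero _ Int.cast_zero]
    have e2 : (rm P)ᵀ * D * rm P - (rm P)ᵀ * Bᵀ * A⁻¹ * (B * rm P) =
        (rm P)ᵀ * (D - Bᵀ * A⁻¹ * B) * rm P := by
      simp only [Matrix.mul_sub, Matrix.sub_mul, Matrix.mul_assoc]
    rw [e1, fromBlocks_transpose, fromBlocks_multiply, fromBlocks_multiply] at h
    simp only [transpose_one, transpose_zero, Matrix.one_mul, Matrix.mul_one, Matrix.zero_mul,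
      Matrix.mul_zero, add_zero, zero_add] at h
    rw [det_fromBlocks₁₁, invOf_eq_nonsing_inv, e2] at h
    rw [Matrix.mul_smul, Matrix.smul_mul, det_smul, Fintype.card_fin]
    rcases Nat.eq_zero_or_pos k with rfl | hk
    · rw [det_isEmpty, pow_zero, mul_one]
    · have h0 : 0 < ((rm P)ᵀ * (D - Bᵀ * A⁻¹ * B) * rm P).det :=
        (mul_pos_iff_of_pos_left h1.1.det_pos).1 (zero_lt_one.trans_le h)
      exact h.trans (mul_le_mul_of_nonneg_right (hA.trans (le_self_pow₀ hc hk.ne')) h0.le)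

theorem hermite_diag {κ : Type} (S : Matrix ι ι ℝ) (W : Matrix ι κ ℤ) (k : κ) :
    ((rm W)ᵀ * S * rm W) k k = qf S (rv fun i => W i k) := by
  rw [Matrix.mul_assoc]
  rfl

theorem hermite_rv {κ : Type} [Fintype κ] (W : Matrix ι κ ℤ) (z : κ → ℤ) :
    rm W *ᵥ rv z = rv (W *ᵥ z) := by
  funext i
  simp [rm, rv, mulVec, dotProduct]

theorem hermite_rm_one {κ : Type} [DecidableEq κ] : rm (1 : Matrix κ κ ℤ) = 1 :=
  Matrix.map_one _ Int.cast_zero Int.cast_one

theorem hermite_det {κ : Type} [Fintype κ] [DecidableEq κ] (e : ι ≃ κ) (S : Matrix ι ι ℝ)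
    {U : Matrix ι κ ℤ} {U' : Matrix κ ι ℤ} (h : U * U' = 1) :
    ((rm U)ᵀ * S * rm U).det = S.det := by
  have h1 : (U.submatrix id e).det * (U'.submatrix e id).det = 1 := by
    rw [← det_mul, submatrix_mul_equiv, h, submatrix_id_id, det_one]
  have h2 : (rm (U.submatrix id e)).det = ((U.submatrix id e).det : ℝ) :=
    (Int.cast_det _).symm
  have h3 : (rm (U.submatrix id e)).det * (rm (U.submatrix id e)).det = 1 := by
    rw [h2]
    rcases Int.eq_one_or_neg_one_of_mul_eq_one h1 with h | h <;> simp [h]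
  rw [← det_submatrix_equiv_self e]
  change ((rm (U.submatrix id e))ᵀ * S * rm (U.submatrix id e)).det = _
  rw [det_mul, det_mul, det_transpose, mul_right_comm, h3, one_mul]

theorem hermite_short [Nonempty ι] {S : Matrix ι ι ℝ} (hS : S.PosDef) :
    ∃ v : ι → ℤ, v ≠ 0 ∧ ∀ z : ι → ℤ, z ≠ 0 → qf S (rv v) ≤ qf S (rv z) := by
  obtain ⟨i⟩ := ‹Nonempty ι›
  have h0 : ∀ z, qf S (0 - rv z) = qf S (rv z) := fun z => by simp [qf, mulVec_neg]
  have h1 := finite_short hS 0 (qf S (rv (Pi.single i 1)))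
  simp only [h0] at h1
  obtain ⟨v, hv, h⟩ := Set.exists_min_image _ (fun z => qf S (rv z)) (h1.inter_of_left {z | z ≠ 0})
    ⟨Pi.single i 1, by simp⟩
  refine ⟨v, hv.2, fun z hz => ?_⟩
  by_cases h2 : qf S (rv z) ≤ qf S (rv (Pi.single i 1))
  · exact h z ⟨h2, hz⟩
  · exact hv.1.trans (not_le.1 h2).le

theorem hermite_step {l : ℕ} {C : ℝ} (hC : 0 < C)
    (ih : ∀ T : Matrix (Fin l) (Fin l) ℝ, T.PosDef → ∃ V V' : Matrix (Fin l) (Fin l) ℤ,
      V * V' = 1 ∧ V' * V = 1 ∧ ∏ i, ((rm V)ᵀ * T * rm V) i i ≤ C * T.det)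
    {S : Matrix (Fin 1 ⊕ Fin l) (Fin 1 ⊕ Fin l) ℝ} (hS : S.PosDef)
    (hv : ∀ z, z ≠ 0 → S (Sum.inl 0) (Sum.inl 0) ≤ qf S (rv z)) :
    ∃ W W' : Matrix (Fin 1 ⊕ Fin l) (Fin 1 ⊕ Fin l) ℤ, W * W' = 1 ∧ W' * W = 1 ∧
      ∏ i, ((rm W)ᵀ * S * rm W) i i ≤ (4 / 3) ^ l * C * S.det := by
  obtain ⟨A, B, D, rfl⟩ : ∃ A B D, S = fromBlocks A B Bᴴ D :=
    ⟨S.toBlocks₁₁, S.toBlocks₁₂, S.toBlocks₂₂, by
      conv_lhs => rw [← fromBlocks_toBlocks S]
      congr 1
      ext i j
      exact (hS.1.apply (Sum.inr i) (Sum.inl j)).symm⟩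
  have hA : A.PosDef := hS.submatrix (e := Sum.inl) Sum.inl_injective
  let _ := hA.isUnit.invertible
  have ha : 0 < A 0 0 := hA.diag_pos
  have hd : (fromBlocks A B Bᴴ D).det = A 0 0 * (D - Bᴴ * A⁻¹ * B).det := by
    rw [det_fromBlocks₁₁, invOf_eq_nonsing_inv, det_unique]; rfl
  have hT : (D - Bᴴ * A⁻¹ * B).PosDef :=
    ((PosDef.fromBlocks₁₁ B D hA).1 hS.posSemidef).posDef_iff_det_ne_zero.2 fun h => by
      have := hS.det_pos
      rw [hd, h, mul_zero] at this
      exact lt_irrefl _ this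
  set T := D - Bᴴ * A⁻¹ * B with hTd
  obtain ⟨V, V', h1, h2, h3⟩ := ih T hT
  set β : Fin l → ℝ := fun j => ((A⁻¹ * B) *ᵥ rv fun i => V i j) 0
  set X : Matrix (Fin 1) (Fin l) ℤ := of fun _ j => -round (β j)
  have hq : ∀ (x : Fin 1 → ℝ) (y : Fin l → ℝ), qf (fromBlocks A B Bᴴ D) (Sum.elim x y) =
      A 0 0 * (x 0 + ((A⁻¹ * B) *ᵥ y) 0) ^ 2 + qf T y := fun x y => by
    have := schur_complement_eq₁₁ B D x y hA.1
    simp only [star_trivial, ← dotProduct_mulVec] at this
    rw [qf, this, qf]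
    congr 1
    rw [← Pi.add_apply x]
    simp only [dotProduct, mulVec, Fin.sum_univ_one]
    ring
  set W : Matrix (Fin 1 ⊕ Fin l) (Fin 1 ⊕ Fin l) ℤ := fromBlocks 1 X 0 V with hW
  refine ⟨W, fromBlocks 1 (-(X * V')) 0 V', ?_, ?_, ?_⟩
  · simp [hW, fromBlocks_multiply, h1]
  · simp [hW, fromBlocks_multiply, h2, Matrix.mul_assoc]
  have e0 : ((rm W)ᵀ * fromBlocks A B Bᴴ D * rm W)
      (Sum.inl 0) (Sum.inl 0) = A 0 0 := by
    have : rv (fun i => W i (Sum.inl 0)) =
        Sum.elim (fun _ => 1) 0 := by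
      funext i; rcases i with i | i <;> simp [rv, hW, one_apply, Fin.eq_zero]
    rw [hermite_diag, this, hq]
    simp [qf]
  have e1 : ∀ j, ((rm W)ᵀ * fromBlocks A B Bᴴ D * rm W)
      (Sum.inr j) (Sum.inr j) ≤ 4 / 3 * ((rm V)ᵀ * T * rm V) j j := fun j => by
    have a0 : rv (fun i => W i (Sum.inr j)) =
        Sum.elim (fun _ => -(round (β j) : ℝ)) (rv fun i => V i j) := by
      funext i; rcases i with i | i <;> simp [rv, X, hW]
    have a1 := hv (fun i => W i (Sum.inr j))
      fun h => by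
        have := congrFun (congrFun h2 j) j
        have h' : ∀ i, V i j = 0 := fun i => congrFun h (Sum.inr i)
        simp [mul_apply, h'] at this
    rw [hermite_diag, hermite_diag]
    rw [a0, hq] at a1 ⊢
    have a2 := abs_le.1 (abs_sub_round (β j))
    have a3 : (-(round (β j) : ℝ) + β j) ^ 2 ≤ 1 / 4 := by nlinarith
    have a4 := mul_le_mul_of_nonneg_left a3 ha.le
    simp only [fromBlocks_apply₁₁] at a1
    linarith
  have e2 : ∀ j, 0 ≤ ((rm W)ᵀ * fromBlocks A B Bᴴ D * rm W)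
      j j := fun j => by
    rw [hermite_diag]
    simpa [qf] using hS.posSemidef.dotProduct_mulVec_nonneg _
  rw [Fintype.prod_sum_type, Fin.prod_univ_one, e0, hd]
  calc _ ≤ A 0 0 * ∏ j, 4 / 3 * ((rm V)ᵀ * T * rm V) j j :=
        mul_le_mul_of_nonneg_left (Finset.prod_le_prod (fun j _ => e2 _) fun j _ => e1 j) ha.le
    _ ≤ A 0 0 * ((4 / 3) ^ l * (C * T.det)) := by
        rw [Finset.prod_mul_distrib, Finset.prod_const, Finset.card_univ, Fintype.card_fin]
        gcongr
    _ = _ := by ring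

/-- Hermite: shortest vector, unimodular completion, induction on the quotient, size reduction -/
theorem hermite (n : ℕ) : ∃ C : ℝ, 0 < C ∧ ∀ (ι : Type) [Fintype ι] [DecidableEq ι],
    Fintype.card ι = n → ∀ S : Matrix ι ι ℝ, S.PosDef →
      ∃ U U' : Matrix ι ι ℤ, U * U' = 1 ∧ U' * U = 1 ∧
        ∏ i, ((rm U)ᵀ * S * rm U) i i ≤ C * S.det := by
  induction n with
  | zero =>
    refine ⟨1, one_pos, fun ι _ _ h S _ => ⟨1, 1, one_mul _, one_mul _, ?_⟩⟩
    have := Fintype.card_eq_zero_iff.1 h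
    simp
  | succ n ih =>
    obtain ⟨C, hC, ih⟩ := ih
    refine ⟨(4 / 3) ^ n * C, by positivity, fun ι _ _ h S hS => ?_⟩
    have : Nonempty ι := Fintype.card_pos_iff.1 (by omega)
    obtain ⟨v, hv0, hv⟩ := hermite_short hS
    obtain ⟨l, U, U', Q, h1, h2, h3, h4, h5⟩ := exists_unimodular (of fun i (_ : Fin 1) => v i)
      fun x y hxy => by
        obtain ⟨i, hi⟩ := Function.ne_iff.1 hv0
        have := congrFun hxy i
        simp only [mulVec, dotProduct, of_apply, Fin.sum_univ_one] at this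
        funext k
        rw [Subsingleton.elim k 0]
        exact mul_left_cancel₀ hi this
    obtain rfl : l = n := by omega
    have e : ι ≃ Fin 1 ⊕ Fin l := Fintype.equivOfCardEq (by simp [h, add_comm])
    have hU : rm U' * rm U = 1 := by rw [← stableF_rm_mul, h3, hermite_rm_one]
    obtain ⟨W, W', a1, a2, a3⟩ := hermite_step hC (ih (Fin l) (Fintype.card_fin l))
      (S := (rm U)ᵀ * S * rm U)
      (hS.conjTranspose_mul_mul_same (B := rm U) fun x y hxy => by
        rw [← one_mulVec x, ← one_mulVec y, ← hU, ← mulVec_mulVec, ← mulVec_mulVec, hxy])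
      fun z hz => by
        rw [qf_conj, hermite_rv, hermite_diag]
        refine le_trans ?_ (hv _ fun h0 => hz ?_)
        · have b1 : rv v = (Q 0 0 : ℝ) • rv fun i => U i (Sum.inl 0) := by
            funext i
            have := congrFun (congrFun h5 i) 0
            simp only [of_apply, mul_apply, Fin.sum_univ_one, submatrix_apply, id] at this
            simp [rv, this, mul_comm]
          have b2 : (1 : ℝ) ≤ (Q 0 0 : ℝ) ^ 2 := by
            rw [det_unique] at h4
            exact_mod_cast (one_le_sq_iff_one_le_abs _).2 (Int.one_le_abs h4)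
          have b3 : 0 ≤ qf S (rv fun i => U i (Sum.inl 0)) := by
            simpa [qf] using hS.posSemidef.dotProduct_mulVec_nonneg _
          rw [b1]
          simp only [qf, mulVec_smul, smul_dotProduct, dotProduct_smul, smul_eq_mul] at b3 ⊢
          nlinarith
        · rw [← one_mulVec z, ← h3, ← mulVec_mulVec, h0, mulVec_zero]
    refine ⟨(U * W).submatrix id e, (W' * U').submatrix e id, ?_, ?_, ?_⟩
    · rw [submatrix_mul_equiv, Matrix.mul_assoc, ← Matrix.mul_assoc W, a1, Matrix.one_mul, h2,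
        submatrix_id_id]
    · rw [← submatrix_mul _ _ _ _ _ Function.bijective_id, Matrix.mul_assoc,
        ← Matrix.mul_assoc U', h3, Matrix.one_mul, a2, submatrix_one_equiv]
    · rw [hermite_det e S h2, ← e.prod_comp] at a3
      refine le_of_eq_of_le (Finset.prod_congr rfl fun i _ => ?_) a3
      rw [hermite_diag, hermite_diag, qf_conj, hermite_rv]
      rfl

end Crest.Agent.R152
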