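import Crest.Agent.R152.MLat
import Crest.Agent.R152.WHerm

/-! # Row 152, module M: auxiliary lemmas for `exists_quot` -/

set_option autoImplicit false
set_option linter.unusedSectionVars false
set_option linter.unusedVariables false

open Matrix

noncomputable section

namespace Crest.Agent.R152

variable {ι : Type} [Fintype ι] [DecidableEq ι]

theorem mqq_range_mul {α β : Type} [Fintype α] [Fintype β] (W : Matrix ι α ℤ) (P : Matrix α β ℤ)
    (x : ι → ℤ) : x ∈ LinearMap.range (W * P).mulVecLin ↔ ∃ c, W *ᵥ (P *ᵥ c) = x := by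
  simp only [LinearMap.mem_range, mulVecLin_apply, mulVec_mulVec]

theorem mqq_sub_inl {α β : Type} [Fintype α] [Fintype β] (W : Matrix ι (α ⊕ β) ℤ) (c : α → ℤ) :
    W.submatrix id Sum.inl *ᵥ c = W *ᵥ Sum.elim c 0 := by
  funext i
  simp [mulVec, dotProduct, Fintype.sum_sum_type]

theorem mqq_rv_mulVec {α β : Type} [Fintype β] (W : Matrix α β ℤ) (c : β → ℤ) :
    rv (W *ᵥ c) = rm W *ᵥ rv c := by
  funext i
  simp [rv, rm, mulVec, dotProduct]

/-- a basis of `L` extending a basis of the saturated sublattice `M` -/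
theorem mqq_adapted {M L : Submodule ℤ (ι → ℤ)} (h : SatIn M L) :
    ∃ (l : ℕ) (W : Matrix ι (Fin (rk M) ⊕ Fin l) ℤ), Function.Injective W.mulVec ∧
      LinearMap.range W.mulVecLin = L ∧
      LinearMap.range (W.submatrix id Sum.inl).mulVecLin = M := by
  obtain ⟨B, hB, hBL⟩ := exists_basis_matrix L
  obtain ⟨PM, hPM, hPMM⟩ := exists_basis_matrix M
  have hcol : ∀ a : Fin (rk M), ∃ c, B *ᵥ c = PM *ᵥ Pi.single a 1 := by
    intro a
    have h1 : PM *ᵥ Pi.single a 1 ∈ M := hPMM.le ⟨Pi.single a 1, rfl⟩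
    exact hBL.ge (h.1 h1)
  choose c hc using hcol
  let P : Matrix (Fin (rk L)) (Fin (rk M)) ℤ := Matrix.of fun i a => c a i
  have hBP : B * P = PM := by
    ext i a
    have := congrFun (hc a) i
    rw [mulVec_single_one] at this
    exact this
  have hP : Function.Injective P.mulVec := fun x y hxy => hPM (by
    rw [← hBP, ← mulVec_mulVec, ← mulVec_mulVec, hxy])
  obtain ⟨l, U, U', Q, -, h1, h2, hQ, hPQ⟩ := exists_unimodular P hP
  have hW1 : (B * U).submatrix id Sum.inl * Q = PM := by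
    rw [← hBP, hPQ, ← Matrix.mul_assoc]
    rfl
  have hL : LinearMap.range (B * U).mulVecLin = L := by
    apply le_antisymm
    · intro x hx
      obtain ⟨v, rfl⟩ := (mqq_range_mul B U x).1 hx
      exact hBL.le ⟨_, rfl⟩
    · intro x hx
      obtain ⟨v, hv⟩ := hBL.ge hx
      refine (mqq_range_mul B U x).2 ⟨U' *ᵥ v, ?_⟩
      rw [mulVec_mulVec v U U', h1, one_mulVec]
      exact hv
  refine ⟨l, B * U, fun x y hxy => ?_, hL, le_antisymm ?_ ?_⟩
  · rw [← mulVec_mulVec, ← mulVec_mulVec] at hxy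
    have h3 := congrArg U'.mulVec (hB hxy)
    rwa [mulVec_mulVec, mulVec_mulVec, h2, one_mulVec, one_mulVec] at h3
  · rintro x ⟨v, rfl⟩
    rw [mulVecLin_apply]
    refine h.2 _ ?_ Q.det hQ ?_
    · rw [mqq_sub_inl]
      exact hL.le ⟨_, rfl⟩
    · have e : Q.det • ((B * U).submatrix id Sum.inl *ᵥ v) = PM *ᵥ (Q.adjugate *ᵥ v) := by
        rw [← hW1, mulVec_mulVec, Matrix.mul_assoc, mul_adjugate, Matrix.mul_smul, Matrix.mul_one,
          smul_mulVec]
      rw [e]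
      exact hPMM.le ⟨_, rfl⟩
  · intro x hx
    obtain ⟨v, hv⟩ := hPMM.ge hx
    refine ⟨Q *ᵥ v, ?_⟩
    rw [mulVecLin_apply, mulVec_mulVec, hW1]
    exact hv

theorem mqq_main {α : Type} [Fintype α] [DecidableEq α] {l : ℕ} {G : Matrix ι ι ℝ} (hG : G.PosDef)
    (W : Matrix ι (α ⊕ Fin l) ℤ) (hW : Function.Injective W.mulVec) {M L : Submodule ℤ (ι → ℤ)}
    (hL : LinearMap.range W.mulVecLin = L)
    (hM : LinearMap.range (W.submatrix id Sum.inl).mulVecLin = M) :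
    ∃ (G₂ : Matrix (Fin l) (Fin l) ℝ) (π : L →ₗ[ℤ] (Fin l → ℤ)),
      G₂.PosDef ∧ rk M + l = rk L ∧ Function.Surjective π ∧
      (∀ x : L, π x = 0 ↔ (x : ι → ℤ) ∈ M) ∧
      (∀ x : L, qf G₂ (rv (π x)) ≤ qf G (rv (x : ι → ℤ))) ∧
      ∀ N : Submodule ℤ (Fin l → ℤ),
        rk ((N.comap π).map L.subtype) = rk M + rk N ∧
        gram G ((N.comap π).map L.subtype) = gram G M * gram G₂ N := by
  subst hL
  have hW1 : Function.Injective (W.submatrix id Sum.inl).mulVec := fun x y hxy => by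
    rw [mqq_sub_inl, mqq_sub_inl] at hxy
    exact (Sum.elim_eq_iff.1 (hW hxy)).1
  set T : Matrix (α ⊕ Fin l) (α ⊕ Fin l) ℝ := (rm W)ᵀ * G * rm W with hTdef
  have hT : T.PosDef := by
    have := hG.conjTranspose_mul_mul_same (B := rm W) (rm_injective W hW)
    rwa [conjTranspose_eq_transpose_of_trivial] at this
  set A := T.toBlocks₁₁ with hA
  set B := T.toBlocks₁₂ with hB
  set D := T.toBlocks₂₂ with hD
  have hTs : Tᵀ = T := by
    have := hT.isHermitian.eq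
    rwa [conjTranspose_eq_transpose_of_trivial] at this
  have hTb : T = fromBlocks A B Bᵀ D := by
    have e : T.toBlocks₂₁ = Bᵀ := by
      ext i j
      exact (congrFun (congrFun hTs (Sum.inr i)) (Sum.inl j)).symm
    rw [← e, fromBlocks_toBlocks]
  have hAp : A.PosDef := hT.submatrix Sum.inl_injective
  let _ := hAp.isUnit.invertible
  have hG₂ : (D - Bᵀ * A⁻¹ * B).PosDef := by
    have h2 : (D - Bᵀ * A⁻¹ * B).PosSemidef :=
      (PosDef.fromBlocks₁₁ B D hAp).1 (hTb ▸ hT.posSemidef)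
    refine h2.posDef_iff_det_ne_zero.2 fun h3 => ?_
    have h4 := hT.det_pos
    rw [hTb, det_fromBlocks₁₁, invOf_eq_nonsing_inv, h3, mul_zero] at h4
    exact lt_irrefl _ h4
  obtain ⟨hrM, hgM⟩ := gram_eq G _ hW1
  rw [hM] at hrM hgM
  have hgA : gram G M = A.det := by
    rw [hgM]
    congr 1
  let e : (α ⊕ Fin l → ℤ) ≃ₗ[ℤ] LinearMap.range W.mulVecLin := LinearEquiv.ofInjective _ hW
  have he : ∀ c, ((e c : LinearMap.range W.mulVecLin) : ι → ℤ) = W *ᵥ c := fun c => rfl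
  let π : LinearMap.range W.mulVecLin →ₗ[ℤ] (Fin l → ℤ) :=
    LinearMap.funLeft ℤ ℤ Sum.inr ∘ₗ e.symm.toLinearMap
  have hπ : ∀ c, π (e c) = c ∘ Sum.inr := fun c => by
    show LinearMap.funLeft ℤ ℤ Sum.inr (e.symm (e c)) = _
    rw [e.symm_apply_apply]
    rfl
  refine ⟨D - Bᵀ * A⁻¹ * B, π, hG₂, ?_, fun v => ⟨e (Sum.elim 0 v), by rw [hπ]; rfl⟩, fun x => ?_,
    fun x => ?_, fun N => ?_⟩
  · rw [hrM, (gram_eq G W hW).1, Fintype.card_sum, Fintype.card_fin]
  · obtain ⟨c, rfl⟩ := e.surjective x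
    rw [hπ, he, ← hM]
    constructor
    · intro h0
      refine ⟨c ∘ Sum.inl, ?_⟩
      rw [mulVecLin_apply, mqq_sub_inl, ← h0, Sum.elim_comp_inl_inr]
    · rintro ⟨v, hv⟩
      rw [mulVecLin_apply, mqq_sub_inl] at hv
      rw [← hW hv]
      rfl
  · obtain ⟨c, rfl⟩ := e.surjective x
    rw [hπ, he, mqq_rv_mulVec, ← qf_conj, ← hTdef, hTb]
    have h := Matrix.schur_complement_eq₁₁ B D (rv c ∘ Sum.inl) (rv c ∘ Sum.inr) hAp.isHermitian
    simp only [conjTranspose_eq_transpose_of_trivial, star_trivial, ← dotProduct_mulVec,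
      Sum.elim_comp_inl_inr] at h
    have h2 := wfb_qf_nonneg hAp.posSemidef (rv c ∘ Sum.inl + (A⁻¹ * B) *ᵥ (rv c ∘ Sum.inr))
    unfold qf at h2 ⊢
    rw [h]
    exact le_add_of_nonneg_left h2
  · obtain ⟨P, hP, hPN⟩ := exists_basis_matrix N
    have hF : ∀ c : α ⊕ Fin (rk N) → ℤ, fromBlocks (1 : Matrix α α ℤ) 0 0 P *ᵥ c =
        Sum.elim (c ∘ Sum.inl) (P *ᵥ (c ∘ Sum.inr)) := fun c => by
      rw [fromBlocks_mulVec]
      simp only [one_mulVec, zero_mulVec, add_zero, zero_add]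
    have hinj : Function.Injective (W * fromBlocks (1 : Matrix α α ℤ) 0 0 P).mulVec := by
      intro x y hxy
      rw [← mulVec_mulVec, ← mulVec_mulVec, hF, hF] at hxy
      obtain ⟨a1, a2⟩ := Sum.elim_eq_iff.1 (hW hxy)
      rw [← Sum.elim_comp_inl_inr x, a1, hP a2, Sum.elim_comp_inl_inr]
    have hr : (N.comap π).map (LinearMap.range W.mulVecLin).subtype =
        LinearMap.range (W * fromBlocks (1 : Matrix α α ℤ) 0 0 P).mulVecLin := by
      ext x
      rw [mqq_range_mul]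
      constructor
      · rintro ⟨y, hy, rfl⟩
        obtain ⟨c, rfl⟩ := e.surjective y
        have h1 : c ∘ Sum.inr ∈ N := by
          rw [← hπ]
          exact hy
        obtain ⟨v, hv⟩ := hPN.ge h1
        refine ⟨Sum.elim (c ∘ Sum.inl) v, ?_⟩
        rw [hF, Sum.elim_comp_inl, Sum.elim_comp_inr, ← mulVecLin_apply P, hv, Sum.elim_comp_inl_inr]
        rfl
      · rintro ⟨c, rfl⟩
        refine ⟨e (fromBlocks (1 : Matrix α α ℤ) 0 0 P *ᵥ c), ?_, rfl⟩
        show π _ ∈ N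
        rw [hπ, hF, Sum.elim_comp_inr]
        exact hPN.le ⟨_, rfl⟩
    obtain ⟨h1, h2⟩ := gram_eq G _ hinj
    obtain ⟨-, h3⟩ := gram_eq (D - Bᵀ * A⁻¹ * B) P hP
    rw [hPN] at h3
    rw [hr, h1, h2, h3, hgA, hrM, Fintype.card_sum, Fintype.card_fin]
    refine ⟨rfl, ?_⟩
    have e1 : rm (fromBlocks (1 : Matrix α α ℤ) 0 0 P) = fromBlocks 1 0 0 (rm P) := by
      unfold rm
      rw [fromBlocks_map, Matrix.map_one _ Int.cast_zero Int.cast_one,
        Matrix.map_zero _ Int.cast_zero, Matrix.map_zero _ Int.cast_zero]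
    have e2 : (rm P)ᵀ * D * rm P - (rm P)ᵀ * Bᵀ * A⁻¹ * (B * rm P) =
        (rm P)ᵀ * (D - Bᵀ * A⁻¹ * B) * rm P := by
      simp only [Matrix.mul_sub, Matrix.sub_mul, Matrix.mul_assoc]
    have e3 : (rm (W * fromBlocks (1 : Matrix α α ℤ) 0 0 P))ᵀ * G *
        rm (W * fromBlocks (1 : Matrix α α ℤ) 0 0 P) =
        (fromBlocks (1 : Matrix α α ℝ) 0 0 (rm P))ᵀ * T *
          fromBlocks (1 : Matrix α α ℝ) 0 0 (rm P) := by
      rw [stableF_rm_mul, e1, transpose_mul, hTdef]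
      simp only [Matrix.mul_assoc]
    rw [e3, hTb, fromBlocks_transpose, fromBlocks_multiply, fromBlocks_multiply]
    simp only [transpose_one, transpose_zero, Matrix.one_mul, Matrix.mul_one, Matrix.zero_mul,
      Matrix.mul_zero, add_zero, zero_add]
    rw [det_fromBlocks₁₁, invOf_eq_nonsing_inv, e2]

theorem mqq_quot {G : Matrix ι ι ℝ} (hG : G.PosDef) {M L : Submodule ℤ (ι → ℤ)}
    (h : SatIn M L) :
    ∃ (l : ℕ) (G₂ : Matrix (Fin l) (Fin l) ℝ) (π : L →ₗ[ℤ] (Fin l → ℤ)),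
      G₂.PosDef ∧ rk M + l = rk L ∧ Function.Surjective π ∧
      (∀ x : L, π x = 0 ↔ (x : ι → ℤ) ∈ M) ∧
      (∀ x : L, qf G₂ (rv (π x)) ≤ qf G (rv (x : ι → ℤ))) ∧
      ∀ N : Submodule ℤ (Fin l → ℤ),
        rk ((N.comap π).map L.subtype) = rk M + rk N ∧
        gram G ((N.comap π).map L.subtype) = gram G M * gram G₂ N := by
  obtain ⟨l, W, hW, hL, hM⟩ := mqq_adapted h
  exact ⟨l, mqq_main hG W hW hL hM⟩

end Crest.Agent.R152
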