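import Crest.Agent.R152.MLat
import Crest.Agent.R152.WHerm
import Crest.Agent.R152.MQuotAuxQ
import Crest.Agent.R152.MQuotAux1

/-! # Row 152, module M: quotient lattices, submodularity, short generators -/

set_option autoImplicit false
set_option linter.unusedSectionVars false
set_option linter.unusedVariables false

open Matrix Filter Topology Finset Crest.FinProb Crest.Agent.Lib.BoolCube

noncomputable section

namespace Crest.Agent.R152

variable {ι : Type} [Fintype ι] [DecidableEq ι]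

/-- the quotient `L / M` with the projected form (Schur complement); `π` is only meaningful on `L`
(take a basis matrix of `L`, `exists_unimodular` for the coordinates of a basis of `M`; since `M` is
saturated the matrix `Q` is unimodular) -/
theorem exists_quot {G : Matrix ι ι ℝ} (hG : G.PosDef) {M L : Submodule ℤ (ι → ℤ)}
    (h : SatIn M L) :
    ∃ (l : ℕ) (G₂ : Matrix (Fin l) (Fin l) ℝ) (π : L →ₗ[ℤ] (Fin l → ℤ)),
      G₂.PosDef ∧ rk M + l = rk L ∧ Function.Surjective π ∧
      (∀ x : L, π x = 0 ↔ (x : ι → ℤ) ∈ M) ∧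
      (∀ x : L, qf G₂ (rv (π x)) ≤ qf G (rv (x : ι → ℤ))) ∧
      ∀ N : Submodule ℤ (Fin l → ℤ),
        rk ((N.comap π).map L.subtype) = rk M + rk N ∧
        gram G ((N.comap π).map L.subtype) = gram G M * gram G₂ N :=
  mqq_quot hG h

/-- Hadamard–Fischer–Koteljanskii for three blocks -/
theorem koteljanskii {α β γ : Type} [Fintype α] [DecidableEq α] [Fintype β] [DecidableEq β]
    [Fintype γ] [DecidableEq γ] {T : Matrix (α ⊕ β ⊕ γ) (α ⊕ β ⊕ γ) ℝ} (hT : T.PosDef) :
    T.det * (T.submatrix Sum.inl Sum.inl).det ≤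
      (T.submatrix (Sum.map id Sum.inl) (Sum.map id Sum.inl)).det *
        (T.submatrix (Sum.map id Sum.inr) (Sum.map id Sum.inr)).det :=
  mqa_koteljanskii hT

theorem mq4368_compl (M : Submodule ℤ (ι → ℤ)) {M' : Submodule ℤ (ι → ℤ)} (hM' : SatIn M' ⊤) :
    ∃ B : Submodule ℤ (ι → ℤ), B ≤ M ∧ Disjoint B M' ∧ (M ⊓ M') ⊔ B = M := by
  have : Module.IsTorsionFree ℤ ((ι → ℤ) ⧸ M') := by
    refine Module.IsTorsionFree.of_smul_eq_zero fun r m h => ?_
    obtain ⟨x, rfl⟩ := M'.mkQ_surjective m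
    by_cases hr : r = 0
    · exact Or.inl hr
    · refine Or.inr ((Submodule.Quotient.mk_eq_zero _).2 (hM'.2 x trivial r hr ?_))
      rw [← map_smul] at h
      exact (Submodule.Quotient.mk_eq_zero _).1 h
  let f : M →ₗ[ℤ] ((ι → ℤ) ⧸ M') := M'.mkQ ∘ₗ M.subtype
  obtain ⟨g, hg⟩ := f.rangeRestrict.exists_rightInverse_of_surjective f.range_rangeRestrict
  have hg' : ∀ y, f (g y) = (y : (ι → ℤ) ⧸ M') := fun y =>
    congrArg Subtype.val (LinearMap.congr_fun hg y)
  have hle : LinearMap.range (M.subtype ∘ₗ g) ≤ M := by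
    rintro _ ⟨y, rfl⟩
    exact (g y).2
  refine ⟨LinearMap.range (M.subtype ∘ₗ g), hle, ?_, le_antisymm (sup_le inf_le_left hle) ?_⟩
  · rw [Submodule.disjoint_def]
    rintro _ ⟨y, rfl⟩ hy
    have h1 : f (g y) = 0 := (Submodule.Quotient.mk_eq_zero _).2 hy
    rw [hg'] at h1
    have h2 : y = 0 := Subtype.ext h1
    rw [h2, map_zero]
  · intro x hx
    let y : LinearMap.range f := f.rangeRestrict ⟨x, hx⟩
    refine Submodule.mem_sup.2 ⟨x - (g y : ι → ℤ), ⟨sub_mem hx (g y).2, ?_⟩, (g y : ι → ℤ),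
      ⟨y, rfl⟩, sub_add_cancel _ _⟩
    exact (Submodule.Quotient.eq _).1 (hg' y).symm

theorem mq4368_range {α β : Type} [Fintype α] [Fintype β] (P : Matrix ι α ℤ) (Q : Matrix ι β ℤ) :
    LinearMap.range (fromCols P Q).mulVecLin =
      LinearMap.range P.mulVecLin ⊔ LinearMap.range Q.mulVecLin := by
  refine le_antisymm ?_ (sup_le ?_ ?_)
  · rintro _ ⟨v, rfl⟩
    rw [mulVecLin_apply, fromCols_mulVec]
    exact Submodule.add_mem_sup ⟨_, rfl⟩ ⟨_, rfl⟩
  · rintro _ ⟨v, rfl⟩
    exact ⟨Sum.elim v 0, by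
      rw [mulVecLin_apply, fromCols_mulVec_sumElim, mulVec_zero, add_zero, mulVecLin_apply]⟩
  · rintro _ ⟨v, rfl⟩
    exact ⟨Sum.elim 0 v, by
      rw [mulVecLin_apply, fromCols_mulVec_sumElim, mulVec_zero, zero_add, mulVecLin_apply]⟩

theorem mq4368_inj {α β : Type} [Fintype α] [Fintype β] {P : Matrix ι α ℤ} {Q : Matrix ι β ℤ}
    (hP : Function.Injective P.mulVec) (hQ : Function.Injective Q.mulVec)
    (h : Disjoint (LinearMap.range P.mulVecLin) (LinearMap.range Q.mulVecLin)) :
    Function.Injective (fromCols P Q).mulVec := by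
  refine (injective_iff_map_eq_zero (fromCols P Q).mulVecLin).2 fun v hv => ?_
  rw [mulVecLin_apply, fromCols_mulVec] at hv
  have h1 : P *ᵥ v ∘ Sum.inl = 0 := Submodule.disjoint_def.1 h _ ⟨_, rfl⟩ (by
    rw [eq_neg_of_add_eq_zero_left hv]
    exact neg_mem ⟨_, rfl⟩)
  rw [h1, zero_add] at hv
  have h2 := hP (h1.trans (mulVec_zero P).symm)
  have h3 := hQ (hv.trans (mulVec_zero Q).symm)
  funext j
  rcases j with j | j
  · exact congrFun h2 j
  · exact congrFun h3 j

/-- adapted bases: `(a, b)` is a basis of `M`, `(a, c)` of `M'`, `a` of `M ⊓ M'`, `(a, b, c)` of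
`M ⊔ M'` (`M ⊓ M'` is saturated in `M` and in `M'`) -/
theorem exists_adapted {M M' : Submodule ℤ (ι → ℤ)} (hM : SatIn M ⊤) (hM' : SatIn M' ⊤) :
    ∃ (a b c : ℕ) (P : Matrix ι (Fin a ⊕ Fin b ⊕ Fin c) ℤ), Function.Injective P.mulVec ∧
      LinearMap.range P.mulVecLin = M ⊔ M' ∧
      LinearMap.range (P.submatrix id Sum.inl).mulVecLin = M ⊓ M' ∧
      LinearMap.range (P.submatrix id (Sum.map id Sum.inl)).mulVecLin = M ∧
      LinearMap.range (P.submatrix id (Sum.map id Sum.inr)).mulVecLin = M' := by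
  obtain ⟨B, hB1, hB2, hB3⟩ := mq4368_compl M hM'
  obtain ⟨C, hC1, hC2, hC3⟩ := mq4368_compl M' hM
  obtain ⟨PA, iA, rA⟩ := exists_basis_matrix (M ⊓ M')
  obtain ⟨PB, iB, rB⟩ := exists_basis_matrix B
  obtain ⟨PC, iC, rC⟩ := exists_basis_matrix C
  rw [inf_comm] at hC3
  refine ⟨_, _, _, fromCols PA (fromCols PB PC), ?_, ?_, rA, ?_, ?_⟩
  · refine mq4368_inj iA (mq4368_inj iB iC ?_) ?_
    · rw [rB, rC]
      exact hB2.mono_right hC1
    · rw [rA, mq4368_range, rB, rC, Submodule.disjoint_def]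
      intro x hx hx'
      obtain ⟨y, hy, z, hz, rfl⟩ := Submodule.mem_sup.1 hx'
      have h1 : y = 0 := Submodule.disjoint_def.1 hB2 y hy
        ((Submodule.add_mem_iff_left _ (hC1 hz)).1 hx.2)
      have h2 : z = 0 := Submodule.disjoint_def.1 hC2 z hz
        ((Submodule.add_mem_iff_right _ (hB1 hy)).1 hx.1)
      rw [h1, h2, add_zero]
  · rw [mq4368_range, mq4368_range, rA, rB, rC, sup_sup_distrib_left, hB3, hC3]
  · have e : (fromCols PA (fromCols PB PC)).submatrix id (Sum.map id Sum.inl) = fromCols PA PB := by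
      ext i j
      rcases j with j | j <;> rfl
    rw [e, mq4368_range, rA, rB, hB3]
  · have e : (fromCols PA (fromCols PB PC)).submatrix id (Sum.map id Sum.inr) = fromCols PA PC := by
      ext i j
      rcases j with j | j <;> rfl
    rw [e, mq4368_range, rA, rC, hC3]

theorem mqa_gram_sub {κ μ : Type} [Fintype κ] [DecidableEq κ] [Fintype μ] [DecidableEq μ]
    (G : Matrix ι ι ℝ) (P : Matrix ι κ ℤ) (hP : Function.Injective P.mulVec) {e : μ → κ}
    (he : Function.Injective e) :
    gram G (LinearMap.range (P.submatrix id e).mulVecLin) =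
      (((rm P)ᵀ * G * rm P).submatrix e e).det := by
  have hinj : Function.Injective (P.submatrix id e).mulVec := by
    rw [Matrix.mulVec_injective_iff] at hP ⊢
    exact hP.comp e he
  rw [(gram_eq G _ hinj).2]
  congr 1

/-- submodularity of the covolume -/
theorem gram_submod {G : Matrix ι ι ℝ} (hG : G.PosDef) {M M' : Submodule ℤ (ι → ℤ)}
    (hM : SatIn M ⊤) (hM' : SatIn M' ⊤) :
    gram G (M ⊔ M') * gram G (M ⊓ M') ≤ gram G M * gram G M' := by
  obtain ⟨a, b, c, P, hP, h1, h2, h3, h4⟩ := exists_adapted hM hM'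
  have hT : ((rm P)ᵀ * G * rm P).PosDef := by
    have := hG.conjTranspose_mul_mul_same (rm_injective P hP)
    rwa [conjTranspose_eq_transpose_of_trivial] at this
  have k := koteljanskii hT
  rw [← (gram_eq G P hP).2, ← mqa_gram_sub G P hP Sum.inl_injective,
    ← mqa_gram_sub G P hP (Function.injective_id.sumMap Sum.inl_injective),
    ← mqa_gram_sub G P hP (Function.injective_id.sumMap Sum.inr_injective), h1, h2, h3, h4] at k
  exact k

theorem mq4368_le_prod {α : Type} [Fintype α] [DecidableEq α] {f : α → ℝ} (h : ∀ i, 1 ≤ f i)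
    (a : α) : f a ≤ ∏ i, f i := by
  rw [← Finset.mul_prod_erase _ _ (Finset.mem_univ a)]
  exact le_mul_of_one_le_right (zero_le_one.trans (h a)) (Finset.one_le_prod fun i _ => h i)

/-- a sublattice of bounded rank and covolume of a stable lattice is generated by short vectors
(`hermite`; pad with zero vectors) -/
theorem short_gens (b : ℕ) : ∃ C : ℝ, 0 < C ∧ ∀ (ι : Type) [Fintype ι] [DecidableEq ι]
    (G : Matrix ι ι ℝ), StableF G → ∀ N : Submodule ℤ (ι → ℤ), rk N ≤ b →
      ∃ v : Fin b → ι → ℤ, (∀ a, qf G (rv (v a)) ≤ C * gram G N) ∧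
        N ≤ Submodule.span ℤ (Set.range v) := by
  choose C hC0 hC using hermite
  have hpos : 0 < ∑ n ∈ Finset.range (b + 1), C n :=
    Finset.sum_pos (fun n _ => hC0 n) Finset.nonempty_range_add_one
  refine ⟨∑ n ∈ Finset.range (b + 1), C n, hpos, ?_⟩
  intro ι _ _ G hG N hN
  obtain ⟨P, iP, rP⟩ := exists_basis_matrix N
  have hS := stableF_conj hG P iP
  obtain ⟨U, U', h1, h2, h3⟩ := hC (rk N) (Fin (rk N)) (Fintype.card_fin _) _ hS.1
  have iU : Function.Injective U.mulVec := fun x y hxy => by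
    have := congrArg U'.mulVec hxy
    rwa [mulVec_mulVec, mulVec_mulVec, h2, one_mulVec, one_mulVec] at this
  have hT := stableF_conj hS U iU
  have hg : ((rm P)ᵀ * G * rm P).det = gram G N := by
    rw [← (gram_eq G P iP).2, rP]
  have hg0 : 0 < gram G N := gram_pos hG.1 N
  have hle : C (rk N) * gram G N ≤ (∑ n ∈ Finset.range (b + 1), C n) * gram G N :=
    mul_le_mul_of_nonneg_right (Finset.single_le_sum (fun n _ => (hC0 n).le)
      (Finset.mem_range.2 (Nat.lt_succ_of_le hN))) hg0.le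
  refine ⟨fun a => if h : (a : ℕ) < rk N then (P * U).col ⟨a, h⟩ else 0, fun a => ?_, ?_⟩
  · by_cases h : (a : ℕ) < rk N
    · simp only [dif_pos h]
      refine le_trans ?_ ((hg ▸ h3).trans hle)
      refine le_trans (le_of_eq ?_) (mq4368_le_prod
        (fun i => stableF_one_le_diag hT i) ⟨a, h⟩)
      have e : (rm U)ᵀ * ((rm P)ᵀ * G * rm P) * rm U = (rm (P * U))ᵀ * G * rm (P * U) := by
        rw [stableF_rm_mul, transpose_mul]
        simp only [Matrix.mul_assoc]
      rw [e, Matrix.mul_assoc]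
      rfl
    · simp only [dif_neg h]
      have : rv (0 : ι → ℤ) = 0 := by
        funext i
        simp [rv]
      rw [this, qf, zero_dotProduct]
      exact (mul_pos hpos hg0).le
  · have e : N ≤ LinearMap.range (P * U).mulVecLin := by
      intro x hx
      rw [← rP] at hx
      obtain ⟨y, rfl⟩ := hx
      refine ⟨U' *ᵥ y, ?_⟩
      rw [mulVecLin_apply, mulVecLin_apply, mulVec_mulVec, Matrix.mul_assoc, h1, Matrix.mul_one]
    refine e.trans ?_
    rw [Matrix.range_mulVecLin]
    refine Submodule.span_mono ?_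
    rintro _ ⟨j, rfl⟩
    exact ⟨⟨j, lt_of_lt_of_le j.2 hN⟩, by simp only [dif_pos j.2]⟩

end Crest.Agent.R152
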