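import Crest.Agent.R152.TDefs

/-! # Row 152: finite probability toolkit -/

set_option autoImplicit false
set_option linter.unusedSectionVars false
set_option linter.unusedVariables false

open Matrix Filter Topology Crest.FinProb Crest.ProbabilityR.SignMatrix Crest.Agent.Lib.BoolCube

noncomputable section

namespace Crest.Agent.R152

open Classical

variable {ι : Type} [Fintype ι] [DecidableEq ι] {p : ℝ}

variable {κ : Type} [Fintype κ] [DecidableEq κ]

theorem Pr_nonneg (h0 : 0 ≤ p) (h1 : p ≤ 1) (A : Set (ι → Bool)) : 0 ≤ bernoulliProb p A := by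
  sorry

theorem Pr_univ : bernoulliProb p (Set.univ : Set (ι → Bool)) = 1 := by
  sorry

theorem Pr_empty : bernoulliProb p (∅ : Set (ι → Bool)) = 0 := by
  sorry

theorem Pr_mono (h0 : 0 ≤ p) (h1 : p ≤ 1) {A B : Set (ι → Bool)} (h : A ⊆ B) :
    bernoulliProb p A ≤ bernoulliProb p B := by
  sorry

theorem Pr_le_one (h0 : 0 ≤ p) (h1 : p ≤ 1) (A : Set (ι → Bool)) : bernoulliProb p A ≤ 1 := by
  sorry

theorem Pr_union (h0 : 0 ≤ p) (h1 : p ≤ 1) (A B : Set (ι → Bool)) :
    bernoulliProb p (A ∪ B) ≤ bernoulliProb p A + bernoulliProb p B := by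
  sorry

theorem Pr_cover (h0 : 0 ≤ p) (h1 : p ≤ 1) {α : Type} (s : Finset α) (B : α → Set (ι → Bool))
    {A : Set (ι → Bool)} (h : ∀ b ∈ A, ∃ a ∈ s, b ∈ B a) :
    bernoulliProb p A ≤ ∑ a ∈ s, bernoulliProb p (B a) := by
  sorry

theorem Pr_eq_E (A : Set (ι → Bool)) :
    bernoulliProb p A = E p (fun x => if x ∈ A then (1 : ℝ) else 0) := by
  sorry

theorem E_comp_inj {e : κ → ι} (he : Function.Injective e) (F : (κ → Bool) → ℝ) :
    E p (fun b : ι → Bool => F (b ∘ e)) = E p F := by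
  sorry

/-- resampling the coordinates in the range of `e` -/
theorem E_fresh {e : κ → ι} (he : Function.Injective e) (F : (ι → Bool) → ℝ) :
    E p F = E p fun b => E p fun c : κ → Bool => F (Function.extend e c b) := by
  sorry

theorem Pr_comp_inj {e : κ → ι} (he : Function.Injective e) (A : Set (κ → Bool)) :
    bernoulliProb p {b : ι → Bool | b ∘ e ∈ A} = bernoulliProb p A := by
  sorry

theorem Pr_fresh (h0 : 0 ≤ p) (h1 : p ≤ 1) {e : κ → ι} (he : Function.Injective e)
    {A : Set (ι → Bool)} {r : ℝ}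
    (h : ∀ b, bernoulliProb p {c : κ → Bool | Function.extend e c b ∈ A} ≤ r) :
    bernoulliProb p A ≤ r := by
  sorry

/-- conditional version: `A ⊆ A'`, `A'` does not depend on the resampled coordinates -/
theorem Pr_fresh_mul (h0 : 0 ≤ p) (h1 : p ≤ 1) {e : κ → ι} (he : Function.Injective e)
    {A A' : Set (ι → Bool)} {r : ℝ} (hr : 0 ≤ r) (hsub : A ⊆ A')
    (hinv : ∀ b c, Function.extend e c b ∈ A' → b ∈ A')
    (h : ∀ b ∈ A', bernoulliProb p {c : κ → Bool | Function.extend e c b ∈ A} ≤ r) :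
    bernoulliProb p A ≤ r * bernoulliProb p A' := by
  sorry

theorem Pr_pi (A : ι → Set (κ → Bool)) :
    bernoulliProb p {c : ι × κ → Bool | ∀ r, (fun j => c (r, j)) ∈ A r} =
      ∏ r, bernoulliProb p (A r) := by
  sorry

theorem Pr_subsingleton (h0 : 0 ≤ p) (h1 : p ≤ 1) {A : Set (ι → Bool)} (h : A.Subsingleton) :
    bernoulliProb p A ≤ max p (1 - p) ^ Fintype.card ι := by
  sorry

theorem E_weight : E p (fun x : ι → Bool => bernoulliWeight p x) = r2 p ^ Fintype.card ι := by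
  sorry

theorem SM_isSign (n : ℕ) (b : Sym2 (Fin n) → Bool) : IsSign (symSignMatrix n b) := by
  sorry

theorem SM_apply (n : ℕ) (b : Sym2 (Fin n) → Bool) (i j : Fin n) :
    symSignMatrix n b i j = sg (b s(i, j)) := by
  sorry

theorem SM_minor {n : ℕ} (j : Fin (n + 1)) (b : Sym2 (Fin (n + 1)) → Bool) :
    symSignMatrix n (minorB j b) = (symSignMatrix (n + 1) b).submatrix j.succAbove j.succAbove := by
  sorry

/-- the minor and the deleted row are independent -/
theorem E_split {n : ℕ} (j : Fin (n + 1)) (F : (Sym2 (Fin n) → Bool) → (Fin n → Bool) → ℝ) :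
    E p (fun b => F (minorB j b) (rowB j b)) = E p fun b' => E p fun x => F b' x := by
  sorry

theorem r2_pos (h0 : 0 < p) (h1 : p < 1) : 0 < r2 p := by
  sorry

theorem r2_lt_one (h0 : 0 < p) (h1 : p < 1) : r2 p < 1 := by
  sorry

theorem cn_nonneg (t : ℝ) : 0 ≤ cn t := by
  sorry

theorem cn_le_half (t : ℝ) : cn t ≤ 1 / 2 := by
  sorry

theorem cn_le_abs_sub (t : ℝ) (m : ℤ) : cn t ≤ |t - m| := by
  sorry

theorem cn_add_int (t : ℝ) (m : ℤ) : cn (t + m) = cn t := by
  sorry

theorem cn_neg (t : ℝ) : cn (-t) = cn t := by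
  sorry

theorem cn_add_le (s t : ℝ) : cn (s + t) ≤ cn s + cn t := by
  sorry

theorem cn_int_mul_le (m : ℤ) (t : ℝ) : cn (m * t) ≤ |(m : ℝ)| * cn t := by
  sorry

theorem cn_sum_le {α : Type} (s : Finset α) (t : α → ℝ) : cn (∑ a ∈ s, t a) ≤ ∑ a ∈ s, cn (t a) := by
  sorry

end Crest.Agent.R152
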