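import Crest.Agent.R152.PBas

/-! # Row 152: large corank is unlikely; torsion of the cokernel -/

set_option autoImplicit false
set_option linter.unusedSectionVars false
set_option linter.unusedVariables false

open Matrix Filter Topology Crest.FinProb Crest.ProbabilityR.SignMatrix Crest.Agent.Lib.BoolCube

noncomputable section

namespace Crest.Agent.R152

open Classical

variable {ι : Type} [Fintype ι] [DecidableEq ι] {p : ℝ}

/-- information set of a subspace over any field -/
theorem info_set {F : Type} [Field F] (K : Submodule F (ι → F)) {c : ℕ}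
    (hc : c ≤ Module.finrank F K) : ∃ (T : Finset ι) (w : ι → ι → F), T.card = c ∧
      ∀ t ∈ T, w t ∈ K ∧ ∀ s ∈ T, w t s = if s = t then 1 else 0 := by
  sorry

/-- two symmetric matrices that agree outside `T × T` and have kernel vectors normalised on `T`
are equal: `w'_sᵀ (A - A') w_t = 0` -/
theorem corank_prob (h0 : 0 ≤ p) (h1 : p ≤ 1) {F : Type} [Field F] (val : Bool → F)
    (hval : val true ≠ val false) (n c : ℕ) :
    bernoulliProb p {b : Sym2 (Fin n) → Bool | c ≤ Module.finrank F
      (LinearMap.ker (Matrix.of fun i j : Fin n => val (b s(i, j))).mulVecLin)} ≤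
      (n.choose c : ℝ) * max p (1 - p) ^ (c * (c + 1) / 2) := by
  sorry

/-- induction on the prime factorisation: reduction `mod c/q` has kernel the solutions `mod q` -/
theorem kerN_le_pow {n : ℕ} (B : Matrix (Fin n) (Fin n) ℤ) (r c : ℕ) (hc : 1 ≤ c)
    (h : ∀ q : ℕ, q.Prime → q ∣ c → kerN B q ≤ q ^ r) : kerN B c ≤ c ^ r := by
  sorry

/-- `A = J - 2 B`: `A y = 0` gives `B (2 y) = (Σ y) 𝟙` -/
theorem kerN_sign {n : ℕ} (A B : Matrix (Fin n) (Fin n) ℤ) (h : ∀ i j, A i j = 1 - 2 * B i j)
    (c : ℕ) (hc : 1 ≤ c) : kerN A c ≤ 2 ^ n * c * kerN B c := by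
  sorry

theorem tors_prob (h0 : 0 < p) (h1 : p < 1) (K : ℕ) (C : ℝ) : ∀ᶠ n : ℕ in atTop,
    bernoulliProb p {b | ¬ TorsOK K n (symSignMatrix n b)} ≤ Real.exp (-(C * n)) := by
  sorry

end Crest.Agent.R152
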