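import Crest.Agent.R152.RAri

/-!
# RED: two admissible rows

Let `c, v` be as in `cor1_structure`; for `v j ≠ 0` put `A = sm (res j b)`, `x = sv (rw j b)`
(`sm_res`, `sv_rw`, `border`): `det A = c (v j)²`, `aa A x q = v_q (v j)`,
`ee A q = v_q c + 2 v_q (v j)`, `x` is isotropic.
`gw_ge_coprime`: primes `q ∣ c` with `q ∤ v j` are good with `ee = v_q c`.
`gw_ge_det`: a bad prime has `a > 0`, `20 a < 9 (2a + c_q)`, so `ee = 2a + c_q ≤ 10 c_q`; and
`∑_q ee q log q = log |det A|`, `∑_q c_q log q = log |c|` (`Real.log_nat_eq_sum_factorization`).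
`two_admissible`, `L = m log m`.  If `log |c| ≥ L/1000`: `w j = ∑_{q ∣ c, q ∤ v j} c_q log q ≤ log |c|`
and `∑_j w j ≥ γ (m+1) log |c|` (not sparse: each prime `q` has more than `γ (m+1)` indices with
`q ∤ v j`, and one exists as `v` is primitive); so at least two `j` have `w j ≥ (γ/4) log |c|` (`> 0`,
so `v j ≠ 0`) once `γ (m+1) / 2 > 1`.  Otherwise take `j₁` maximising `|v j|` and `j₂` maximising it
among the others; a row of `sm b *ᵥ v = 0` gives `|v j₁| ≤ m |v j₂|`; for both,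
`|v i| ≤ m |v j|` for all `i`; either `InB` holds or `gw ≥ L/20 - L/100`.
-/

set_option autoImplicit false
set_option linter.unusedSectionVars false

open Matrix Filter Crest.FinProb

noncomputable section

namespace Crest.Agent.R152.RD

variable {ι : Type} [Fintype ι] [DecidableEq ι]

theorem rda_ee {A : Matrix ι ι ℤ} {c t : ℤ} (hc : c ≠ 0) (ht : t ≠ 0) (hd : A.det = c * t ^ 2)
    (q : ℕ) : ee A q = c.natAbs.factorization q + 2 * t.natAbs.factorization q := by
  rw [ee, hd, Int.natAbs_mul, Int.natAbs_pow, Nat.factorization_mul (Int.natAbs_ne_zero.2 hc)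
    (pow_ne_zero _ (Int.natAbs_ne_zero.2 ht)), Nat.factorization_pow]
  simp

theorem rda_sub {A : Matrix ι ι ℤ} {c t : ℤ} (hc : c ≠ 0) (ht : t ≠ 0) (hd : A.det = c * t ^ 2) :
    c.natAbs.primeFactors ⊆ A.det.natAbs.primeFactors := by
  refine Nat.primeFactors_mono (Int.natAbs_dvd_natAbs.2 ⟨_, hd⟩) ?_
  rw [hd]
  exact Int.natAbs_ne_zero.2 (mul_ne_zero hc (pow_ne_zero _ ht))

theorem rda_log (n : ℤ) {S : Finset ℕ} (hS : n.natAbs.primeFactors ⊆ S) :
    Real.log |(n : ℝ)| = ∑ q ∈ S, (n.natAbs.factorization q : ℝ) * Real.log q := by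
  rw [← Int.cast_abs, ← Nat.cast_natAbs, Real.log_nat_eq_sum_factorization]
  exact Finsupp.sum_of_support_subset _ hS _ (by simp)

theorem gw_ge_coprime {A : Matrix ι ι ℤ} {x : ι → ℤ} {c t : ℤ} (hc : c ≠ 0) (ht : t ≠ 0)
    (hd : A.det = c * t ^ 2) (ho : addOrderOf (cl A x) = t.natAbs) :
    ∑ q ∈ c.natAbs.primeFactors.filter (fun q : ℕ => ¬ (q : ℤ) ∣ t),
      (c.natAbs.factorization q : ℝ) * Real.log q ≤ gw A x := by
  classical
  have h0 : ∀ q : ℕ, ¬ (q : ℤ) ∣ t → t.natAbs.factorization q = 0 := fun q hq =>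
    Nat.factorization_eq_zero_of_not_dvd fun h => hq (Int.natCast_dvd.2 h)
  rw [gw]
  calc ∑ q ∈ c.natAbs.primeFactors.filter (fun q : ℕ => ¬ (q : ℤ) ∣ t),
        (c.natAbs.factorization q : ℝ) * Real.log q
      = ∑ q ∈ c.natAbs.primeFactors.filter (fun q : ℕ => ¬ (q : ℤ) ∣ t),
        (ee A q : ℝ) * Real.log q := by
        refine Finset.sum_congr rfl fun q hq => ?_
        rw [rda_ee hc ht hd, h0 q (Finset.mem_filter.1 hq).2, mul_zero, add_zero]
    _ ≤ _ := by
        refine Finset.sum_le_sum_of_subset_of_nonneg (fun q hq => ?_)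
          fun q _ _ => mul_nonneg (Nat.cast_nonneg _) (Real.log_natCast_nonneg _)
        rw [Finset.mem_filter] at hq ⊢
        exact ⟨rda_sub hc ht hd hq.1, Or.inl (by rw [aa, ho, h0 q hq.2])⟩

theorem gw_ge_det {A : Matrix ι ι ℤ} {x : ι → ℤ} {c t : ℤ} (hc : c ≠ 0) (ht : t ≠ 0)
    (hd : A.det = c * t ^ 2) (ho : addOrderOf (cl A x) = t.natAbs) :
    Real.log |(A.det : ℝ)| - 10 * Real.log |(c : ℝ)| ≤ gw A x := by
  classical
  rw [rda_log A.det (Finset.Subset.refl _), rda_log c (rda_sub hc ht hd), gw, Finset.sum_filter,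
    Finset.mul_sum, ← Finset.sum_sub_distrib]
  refine Finset.sum_le_sum fun q _ => ?_
  have hl := Real.log_natCast_nonneg q
  have h1 : 0 ≤ (c.natAbs.factorization q : ℝ) * Real.log q := mul_nonneg (Nat.cast_nonneg _) hl
  change (ee A q : ℝ) * Real.log q - _ ≤ _
  split_ifs with h
  · linarith
  · have h2 : ee A q ≤ 10 * c.natAbs.factorization q := by
      have h3 := rda_ee hc ht hd q
      rw [Good, aa, ho, not_or] at h
      omega
    have h4 : (ee A q : ℝ) ≤ 10 * c.natAbs.factorization q := by exact_mod_cast h2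
    nlinarith [mul_le_mul_of_nonneg_right h4 hl]

theorem rdb4500_two {κ : Type} [Fintype κ] [DecidableEq κ] (c : ℤ) (v : κ → ℤ)
    {γ : ℝ} (hγ : 0 < γ) {n : ℕ} (hn : 2 ≤ γ * n) (hl : 0 < Real.log |(c : ℝ)|)
    (hns : ∀ q : ℕ, q.Prime → γ * (n : ℝ) ≤
      ((Finset.univ.filter fun j => ¬ (q : ℤ) ∣ v j).card : ℝ))
    (hcard : Fintype.card κ = n := by simp) :
    ∃ j j' : κ, j ≠ j' ∧
      γ / 4 * Real.log |(c : ℝ)| ≤ ∑ q ∈ c.natAbs.primeFactors.filter (fun q : ℕ => ¬ (q : ℤ) ∣ v j),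
        (c.natAbs.factorization q : ℝ) * Real.log q ∧
      γ / 4 * Real.log |(c : ℝ)| ≤ ∑ q ∈ c.natAbs.primeFactors.filter (fun q : ℕ => ¬ (q : ℤ) ∣ v j'),
        (c.natAbs.factorization q : ℝ) * Real.log q := by
  set l := Real.log |(c : ℝ)| with hldef
  set w : κ → ℝ := fun j => ∑ q ∈ c.natAbs.primeFactors.filter (fun q : ℕ => ¬ (q : ℤ) ∣ v j),
    (c.natAbs.factorization q : ℝ) * Real.log q with hw
  have hnn : ∀ q : ℕ, 0 ≤ (c.natAbs.factorization q : ℝ) * Real.log q := fun q =>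
    mul_nonneg (Nat.cast_nonneg _) (Real.log_natCast_nonneg q)
  have hl1 : l = ∑ q ∈ c.natAbs.primeFactors, (c.natAbs.factorization q : ℝ) * Real.log q := by
    rw [hldef, ← Int.cast_abs, ← Nat.cast_natAbs, Real.log_nat_eq_sum_factorization]
    rfl
  have hw1 : ∀ j, w j ≤ l := fun j => by
    rw [hl1]
    exact Finset.sum_le_sum_of_subset_of_nonneg (Finset.filter_subset _ _) fun q _ _ => hnn q
  have hw2 : γ * n * l ≤ ∑ j, w j := by
    simp only [hw, Finset.sum_filter]
    rw [Finset.sum_comm, hl1, Finset.mul_sum]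
    refine Finset.sum_le_sum fun q hq => ?_
    rw [← Finset.sum_filter, Finset.sum_const, nsmul_eq_mul]
    exact mul_le_mul_of_nonneg_right (hns q (Nat.prime_of_mem_primeFactors hq)) (hnn q)
  have hT : 1 < (Finset.univ.filter fun j => γ / 4 * l ≤ w j).card := by
    by_contra hT
    have hT' : ((Finset.univ.filter fun j => γ / 4 * l ≤ w j).card : ℝ) ≤ 1 := by
      exact_mod_cast not_lt.1 hT
    have h3 : ∑ j, w j ≤ ∑ j, ((if γ / 4 * l ≤ w j then l else 0) + γ / 4 * l) := by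
      refine Finset.sum_le_sum fun j _ => ?_
      have : 0 < γ / 4 * l := by positivity
      split_ifs with h
      · linarith [hw1 j]
      · linarith [not_le.1 h]
    rw [Finset.sum_add_distrib, ← Finset.sum_filter, Finset.sum_const, Finset.sum_const,
      Finset.card_univ, hcard, nsmul_eq_mul, nsmul_eq_mul] at h3
    have h4 := mul_le_mul_of_nonneg_right hT' hl.le
    have h5 := mul_le_mul_of_nonneg_right hn hl.le
    linarith
  obtain ⟨j, hj, j', hj', hne⟩ := Finset.one_lt_card.1 hT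
  exact ⟨j, j', hne, (Finset.mem_filter.1 hj).2, (Finset.mem_filter.1 hj').2⟩

theorem rdb4500_max {m : ℕ} (hm : 1 ≤ m) {M : Matrix (Fin (m + 1)) (Fin (m + 1)) ℤ}
    (h1 : ∀ i j, |M i j| = 1) {v : Fin (m + 1) → ℤ} (hM : M *ᵥ v = 0) :
    ∃ j j' : Fin (m + 1), j ≠ j' ∧ (∀ i, |v i| ≤ m * |v j|) ∧ ∀ i, |v i| ≤ m * |v j'| := by
  have hm' : (1 : ℤ) ≤ m := by exact_mod_cast hm
  have : Nonempty (Fin m) := ⟨⟨0, hm⟩⟩
  obtain ⟨j, hj⟩ := Finite.exists_max fun i => |v i|
  obtain ⟨k, hk⟩ := Finite.exists_max fun i : Fin m => |v (j.succAbove i)|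
  refine ⟨j, j.succAbove k, (Fin.succAbove_ne j k).symm, fun i => ?_, fun i => (hj i).trans ?_⟩
  · exact (hj i).trans (le_mul_of_one_le_left (abs_nonneg _) hm')
  · have h2 : ∑ i, M j i * v i = 0 := congrFun hM j
    rw [Fin.sum_univ_succAbove _ j] at h2
    have h3 : |v j| = |∑ i, M j (j.succAbove i) * v (j.succAbove i)| := by
      rw [eq_neg_of_add_eq_zero_right h2, abs_neg, abs_mul, h1, one_mul]
    rw [h3]
    refine (Finset.abs_sum_le_sum_abs _ _).trans ?_
    refine (Finset.sum_le_card_nsmul _ _ |v (j.succAbove k)| fun i _ => ?_).trans (by simp)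
    rw [abs_mul, h1, one_mul]
    exact hk i

theorem two_admissible {γ : ℝ} (hγ : 0 < γ) (hγ1 : γ ≤ 1) : ∀ᶠ m : ℕ in atTop,
    ∀ b : Sym2 (Fin (m + 1)) → Bool, Cor1 (sm b) → ¬ Sparse γ b →
      ∃ j j' : Fin (m + 1), j ≠ j' ∧ rw j b ∈ SS (γ / 4000) (res j b) ∧
        rw j' b ∈ SS (γ / 4000) (res j' b) := by
  have ev : ∀ᶠ m : ℕ in atTop, 2 / γ ≤ (m : ℝ) :=
    tendsto_natCast_atTop_atTop.eventually (eventually_ge_atTop _)
  filter_upwards [ev, eventually_ge_atTop 2] with m hm hm2 b hb hsp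
  obtain ⟨c, v, hc, hv, hM, hdet⟩ := cor1_structure (sm_isSymm b) hb
  have hm2' : (2 : ℝ) ≤ m := by exact_mod_cast hm2
  have hL : 0 < (m : ℝ) * Real.log m := mul_pos (by linarith) (Real.log_pos (by linarith))
  have hγm : 2 ≤ γ * m := by rwa [div_le_iff₀ hγ, mul_comm] at hm
  have hx : ∀ j, sv (rw j b) = fun i => sm b j (j.succAbove i) := fun j => funext (sv_rw j b)
  have hd : ∀ j, v j ≠ 0 → ((sm b).submatrix j.succAbove j.succAbove).det ≠ 0 := fun j hj => by
    rw [hdet]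
    exact mul_ne_zero hc (pow_ne_zero _ hj)
  have mem : ∀ j, v j ≠ 0 →
      (γ / 4000 * m * Real.log m ≤
          gw ((sm b).submatrix j.succAbove j.succAbove) (fun i => sm b j (j.succAbove i)) ∨
        InB ((sm b).submatrix j.succAbove j.succAbove) fun i => sm b j (j.succAbove i)) →
      rw j b ∈ SS (γ / 4000) (res j b) := by
    intro j hj h
    simp only [SS, Finset.mem_filter, Finset.mem_univ, true_and]
    rw [sm_res, hx]
    exact ⟨hd j hj,
      h.imp (fun h => ⟨(border (sm_isSymm b) hv hM (hd j hj) hj).1, h⟩) id⟩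
  by_cases hl : (m : ℝ) * Real.log m / 1000 ≤ Real.log |(c : ℝ)|
  · have hns : ∀ q : ℕ, q.Prime → γ * ((m + 1 : ℕ) : ℝ) ≤
        ((Finset.univ.filter fun j => ¬ (q : ℤ) ∣ v j).card : ℝ) := by
      intro q hq
      by_contra hlt
      refine hsp ⟨q, v, hq, hM, ?_, by convert (not_le.1 hlt).le⟩
      by_contra hall
      push Not at hall
      obtain ⟨s, hs⟩ := hv
      have h1 : (q : ℤ) ∣ s ⬝ᵥ v := Finset.dvd_sum fun i _ => (hall i).mul_left _
      rw [hs] at h1
      exact hq.one_lt.ne' (by exact_mod_cast Int.eq_one_of_dvd_one (by positivity) h1)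
    have hl0 : 0 < Real.log |(c : ℝ)| := by linarith
    obtain ⟨j, j', hjj, h1, h2⟩ := rdb4500_two c v hγ (by push_cast; nlinarith) hl0 hns
    have fin : ∀ j, γ / 4 * Real.log |(c : ℝ)| ≤
        ∑ q ∈ c.natAbs.primeFactors.filter (fun q : ℕ => ¬ (q : ℤ) ∣ v j),
          (c.natAbs.factorization q : ℝ) * Real.log q → rw j b ∈ SS (γ / 4000) (res j b) := by
      intro j h
      have hj : v j ≠ 0 := by
        intro h0
        simp only [h0, dvd_zero, not_true, Finset.filter_false, Finset.sum_empty] at h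
        exact absurd h (not_le.2 (by positivity))
      refine mem j hj (Or.inl (le_trans ?_ (h.trans
        (gw_ge_coprime hc hj (hdet j) (border (sm_isSymm b) hv hM (hd j hj) hj).2.1))))
      have := mul_le_mul_of_nonneg_left hl hγ.le
      linarith
    exact ⟨j, j', hjj, fin j h1, fin j' h2⟩
  · have hv0 : v ≠ 0 := by
      rintro rfl
      obtain ⟨s, hs⟩ := hv
      rw [dotProduct_zero] at hs
      exact zero_ne_one hs
    obtain ⟨j, j', hjj, h1, h2⟩ := rdb4500_max (by omega) (abs_sm b) hM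
    have fin : ∀ j, (∀ i, |v i| ≤ m * |v j|) → rw j b ∈ SS (γ / 4000) (res j b) := by
      intro j h
      have hj : v j ≠ 0 := by
        intro h0
        refine hv0 (funext fun i => ?_)
        have := h i
        rw [h0, abs_zero, mul_zero] at this
        exact abs_nonpos_iff.1 this
      have hbd := border (sm_isSymm b) hv hM (hd j hj) hj
      refine mem j hj ?_
      by_cases hB : Real.log |(((sm b).submatrix j.succAbove j.succAbove).det : ℝ)| ≤
          m * Real.log m / 20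
      · refine Or.inr ⟨hB, fun i => ?_⟩
        have hj' : (0 : ℝ) < |(v j : ℝ)| := abs_pos.2 (by exact_mod_cast hj)
        rw [hbd.2.2 i, abs_div, abs_neg, div_le_iff₀ hj']
        exact_mod_cast h _
      · refine Or.inl (le_trans ?_ (gw_ge_det hc hj (hdet j) hbd.2.1))
        have := mul_le_mul_of_nonneg_right hγ1 hL.le
        push Not at hB hl
        linarith
    exact ⟨j, j', hjj, fin j h1, fin j' h2⟩

end Crest.Agent.R152.RD
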