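import Crest.Agent.R152.RDefs

/-! # RED: auxiliary lemmas for `badM_of_frame` -/

set_option autoImplicit false
set_option linter.unusedSectionVars false
set_option linter.unusedVariables false

open Matrix Filter

noncomputable section

namespace Crest.Agent.R152.RD

variable {m r : ℕ}

theorem rab_abs_le {u : Fin r → Fin m → ℝ} (hu : ∀ l l', u l ⬝ᵥ u l' = if l = l' then 1 else 0)
    (l : Fin r) (i : Fin m) : |u l i| ≤ 1 := by
  have h := hu l l
  rw [if_pos rfl] at h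
  have h2 : u l i * u l i ≤ u l ⬝ᵥ u l :=
    Finset.single_le_sum (f := fun j => u l j * u l j) (fun j _ => mul_self_nonneg _)
      (Finset.mem_univ i)
  rw [h] at h2
  exact abs_le_one_iff_mul_self_le_one.2 h2

theorem rab_coef {u : Fin r → Fin m → ℝ} (hu : ∀ l l', u l ⬝ᵥ u l' = if l = l' then 1 else 0)
    (d : Fin r → ℝ) (l : Fin r) : u l ⬝ᵥ (∑ l', d l' • u l') = d l := by
  rw [dotProduct_sum]
  simp only [dotProduct_smul, hu, smul_eq_mul, mul_ite, mul_one, mul_zero]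
  simp

theorem rab_img {A : Matrix (Fin m) (Fin m) ℝ} {u : Fin r → Fin m → ℝ} {lam : Fin r → ℝ}
    (hu : ∀ l l', u l ⬝ᵥ u l' = if l = l' then 1 else 0) (hev : ∀ l, A *ᵥ u l = lam l • u l)
    {s : ℝ} (d : Fin r → ℝ) (hd : ∀ l, |d l| * |lam l| ≤ s) (i : Fin m) :
    |(A *ᵥ ∑ l, d l • u l) i| ≤ r * s := by
  rw [mulVec_sum, Finset.sum_apply]
  refine (Finset.abs_sum_le_sum_abs _ _).trans ?_
  refine (Finset.sum_le_card_nsmul _ _ s fun l _ => ?_).trans (by simp)
  rw [mulVec_smul, hev, Pi.smul_apply, Pi.smul_apply, smul_eq_mul, smul_eq_mul, abs_mul, abs_mul,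
    ← mul_assoc]
  have h1 := rab_abs_le hu l i
  have h2 : 0 ≤ |d l| * |lam l| := by positivity
  exact (mul_le_of_le_one_right h2 h1).trans (hd l)

theorem rab_sm_abs (a : Sym2 (Fin m) → Bool) (i j : Fin m) :
    |(sm a).map (Int.cast : ℤ → ℝ) i j| = 1 := by
  simp only [sm, map_apply, of_apply]
  split_ifs <;> simp

theorem rab_sm_symm (a : Sym2 (Fin m) → Bool) :
    ((sm a).map (Int.cast : ℤ → ℝ))ᵀ = (sm a).map (Int.cast : ℤ → ℝ) := by
  ext i j
  simp only [sm, map_apply, of_apply, transpose_apply, Sym2.eq_swap]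

theorem rab_sm_mulVec (a : Sym2 (Fin m) → Bool) (e : Fin m → ℝ) {η : ℝ} (he : ∀ j, |e j| ≤ η)
    (i : Fin m) : |((sm a).map (Int.cast : ℤ → ℝ) *ᵥ e) i| ≤ m * η := by
  unfold mulVec dotProduct
  refine (Finset.abs_sum_le_sum_abs _ _).trans ?_
  refine (Finset.sum_le_card_nsmul _ _ η fun j _ => ?_).trans (by simp)
  rw [abs_mul, rab_sm_abs, one_mul]
  exact he j

theorem rab_iv {a : Sym2 (Fin m) → Bool} (hd : (sm a).det ≠ 0) (x : Fin m → ℤ) :
    (sm a).map (Int.cast : ℤ → ℝ) *ᵥ iv (sm a) x = fun i => (x i : ℝ) := by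
  have hu : IsUnit ((sm a).map (Int.cast : ℤ → ℝ)).det := by
    rw [← Int.cast_det]
    exact isUnit_iff_ne_zero.2 (by exact_mod_cast hd)
  unfold iv
  rw [mulVec_mulVec, mul_nonsing_inv _ hu, one_mulVec]

theorem rab_sep {K : ℕ} (hm : 4 ≤ m) {a : Sym2 (Fin m) → Bool} (hd : (sm a).det ≠ 0)
    {u : Fin r → Fin m → ℝ} {lam : Fin r → ℝ} (hrm : r ≤ m)
    (hu : ∀ l l', u l ⬝ᵥ u l' = if l = l' then 1 else 0)
    (hev : ∀ l, (sm a).map (Int.cast : ℤ → ℝ) *ᵥ u l = lam l • u l) (d : Fin r → ℤ)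
    (hdl : ∀ l, |(d l : ℝ)| * |lam l| ≤ ((m : ℝ) ^ (K + 2))⁻¹) {k : ℕ} (hk1 : 1 ≤ k)
    (hk : k ≤ m ^ K) (z : Fin m → ℤ)
    (h : ∀ i, |2 * k * (∑ l, (d l : ℝ) • u l) i - z i| < 1 / (4 * (m : ℝ))) : d = 0 := by
  have hm4 : (4 : ℝ) ≤ m := by exact_mod_cast hm
  have hm0 : (0 : ℝ) < m := by linarith
  have hk1' : (1 : ℝ) ≤ k := by exact_mod_cast hk1
  have hk' : (k : ℝ) ≤ (m : ℝ) ^ K := by exact_mod_cast hk
  have hr' : (r : ℝ) ≤ m := by exact_mod_cast hrm
  set y := ∑ l, (d l : ℝ) • u l with hy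
  have hz : z = 0 := by
    refine eq_zero_of_mulVec_eq_zero hd (funext fun i => ?_)
    have e1 : (((sm a *ᵥ z) i : ℤ) : ℝ) =
        ((sm a).map (Int.cast : ℤ → ℝ) *ᵥ fun j => (z j : ℝ)) i := by
      simp [mulVec, dotProduct]
    have e2 : (fun j => (z j : ℝ)) = (2 * k : ℝ) • y - fun j => 2 * k * y j - z j := by
      funext j
      simp
    have h1 := rab_img hu hev (fun l => (d l : ℝ)) hdl i
    have h2 := rab_sm_mulVec a (fun j => 2 * k * y j - z j) (fun j => (h j).le) i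
    have h3 : (m : ℝ) * (1 / (4 * m)) = 1 / 4 := by field_simp
    have h4 : 2 * (k : ℝ) * (r * ((m : ℝ) ^ (K + 2))⁻¹) ≤ 1 / 2 := by
      have h5 : (0 : ℝ) < (m : ℝ) ^ K := by positivity
      rw [← div_eq_mul_inv, ← mul_div_assoc, div_le_iff₀ (by positivity), pow_add]
      have h6 : (k : ℝ) * r ≤ (m : ℝ) ^ K * m := mul_le_mul hk' hr' (Nat.cast_nonneg _) h5.le
      have h7 : (m : ℝ) ^ K * m * 4 ≤ (m : ℝ) ^ K * m * m :=
        mul_le_mul_of_nonneg_left hm4 (by positivity)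
      nlinarith
    have h8 : |(((sm a *ᵥ z) i : ℤ) : ℝ)| < 1 := by
      rw [e1, e2, mulVec_sub, mulVec_smul, Pi.sub_apply, Pi.smul_apply, smul_eq_mul]
      refine lt_of_le_of_lt (abs_sub _ _) ?_
      rw [abs_mul, abs_of_nonneg (by positivity : (0 : ℝ) ≤ 2 * k)]
      have h9 := mul_le_mul_of_nonneg_left h1 (by positivity : (0 : ℝ) ≤ 2 * k)
      rw [← hy] at h9
      linarith
    have h10 : |(sm a *ᵥ z) i| < 1 := by exact_mod_cast h8
    exact Int.abs_lt_one_iff.1 h10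
  funext l
  have hyi : ∀ i, |y i| ≤ 1 / (4 * (m : ℝ)) := fun i => by
    have h1 := h i
    rw [hz, Pi.zero_apply, Int.cast_zero, sub_zero, abs_mul,
      abs_of_nonneg (by positivity : (0 : ℝ) ≤ 2 * k)] at h1
    have := abs_nonneg (y i)
    nlinarith
  have h1 : |u l ⬝ᵥ y| ≤ m * (1 / (4 * (m : ℝ))) := by
    unfold dotProduct
    refine (Finset.abs_sum_le_sum_abs _ _).trans ?_
    refine (Finset.sum_le_card_nsmul _ _ (1 / (4 * (m : ℝ))) fun j _ => ?_).trans (by simp)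
    rw [abs_mul]
    exact (mul_le_of_le_one_left (abs_nonneg _) (rab_abs_le hu l j)).trans (hyi j)
  have h3 : (m : ℝ) * (1 / (4 * m)) = 1 / 4 := by field_simp
  rw [h3, hy, rab_coef hu] at h1
  have h4 : |d l| < 1 := by
    have : |(d l : ℝ)| < 1 := by linarith
    exact_mod_cast this
  exact Int.abs_lt_one_iff.1 h4

theorem rab_main {ε δ δ' : ℝ} {K : ℕ} (hm : 4 ≤ m) {a : Sym2 (Fin m) → Bool}
    (hd : (sm a).det ≠ 0) {S : Finset (Fin m → Bool)} (hS : Real.exp (ε * m) ≤ S.card)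
    (hx : ∀ x ∈ S, ∀ i, |iv (sm a) (sv x) i| ≤ m) {u : Fin r → Fin m → ℝ} {lam : Fin r → ℝ}
    (hrm : r ≤ m) (hr : (r : ℝ) ≤ δ' * m) (hu : ∀ l l', u l ⬝ᵥ u l' = if l = l' then 1 else 0)
    (hev : ∀ l, (sm a).map (Int.cast : ℤ → ℝ) *ᵥ u l = lam l • u l) (hl : ∀ l, lam l ≠ 0)
    (hvol : δ * m * Real.log m + (K + 2) * r * Real.log m + ∑ l, Real.log |lam l| ≤ 0) :
    BadM ε δ δ' K a := by
  classical
  have hm4 : (4 : ℝ) ≤ m := by exact_mod_cast hm
  have hm0 : (0 : ℝ) < m := by linarith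
  have hr' : (r : ℝ) ≤ m := by exact_mod_cast hrm
  set s : ℝ := ((m : ℝ) ^ (K + 2))⁻¹ with hs
  have hs0 : 0 < s := by positivity
  have hl0 : ∀ l, 0 < |lam l| := fun l => abs_pos.2 (hl l)
  set t : Fin r → ℝ := fun l => s / |lam l| with ht
  have ht0 : ∀ l, 0 < t l := fun l => div_pos hs0 (hl0 l)
  have htl : ∀ l, t l * |lam l| = s := fun l => div_mul_cancel₀ _ (hl0 l).ne'
  set Φ : Matrix (Fin m) (Fin r) ℝ := Matrix.of fun i l => u l i * t l with hΦ
  set f : (Fin r → ℕ) → (Fin m → ℝ) × (Fin r → ℝ) := fun k => (0, fun l => k l / t l) with hf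
  set B : Finset (Fin r → ℕ) := Fintype.piFinset fun l => Finset.range (⌊t l⌋₊ + 1) with hB
  have hBt : ∀ k ∈ B, ∀ l, (k l : ℝ) ≤ t l := fun k hk l => by
    have h1 := Finset.mem_range.1 (Fintype.mem_piFinset.1 hk l)
    exact (Nat.le_floor_iff (ht0 l).le).1 (Nat.lt_succ_iff.1 h1)
  have hpt : ∀ k, (f k).1 + Φ *ᵥ (f k).2 = ∑ l, (k l : ℝ) • u l := fun k => by
    funext i
    simp only [hf, hΦ, zero_add, mulVec, dotProduct, of_apply, Finset.sum_apply, Pi.smul_apply,
      smul_eq_mul]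
    refine Finset.sum_congr rfl fun l _ => ?_
    have := (ht0 l).ne'
    field_simp
  have hfi : Function.Injective f := fun k k' h => by
    funext l
    have h1 : (k l : ℝ) / t l = k' l / t l := congrFun (congrArg Prod.snd h) l
    rw [div_left_inj' (ht0 l).ne'] at h1
    exact_mod_cast h1
  refine ⟨S, r, Φ, B.image f, hS, hr, ?_, fun x hxS x' hxS' => ?_, fun x _ x' _ h hh => ?_,
    fun h hh l => ?_, fun h hh => ?_, fun h hh h' hh' hne k hk1 hk z => ?_⟩
  · rw [Finset.card_image_of_injective _ hfi, hB, Fintype.card_piFinset]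
    have h1 : Real.exp (δ * m * Real.log m) ≤ ∏ l, t l := by
      rw [← Real.le_log_iff_exp_le (Finset.prod_pos fun l _ => ht0 l),
        Real.log_prod fun l _ => (ht0 l).ne']
      have h2 : ∀ l, Real.log (t l) = -((K + 2) * Real.log m) - Real.log |lam l| := fun l => by
        simp only [ht, hs]
        rw [Real.log_div hs0.ne' (hl0 l).ne', Real.log_inv, Real.log_pow]
        push_cast
        ring
      simp only [h2, Finset.sum_sub_distrib, Finset.sum_const, Finset.card_univ, Fintype.card_fin,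
        nsmul_eq_mul]
      linarith
    refine h1.trans ?_
    push_cast
    refine Finset.prod_le_prod (fun l _ => (ht0 l).le) fun l _ => ?_
    rw [Finset.card_range]
    push_cast
    exact (Nat.lt_floor_add_one _).le
  · set v := iv (sm a) (sv x) - iv (sm a) (sv x') with hv
    have hvi : ∀ i, |v i| ≤ 2 * m := fun i => by
      have h1 := hx x hxS i
      have h2 := hx x' hxS' i
      have h3 := abs_sub (iv (sm a) (sv x) i) (iv (sm a) (sv x') i)
      rw [hv, Pi.sub_apply]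
      linarith
    have hw : (sm a).map (Int.cast : ℤ → ℝ) *ᵥ v = fun i => (sv x i : ℝ) - sv x' i := by
      rw [hv, mulVec_sub, rab_iv hd, rab_iv hd]
      rfl
    have hvv : ∑ i, v i ^ 2 ≤ m * (2 * m) ^ 2 := by
      refine (Finset.sum_le_card_nsmul _ _ ((2 * (m : ℝ)) ^ 2) fun i _ => ?_).trans (by simp)
      rw [← sq_abs]
      exact pow_le_pow_left₀ (abs_nonneg _) (hvi i) 2
    have hterm : ∀ l, (∑ i, Φ i l * ((sv x i : ℝ) - sv x' i)) ^ 2 ≤ s ^ 2 * (m * (2 * m) ^ 2) := by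
      intro l
      have e1 : ∑ i, Φ i l * ((sv x i : ℝ) - sv x' i) =
          t l * (u l ⬝ᵥ (sm a).map (Int.cast : ℤ → ℝ) *ᵥ v) := by
        rw [hw, dotProduct, Finset.mul_sum]
        refine Finset.sum_congr rfl fun i _ => ?_
        simp only [hΦ, of_apply]
        ring
      rw [e1, dotProduct_mulVec, ← mulVec_transpose, rab_sm_symm, hev, smul_dotProduct, smul_eq_mul,
        ← mul_assoc, mul_pow]
      have e2 : (t l * lam l) ^ 2 = s ^ 2 := by
        rw [← htl l, mul_pow, mul_pow, sq_abs]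
      rw [e2]
      refine mul_le_mul_of_nonneg_left ?_ (sq_nonneg _)
      have h1 := Finset.sum_mul_sq_le_sq_mul_sq Finset.univ (u l) v
      have h2 : ∑ i, u l i ^ 2 = 1 := by
        have := hu l l
        rw [if_pos rfl] at this
        rw [← this]
        exact Finset.sum_congr rfl fun i _ => sq _
      rw [h2, one_mul] at h1
      exact h1.trans hvv
    refine (Finset.sum_le_card_nsmul _ _ _ fun l _ => hterm l).trans ?_
    rw [Finset.card_univ, Fintype.card_fin, nsmul_eq_mul]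
    have h1 : s * m ^ 2 ≤ 1 := by
      rw [hs, inv_mul_le_iff₀ (by positivity), mul_one]
      exact pow_le_pow_right₀ (by linarith) (by omega)
    have h2 : (s * m ^ 2) ^ 2 ≤ 1 := pow_le_one₀ (by positivity) h1
    have h3 : (r : ℝ) * (s ^ 2 * (m * (2 * m) ^ 2)) ≤ m * (s ^ 2 * (m * (2 * m) ^ 2)) :=
      mul_le_mul_of_nonneg_right hr' (by positivity)
    have h4 : (m : ℝ) * (s ^ 2 * (m * (2 * m) ^ 2)) = 4 * (s * m ^ 2) ^ 2 := by ring
    linarith
  · obtain ⟨k, -, rfl⟩ := Finset.mem_image.1 hh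
    exact ⟨0, by simp [hf]⟩
  · obtain ⟨k, hk, rfl⟩ := Finset.mem_image.1 hh
    simp only [hf]
    rw [abs_of_nonneg (div_nonneg (Nat.cast_nonneg _) (ht0 l).le), div_le_one (ht0 l)]
    exact hBt k hk l
  · obtain ⟨k, hk, rfl⟩ := Finset.mem_image.1 hh
    refine ⟨0, fun i => ?_⟩
    rw [hpt, Pi.zero_apply, Int.cast_zero, sub_zero]
    refine (rab_img hu hev (s := s) (fun l => (k l : ℝ)) (fun l => ?_) i).trans ?_
    · rw [abs_of_nonneg (Nat.cast_nonneg _), ← htl l]
      exact mul_le_mul_of_nonneg_right (hBt k hk l) (hl0 l).le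
    · rw [hs, ← div_eq_mul_inv, div_le_iff₀ (by positivity), pow_add, ← mul_assoc,
        inv_mul_cancel₀ (by positivity), one_mul]
      nlinarith
  · obtain ⟨c, hc, rfl⟩ := Finset.mem_image.1 hh
    obtain ⟨c', hc', rfl⟩ := Finset.mem_image.1 hh'
    by_contra hcon
    push Not at hcon
    have h0 := rab_sep hm hd hrm hu hev (K := K) (fun l => (c l : ℤ) - c' l) (fun l => ?_) hk1 hk z
      (fun i => ?_)
    · refine hne (congrArg f (funext fun l => ?_))
      have h1 : (c l : ℤ) - c' l = 0 := congrFun h0 l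
      omega
    · rw [← hs, ← htl l]
      refine mul_le_mul_of_nonneg_right ?_ (hl0 l).le
      have h1 := hBt c hc l
      have h2 := hBt c' hc' l
      have h3 : (0 : ℝ) ≤ c l := Nat.cast_nonneg _
      have h4 : (0 : ℝ) ≤ c' l := Nat.cast_nonneg _
      push_cast
      rw [abs_le]
      constructor <;> linarith
    · have h1 := hcon i
      rw [hpt, hpt] at h1
      have e : (∑ l, (((c l : ℤ) - c' l : ℤ) : ℝ) • u l) i =
          (∑ l, (c l : ℝ) • u l) i - (∑ l, (c' l : ℝ) • u l) i := by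
        simp only [Finset.sum_apply, Pi.smul_apply, smul_eq_mul, ← Finset.sum_sub_distrib]
        refine Finset.sum_congr rfl fun l _ => ?_
        push_cast
        ring
      rw [e]
      exact h1

end Crest.Agent.R152.RD
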