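import Crest.Agent.R152.RBulk
import Crest.Agent.R152.RArchAuxB

/-!
# RED: `N2` from the master theorem

`small_frame`: spectral theorem (`IsHermitian.eigenvectorBasis`/`eigenvectorUnitary`,
`det_eq_prod_eigenvalues`); `tr WW η A = ∑ η/(λ i² + η)`, so `I = {i | λ i² ≤ η}` has at most
`2 tr WW` elements; enumerate `I` by `Fin r`; `∏_{i ∉ I} |λ i| ≥ η^((m-r)/2)`.
`badM_of_frame`: `s = m^(-K-2)`, `Φ = (u l · s/|λ l|)`, `H` = pairs `(0, c)`, `c l = k l |λ l|/s`,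
`k l ∈ ℤ`, `|k l| ≤ s/|λ l|`; `card H = ∏ (2⌊s/|λ l|⌋+1) ≥ ∏ s/|λ l|`; `Φ c = ∑ k l u l`,
`|A Φ c|₂ ≤ s √r`; `u l · x = λ l (u l · iv A x)` gives `|Φᵀ(x-x')|² ≤ r (s 2 m √m)² ≤ m`.
Separation: if `2k (y-y') = z + e`, `|e| < 1/(4m)`, then the integer vector `A z` has entries
`≤ 4 m^K s √m + 1/4 < 1`, so `z = 0`; but `|y - y'|₂ ≥ 1` gives a coordinate `≥ 1/√m`.
`n2_of_mts`: `MTS` with `ε, 1/50`; `δ₃ = min (δ'/2) (1/(100 (K+2)))` (so `r ≤ 2 δ₃ m ≤ m/10`), `bulk`.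
-/

set_option autoImplicit false
set_option linter.unusedSectionVars false

open Matrix Filter Crest.FinProb

noncomputable section

namespace Crest.Agent.R152.RD

theorem rcs_spec {m : ℕ} {A : Matrix (Fin m) (Fin m) ℝ} (hA : A.IsSymm) :
    ∃ (U : Matrix (Fin m) (Fin m) ℝ) (d : Fin m → ℝ), Uᵀ * U = 1 ∧ U * Uᵀ = 1 ∧
      A = U * diagonal d * Uᵀ := by
  have hH : A.IsHermitian := by
    rw [Matrix.IsHermitian, Matrix.conjTranspose_eq_transpose_of_trivial]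
    exact hA
  refine ⟨(hH.eigenvectorUnitary : Matrix (Fin m) (Fin m) ℝ), hH.eigenvalues, ?_, ?_, ?_⟩
  · have := hH.eigenvectorUnitary.2.1
    rwa [Matrix.star_eq_conjTranspose, Matrix.conjTranspose_eq_transpose_of_trivial] at this
  · have := hH.eigenvectorUnitary.2.2
    rwa [Matrix.star_eq_conjTranspose, Matrix.conjTranspose_eq_transpose_of_trivial] at this
  · have := hH.spectral_theorem
    rw [Unitary.conjStarAlgAut_apply, Matrix.star_eq_conjTranspose,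
      Matrix.conjTranspose_eq_transpose_of_trivial] at this
    exact this

theorem rcs_trace {m : ℕ} {U : Matrix (Fin m) (Fin m) ℝ} {d : Fin m → ℝ} (h1 : Uᵀ * U = 1)
    (h2 : U * Uᵀ = 1) {η : ℝ} (hη : 0 < η) :
    (WW η (U * diagonal d * Uᵀ)).trace = ∑ i, η / (d i ^ 2 + η) := by
  have hmul : ∀ f g : Fin m → ℝ, U * diagonal f * Uᵀ * (U * diagonal g * Uᵀ) =
      U * diagonal (fun i => f i * g i) * Uᵀ := by
    intro f g
    rw [← Matrix.diagonal_mul_diagonal]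
    simp only [Matrix.mul_assoc]
    rw [← Matrix.mul_assoc Uᵀ U, h1, Matrix.one_mul]
  have hsum : U * diagonal d * Uᵀ * (U * diagonal d * Uᵀ) + η • (1 : Matrix (Fin m) (Fin m) ℝ) =
      U * diagonal (fun i => d i ^ 2 + η) * Uᵀ := by
    have e : diagonal (fun i => d i ^ 2 + η) =
        diagonal (fun i => d i * d i) + η • (1 : Matrix (Fin m) (Fin m) ℝ) := by
      ext i j
      by_cases h : i = j
      · subst h; simp [sq]
      · simp [h]
    rw [hmul, e, Matrix.mul_add, Matrix.add_mul, Matrix.mul_smul, Matrix.mul_one, Matrix.smul_mul, h2]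
  have hinv : (U * diagonal (fun i => d i ^ 2 + η) * Uᵀ)⁻¹ =
      U * diagonal (fun i => (d i ^ 2 + η)⁻¹) * Uᵀ := by
    refine Matrix.inv_eq_right_inv ?_
    rw [hmul]
    have e : (fun i => (d i ^ 2 + η) * (d i ^ 2 + η)⁻¹) = fun _ => (1 : ℝ) := by
      funext i
      exact mul_inv_cancel₀ (by positivity)
    rw [e, Matrix.diagonal_one, Matrix.mul_one, h2]
  rw [WW, hsum, hinv, Matrix.trace_smul, Matrix.trace_mul_cycle, h1, Matrix.one_mul,
    Matrix.trace_diagonal, smul_eq_mul, Finset.mul_sum]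
  rfl

theorem small_frame {m : ℕ} {A : Matrix (Fin m) (Fin m) ℝ} (hA : A.IsSymm) (hd : A.det ≠ 0) {η : ℝ}
    (hη : 0 < η) : ∃ (r : ℕ) (u : Fin r → Fin m → ℝ) (lam : Fin r → ℝ), r ≤ m ∧
      (r : ℝ) ≤ 2 * (WW η A).trace ∧ (∀ l l', u l ⬝ᵥ u l' = if l = l' then 1 else 0) ∧
      (∀ l, A *ᵥ u l = lam l • u l) ∧ (∀ l, lam l ≠ 0) ∧
      ∑ l, Real.log |lam l| + ((m : ℝ) - r) / 2 * Real.log η ≤ Real.log |A.det| := by
  obtain ⟨U, d, h1, h2, rfl⟩ := rcs_spec hA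
  have hdet : (U * diagonal d * Uᵀ).det = ∏ i, d i := by
    have := congrArg Matrix.det h2
    rw [Matrix.det_mul, Matrix.det_one] at this
    rw [Matrix.det_mul, Matrix.det_mul, Matrix.det_diagonal, mul_right_comm, this, one_mul]
  rw [hdet] at hd ⊢
  have hd0 : ∀ i, d i ≠ 0 := fun i => Finset.prod_ne_zero_iff.1 hd i (Finset.mem_univ i)
  let I : Finset (Fin m) := Finset.univ.filter fun i => d i ^ 2 ≤ η
  let e : Fin I.card → Fin m := fun l => (I.equivFin.symm l : Fin m)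
  have he : Function.Injective e := Subtype.val_injective.comp I.equivFin.symm.injective
  have hcard : I.card ≤ m := by simpa using Finset.card_le_univ I
  refine ⟨I.card, fun l i => U i (e l), fun l => d (e l), hcard, ?_, fun l l' => ?_, fun l => ?_,
    fun l => hd0 _, ?_⟩
  · rw [rcs_trace h1 h2 hη]
    have a1 : ∑ _i ∈ I, (1 / 2 : ℝ) ≤ ∑ i ∈ I, η / (d i ^ 2 + η) := by
      refine Finset.sum_le_sum fun i hi => ?_
      have := (Finset.mem_filter.1 hi).2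
      rw [le_div_iff₀ (by positivity)]
      linarith
    have a2 : ∑ i ∈ I, η / (d i ^ 2 + η) ≤ ∑ i, η / (d i ^ 2 + η) :=
      Finset.sum_le_sum_of_subset_of_nonneg (Finset.subset_univ _) fun i _ _ => by positivity
    rw [Finset.sum_const, nsmul_eq_mul] at a1
    linarith
  · have := congrFun (congrFun h1 (e l)) (e l')
    rw [Matrix.one_apply] at this
    simp only [he.eq_iff] at this
    exact this
  · have hAU : U * diagonal d * Uᵀ * U = U * diagonal d := by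
      rw [Matrix.mul_assoc, h1, Matrix.mul_one]
    funext i
    have := congrFun (congrFun hAU i) (e l)
    rw [Matrix.mul_diagonal] at this
    rw [Pi.smul_apply, smul_eq_mul, mul_comm, ← this]
    rfl
  · have b1 : ∑ l, Real.log |d (e l)| = ∑ i ∈ I, Real.log |d i| := by
      rw [← Finset.sum_coe_sort I]
      exact I.equivFin.symm.sum_comp fun i : I => Real.log |d i|
    have b2 : Real.log |∏ i, d i| = ∑ i, Real.log |d i| := by
      rw [Finset.abs_prod, Real.log_prod fun i _ => abs_ne_zero.2 (hd0 i)]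
    have b3 : ∑ _i ∈ Iᶜ, Real.log η / 2 ≤ ∑ i ∈ Iᶜ, Real.log |d i| := by
      refine Finset.sum_le_sum fun i hi => ?_
      have h3 : η < d i ^ 2 := by simpa [I] using hi
      have h4 := Real.log_le_log hη h3.le
      rw [← sq_abs, Real.log_pow] at h4
      push_cast at h4
      linarith
    rw [Finset.sum_const, nsmul_eq_mul, Finset.card_compl, Fintype.card_fin, Nat.cast_sub hcard] at b3
    rw [b1, b2, ← Finset.sum_add_sum_compl I]
    linarith

theorem badM_of_frame {ε δ δ' : ℝ} {K m r : ℕ} (hm : 4 ≤ m) {a : Sym2 (Fin m) → Bool}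
    (hd : (sm a).det ≠ 0) {S : Finset (Fin m → Bool)} (hS : Real.exp (ε * m) ≤ S.card)
    (hx : ∀ x ∈ S, ∀ i, |iv (sm a) (sv x) i| ≤ m) {u : Fin r → Fin m → ℝ} {lam : Fin r → ℝ}
    (hrm : r ≤ m) (hr : (r : ℝ) ≤ δ' * m) (hu : ∀ l l', u l ⬝ᵥ u l' = if l = l' then 1 else 0)
    (hev : ∀ l, (sm a).map (Int.cast : ℤ → ℝ) *ᵥ u l = lam l • u l) (hl : ∀ l, lam l ≠ 0)
    (hvol : δ * m * Real.log m + (K + 2) * r * Real.log m + ∑ l, Real.log |lam l| ≤ 0) :
    BadM ε δ δ' K a :=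
  rab_main hm hd hS hx hrm hr hu hev hl hvol

theorem n2_of_mts {p : ℝ} (h0 : 0 < p) (h1 : p < 1) (h : MTS p) : N2 p := by
  intro ε θ hε hθ
  obtain ⟨δ', K, c, hδ', hc, hM⟩ := h ε (1 / 50) hε (by norm_num)
  have hK : (0 : ℝ) < (K : ℝ) + 2 := by positivity
  obtain ⟨δ₃, hδ₃, ha, hb⟩ : ∃ δ₃ : ℝ, 0 < δ₃ ∧ 2 * δ₃ ≤ δ' ∧ 100 * ((K : ℝ) + 2) * δ₃ ≤ 1 := by
    refine ⟨min (δ' / 2) (1 / (100 * ((K : ℝ) + 2))), by positivity, ?_, ?_⟩
    · linarith [min_le_left (δ' / 2) (1 / (100 * ((K : ℝ) + 2)))]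
    · have := min_le_right (δ' / 2) (1 / (100 * ((K : ℝ) + 2)))
      rw [le_div_iff₀ (by positivity)] at this
      linarith
  have hexp : ∀ᶠ m : ℕ in atTop, Real.exp (-(c * (m : ℝ) ^ 2)) ≤ (θ / 2) ^ m := by
    filter_upwards [tendsto_natCast_atTop_atTop.eventually_ge_atTop (-Real.log (θ / 2) / c)]
      with m hm
    rw [div_le_iff₀ hc] at hm
    rw [← Real.exp_log (half_pos hθ), ← Real.exp_nat_mul]
    refine Real.exp_le_exp.2 ?_
    have : (0 : ℝ) ≤ m := Nat.cast_nonneg m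
    nlinarith
  filter_upwards [hM, bulk h0 h1 hδ₃ (half_pos hθ), hexp, eventually_ge_atTop 4] with m m1 m2 m3 m4
  have hm0 : (0 : ℝ) < m := by exact_mod_cast (by omega : 0 < m)
  have hfin : (θ / 2) ^ m + (θ / 2) ^ m ≤ θ ^ m := by
    have h2 : (2 : ℝ) ≤ 2 ^ m := le_self_pow₀ (by norm_num) (by omega)
    have h3 : θ ^ m = (θ / 2) ^ m * 2 ^ m := by rw [← mul_pow]; congr 1; ring
    have h4 : 0 < (θ / 2) ^ m := by positivity
    nlinarith
  refine le_trans (prob_mono h0.le h1.le (E' := {a | BadM ε (1 / 50) δ' K a} ∪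
    BE ((m : ℝ) ^ (1 / 5 : ℝ)) (δ₃ * m) m) ?_) ((prob_union h0.le h1.le _ _).trans (by linarith))
  rintro a ⟨hd, S, hS, hx⟩
  by_cases hB : a ∈ BE ((m : ℝ) ^ (1 / 5 : ℝ)) (δ₃ * m) m
  · exact Or.inr hB
  left
  have hB' : (WW ((m : ℝ) ^ (1 / 5 : ℝ)) ((sm a).map (Int.cast : ℤ → ℝ))).trace < δ₃ * m :=
    not_le.1 hB
  have hdet : ((sm a).map (Int.cast : ℤ → ℝ)).det = ((sm a).det : ℝ) := (Int.cast_det _).symm
  obtain ⟨r, u, lam, hrm, hr, hu, hev, hl, hv⟩ := small_frame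
    (A := (sm a).map (Int.cast : ℤ → ℝ)) ((sm_isSymm a).map _)
    (by rw [hdet]; exact_mod_cast hd) (Real.rpow_pos_of_pos hm0 (1 / 5))
  have hSne : S.Nonempty := by
    rw [← Finset.card_pos]
    exact_mod_cast (Real.exp_pos _).trans_le hS
  obtain ⟨x₀, hx₀⟩ := hSne
  have hlog := (hx x₀ hx₀).1
  rw [hdet, Real.log_rpow hm0] at hv
  have hL : 0 ≤ Real.log m := Real.log_nonneg (by exact_mod_cast (by omega : 1 ≤ m))
  have hr1 : (r : ℝ) ≤ 2 * δ₃ * m := by linarith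
  have hr2 : ((K : ℝ) + 2) * r ≤ m / 50 := by
    have := mul_le_mul_of_nonneg_left hr1 hK.le
    nlinarith
  have hr3 : (r : ℝ) ≤ m / 100 := by
    have : (0 : ℝ) ≤ (K : ℝ) * r := by positivity
    nlinarith
  refine badM_of_frame m4 hd hS (fun x hx' => (hx x hx').2) hrm (by nlinarith) hu hev hl ?_
  have c1 := mul_le_mul_of_nonneg_right hr2 hL
  have c2 := mul_le_mul_of_nonneg_right hr3 hL
  have c3 := mul_nonneg hm0.le hL
  nlinarith

end Crest.Agent.R152.RD
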