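import Crest.Agent.R152.RProb

/-!
# RED: arithmetic of the discriminant group and of corank one matrices

`card_Gr`: `Submodule.natAbs_det_equiv` / `AddSubgroup.index_eq_natAbs_det`.
`cl_eq_zero_iff`: `z = A y` with `y` integral iff `A⁻¹ z` is integral.
`triple`: `det (fromBlocks A X Xᵀ 0) = det A * det (-(Xᵀ A⁻¹ X))` over `ℚ`
(`Matrix.det_fromBlocks₁₁`) is an integer, for `X` with two columns (`D (g₁₁ g₂₂ - t²) ∈ ℤ`, so
`D t² ∈ ℤ`) and three columns (`det_fin_three`).
`cor1_structure`: `M adj = 0`; the rational kernel is a line (a nonzero `(n-1)`-minor), spanned by a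
primitive integer vector `v`; the columns of the symmetric matrix `adj` are multiples of `v`, so
`adj = c v vᵀ` with `c` rational, and `c` is an integer by Bezout (`∑ s i v i = 1`);
`adjugate_apply`/`Matrix.adjugate_fin_succ_eq_det_submatrix` for the diagonal entries.
`border`: with `v' = v ∘ succAbove j`: `A v' + v j • x = 0`, `x·v' + M j j * v j = 0`.
-/

set_option autoImplicit false
set_option linter.unusedSectionVars false

open Matrix Filter Crest.FinProb

noncomputable section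

namespace Crest.Agent.R152.RD

variable {ι : Type} [Fintype ι] [DecidableEq ι] {A : Matrix ι ι ℤ}

theorem card_Gr (hA : A.det ≠ 0) : Nat.card (Gr A) = A.det.natAbs := by
  have hinj : Function.Injective A.mulVecLin := Matrix.mulVec_injective_of_det_ne_zero hA
  have h := Submodule.natAbs_det_equiv (LinearMap.range A.mulVecLin)
    (LinearEquiv.ofInjective A.mulVecLin hinj)
  rw [← h, ← LinearMap.det_toLin' A]
  congr 2

theorem finite_Gr (hA : A.det ≠ 0) : Finite (Gr A) := by
  refine Nat.finite_of_card_ne_zero ?_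
  rw [card_Gr hA]
  exact Int.natAbs_ne_zero.2 hA

theorem cl_add (A : Matrix ι ι ℤ) (x y : ι → ℤ) : cl A (x + y) = cl A x + cl A y := by
  rfl

theorem cl_zsmul (A : Matrix ι ι ℤ) (k : ℤ) (x : ι → ℤ) : cl A (k • x) = k • cl A x := by
  rfl

theorem cl_surjective (A : Matrix ι ι ℤ) : Function.Surjective (cl A) := by
  exact Submodule.Quotient.mk_surjective _

theorem raa_map_mulVec (F : Type) [Field F] (A : Matrix ι ι ℤ) (y : ι → ℤ) :
    (A.map (Int.cast : ℤ → F) *ᵥ fun i => (y i : F)) = fun i => ((A *ᵥ y) i : F) := by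
  funext i
  simp [Matrix.mulVec, dotProduct]

theorem raa_cl_eq_zero_iff (F : Type) [Field F] [CharZero F] (hA : A.det ≠ 0) (z : ι → ℤ) :
    cl A z = 0 ↔
      ∀ i, ∃ k : ℤ, ((A.map (Int.cast : ℤ → F))⁻¹ *ᵥ fun i => (z i : F)) i = k := by
  have hu : IsUnit (A.map (Int.cast : ℤ → F)).det := by
    rw [← Int.cast_det]
    exact (Int.cast_ne_zero.2 hA).isUnit
  rw [cl, Submodule.Quotient.mk_eq_zero, LinearMap.mem_range]
  constructor
  · rintro ⟨y, rfl⟩ i
    refine ⟨y i, ?_⟩
    rw [Matrix.mulVecLin_apply, ← raa_map_mulVec, Matrix.mulVec_mulVec, Matrix.nonsing_inv_mul _ hu,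
      Matrix.one_mulVec]
  · intro h
    choose y hy using h
    refine ⟨y, ?_⟩
    have e : ((A.map (Int.cast : ℤ → F))⁻¹ *ᵥ fun i => (z i : F)) = fun i => (y i : F) := funext hy
    have h2 := raa_map_mulVec F A y
    rw [← e, Matrix.mulVec_mulVec, Matrix.mul_nonsing_inv _ hu, Matrix.one_mulVec] at h2
    funext i
    exact Int.cast_injective (α := F) (congrFun h2 i).symm

theorem raa_inv (F : Type) [Field F] (A : Matrix ι ι ℤ) (i j : ι) :
    (A.map (Int.cast : ℤ → F))⁻¹ i j = ((A.det : ℤ) : F)⁻¹ * ((A.adjugate i j : ℤ) : F) := by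
  have h := RingHom.map_adjugate (Int.castRingHom F) A
  have h2 : (A.map (Int.cast : ℤ → F)).adjugate = A.adjugate.map (Int.cast : ℤ → F) := h.symm
  rw [Matrix.inv_def, h2, ← Int.cast_det, Ring.inverse_eq_inv']
  rfl

theorem cl_eq_zero_iff (hA : A.det ≠ 0) (z : ι → ℤ) :
    cl A z = 0 ↔ ∀ i, IsInt (((A.map (Int.cast : ℤ → ℚ))⁻¹ *ᵥ fun i => (z i : ℚ)) i) := by
  exact raa_cl_eq_zero_iff ℚ hA z

theorem cl_eq_zero_iff_real (hA : A.det ≠ 0) (z : ι → ℤ) :
    cl A z = 0 ↔ ∀ i, ∃ k : ℤ, iv A z i = k := by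
  exact raa_cl_eq_zero_iff ℝ hA z

theorem pr_comm (hs : A.IsSymm) (x z : ι → ℤ) : pr A x z = pr A z x := by
  have h : ((A.map (Int.cast : ℤ → ℚ))⁻¹)ᵀ = (A.map (Int.cast : ℤ → ℚ))⁻¹ := by
    rw [Matrix.transpose_nonsing_inv, ← Matrix.transpose_map, hs.eq]
  rw [pr, pr, Matrix.dotProduct_mulVec, ← Matrix.mulVec_transpose, h, dotProduct_comm]

theorem pr_add (A : Matrix ι ι ℤ) (x y z : ι → ℤ) : pr A x (y + z) = pr A x y + pr A x z := by
  have e : (fun i => ((y + z) i : ℚ)) = (fun i => (y i : ℚ)) + fun i => (z i : ℚ) := by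
    funext i; simp
  rw [pr, pr, pr, e, Matrix.mulVec_add, dotProduct_add]

theorem pr_zsmul (A : Matrix ι ι ℤ) (x z : ι → ℤ) (k : ℤ) : pr A x (k • z) = k * pr A x z := by
  have e : (fun i => ((k • z) i : ℚ)) = (k : ℚ) • fun i => (z i : ℚ) := by
    funext i; simp
  rw [pr, pr, e, Matrix.mulVec_smul, dotProduct_smul, smul_eq_mul]

theorem pr_cast (A : Matrix ι ι ℤ) (x z : ι → ℤ) :
    ((pr A x z : ℚ) : ℝ) = ∑ i, (x i : ℝ) * iv A z i := by
  simp only [pr, iv, dotProduct, Matrix.mulVec, raa_inv]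
  push_cast
  rfl

theorem isInt_pr_of_cl (hA : A.det ≠ 0) (x : ι → ℤ) {z : ι → ℤ} (hz : cl A z = 0) :
    IsInt (pr A x z) := by
  choose y hy using (cl_eq_zero_iff hA z).1 hz
  refine ⟨∑ i, x i * y i, ?_⟩
  rw [pr, dotProduct]
  push_cast
  exact Finset.sum_congr rfl fun i _ => by rw [hy i]

/-- it suffices to test one representative of a generator -/
theorem ann_zmultiples (hA : A.det ≠ 0) {x z : ι → ℤ} (h : IsInt (pr A x z)) :
    Ann A x (AddSubgroup.zmultiples (cl A z)) := by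
  intro w hw
  obtain ⟨k, hk⟩ := AddSubgroup.mem_zmultiples_iff.1 hw
  have h0 : cl A (w + (-k) • z) = 0 := by
    rw [cl_add, cl_zsmul, ← hk, neg_smul, add_neg_cancel]
  obtain ⟨a, ha⟩ := isInt_pr_of_cl hA x h0
  obtain ⟨b, hb⟩ := h
  rw [pr_add, pr_zsmul, hb] at ha
  refine ⟨a + k * b, ?_⟩
  push_cast at ha ⊢
  linarith

theorem ann_iSup (hA : A.det ≠ 0) {τ : Type} {x : ι → ℤ} (s : Finset τ)
    (H : τ → AddSubgroup (Gr A)) (h : ∀ t ∈ s, Ann A x (H t)) : Ann A x (s.sup H) := by
  classical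
  induction s using Finset.induction_on with
  | empty =>
    intro z hz
    exact isInt_pr_of_cl hA x (by simpa using hz)
  | insert t s ht ih =>
    intro z hz
    rw [Finset.sup_insert, AddSubgroup.mem_sup] at hz
    obtain ⟨u, hu, v, hv, huv⟩ := hz
    obtain ⟨y, rfl⟩ := cl_surjective A u
    have hv' : cl A (z + (-1 : ℤ) • y) = v := by
      rw [cl_add, cl_zsmul, ← huv, neg_smul, one_smul, add_neg_cancel_comm]
    obtain ⟨a, ha⟩ := h t (Finset.mem_insert_self _ _) y hu
    obtain ⟨b, hb⟩ := ih (fun t' ht' => h t' (Finset.mem_insert_of_mem ht')) _ (hv' ▸ hv)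
    rw [pr_add, pr_zsmul, ha] at hb
    refine ⟨a + b, ?_⟩
    push_cast at hb ⊢
    linarith

/-- `det A * det (Xᵀ A⁻¹ X)` is an integer -/
theorem rab_gram (hA : A.det ≠ 0) {κ : Type} [Fintype κ] [DecidableEq κ] (X : κ → ι → ℤ) :
    IsInt (A.det * (Matrix.of fun k l => pr A (X k) (X l)).det) := by
  have hA' : (A.map (Int.cast : ℤ → ℚ)).det = (A.det : ℚ) := (Int.cast_det A).symm
  have hu : IsUnit (A.map (Int.cast : ℤ → ℚ)).det := by
    rw [hA']; exact IsUnit.mk0 _ (by exact_mod_cast hA)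
  let _ := Matrix.invertibleOfIsUnitDet _ hu
  refine ⟨(Matrix.fromBlocks A (Matrix.of X)ᵀ (-Matrix.of X) 0).det, ?_⟩
  rw [Int.cast_det (Matrix.fromBlocks _ _ _ _), Matrix.fromBlocks_map, Matrix.det_fromBlocks₁₁, hA', Matrix.invOf_eq_nonsing_inv]
  congr 2
  ext k l
  simp [pr, Matrix.mul_apply, dotProduct, Matrix.mulVec, Finset.mul_sum, Finset.sum_mul, mul_assoc]
  rw [Finset.sum_comm]

theorem rab_sq (hA : A.det ≠ 0) (hs : A.IsSymm) {x y : ι → ℤ} (hx : IsInt (pr A x x))
    (hy : IsInt (pr A y y)) : IsInt (A.det * pr A x y ^ 2) := by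
  obtain ⟨k, hk⟩ := rab_gram hA ![x, y]
  obtain ⟨a, ha⟩ := hx
  obtain ⟨b, hb⟩ := hy
  rw [Matrix.det_fin_two] at hk
  simp only [Matrix.of_apply, Matrix.cons_val_zero, Matrix.cons_val_one] at hk
  rw [pr_comm hs y x, ha, hb] at hk
  refine ⟨A.det * a * b - k, ?_⟩
  generalize A.det = D at hk ⊢
  push_cast
  linear_combination -hk

theorem triple (hA : A.det ≠ 0) (hs : A.IsSymm) {x y z : ι → ℤ} (hx : IsInt (pr A x x))
    (hy : IsInt (pr A y y)) (hz : IsInt (pr A z z)) :
    IsInt (2 * A.det * pr A x y * pr A x z * pr A y z) := by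
  obtain ⟨k, hk⟩ := rab_gram hA ![x, y, z]
  obtain ⟨k1, h1⟩ := rab_sq hA hs hx hy
  obtain ⟨k2, h2⟩ := rab_sq hA hs hx hz
  obtain ⟨k3, h3⟩ := rab_sq hA hs hy hz
  obtain ⟨a, ha⟩ := hx
  obtain ⟨b, hb⟩ := hy
  obtain ⟨c, hc⟩ := hz
  rw [Matrix.det_fin_three] at hk
  simp only [Matrix.of_apply, Matrix.cons_val_zero, Matrix.cons_val_one, Matrix.cons_val] at hk
  rw [pr_comm hs y x, pr_comm hs z x, pr_comm hs z y, ha, hb, hc] at hk
  refine ⟨k - A.det * a * b * c + c * k1 + b * k2 + a * k3, ?_⟩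
  generalize A.det = D at hk h1 h2 h3 ⊢
  push_cast
  linear_combination hk + c * h1 + b * h2 + a * h3

/-- a kernel vector vanishing at `a` vanishes when the cofactor `adj M a b` does not -/
theorem rac_ker {M : Matrix ι ι ℤ} {a b : ι} (hab : M.adjugate a b ≠ 0) {w : ι → ℤ}
    (hw : M *ᵥ w = 0) (ha : w a = 0) : w = 0 := by
  rw [adjugate_apply] at hab
  refine Matrix.eq_zero_of_mulVec_eq_zero hab (funext fun i => ?_)
  by_cases hi : i = b
  · subst hi
    change (M.updateRow i (Pi.single a 1)) i ⬝ᵥ w = 0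
    rw [updateRow_self, single_dotProduct, ha, mul_zero]
  · change (M.updateRow b (Pi.single a 1)) i ⬝ᵥ w = 0
    rw [updateRow_ne hi]
    exact congrFun hw i

theorem cor1_structure {m : ℕ} {M : Matrix (Fin (m + 1)) (Fin (m + 1)) ℤ} (hs : M.IsSymm)
    (h : Cor1 M) : ∃ (c : ℤ) (v : Fin (m + 1) → ℤ), c ≠ 0 ∧ (∃ s : Fin (m + 1) → ℤ, s ⬝ᵥ v = 1) ∧
      M *ᵥ v = 0 ∧ ∀ j, (M.submatrix j.succAbove j.succAbove).det = c * v j ^ 2 := by
  obtain ⟨hdet, hadj⟩ := h
  obtain ⟨a, b, hab⟩ : ∃ a b, M.adjugate a b ≠ 0 := by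
    by_contra hcon
    push Not at hcon
    exact hadj (Matrix.ext hcon)
  have hcol : ∀ j, M *ᵥ (fun i => M.adjugate i j) = 0 := fun j => funext fun i => by
    have h1 := congrFun (congrFun (mul_adjugate M) i) j
    rw [hdet, zero_smul] at h1
    exact h1
  have hsym : ∀ i j, M.adjugate i j = M.adjugate j i := fun i j => by
    have h1 := congrFun (congrFun (adjugate_transpose M) j) i
    rw [hs.eq] at h1
    exact h1
  obtain ⟨v, hv, hg⟩ := Finset.extract_gcd (s := Finset.univ) (fun i => M.adjugate i b)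
    ⟨a, Finset.mem_univ a⟩
  obtain ⟨s, hs'⟩ := Finset.gcd_eq_sum_mul Finset.univ v
  generalize Finset.univ.gcd (fun i => M.adjugate i b) = g at hv
  have hsv : s ⬝ᵥ v = 1 := by rw [← hg, hs', dotProduct_comm]; rfl
  have hga : g * v a ≠ 0 := by rw [← hv a (Finset.mem_univ a)]; exact hab
  have hMv : M *ᵥ v = 0 := by
    have h1 := hcol b
    have h2 : (fun i => M.adjugate i b) = g • v := funext fun i => hv i (Finset.mem_univ i)
    rw [h2, mulVec_smul] at h1
    exact (smul_eq_zero.1 h1).resolve_left (left_ne_zero_of_mul hga)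
  have hva : v a ≠ 0 := right_ne_zero_of_mul hga
  have hline : ∀ u : Fin (m + 1) → ℤ, M *ᵥ u = 0 → ∀ i, u i = (s ⬝ᵥ u) * v i := by
    intro u hu i
    have h1 : v a • u - u a • v = 0 := rac_ker hab
      (by rw [mulVec_sub, mulVec_smul, mulVec_smul, hu, hMv, smul_zero, smul_zero, sub_zero])
      (by simp [mul_comm])
    have h2 : v a * (s ⬝ᵥ u) = u a := by
      have := congrArg (fun w => s ⬝ᵥ w) h1
      simp only [dotProduct_sub, dotProduct_smul, hsv, smul_eq_mul, mul_one,
        dotProduct_zero] at this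
      linarith
    have h3 : v a * u i - u a * v i = 0 := congrFun h1 i
    refine mul_left_cancel₀ hva ?_
    linear_combination h3 - v i * h2
  obtain ⟨t, ht⟩ : ∃ t : Fin (m + 1) → ℤ, ∀ i j, M.adjugate i j = t j * v i :=
    ⟨fun j => s ⬝ᵥ fun i => M.adjugate i j, fun i j => hline _ (hcol j) i⟩
  have htv : ∀ j, t j = (s ⬝ᵥ t) * v j := fun j => by
    have h1 : t j • v = v j • t := funext fun i => by
      change t j * v i = v j * t i
      rw [← ht, hsym, ht, mul_comm]
    have h2 := congrArg (fun w => s ⬝ᵥ w) h1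
    simp only [dotProduct_smul, hsv, smul_eq_mul, mul_one] at h2
    rw [h2, mul_comm]
  refine ⟨s ⬝ᵥ t, v, fun h0 => hab ?_, ⟨s, hsv⟩, hMv, fun j => ?_⟩
  · rw [ht, htv, h0, zero_mul, zero_mul]
  · have h1 := adjugate_fin_succ_eq_det_submatrix M j j
    rw [← two_mul, pow_mul, neg_one_sq, one_pow, one_mul] at h1
    rw [← h1, ht]
    conv_lhs => rw [htv]
    ring

theorem rab_inv (K : Type) [Field K] [CharZero K] (hA : A.det ≠ 0) {x w : ι → ℤ} {d : ℤ}
    (hd : d ≠ 0) (h : A *ᵥ w + d • x = 0) :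
    ((A.map (Int.cast : ℤ → K))⁻¹ *ᵥ fun i => (x i : K)) = fun i => -(w i : K) / d := by
  have hA' : (A.map (Int.cast : ℤ → K)).det = (A.det : K) := (Int.cast_det A).symm
  have hu : IsUnit (A.map (Int.cast : ℤ → K)).det := by
    rw [hA']; exact IsUnit.mk0 _ (by exact_mod_cast hA)
  have hd' : (d : K) ≠ 0 := by exact_mod_cast hd
  have h1 : (fun i => (x i : K)) = A.map (Int.cast : ℤ → K) *ᵥ fun i => -(w i : K) / d := by
    funext i
    have h2 : ((∑ k, A i k * w k + d * x i : ℤ) : K) = 0 := by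
      have := congrFun h i
      simp only [Pi.add_apply, Matrix.mulVec, dotProduct, Pi.smul_apply, smul_eq_mul,
        Pi.zero_apply] at this
      rw [this, Int.cast_zero]
    push_cast at h2
    simp only [Matrix.mulVec, dotProduct, Matrix.map_apply, neg_div, mul_neg, Finset.sum_neg_distrib,
      ← mul_div_assoc, ← Finset.sum_div]
    field_simp
    linear_combination h2
  rw [h1, Matrix.mulVec_mulVec, Matrix.nonsing_inv_mul _ hu, Matrix.one_mulVec]

theorem border {m : ℕ} {M : Matrix (Fin (m + 1)) (Fin (m + 1)) ℤ} (hs : M.IsSymm)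
    {v : Fin (m + 1) → ℤ} (hv : ∃ s : Fin (m + 1) → ℤ, s ⬝ᵥ v = 1) (hM : M *ᵥ v = 0)
    {j : Fin (m + 1)} (hd : (M.submatrix j.succAbove j.succAbove).det ≠ 0) (hj : v j ≠ 0) :
    IsInt (pr (M.submatrix j.succAbove j.succAbove) (fun i => M j (j.succAbove i))
        fun i => M j (j.succAbove i)) ∧
      addOrderOf (cl (M.submatrix j.succAbove j.succAbove) fun i => M j (j.succAbove i)) =
        (v j).natAbs ∧
      ∀ i, iv (M.submatrix j.succAbove j.succAbove) (fun i => M j (j.succAbove i)) i =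
        -(v (j.succAbove i) : ℝ) / v j := by
  have hrow : ∀ i, M i j * v j + ∑ k, M i (j.succAbove k) * v (j.succAbove k) = 0 := by
    intro i
    have := congrFun hM i
    simp only [Matrix.mulVec, dotProduct, Pi.zero_apply] at this
    rwa [Fin.sum_univ_succAbove _ j] at this
  have h0 : M.submatrix j.succAbove j.succAbove *ᵥ (fun i => v (j.succAbove i)) +
      v j • (fun i => M j (j.succAbove i)) = 0 := by
    funext i
    have := hrow (j.succAbove i)
    simp only [Pi.add_apply, Matrix.mulVec, dotProduct, Pi.smul_apply, smul_eq_mul,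
      Pi.zero_apply, Matrix.submatrix_apply]
    rw [hs.apply j (j.succAbove i)] at this
    linear_combination this
  have hq := rab_inv ℚ hd hj h0
  have hj' : (v j : ℚ) ≠ 0 := by exact_mod_cast hj
  refine ⟨⟨M j j, ?_⟩, ?_, fun i => congrFun (rab_inv ℝ hd hj h0) i⟩
  · have h2 : ((M j j * v j + ∑ k, M j (j.succAbove k) * v (j.succAbove k) : ℤ) : ℚ) = 0 := by
      rw [hrow j, Int.cast_zero]
    push_cast at h2
    rw [pr, hq]
    simp only [dotProduct, neg_div, mul_neg, Finset.sum_neg_distrib,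
      ← mul_div_assoc, ← Finset.sum_div]
    field_simp
    linear_combination -h2
  · have key : ∀ k : ℤ, k • cl (M.submatrix j.succAbove j.succAbove)
        (fun i => M j (j.succAbove i)) = 0 ↔ v j ∣ k := by
      intro k
      have h3 : M.submatrix j.succAbove j.succAbove *ᵥ (k • fun i => v (j.succAbove i)) +
          v j • (k • fun i => M j (j.succAbove i)) = 0 := by
        rw [Matrix.mulVec_smul, smul_comm (v j) k, ← smul_add, h0, smul_zero]
      rw [← cl_zsmul, cl_eq_zero_iff hd, rab_inv ℚ hd hj h3]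
      constructor
      · intro h
        obtain ⟨s, hsv⟩ := hv
        have h4 : ∀ i, v j ∣ k * v i := by
          intro i
          rcases Fin.eq_self_or_eq_succAbove j i with rfl | ⟨i, rfl⟩
          · exact Dvd.intro_left _ rfl
          · obtain ⟨t, ht⟩ := h i
            simp only [Pi.smul_apply, smul_eq_mul] at ht
            rw [div_eq_iff hj'] at ht
            have h5 : -(k * v (j.succAbove i)) = t * v j := by exact_mod_cast ht
            exact ⟨-t, by linear_combination -h5⟩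
        have h6 : k = ∑ i, s i * (k * v i) := by
          calc k = k * (s ⬝ᵥ v) := by rw [hsv, mul_one]
            _ = _ := by
              rw [dotProduct, Finset.mul_sum]
              exact Finset.sum_congr rfl fun i _ => by ring
        rw [h6]
        exact Finset.dvd_sum fun i _ => (h4 i).mul_left _
      · rintro ⟨t, rfl⟩ i
        refine ⟨-(t * v (j.succAbove i)), ?_⟩
        simp only [Pi.smul_apply, smul_eq_mul]
        push_cast
        field_simp
    refine Nat.dvd_antisymm ?_ ?_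
    · rw [← Int.natCast_dvd_natCast, Int.dvd_natAbs, addOrderOf_dvd_iff_zsmul_eq_zero, key]
    · rw [← Int.natCast_dvd_natCast, Int.natAbs_dvd, ← key, ← addOrderOf_dvd_iff_zsmul_eq_zero]

end Crest.Agent.R152.RD
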