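import Crest.Agent.R152.RProb

/-! RED: second moments of linear and quadratic forms in independent centred signs. -/

set_option autoImplicit false

open Matrix Filter Crest.FinProb

noncomputable section

namespace Crest.Agent.R152.RD

variable {ι : Type} [Fintype ι] [DecidableEq ι] {p : ℝ}

/-- centred sign -/
def rbqY (p : ℝ) (t : Bool) : ℝ := (if t then 1 else -1) - (2 * p - 1)

theorem rbq_abs (h0 : 0 ≤ p) (h1 : p ≤ 1) (t : Bool) : |rbqY p t| ≤ 2 := by
  cases t <;> simp only [rbqY, abs_le] <;> constructor <;> norm_num <;> linarith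

theorem rbq_zero (p : ℝ) (a : ι) (F : (ι → Bool) → ℝ)
    (hF : ∀ x b, F (Function.update x a b) = F x) : Ex p (fun x => rbqY p (x a) * F x) = 0 := by
  have hf : Function.Injective fun _ : Unit => a := fun _ _ _ => rfl
  rw [Ex_resample p hf, ← Ex_const (ι := ι) p 0]
  congr 1
  funext x
  have e : ∀ η : Unit → Bool, Function.extend (fun _ : Unit => a) η x = Function.update x a (η ()) :=
    fun η => by
      funext i
      by_cases h : i = a
      · rw [h, Function.update_self]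
        exact hf.extend_apply η x ()
      · rw [Function.update_of_ne h, Function.extend_apply' _ _ _ fun ⟨_, h'⟩ => h h'.symm]
  simp only [e, hF, Function.update_self, Ex, bernoulliWeight]
  rw [← (Equiv.funUnique Unit Bool).symm.sum_comp]
  simp [rbqY]
  ring

theorem rbq_sq {T : Type} [Fintype T] [DecidableEq T] (h0 : 0 ≤ p) (h1 : p ≤ 1) (τ : T → T)
    (c : T → ℝ) (φ : T → (ι → Bool) → ℝ) (B : ℝ) (hc : ∀ t, c (τ t) = c t)
    (hb : ∀ t u x, φ t x * φ u x ≤ B) (hB : 0 ≤ B)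
    (ho : ∀ t u, u ≠ t → u ≠ τ t → c t * c u * Ex p (fun x => φ t x * φ u x) = 0) :
    Ex p (fun x => (∑ t, c t * φ t x) ^ 2) ≤ 2 * B * ∑ t, c t ^ 2 := by
  have e : ∀ x, (∑ t, c t * φ t x) ^ 2 = ∑ t, ∑ u, c t * c u * (φ t x * φ u x) := fun x => by
    rw [sq, Finset.sum_mul_sum]
    exact Finset.sum_congr rfl fun t _ => Finset.sum_congr rfl fun u _ => by ring
  simp only [e]
  rw [Ex_sum, Finset.mul_sum]
  refine Finset.sum_le_sum fun t _ => ?_
  rw [Ex_sum]
  have k : ∀ u, c t * c t * Ex p (fun x => φ t x * φ u x) ≤ B * c t ^ 2 := fun u => by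
    have := (Ex_mono h0 h1 (hb t u)).trans_eq (Ex_const p B)
    nlinarith [mul_le_mul_of_nonneg_left this (sq_nonneg (c t))]
  have q : 0 ≤ B * c t ^ 2 := by positivity
  calc ∑ u, Ex p (fun x => c t * c u * (φ t x * φ u x))
      ≤ ∑ u, ((if u = t then B * c t ^ 2 else 0) + if u = τ t then B * c t ^ 2 else 0) := by
        refine Finset.sum_le_sum fun u _ => ?_
        rw [Ex_mul]
        by_cases a : u = t
        · rw [if_pos a, a]
          exact (k t).trans (le_add_of_nonneg_right (by split_ifs <;> positivity))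
        by_cases b : u = τ t
        · rw [if_neg a, if_pos b, zero_add, b, hc]
          exact k _
        · rw [if_neg a, if_neg b, ho t u a b, add_zero]
    _ = _ := by simp [Finset.sum_add_distrib]; ring

theorem rbq_lin (h0 : 0 ≤ p) (h1 : p ≤ 1) (c : ι → ℝ) :
    Ex p (fun x => (∑ i, c i * rbqY p (x i)) ^ 2) ≤ 8 * ∑ i, c i ^ 2 := by
  refine (rbq_sq h0 h1 id c (fun i x => rbqY p (x i)) 4 (fun _ => rfl) (fun t u x => ?_)
    (by norm_num) fun t u h _ => ?_).trans_eq (by norm_num)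
  · nlinarith [abs_le.1 (rbq_abs h0 h1 (x t)), abs_le.1 (rbq_abs h0 h1 (x u))]
  · rw [rbq_zero p t _ fun x b => by rw [Function.update_of_ne h], mul_zero]

theorem rbq_quad (h0 : 0 ≤ p) (h1 : p ≤ 1) (c : ι × ι → ℝ) (hc : ∀ t, c t.swap = c t)
    (hd : ∀ i, c (i, i) = 0) :
    Ex p (fun x => (∑ t, c t * (rbqY p (x t.1) * rbqY p (x t.2))) ^ 2) ≤ 32 * ∑ t, c t ^ 2 := by
  refine (rbq_sq h0 h1 Prod.swap c (fun t x => rbqY p (x t.1) * rbqY p (x t.2)) 16 hc
    (fun t u x => ?_) (by norm_num) ?_).trans_eq (by norm_num)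
  · refine (le_abs_self _).trans ?_
    simp only [abs_mul]
    calc _ ≤ (2 : ℝ) * 2 * (2 * 2) := by gcongr <;> exact rbq_abs h0 h1 _
      _ = 16 := by norm_num
  · rintro ⟨i, j⟩ ⟨k, l⟩ a b
    by_cases hij : i = j
    · rw [hij, hd, zero_mul, zero_mul]
    by_cases hkl : k = l
    · rw [hkl, hd, mul_zero, zero_mul]
    simp only [ne_eq, Prod.mk.injEq, Prod.swap_prod_mk] at a b
    by_cases hi : k ≠ i ∧ l ≠ i
    · have := rbq_zero p i (fun x => rbqY p (x j) * (rbqY p (x k) * rbqY p (x l))) fun x b => by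
        rw [Function.update_of_ne (Ne.symm hij), Function.update_of_ne hi.1,
          Function.update_of_ne hi.2]
      simp only [mul_assoc, this, mul_zero]
    · have hj : k ≠ j ∧ l ≠ j := by grind
      have := rbq_zero p j (fun x => rbqY p (x i) * (rbqY p (x k) * rbqY p (x l))) fun x b => by
        rw [Function.update_of_ne hij, Function.update_of_ne hj.1, Function.update_of_ne hj.2]
      simp only [mul_comm (rbqY p (_ : Bool)) (rbqY p ((_ : ι → Bool) j)), mul_assoc, this, mul_zero]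

theorem rbq_mulVec {W : Matrix ι ι ℝ} (h : W.PosSemidef) (h' : (1 - W).PosSemidef) (v : ι → ℝ) :
    ∑ i, (W *ᵥ v) i ^ 2 ≤ v ⬝ᵥ W *ᵥ v := by
  have a := h.dotProduct_mulVec_nonneg (v - W *ᵥ v)
  have b := h'.dotProduct_mulVec_nonneg (W *ᵥ v)
  have s : Wᵀ = W := h.isHermitian
  have c : v ⬝ᵥ W *ᵥ (W *ᵥ v) = W *ᵥ v ⬝ᵥ W *ᵥ v := by
    rw [dotProduct_mulVec, ← mulVec_transpose, s]
  simp only [star_trivial, mulVec_sub, sub_mulVec, one_mulVec, dotProduct_sub, sub_dotProduct]
    at a b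
  have d : ∑ i, (W *ᵥ v) i ^ 2 = W *ᵥ v ⬝ᵥ W *ᵥ v := by simp only [dotProduct, sq]
  linarith

theorem rbq_split (p : ℝ) {W : Matrix ι ι ℝ} (h : ∀ i j, W j i = W i j) (x : ι → Bool) :
    (fun i => (sv x i : ℝ)) ⬝ᵥ W *ᵥ (fun i => (sv x i : ℝ)) =
      (2 * p - 1) ^ 2 * ((fun _ => 1) ⬝ᵥ W *ᵥ fun _ => 1) + 4 * p * (1 - p) * W.trace +
        (2 * (∑ i, ((2 * p - 1) * (W *ᵥ fun _ => 1) i) * rbqY p (x i)) +
          ∑ i, (-(2 * (2 * p - 1)) * W i i) * rbqY p (x i) +
          ∑ t : ι × ι, (if t.1 = t.2 then 0 else W t.1 t.2) * (rbqY p (x t.1) * rbqY p (x t.2))) := by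
  have e : ∀ i j, (sv x i : ℝ) * (W i j * sv x j) = (2 * p - 1) ^ 2 * W i j +
      (if i = j then 4 * p * (1 - p) * W i i else 0) + ((2 * p - 1) * W i j * rbqY p (x i) +
        (2 * p - 1) * W j i * rbqY p (x j) +
        (if i = j then (-(2 * (2 * p - 1)) * W i i) * rbqY p (x i) else 0) +
        (if i = j then 0 else W i j) * (rbqY p (x i) * rbqY p (x j))) := fun i j => by
    rw [h i j]
    by_cases hij : i = j
    · subst hij
      cases hx : x i <;> simp [sv, rbqY, hx] <;> ring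
    · cases hx : x i <;> cases hy : x j <;> simp [sv, rbqY, hx, hy, hij] <;> ring
  simp only [dotProduct, mulVec, Finset.mul_sum, e, Finset.sum_add_distrib, Finset.sum_ite_eq,
    Finset.mem_univ, if_true, Fintype.sum_prod_type, trace, diag_apply, mul_one, one_mul,
    Finset.sum_mul, two_mul (∑ _, _)]
  rw [Finset.sum_comm (f := fun i j => (2 * p - 1) * W j i * rbqY p (x j))]

end Crest.Agent.R152.RD
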