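import Crest.Agent.R152.RProb

/-! # RED: the matrix `η (M² + η)⁻¹` (auxiliary file) -/

set_option autoImplicit false
set_option linter.unusedSectionVars false

open Matrix Filter Crest.FinProb

noncomputable section

namespace Crest.Agent.R152.RD

variable {ι : Type} [Fintype ι] [DecidableEq ι] {η : ℝ}

theorem rbh_dot_nonneg (x : ι → ℝ) : 0 ≤ x ⬝ᵥ x := Finset.sum_nonneg fun _ _ => mul_self_nonneg _

theorem rbh_symm_dot {M : Matrix ι ι ℝ} (hM : M.IsSymm) (x y : ι → ℝ) :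
    x ⬝ᵥ M *ᵥ y = M *ᵥ x ⬝ᵥ y := by
  rw [Matrix.dotProduct_mulVec, ← Matrix.mulVec_transpose, hM.eq]

theorem rbh_quad {M : Matrix ι ι ℝ} (hM : M.IsSymm) (η : ℝ) (x : ι → ℝ) :
    x ⬝ᵥ (M * M + η • (1 : Matrix ι ι ℝ)) *ᵥ x = M *ᵥ x ⬝ᵥ M *ᵥ x + η * (x ⬝ᵥ x) := by
  rw [Matrix.add_mulVec, dotProduct_add, ← Matrix.mulVec_mulVec, rbh_symm_dot hM,
    Matrix.smul_mulVec, Matrix.one_mulVec, dotProduct_smul, smul_eq_mul]

theorem rbh_posDef (hη : 0 < η) {M : Matrix ι ι ℝ} (hM : M.IsSymm) :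
    (M * M + η • (1 : Matrix ι ι ℝ)).PosDef := by
  have h1 : (M * M).PosSemidef := by
    have := Matrix.posSemidef_conjTranspose_mul_self M
    rwa [conjTranspose_eq_transpose_of_trivial, hM.eq] at this
  exact Matrix.PosDef.posSemidef_add h1 (Matrix.PosDef.one.smul hη)

theorem rbh_isSymm {H : Matrix ι ι ℝ} (hH : H.PosDef) : H.IsSymm := by
  have := hH.isHermitian
  rwa [IsHermitian, conjTranspose_eq_transpose_of_trivial] at this

theorem rbh_mul_inv {H : Matrix ι ι ℝ} (hH : H.PosDef) (x : ι → ℝ) : H *ᵥ (H⁻¹ *ᵥ x) = x := by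
  rw [Matrix.mulVec_mulVec, Matrix.mul_nonsing_inv _ (isUnit_iff_ne_zero.2 hH.det_pos.ne'),
    Matrix.one_mulVec]

theorem rbh_nonneg {H : Matrix ι ι ℝ} (hH : H.PosSemidef) (x : ι → ℝ) : 0 ≤ x ⬝ᵥ H *ᵥ x := by
  simpa using hH.dotProduct_mulVec_nonneg x

/-- variational lower bound for the inverse form -/
theorem rbh_var {H : Matrix ι ι ℝ} (hH : H.PosDef) (x y : ι → ℝ) :
    2 * (x ⬝ᵥ y) - y ⬝ᵥ H *ᵥ y ≤ x ⬝ᵥ H⁻¹ *ᵥ x := by
  have h1 := rbh_nonneg hH.posSemidef (y - H⁻¹ *ᵥ x)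
  rw [Matrix.mulVec_sub, rbh_mul_inv hH, sub_dotProduct, dotProduct_sub, dotProduct_sub,
    rbh_symm_dot (rbh_isSymm hH) (H⁻¹ *ᵥ x) y, rbh_mul_inv hH, dotProduct_comm y x,
    dotProduct_comm (H⁻¹ *ᵥ x) x] at h1
  linarith

/-- if `η |y|² ≤ yᵀ H y` then `η |H⁻¹ x|² ≤ xᵀ H⁻¹ x` and `η xᵀ H⁻¹ x ≤ |x|²` -/
theorem rbh_inv_sq {H : Matrix ι ι ℝ} (hH : H.PosDef) (h : ∀ y, η * (y ⬝ᵥ y) ≤ y ⬝ᵥ H *ᵥ y)
    (x : ι → ℝ) : η * (H⁻¹ *ᵥ x ⬝ᵥ H⁻¹ *ᵥ x) ≤ x ⬝ᵥ H⁻¹ *ᵥ x := by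
  have h1 := h (H⁻¹ *ᵥ x)
  rwa [rbh_mul_inv hH, dotProduct_comm (H⁻¹ *ᵥ x) x] at h1

theorem rbh_inv_le (hη : 0 < η) {H : Matrix ι ι ℝ} (hH : H.PosDef)
    (h : ∀ y, η * (y ⬝ᵥ y) ≤ y ⬝ᵥ H *ᵥ y) (x : ι → ℝ) : η * (x ⬝ᵥ H⁻¹ *ᵥ x) ≤ x ⬝ᵥ x := by
  have h1 := rbh_inv_sq hH h x
  have h2 := rbh_dot_nonneg (x - η • H⁻¹ *ᵥ x)
  rw [sub_dotProduct, dotProduct_sub, dotProduct_sub, dotProduct_smul, smul_dotProduct,
    smul_dotProduct, dotProduct_smul, dotProduct_comm (H⁻¹ *ᵥ x) x] at h2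
  simp only [smul_eq_mul] at h2
  nlinarith

theorem rbh_lower {M : Matrix ι ι ℝ} (hM : M.IsSymm) (η : ℝ) (y : ι → ℝ) :
    η * (y ⬝ᵥ y) ≤ y ⬝ᵥ (M * M + η • (1 : Matrix ι ι ℝ)) *ᵥ y := by
  rw [rbh_quad hM]
  have := rbh_dot_nonneg (M *ᵥ y)
  linarith

theorem rbh_WW_posSemidef (hη : 0 < η) {M : Matrix ι ι ℝ} (hM : M.IsSymm) :
    (WW η M).PosSemidef ∧ (1 - WW η M).PosSemidef := by
  have hH := rbh_posDef hη hM
  have h1 : (WW η M).PosSemidef := (hH.inv.smul hη).posSemidef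
  refine ⟨h1, Matrix.PosSemidef.of_dotProduct_mulVec_nonneg
    (Matrix.isHermitian_one.sub h1.isHermitian) fun x => ?_⟩
  have h2 := rbh_inv_le hη hH (rbh_lower hM η) x
  simp only [star_trivial, WW, Matrix.sub_mulVec, Matrix.one_mulVec, dotProduct_sub,
    Matrix.smul_mulVec, dotProduct_smul, smul_eq_mul]
  linarith

section Border

variable {m : ℕ} {M : Matrix (Fin (m + 1)) (Fin (m + 1)) ℝ}

theorem rbh_dot_succ (j : Fin (m + 1)) (u v : Fin (m + 1) → ℝ) :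
    u ⬝ᵥ v = u j * v j + (fun i => u (j.succAbove i)) ⬝ᵥ fun i => v (j.succAbove i) := by
  simp only [dotProduct]
  exact Fin.sum_univ_succAbove _ j

theorem rbh_mulVec_succ (hM : M.IsSymm) (j : Fin (m + 1)) (u : Fin (m + 1) → ℝ) :
    (fun i => (M *ᵥ u) (j.succAbove i)) =
      M.submatrix j.succAbove j.succAbove *ᵥ (fun i => u (j.succAbove i)) +
        u j • fun i => M j (j.succAbove i) := by
  funext i
  simp only [mulVec, dotProduct, Pi.add_apply, Pi.smul_apply, smul_eq_mul, submatrix_apply]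
  rw [Fin.sum_univ_succAbove _ j, hM.apply j (j.succAbove i)]
  ring

/-- the quadratic form of `M² + η` is at least `t² (η + η xᵀ (A² + η)⁻¹ x)`, `t = u j` -/
theorem rbh_key (hη : 0 < η) (hM : M.IsSymm) (j : Fin (m + 1)) (u : Fin (m + 1) → ℝ) :
    u j ^ 2 * (η + (fun i => M j (j.succAbove i)) ⬝ᵥ
      WW η (M.submatrix j.succAbove j.succAbove) *ᵥ fun i => M j (j.succAbove i)) ≤
      u ⬝ᵥ (M * M + η • (1 : Matrix _ _ ℝ)) *ᵥ u := by
  set A := M.submatrix j.succAbove j.succAbove with hA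
  have hAs : A.IsSymm := hM.submatrix _
  set x : Fin m → ℝ := fun i => M j (j.succAbove i) with hx
  set w : Fin m → ℝ := fun i => u (j.succAbove i) with hw
  set t := u j with ht
  have hH := rbh_posDef hη hAs
  set y := (A * A + η • (1 : Matrix _ _ ℝ))⁻¹ *ᵥ x with hy
  have h1 : x ⬝ᵥ y = A *ᵥ y ⬝ᵥ A *ᵥ y + η * (y ⬝ᵥ y) := by
    rw [← rbh_quad hAs, hy, rbh_mul_inv hH, dotProduct_comm]
  have h2 : x ⬝ᵥ WW η A *ᵥ x = η * (x ⬝ᵥ y) := by
    rw [WW, Matrix.smul_mulVec, dotProduct_smul, smul_eq_mul]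
  rw [h2, rbh_quad hM, rbh_dot_succ j (M *ᵥ u) (M *ᵥ u), rbh_dot_succ j u u,
    rbh_mulVec_succ hM j u, ← hA, ← hx, ← hw, ← ht]
  set z := A *ᵥ w + t • x with hz
  have h3 := rbh_dot_nonneg (z - (η * t) • y)
  have h4 := rbh_dot_nonneg (w + t • A *ᵥ y)
  have h5 : z ⬝ᵥ y = w ⬝ᵥ A *ᵥ y + t * (x ⬝ᵥ y) := by
    rw [hz, add_dotProduct, smul_dotProduct, smul_eq_mul, rbh_symm_dot hAs]
  rw [sub_dotProduct, dotProduct_sub, dotProduct_sub, dotProduct_smul, smul_dotProduct,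
    smul_dotProduct, dotProduct_smul, dotProduct_comm y z, h5] at h3
  rw [add_dotProduct, dotProduct_add, dotProduct_add, dotProduct_smul, smul_dotProduct,
    smul_dotProduct, dotProduct_smul, dotProduct_comm (A *ᵥ y) w] at h4
  simp only [smul_eq_mul] at h3 h4
  have h6 := mul_nonneg hη.le h4
  have h7 := mul_self_nonneg ((M *ᵥ u) j)
  have h8 : η * t ^ 2 * (x ⬝ᵥ y) = η * t ^ 2 * (A *ᵥ y ⬝ᵥ A *ᵥ y + η * (y ⬝ᵥ y)) := by rw [← h1]
  nlinarith

theorem rbh_WW_diag (hη : 0 < η) (hM : M.IsSymm) (j : Fin (m + 1)) :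
    WW η M j j * (η + (fun i => M j (j.succAbove i)) ⬝ᵥ
      WW η (M.submatrix j.succAbove j.succAbove) *ᵥ fun i => M j (j.succAbove i)) ≤ η := by
  have hH := rbh_posDef hη hM
  set H := M * M + η • (1 : Matrix _ _ ℝ) with hHd
  have h1 := rbh_key hη hM j (H⁻¹ *ᵥ Pi.single j 1)
  rw [← hHd, rbh_mul_inv hH, dotProduct_single, mul_one, Matrix.mulVec_single_one] at h1
  have h2 : 0 < H⁻¹ j j := hH.inv.diag_pos
  simp only [Matrix.col_apply] at h1
  have h3 : WW η M j j = η * H⁻¹ j j := rfl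
  rw [h3]
  generalize (η + (fun i => M j (j.succAbove i)) ⬝ᵥ
      WW η (M.submatrix j.succAbove j.succAbove) *ᵥ fun i => M j (j.succAbove i)) = s at h1 ⊢
  have h4 : H⁻¹ j j * s ≤ 1 := by
    by_contra h5
    push Not at h5
    nlinarith
  nlinarith

theorem rbh_WW_trace (hη : 0 < η) (hM : M.IsSymm) (j : Fin (m + 1)) :
    (WW η M).trace - 1 ≤ (WW η (M.submatrix j.succAbove j.succAbove)).trace := by
  have hH := rbh_posDef hη hM
  set H := M * M + η • (1 : Matrix _ _ ℝ) with hHd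
  set A := M.submatrix j.succAbove j.succAbove with hA
  have hAs : A.IsSymm := hM.submatrix _
  have hH' := rbh_posDef hη hAs
  set H' := A * A + η • (1 : Matrix _ _ ℝ) with hH'd
  set G := H⁻¹ with hG
  have hGs : G.IsSymm := rbh_isSymm hH.inv
  have hg : 0 < G j j := hH.inv.diag_pos
  -- diagonal comparison
  have key : ∀ i : Fin m, G (j.succAbove i) (j.succAbove i) - G (j.succAbove i) j ^ 2 / G j j ≤
      H'⁻¹ i i := fun i => by
    set k := j.succAbove i with hk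
    set c := G k j / G j j with hc
    set e : Fin (m + 1) → ℝ := Pi.single k 1 - c • Pi.single j 1 with he
    set u := G *ᵥ e with hu
    have hu' : ∀ l, u l = G l k - c * G l j := fun l => by
      rw [hu, he, Matrix.mulVec_sub, Matrix.mulVec_smul, Matrix.mulVec_single_one,
        Matrix.mulVec_single_one]
      simp
    have huj : u j = 0 := by
      rw [hu', hc, hGs.apply k j]; field_simp; ring
    have huk : u k = G k k - G k j ^ 2 / G j j := by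
      rw [hu', hc]; field_simp
    have h1 : u ⬝ᵥ H *ᵥ u = u k := by
      rw [hu, hG, rbh_mul_inv hH, ← hG, ← hu, he, dotProduct_sub, dotProduct_smul,
        dotProduct_single, dotProduct_single, huj]
      simp
    set w : Fin m → ℝ := fun l => u (j.succAbove l) with hw
    have h2 : w ⬝ᵥ H' *ᵥ w ≤ u ⬝ᵥ H *ᵥ u := by
      rw [hH'd, hHd, rbh_quad hAs, rbh_quad hM, rbh_dot_succ j (M *ᵥ u) (M *ᵥ u),
        rbh_dot_succ j u u, rbh_mulVec_succ hM j u, huj, zero_smul, add_zero, ← hA, ← hw]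
      have := mul_self_nonneg ((M *ᵥ u) j)
      linarith
    have h3 := rbh_var hH' (Pi.single i 1) w
    rw [single_dotProduct, single_dotProduct, Matrix.mulVec_single_one, one_mul, one_mul] at h3
    simp only [Matrix.col_apply] at h3
    have h4 : w i = u k := rfl
    rw [← huk]
    linarith
  have h5 := rbh_inv_sq hH (rbh_lower hM η) (Pi.single j 1)
  rw [← hG, single_dotProduct, Matrix.mulVec_single_one, one_mul, rbh_dot_succ j] at h5
  simp only [Matrix.col_apply, dotProduct] at h5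
  have h6 : ∑ i : Fin m, (G (j.succAbove i) (j.succAbove i) - G (j.succAbove i) j ^ 2 / G j j) ≤
      ∑ i : Fin m, H'⁻¹ i i := Finset.sum_le_sum fun i _ => key i
  rw [Finset.sum_sub_distrib, ← Finset.sum_div] at h6
  have h7 : (WW η M).trace = η * (G j j + ∑ i : Fin m, G (j.succAbove i) (j.succAbove i)) := by
    rw [WW, Matrix.trace_smul, smul_eq_mul, ← hHd, ← hG, Matrix.trace]
    simp only [Matrix.diag_apply]
    rw [Fin.sum_univ_succAbove _ j]
  have h8 : (WW η A).trace = η * ∑ i : Fin m, H'⁻¹ i i := by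
    rw [WW, Matrix.trace_smul, smul_eq_mul, ← hH'd, Matrix.trace]
    simp only [Matrix.diag_apply]
  rw [h7, h8]
  set s := ∑ i : Fin m, G (j.succAbove i) j ^ 2 with hs
  have h9 : ∑ i : Fin m, G (j.succAbove i) j * G (j.succAbove i) j = s := by
    rw [hs]; exact Finset.sum_congr rfl fun i _ => (sq _).symm
  rw [h9] at h5
  have h10 : η * (G j j + s / G j j) ≤ 1 := by
    have e : η * (G j j + s / G j j) = η * (G j j * G j j + s) / G j j := by field_simp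
    rw [e, div_le_one hg]
    exact h5
  have h11 := mul_le_mul_of_nonneg_left h6 hη.le
  nlinarith

end Border

end Crest.Agent.R152.RD
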