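import Crest.Agent.R152.RProb
import Crest.Agent.R152.RBulkAux4
import Crest.Agent.R152.RBulkH1

/-!
# RED: few small eigenvalues

`H = M² + η` is positive definite, `WW η M = η H⁻¹`, `0 ≤ WW ≤ 1`.  Let `A` be `M` without row and
column `j`, `x` the removed row, `H' = A² + η`.
`WW_diag`: for `w = H⁻¹ e_j / (H⁻¹) j j` (so `w j = 1`), `1/(H⁻¹) j j = wᵀ H w = |M w|² + η |w|² ≥
η + |A w' + x|² + η |w'|² ≥ η + η xᵀ H'⁻¹ x` (minimise over `w'`: expand at `w' = -H'⁻¹ A x`, or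
Cauchy-Schwarz with `y = H'⁻¹ x`: `xᵀy = (A w' + x)·y - w'·A y`, `|y|² η + |A y|² = xᵀ y`).
`WW_trace`: the principal submatrix `H₀` of `H` is `H' + x xᵀ ≥ H'`, so `tr H₀⁻¹ ≤ tr H'⁻¹`, and
`H₀⁻¹ = (H⁻¹)₀ - h hᵀ / (H⁻¹) j j` (`h` the column `j` of `H⁻¹`), so
`tr H⁻¹ - tr H₀⁻¹ = (H⁻²) j j / (H⁻¹) j j ≤ 1/η`.
`quad_lower_tail`: `f x = svᵀ W sv`, `μ = 2p-1`, `σ² = 4p(1-p)`, `Ex f = μ² 1ᵀW1 + σ² tr W` up to the
diagonal (`sv i ^ 2 = 1`), so `Ex f ≥ σ² tr W`; `Var f ≤ C Ex f` by Efron-Stein (flipping coordinate `i`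
changes `f` by `4 |∑_{j ≠ i} W i j x j|`, and `∑_i (W x)_i² ≤ xᵀ W x`, `∑ W i i² ≤ tr W`) or by expanding
in the orthonormal basis; Chebyshev.
`bulk_step`: if `tr WW M ≥ τ` then at least `τ/2` indices have `xᵀ W_j x ≤ σ² (τ-1)/2` (`WW_diag`,
diagonal entries `≤ 1`); for them `tr W_j ≥ τ - 1` and `xᵀ W_j x ≤ σ² tr W_j / 2`; first moment with
`Ex_border`.  `bulk`: iterate `⌊δ m/2⌋` times; each factor is `≤ C'/m`.
-/

set_option autoImplicit false
set_option linter.unusedSectionVars false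

open Matrix Filter Crest.FinProb

noncomputable section

namespace Crest.Agent.R152.RD

variable {p η : ℝ}

theorem WW_posSemidef {ι : Type} [Fintype ι] [DecidableEq ι] (hη : 0 < η) {M : Matrix ι ι ℝ}
    (hM : M.IsSymm) : (WW η M).PosSemidef ∧ (1 - WW η M).PosSemidef :=
  rbh_WW_posSemidef hη hM

theorem WW_diag (hη : 0 < η) {m : ℕ} {M : Matrix (Fin (m + 1)) (Fin (m + 1)) ℝ} (hM : M.IsSymm)
    (j : Fin (m + 1)) :
    WW η M j j * (η + (fun i => M j (j.succAbove i)) ⬝ᵥ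
      WW η (M.submatrix j.succAbove j.succAbove) *ᵥ fun i => M j (j.succAbove i)) ≤ η :=
  rbh_WW_diag hη hM j

theorem WW_trace (hη : 0 < η) {m : ℕ} {M : Matrix (Fin (m + 1)) (Fin (m + 1)) ℝ} (hM : M.IsSymm)
    (j : Fin (m + 1)) :
    (WW η M).trace - 1 ≤ (WW η (M.submatrix j.succAbove j.succAbove)).trace :=
  rbh_WW_trace hη hM j

theorem quad_lower_tail (h0 : 0 < p) (h1 : p < 1) : ∃ C : ℝ, 0 < C ∧
    ∀ (ι : Type) [Fintype ι] [DecidableEq ι] (W : Matrix ι ι ℝ), W.PosSemidef → (1 - W).PosSemidef →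
      bernoulliProb p {x : ι → Bool | (fun i => (sv x i : ℝ)) ⬝ᵥ W *ᵥ (fun i => (sv x i : ℝ)) ≤
        2 * p * (1 - p) * W.trace} * W.trace ≤ C := by
  obtain ⟨q, hq⟩ : ∃ q, q = p * (1 - p) := ⟨_, rfl⟩
  have q0 : 0 < q := by rw [hq]; exact mul_pos h0 (sub_pos.2 h1)
  have q1 : q ≤ 1 := by rw [hq]; nlinarith
  refine ⟨48 / q ^ 2, by positivity, fun ι _ _ W hW hW' => ?_⟩
  have sy : ∀ i j, W j i = W i j := fun i j => by simpa using hW.isHermitian.apply i j
  obtain ⟨s, hs⟩ : ∃ s, s = (2 * p - 1) ^ 2 * ((fun _ => 1) ⬝ᵥ W *ᵥ fun _ => (1 : ℝ)) := ⟨_, rfl⟩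
  have s0 : 0 ≤ s := by
    rw [hs]
    exact mul_nonneg (sq_nonneg _) (by simpa using hW.dotProduct_mulVec_nonneg fun _ => 1)
  have col : ∀ j, ∑ i, W i j ^ 2 ≤ W j j := fun j => by
    simpa using rbq_mulVec hW hW' (Pi.single j 1)
  have e1 := (rbq_lin h0.le h1.le fun i => (2 * p - 1) * (W *ᵥ fun _ => 1) i).trans
    (show _ ≤ 8 * s by
      simp only [mul_pow, ← Finset.mul_sum, hs]
      gcongr
      exact rbq_mulVec hW hW' _)
  have e2 := (rbq_lin h0.le h1.le fun i => -(2 * (2 * p - 1)) * W i i).trans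
    (show _ ≤ 8 * (4 * W.trace) by
      simp only [mul_pow, ← Finset.mul_sum]
      gcongr
      · nlinarith
      · exact Finset.sum_le_sum fun j _ => (Finset.single_le_sum
          (f := fun i => W i j ^ 2) (fun i _ => sq_nonneg _) (Finset.mem_univ j)).trans (col j))
  have e3 := (rbq_quad h0.le h1.le (fun t : ι × ι => if t.1 = t.2 then 0 else W t.1 t.2)
    (fun t => by simp only [Prod.fst_swap, Prod.snd_swap, eq_comm, sy t.1]) fun i => by simp).trans
    (show _ ≤ 32 * W.trace by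
      rw [Fintype.sum_prod_type_right]
      gcongr
      refine Finset.sum_le_sum fun j _ => le_trans (Finset.sum_le_sum fun i _ => ?_) (col j)
      split_ifs <;> simp [sq_nonneg])
  rcases hW.trace_nonneg.eq_or_lt with t0 | t0
  · rw [← t0, mul_zero]; positivity
  have m0 : 0 < s + 2 * q * W.trace := by positivity
  have key : (s + 2 * q * W.trace) ^ 2 * bernoulliProb p {x : ι → Bool |
      (fun i => (sv x i : ℝ)) ⬝ᵥ W *ᵥ (fun i => (sv x i : ℝ)) ≤ 2 * p * (1 - p) * W.trace} ≤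
      12 * (8 * s) + 3 * (8 * (4 * W.trace)) + 3 * (32 * W.trace) := by
    refine le_trans ?_ (add_le_add (add_le_add (mul_le_mul_of_nonneg_left e1 (by norm_num))
      (mul_le_mul_of_nonneg_left e2 (by norm_num))) (mul_le_mul_of_nonneg_left e3 (by norm_num)))
    rw [prob_eq_Ex, ← Ex_mul, ← Ex_mul, ← Ex_mul, ← Ex_mul, ← Ex_add, ← Ex_add]
    refine Ex_mono h0.le h1.le fun x => ?_
    by_cases hx : x ∈ {x : ι → Bool |
      (fun i => (sv x i : ℝ)) ⬝ᵥ W *ᵥ (fun i => (sv x i : ℝ)) ≤ 2 * p * (1 - p) * W.trace}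
    · rw [Set.indicator_of_mem hx, mul_one]
      rw [Set.mem_ofPred_eq, rbq_split p sy, ← hs, mul_assoc 4, mul_assoc 2, ← hq] at hx
      generalize ∑ i, ((2 * p - 1) * (W *ᵥ fun _ => 1) i) * rbqY p (x i) = a at hx ⊢
      generalize ∑ i, (-(2 * (2 * p - 1)) * W i i) * rbqY p (x i) = b at hx ⊢
      generalize ∑ t : ι × ι, (if t.1 = t.2 then 0 else W t.1 t.2) *
        (rbqY p (x t.1) * rbqY p (x t.2)) = c at hx ⊢
      have h2 : (s + 2 * q * W.trace) ^ 2 ≤ (-(2 * a + b + c)) ^ 2 :=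
        pow_le_pow_left₀ m0.le (by linarith) 2
      nlinarith [sq_nonneg (2 * a - b), sq_nonneg (2 * a - c), sq_nonneg (b - c)]
    · rw [Set.indicator_of_notMem hx, mul_zero]
      positivity
  generalize bernoulliProb (ι := ι) p _ = P at key ⊢
  have k1 : (s + 2 * q * W.trace) * P * q ≤ 96 := by
    refine le_of_mul_le_mul_left ?_ m0
    nlinarith [mul_le_mul_of_nonneg_right key q0.le, mul_le_mul_of_nonneg_left q1 s0]
  rw [le_div_iff₀ (by positivity)]
  rcases le_total 0 P with P0 | P0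
  · nlinarith [mul_nonneg (mul_nonneg s0 P0) q0.le]
  · nlinarith [mul_nonneg (mul_nonneg (neg_nonneg.2 P0) t0.le) (sq_nonneg q)]

/-- the event that the smoothed count of small eigenvalues is at least `τ` -/
def BE (η τ : ℝ) (k : ℕ) : Set (Sym2 (Fin k) → Bool) :=
  {a | τ ≤ (WW η ((sm a).map (Int.cast : ℤ → ℝ))).trace}

theorem rbd_count (h0 : 0 < p) (h1 : p < 1) (hη : 0 < η) {τ : ℝ} {k : ℕ} (hτ : 1 < τ)
    (hk : (k + 1) * η ≤ p * (1 - p) * τ * (τ - 1)) {M : Matrix (Fin (k + 1)) (Fin (k + 1)) ℝ}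
    (hM : M.IsSymm) (htr : τ ≤ (WW η M).trace) (g : Fin (k + 1) → ℝ) (hg0 : ∀ j, 0 ≤ g j)
    (hg : ∀ j : Fin (k + 1), τ - 1 ≤ (WW η (M.submatrix j.succAbove j.succAbove)).trace →
      ((fun i => M j (j.succAbove i)) ⬝ᵥ
        WW η (M.submatrix j.succAbove j.succAbove) *ᵥ fun i => M j (j.succAbove i)) ≤
        2 * p * (1 - p) * (WW η (M.submatrix j.succAbove j.succAbove)).trace → 1 ≤ g j) :
    τ / 2 ≤ ∑ j, g j := by
  have hp : 0 < p * (1 - p) := mul_pos h0 (by linarith)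
  have hs : 0 < 2 * p * (1 - p) * (τ - 1) := by
    have : 0 < τ - 1 := by linarith
    nlinarith [mul_pos hp this]
  have key : ∀ j, WW η M j j ≤ g j + η / (2 * p * (1 - p) * (τ - 1)) := by
    intro j
    have hd := WW_diag hη hM j
    have ht := WW_trace hη hM j
    have hsub : (M.submatrix j.succAbove j.succAbove).IsSymm := hM.submatrix _
    have hq : 0 ≤ (fun i => M j (j.succAbove i)) ⬝ᵥ
        WW η (M.submatrix j.succAbove j.succAbove) *ᵥ fun i => M j (j.succAbove i) := by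
      simpa using (WW_posSemidef hη hsub).1.dotProduct_mulVec_nonneg fun i => M j (j.succAbove i)
    have hw : 0 ≤ WW η M j j := (WW_posSemidef hη hM).1.diag_nonneg
    have hgj := hg j
    set q := (fun i => M j (j.succAbove i)) ⬝ᵥ
        WW η (M.submatrix j.succAbove j.succAbove) *ᵥ fun i => M j (j.succAbove i) with hqd
    set T := (WW η (M.submatrix j.succAbove j.succAbove)).trace with hT
    have hdiv : 0 ≤ η / (2 * p * (1 - p) * (τ - 1)) := by positivity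
    by_cases hc : q ≤ 2 * p * (1 - p) * (τ - 1)
    · have hT1 : τ - 1 ≤ T := by linarith
      have h2 : q ≤ 2 * p * (1 - p) * T := by nlinarith
      have h3 := hgj hT1 h2
      have h4 : WW η M j j ≤ 1 := by nlinarith
      linarith
    · push Not at hc
      have h5 : WW η M j j ≤ η / (2 * p * (1 - p) * (τ - 1)) := by
        rw [le_div_iff₀ hs]
        nlinarith
      linarith [hg0 j]
  have hsum : (WW η M).trace ≤ ∑ j, g j + (k + 1) * (η / (2 * p * (1 - p) * (τ - 1))) := by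
    have := Finset.sum_le_sum fun j (_ : j ∈ Finset.univ) => key j
    rw [Finset.sum_add_distrib, Finset.sum_const, Finset.card_univ, Fintype.card_fin,
      nsmul_eq_mul] at this
    push_cast at this
    exact this
  have h6 : (k + 1) * (η / (2 * p * (1 - p) * (τ - 1))) ≤ τ / 2 := by
    rw [← mul_div_assoc, div_le_iff₀ hs]
    nlinarith
  linarith

theorem bulk_step (h0 : 0 < p) (h1 : p < 1) : ∃ C : ℝ, 0 < C ∧ ∀ (η τ : ℝ) (k : ℕ), 0 < η → 1 < τ →
    (k + 1) * η ≤ p * (1 - p) * τ * (τ - 1) →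
    bernoulliProb p (BE η τ (k + 1)) * (τ * (τ - 1)) ≤
      C * (k + 1) * bernoulliProb p (BE η (τ - 1) k) := by
  classical
  obtain ⟨C, hC, hq⟩ := quad_lower_tail h0 h1
  refine ⟨2 * C, by positivity, fun η τ k hη hτ hk => ?_⟩
  have hτ1 : 0 < τ - 1 := by linarith
  let Ea : (Sym2 (Fin k) → Bool) → Set (Fin k → Bool) := fun a =>
    {x | (fun i => (sv x i : ℝ)) ⬝ᵥ WW η ((sm a).map (Int.cast : ℤ → ℝ)) *ᵥ (fun i => (sv x i : ℝ)) ≤
        2 * p * (1 - p) * (WW η ((sm a).map (Int.cast : ℤ → ℝ))).trace}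
  let F : (Sym2 (Fin k) → Bool) → (Fin k → Bool) → ℝ := fun a x =>
    (BE η (τ - 1) k).indicator (fun _ => (1 : ℝ)) a * (Ea a).indicator (fun _ => (1 : ℝ)) x
  have hF0 : ∀ a x, 0 ≤ F a x := fun a x =>
    mul_nonneg (Set.indicator_nonneg (fun _ _ => zero_le_one) _)
      (Set.indicator_nonneg (fun _ _ => zero_le_one) _)
  have hsym : ∀ {n : ℕ} (a : Sym2 (Fin n) → Bool), ((sm a).map (Int.cast : ℤ → ℝ)).IsSymm :=
    fun a => (sm_isSymm a).map _
  have hpt : ∀ b : Sym2 (Fin (k + 1)) → Bool,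
      τ / 2 * (BE η τ (k + 1)).indicator (fun _ => (1 : ℝ)) b ≤
        ∑ j, F (res j b) (rw j b) := by
    intro b
    by_cases hb : b ∈ BE η τ (k + 1)
    · rw [Set.indicator_of_mem hb, mul_one]
      refine rbd_count h0 h1 hη hτ hk (hsym b) hb _ (fun j => hF0 _ _) fun j h2 h3 => ?_
      have e1 : (sm (res j b)).map (Int.cast : ℤ → ℝ) =
          ((sm b).map (Int.cast : ℤ → ℝ)).submatrix j.succAbove j.succAbove := by
        rw [sm_res]; rfl
      have e2 : (fun i => (sv (rw j b) i : ℝ)) =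
          fun i => ((sm b).map (Int.cast : ℤ → ℝ)) j (j.succAbove i) := by
        funext i
        rw [sv_rw]; rfl
      have m1 : res j b ∈ BE η (τ - 1) k := by
        show τ - 1 ≤ _
        rw [e1]; exact h2
      have m2 : rw j b ∈ Ea (res j b) := by
        simp only [Ea, Set.mem_ofPred_eq]
        rw [e1, e2]; exact h3
      simp only [F, Set.indicator_of_mem m1, Set.indicator_of_mem m2, mul_one, le_refl]
    · rw [Set.indicator_of_notMem hb, mul_zero]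
      exact Finset.sum_nonneg fun j _ => hF0 _ _
  have hin : ∀ a, (Ex p fun x => F a x) ≤
      C / (τ - 1) * (BE η (τ - 1) k).indicator (fun _ => (1 : ℝ)) a := by
    intro a
    simp only [F]
    rw [Ex_mul, ← prob_eq_Ex]
    by_cases ha : a ∈ BE η (τ - 1) k
    · rw [Set.indicator_of_mem ha, one_mul, mul_one, le_div_iff₀ hτ1]
      have h2 := hq (Fin k) _ (WW_posSemidef hη (hsym a)).1 (WW_posSemidef hη (hsym a)).2
      have h3 : τ - 1 ≤ (WW η ((sm a).map (Int.cast : ℤ → ℝ))).trace := ha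
      exact (mul_le_mul_of_nonneg_left h3 (prob_nonneg h0.le h1.le _)).trans h2
    · rw [Set.indicator_of_notMem ha, zero_mul, mul_zero]
  have hE := Ex_mono h0.le h1.le hpt
  rw [Ex_mul, ← prob_eq_Ex, Ex_sum] at hE
  have hj : ∀ j : Fin (k + 1), (Ex p fun b => F (res j b) (rw j b)) ≤
      C / (τ - 1) * bernoulliProb p (BE η (τ - 1) k) := by
    intro j
    rw [Ex_border p j F, prob_eq_Ex, ← Ex_mul]
    exact Ex_mono h0.le h1.le hin
  have hs := hE.trans (Finset.sum_le_sum fun j _ => hj j)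
  rw [Finset.sum_const, Finset.card_univ, Fintype.card_fin, nsmul_eq_mul] at hs
  push_cast at hs
  have h7 := mul_le_mul_of_nonneg_right hs (show 0 ≤ 2 * (τ - 1) by positivity)
  calc bernoulliProb p (BE η τ (k + 1)) * (τ * (τ - 1))
      = τ / 2 * bernoulliProb p (BE η τ (k + 1)) * (2 * (τ - 1)) := by ring
    _ ≤ _ := h7
    _ = _ := by field_simp

theorem rbd_iter (h0 : 0 < p) (h1 : p < 1) {C : ℝ} (hC : 0 < C)
    (hstep : ∀ (η τ : ℝ) (k : ℕ), 0 < η → 1 < τ → (k + 1) * η ≤ p * (1 - p) * τ * (τ - 1) →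
      bernoulliProb p (BE η τ (k + 1)) * (τ * (τ - 1)) ≤
        C * (k + 1) * bernoulliProb p (BE η (τ - 1) k))
    (hη : 0 < η) {a m : ℝ} (ha : 0 < a) (hm : m * η ≤ p * (1 - p) * a ^ 2) (L : ℕ) :
    ∀ (n : ℕ) (τ : ℝ), L ≤ n → (n : ℝ) ≤ m → a + L ≤ τ →
      bernoulliProb p (BE η τ n) ≤ (C * m / a ^ 2) ^ L := by
  have hp : 0 < p * (1 - p) := mul_pos h0 (by linarith)
  induction L with
  | zero => intro n τ _ _ _; simpa using prob_le_one h0.le h1.le _
  | succ L ih =>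
    intro n τ hL hn hτ
    obtain ⟨k, rfl⟩ : ∃ k, n = k + 1 := ⟨n - 1, by omega⟩
    push_cast at hn hτ
    have hL0 : (0 : ℝ) ≤ L := Nat.cast_nonneg _
    have hk0 : (0 : ℝ) ≤ k := Nat.cast_nonneg _
    have ht : a ^ 2 ≤ τ * (τ - 1) := by nlinarith
    have h2 := hstep η τ k hη (by linarith) (by
      calc (k + 1) * η ≤ m * η := mul_le_mul_of_nonneg_right hn hη.le
        _ ≤ _ := hm
        _ ≤ p * (1 - p) * (τ * (τ - 1)) := mul_le_mul_of_nonneg_left ht hp.le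
        _ = _ := by ring)
    have h3 := ih k (τ - 1) (by omega) (by linarith) (by linarith)
    have hP := prob_nonneg h0.le h1.le (BE η τ (k + 1))
    have hP' := prob_nonneg h0.le h1.le (BE η (τ - 1) k)
    have h4 : bernoulliProb p (BE η τ (k + 1)) * a ^ 2 ≤ C * m * (C * m / a ^ 2) ^ L :=
      calc bernoulliProb p (BE η τ (k + 1)) * a ^ 2
          ≤ bernoulliProb p (BE η τ (k + 1)) * (τ * (τ - 1)) := mul_le_mul_of_nonneg_left ht hP
        _ ≤ _ := h2
        _ ≤ C * m * (C * m / a ^ 2) ^ L :=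
          mul_le_mul (mul_le_mul_of_nonneg_left hn hC.le) h3 hP' (mul_nonneg hC.le (by linarith))
    rw [← le_div_iff₀ (by positivity)] at h4
    calc _ ≤ _ := h4
      _ = _ := by ring

theorem bulk (h0 : 0 < p) (h1 : p < 1) {δ θ : ℝ} (hδ : 0 < δ) (hθ : 0 < θ) :
    ∀ᶠ m : ℕ in atTop, bernoulliProb p (BE ((m : ℝ) ^ (1 / 5 : ℝ)) (δ * m) m) ≤ θ ^ m := by
  rcases le_or_gt 1 θ with hθ1 | hθ1
  · exact Eventually.of_forall fun m => (prob_le_one h0.le h1.le _).trans (one_le_pow₀ hθ1)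
  obtain ⟨C, hC, hstep⟩ := bulk_step h0 h1
  have hp : 0 < p * (1 - p) := mul_pos h0 (by linarith)
  set d := min δ 1 with hd
  have hd0 : 0 < d := lt_min hδ one_pos
  have hd1 : d ≤ 1 := min_le_right _ _
  have hdδ : d ≤ δ := min_le_left _ _
  obtain ⟨N, hN⟩ := exists_nat_ge (4 / d)
  have e1 : ∀ᶠ m : ℕ in atTop, (m : ℝ) ^ (-(4 / 5 : ℝ)) ≤ p * (1 - p) * d ^ 2 / 4 :=
    ((tendsto_rpow_neg_atTop (show (0 : ℝ) < 4 / 5 by norm_num)).comp
      tendsto_natCast_atTop_atTop).eventually (ge_mem_nhds (by positivity))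
  have e2 : ∀ᶠ m : ℕ in atTop, 4 * C / (d ^ 2 * θ ^ N) ≤ (m : ℝ) :=
    tendsto_natCast_atTop_atTop.eventually_ge_atTop _
  have e3 : ∀ᶠ m : ℕ in atTop, 4 / d ≤ (m : ℝ) :=
    tendsto_natCast_atTop_atTop.eventually_ge_atTop _
  filter_upwards [e1, e2, e3] with m m1 m2 m3
  have hm0 : (0 : ℝ) < m := lt_of_lt_of_le (by positivity) m3
  have hη : 0 < (m : ℝ) ^ (1 / 5 : ℝ) := Real.rpow_pos_of_pos hm0 _
  have hηe : (m : ℝ) ^ (1 / 5 : ℝ) = (m : ℝ) ^ (-(4 / 5 : ℝ)) * m := by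
    rw [← Real.rpow_add_one hm0.ne']; norm_num
  have ha : 0 < d * m / 2 := by positivity
  have hfl := Nat.floor_le ha.le
  have hfl' := Nat.lt_floor_add_one (d * m / 2)
  set L := ⌊d * m / 2⌋₊ with hL
  have hLm : L ≤ m := by
    have : (L : ℝ) ≤ m := by nlinarith
    exact_mod_cast this
  have hit := rbd_iter h0 h1 hC hstep hη ha (m := m) (by
    rw [hηe]
    calc (m : ℝ) * ((m : ℝ) ^ (-(4 / 5 : ℝ)) * m) = (m : ℝ) ^ (-(4 / 5 : ℝ)) * m ^ 2 := by ring
      _ ≤ p * (1 - p) * d ^ 2 / 4 * m ^ 2 := mul_le_mul_of_nonneg_right m1 (by positivity)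
      _ = _ := by ring) L m (δ * m) hLm le_rfl (by nlinarith)
  have hr : C * m / (d * m / 2) ^ 2 ≤ θ ^ N := by
    rw [div_le_iff₀ (by positivity)] at m2 ⊢
    nlinarith [mul_le_mul_of_nonneg_right m2 hm0.le]
  have hdm : 4 ≤ d * m := by
    rw [div_le_iff₀ hd0] at m3; linarith
  have hmN : m ≤ N * L := by
    have h5 : d * m / 4 ≤ L := by linarith
    have h6 : (m : ℝ) ≤ N * L :=
      calc (m : ℝ) = 4 / d * (d * m / 4) := by field_simp
        _ ≤ N * L := mul_le_mul hN h5 (by positivity) (Nat.cast_nonneg _)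
    exact_mod_cast h6
  calc _ ≤ _ := hit
    _ ≤ (θ ^ N) ^ L := pow_le_pow_left₀ (by positivity) hr L
    _ = θ ^ (N * L) := (pow_mul _ _ _).symm
    _ ≤ θ ^ m := pow_le_pow_of_le_one hθ.le hθ1.le hmN

end Crest.Agent.R152.RD
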