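import Mathlib
import Crest.Prelude.Def_SignMatrix

/-!
# Row 152, module RED (reduction): definitions

A singular symmetric sign matrix `M` of corank one has `adj M = c v vᵀ`.  Removing an index `j` with
`v j ≠ 0` leaves a nonsingular `A` and the removed row `x` is isotropic for the pairing
`pr A x z = xᵀ A⁻¹ z`, of order `|v j|` in the discriminant group `Gr A = ℤ^m / A ℤ^m`.
`SS δ A` is a set of sign vectors determined by `A`; for at least two indices `j` the removed row lies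
in `SS δ A`, and `SS δ A` has at most `exp(ε m)` elements outside an event of tiny probability
(statements `N1`, `N2`, which follow from the master theorem `MTS`).
-/

set_option autoImplicit false

open Matrix Filter Crest.FinProb

noncomputable section

namespace Crest.Agent.R152.RD

section General

variable {ι : Type} [Fintype ι] [DecidableEq ι]

/-- sign vector -/
def sv (x : ι → Bool) : ι → ℤ := fun i => if x i then 1 else -1

/-- symmetric matrix with entries `g (b s(i,j))` -/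
def gm {F : Type} (g : Bool → F) (b : Sym2 ι → Bool) : Matrix ι ι F :=
  Matrix.of fun i j => g (b s(i, j))

/-- symmetric sign matrix (`symSignMatrix` for `ι = Fin n`, by `rfl`) -/
def sm (b : Sym2 ι → Bool) : Matrix ι ι ℤ := Matrix.of fun i j => if b s(i, j) then 1 else -1

/-- expectation over independent coins -/
def Ex (p : ℝ) (F : (ι → Bool) → ℝ) : ℝ := ∑ ω, bernoulliWeight p ω * F ω

/-- corank exactly one -/
def Cor1 (M : Matrix ι ι ℤ) : Prop := M.det = 0 ∧ M.adjugate ≠ 0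

/-- discriminant group -/
abbrev Gr (A : Matrix ι ι ℤ) : Type := (ι → ℤ) ⧸ LinearMap.range A.mulVecLin

/-- class in the discriminant group -/
def cl (A : Matrix ι ι ℤ) (z : ι → ℤ) : Gr A := Submodule.Quotient.mk z

/-- the pairing `xᵀ A⁻¹ z` -/
def pr (A : Matrix ι ι ℤ) (x z : ι → ℤ) : ℚ :=
  (fun i => (x i : ℚ)) ⬝ᵥ (A.map (Int.cast : ℤ → ℚ))⁻¹ *ᵥ fun i => (z i : ℚ)

def IsInt (t : ℚ) : Prop := ∃ k : ℤ, t = k

/-- `x` annihilates the subgroup `H` -/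
def Ann (A : Matrix ι ι ℤ) (x : ι → ℤ) (H : AddSubgroup (Gr A)) : Prop :=
  ∀ z, cl A z ∈ H → IsInt (pr A x z)

/-- exponent of the prime `q` in `det A` -/
def ee (A : Matrix ι ι ℤ) (q : ℕ) : ℕ := A.det.natAbs.factorization q

/-- exponent of the prime `q` in the order of `x` -/
def aa (A : Matrix ι ι ℤ) (x : ι → ℤ) (q : ℕ) : ℕ := (addOrderOf (cl A x)).factorization q

/-- good primes -/
def Good (A : Matrix ι ι ℤ) (x : ι → ℤ) (q : ℕ) : Prop := aa A x q = 0 ∨ 9 * ee A q ≤ 20 * aa A x q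

open Classical in
/-- logarithmic weight of the good primes -/
def gw (A : Matrix ι ι ℤ) (x : ι → ℤ) : ℝ :=
  ∑ q ∈ A.det.natAbs.primeFactors.filter (Good A x), (ee A q : ℝ) * Real.log q

/-- the real vector `A⁻¹ x` -/
def iv (A : Matrix ι ι ℤ) (x : ι → ℤ) : ι → ℝ :=
  (A.map (Int.cast : ℤ → ℝ))⁻¹ *ᵥ fun i => (x i : ℝ)

/-- the smoothed number of small eigenvalues is the trace of `WW η A = η (A² + η)⁻¹` -/
def WW (η : ℝ) (A : Matrix ι ι ℝ) : Matrix ι ι ℝ := η • (A * A + η • (1 : Matrix ι ι ℝ))⁻¹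

/-- the `0/1` matrix over a ring -/
def bm (R : Type) [Zero R] [One R] (b : Sym2 ι → Bool) : Matrix ι ι R :=
  gm (fun t => if t then 1 else 0) b

end General

/-- collision probability -/
def rho (p : ℝ) : ℝ := p ^ 2 + (1 - p) ^ 2

/-- the principal submatrix without the index `j` -/
def res {m : ℕ} (j : Fin (m + 1)) (b : Sym2 (Fin (m + 1)) → Bool) : Sym2 (Fin m) → Bool :=
  fun e => b (e.map j.succAbove)

/-- the row `j` without its diagonal entry -/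
def rw {m : ℕ} (j : Fin (m + 1)) (b : Sym2 (Fin (m + 1)) → Bool) : Fin m → Bool :=
  fun i => b s(j, j.succAbove i)

/-- probability of corank one -/
def c1 (p : ℝ) (n : ℕ) : ℝ := bernoulliProb p {b : Sym2 (Fin n) → Bool | Cor1 (sm b)}

/-- arithmetic case -/
def InA (δ : ℝ) {m : ℕ} (A : Matrix (Fin m) (Fin m) ℤ) (x : Fin m → ℤ) : Prop :=
  IsInt (pr A x x) ∧ δ * m * Real.log m ≤ gw A x

/-- archimedean case -/
def InB {m : ℕ} (A : Matrix (Fin m) (Fin m) ℤ) (x : Fin m → ℤ) : Prop :=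
  Real.log |(A.det : ℝ)| ≤ m * Real.log m / 20 ∧ ∀ i, |iv A x i| ≤ m

open Classical in
/-- the admissible borderings -/
def SS (δ : ℝ) {m : ℕ} (a : Sym2 (Fin m) → Bool) : Finset (Fin m → Bool) :=
  Finset.univ.filter fun x => (sm a).det ≠ 0 ∧ (InA δ (sm a) (sv x) ∨ InB (sm a) (sv x))

open Classical in
/-- an integer kernel vector which is sparse modulo a prime -/
def Sparse (γ : ℝ) {n : ℕ} (b : Sym2 (Fin n) → Bool) : Prop :=
  ∃ (q : ℕ) (v : Fin n → ℤ), q.Prime ∧ sm b *ᵥ v = 0 ∧ (∃ j, ¬ (q : ℤ) ∣ v j) ∧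
    ((Finset.univ.filter fun j => ¬ (q : ℤ) ∣ v j).card : ℝ) ≤ γ * n

/-- few sign vectors annihilate a large subgroup -/
def N1 (p : ℝ) : Prop :=
  ∀ ε δ θ : ℝ, 0 < ε → 0 < δ → 0 < θ → ∀ᶠ m : ℕ in atTop,
    bernoulliProb p {a : Sym2 (Fin m) → Bool | (sm a).det ≠ 0 ∧
      ∃ H : AddSubgroup (Gr (sm a)), δ * m * Real.log m ≤ Real.log (Nat.card H) ∧
        ∃ S : Finset (Fin m → Bool), Real.exp (ε * m) ≤ S.card ∧ ∀ x ∈ S, Ann (sm a) (sv x) H} ≤ θ ^ m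

/-- few sign vectors have a bounded preimage when the determinant is small -/
def N2 (p : ℝ) : Prop :=
  ∀ ε θ : ℝ, 0 < ε → 0 < θ → ∀ᶠ m : ℕ in atTop,
    bernoulliProb p {a : Sym2 (Fin m) → Bool | (sm a).det ≠ 0 ∧
      ∃ S : Finset (Fin m → Bool), Real.exp (ε * m) ≤ S.card ∧ ∀ x ∈ S, InB (sm a) (sv x)} ≤ θ ^ m

/-- the bad event of the master theorem -/
def BadM (ε δ δ' : ℝ) (K : ℕ) {m : ℕ} (a : Sym2 (Fin m) → Bool) : Prop :=
  ∃ (S : Finset (Fin m → Bool)) (r : ℕ) (Φ : Matrix (Fin m) (Fin r) ℝ)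
    (H : Finset ((Fin m → ℝ) × (Fin r → ℝ))),
    Real.exp (ε * m) ≤ S.card ∧ (r : ℝ) ≤ δ' * m ∧ Real.exp (δ * m * Real.log m) ≤ H.card ∧
    (∀ x ∈ S, ∀ x' ∈ S, ∑ l, (∑ i, Φ i l * ((sv x i : ℝ) - sv x' i)) ^ 2 ≤ m) ∧
    (∀ x ∈ S, ∀ x' ∈ S, ∀ h ∈ H, ∃ k : ℤ, ∑ i, ((sv x i : ℝ) - sv x' i) * h.1 i = k) ∧
    (∀ h ∈ H, ∀ l, |h.2 l| ≤ 1) ∧
    (∀ h ∈ H, ∃ z : Fin m → ℤ, ∀ i,
      |((sm a).map (Int.cast : ℤ → ℝ) *ᵥ (h.1 + Φ *ᵥ h.2)) i - z i| ≤ ((m : ℝ) ^ K)⁻¹) ∧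
    ∀ h ∈ H, ∀ h' ∈ H, h ≠ h' → ∀ k : ℕ, 1 ≤ k → k ≤ m ^ K → ∀ z : Fin m → ℤ, ∃ i,
      1 / (4 * (m : ℝ)) ≤ |2 * k * ((h.1 + Φ *ᵥ h.2) i - (h'.1 + Φ *ᵥ h'.2) i) - z i|

/-- the master theorem -/
def MTS (p : ℝ) : Prop :=
  ∀ ε δ : ℝ, 0 < ε → 0 < δ → ∃ (δ' : ℝ) (K : ℕ) (c : ℝ), 0 < δ' ∧ 0 < c ∧ ∀ᶠ m : ℕ in atTop,
    bernoulliProb p {a : Sym2 (Fin m) → Bool | BadM ε δ δ' K a} ≤ Real.exp (-(c * m ^ 2))

/-- the `0/1` matrix has small corank modulo all primes up to `m ^ K` -/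
def GoodT (K s : ℕ) {m : ℕ} (a : Sym2 (Fin m) → Bool) : Prop :=
  ∀ (q : ℕ) [Fact q.Prime], q ≤ m ^ K → m ≤ (bm (ZMod q) a).rank + s

end Crest.Agent.R152.RD
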