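import Crest.Agent.R152.RMain
import Crest.Agent.R152.MMain

/-! # Row 152: the master theorem in the form used by RED, and the final limit -/

set_option autoImplicit false
set_option linter.unusedSectionVars false

open Matrix Filter Crest.FinProb Crest.ProbabilityR.SignMatrix

noncomputable section

namespace Crest.Agent.R152.RD

theorem fin_nz_le (t : ℝ) (z : ℤ) : nz t ≤ |t - z| := round_le t z

theorem bad_of_badM {ε δ δ' : ℝ} {K m : ℕ} (hm : 1 ≤ m) {a : Sym2 (Fin m) → Bool}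
    (h : BadM ε δ δ' K a) : Bad ε δ δ' K (Crest.Agent.R152.sm a) := by
  obtain ⟨S, r, Φ, H, h1, h2, h3, h4, h5, h6, h7, h8⟩ := h
  have hm0 : (0 : ℝ) < m := by exact_mod_cast hm
  have hsv : ∀ (x x' : Fin m → Bool) (i : Fin m),
      rv (sgv x - sgv x') i = (sv x i : ℝ) - sv x' i := fun x x' i => by
    simp only [rv, sgv, sg, sv, Pi.sub_apply, Int.cast_sub]
  refine ⟨S, r, Φ, H, ?_, ?_, ?_, ?_, ?_, h6, ?_, ?_⟩
  · simpa using h1
  · simpa using h2
  · rw [Fintype.card_fin, Real.rpow_def_of_pos hm0]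
    convert h3 using 2
    ring
  · intro x hx x' hx'
    rw [Fintype.card_fin]
    refine le_of_eq_of_le ?_ (h4 x hx x' hx')
    simp only [dotProduct, vecMul, hsv]
    refine Finset.sum_congr rfl fun l _ => ?_
    rw [← sq]
    congr 1
    exact Finset.sum_congr rfl fun i _ => mul_comm _ _
  · intro x hx x' hx' h hh
    obtain ⟨k, hk⟩ := h5 x hx x' hx' h hh
    exact ⟨k, by simpa only [dotProduct, hsv] using hk⟩
  · intro h hh j
    obtain ⟨z, hz⟩ := h7 h hh
    rw [Fintype.card_fin, one_div]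
    exact (fin_nz_le _ (z j)).trans (hz j)
  · intro h hh h' hh' hne k hk1 hk
    rw [Fintype.card_fin] at hk ⊢
    obtain ⟨i, hi⟩ := h8 h hh h' hh' hne k hk1 hk
      fun i => round (2 * (k : ℝ) * (pt Φ h i - pt Φ h' i))
    exact ⟨i, hi⟩

theorem mts {p : ℝ} (h0 : 0 < p) (h1 : p < 1) : MTS p := by
  intro ε δ hε hδ
  obtain ⟨δ', c, K, m₀, h2, h3, h4⟩ := master h0 h1 hε hδ
  refine ⟨δ', K, c, h2, h3, ?_⟩
  filter_upwards [eventually_ge_atTop m₀, eventually_ge_atTop 1] with m hm hm1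
  have h5 := h4 (Fin m) (by simpa using hm)
  rw [Fintype.card_fin] at h5
  exact (prob_mono h0.le h1.le fun a ha => bad_of_badM hm1 ha).trans h5

theorem final {p : ℝ} (h0 : 0 < p) (h1 : p < 1) :
    Tendsto (fun n : ℕ => singularProb n p ^ (1 / (n : ℝ))) atTop (nhds (p ^ 2 + (1 - p) ^ 2)) :=
  main_of_mts h0 h1 (mts h0 h1)

end Crest.Agent.R152.RD
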