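import Crest.Agent.R152.RAri

/-! # RED: auxiliary lemmas for `local_family` -/

set_option autoImplicit false
set_option linter.unusedSectionVars false
set_option linter.unusedVariables false

open Matrix Filter Crest.FinProb

noncomputable section

namespace Crest.Agent.R152.RD

variable {ι : Type} [Fintype ι] [DecidableEq ι] {A : Matrix ι ι ℤ}

theorem rla_den_dvd {t : ℚ} {n : ℕ} (hn : n ≠ 0) (h : IsInt ((n : ℚ) * t)) : t.den ∣ n := by
  obtain ⟨k, hk⟩ := h
  have hn' : (n : ℚ) ≠ 0 := by exact_mod_cast hn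
  have ht : t = Rat.divInt k n := by
    rw [Rat.divInt_eq_div]
    push_cast
    rw [eq_div_iff hn', ← hk, mul_comm]
  have := Rat.den_dvd k (n : ℤ)
  rw [← ht] at this
  exact_mod_cast this

theorem rla_isInt_of_den_dvd {t : ℚ} {n : ℕ} (h : t.den ∣ n) : IsInt ((n : ℚ) * t) := by
  obtain ⟨c, hc⟩ := h
  refine ⟨c * t.num, ?_⟩
  rw [hc]
  push_cast
  have := Rat.den_mul_eq_num t
  rw [mul_comm (t.den : ℚ), mul_assoc, this]

theorem rla_three {q s : ℕ} (hq : q.Prime) {D : ℤ} {t₁ t₂ t₃ : ℚ}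
    (h : IsInt (2 * D * t₁ * t₂ * t₃)) (h₁ : q ^ (s + 1) ∣ t₁.den) (h₂ : q ^ (s + 1) ∣ t₂.den)
    (h₃ : q ^ (s + 1) ∣ t₃.den) : q ^ (3 * (s + 1)) ∣ 2 * D.natAbs := by
  obtain ⟨k, hk⟩ := h
  have e : 2 * D * t₁.num * t₂.num * t₃.num = k * t₁.den * t₂.den * t₃.den := by
    have e1 := Rat.den_mul_eq_num t₁
    have e2 := Rat.den_mul_eq_num t₂
    have e3 := Rat.den_mul_eq_num t₃
    have : ((2 * D * t₁.num * t₂.num * t₃.num : ℤ) : ℚ) =
        ((k * t₁.den * t₂.den * t₃.den : ℤ) : ℚ) := by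
      push_cast
      rw [← e1, ← e2, ← e3, ← hk]; ring
    exact_mod_cast this
  have e' : 2 * D.natAbs * t₁.num.natAbs * t₂.num.natAbs * t₃.num.natAbs =
      k.natAbs * t₁.den * t₂.den * t₃.den := by
    have := congrArg Int.natAbs e
    simpa [Int.natAbs_mul] using this
  have cop : ∀ t : ℚ, q ^ (s + 1) ∣ t.den → Nat.Coprime (q ^ (3 * (s + 1))) t.num.natAbs := by
    intro t ht
    apply Nat.Coprime.pow_left
    have h1 : q ∣ t.den := (dvd_pow_self q (Nat.succ_ne_zero s)).trans ht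
    exact (Nat.Coprime.coprime_dvd_right h1 t.reduced).symm
  have hd : q ^ (3 * (s + 1)) ∣ 2 * D.natAbs * t₁.num.natAbs * t₂.num.natAbs * t₃.num.natAbs := by
    rw [e']
    have : q ^ (3 * (s + 1)) = 1 * q ^ (s + 1) * q ^ (s + 1) * q ^ (s + 1) := by ring
    rw [this]
    exact mul_dvd_mul (mul_dvd_mul (mul_dvd_mul (one_dvd _) h₁) h₂) h₃
  exact (cop t₁ h₁).dvd_of_dvd_mul_right ((cop t₂ h₂).dvd_of_dvd_mul_right
    ((cop t₃ h₃).dvd_of_dvd_mul_right hd))

theorem rla_cl_nsmul (A : Matrix ι ι ℤ) (n : ℕ) (x : ι → ℤ) : cl A ((n : ℤ) • x) = n • cl A x := by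
  rw [cl_zsmul, natCast_zsmul]

/-- the denominator of a pairing divides anything that kills the class -/
theorem rla_den_pr (hA : A.det ≠ 0) (x : ι → ℤ) {z : ι → ℤ} {n : ℕ} (hn : n ≠ 0)
    (h : n • cl A z = 0) : (pr A x z).den ∣ n := by
  apply rla_den_dvd hn
  have h1 := isInt_pr_of_cl hA x (z := (n : ℤ) • z) (by rw [rla_cl_nsmul, h])
  rw [pr_zsmul] at h1
  simpa using h1

theorem rla_sylow (hA : A.det ≠ 0) {q : ℕ} (hq : q.Prime) :
    ∃ H : AddSubgroup (Gr A), Nat.card H = q ^ ee A q := by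
  have := finite_Gr hA
  have : Fact q.Prime := ⟨hq⟩
  have hd : q ^ ee A q ∣ Nat.card (Multiplicative (Gr A)) := by
    rw [Nat.card_congr (Multiplicative.toAdd (α := Gr A)), card_Gr hA]
    exact Nat.ordProj_dvd _ _
  obtain ⟨K, hK⟩ := Sylow.exists_subgroup_card_pow_prime q hd
  exact ⟨Subgroup.toAddSubgroup' K, hK⟩

theorem rla_ann_sylow (hA : A.det ≠ 0) (hs : A.IsSymm) {q e : ℕ} (hq : q.Prime)
    {H : AddSubgroup (Gr A)} (hH : Nat.card H = q ^ e) {x : ι → ℤ} (hx : aa A x q = 0) :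
    Ann A x H := by
  have := finite_Gr hA
  intro z hz
  have ho : addOrderOf (cl A x) ≠ 0 := (addOrderOf_pos _).ne'
  have h1 : (pr A x z).den ∣ q ^ e := by
    apply rla_den_pr hA x (pow_ne_zero _ hq.ne_zero)
    rw [← hH]
    have := card_nsmul_eq_zero' (G := H) (x := ⟨cl A z, hz⟩)
    exact congrArg Subtype.val this
  have h2 : (pr A x z).den ∣ addOrderOf (cl A x) := by
    rw [pr_comm hs]
    exact rla_den_pr hA z ho (addOrderOf_nsmul_eq_zero _)
  have h3 : ¬ q ∣ addOrderOf (cl A x) := by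
    intro h
    have := (hq.dvd_iff_one_le_factorization ho).1 h
    unfold aa at hx
    omega
  have h4 : Nat.Coprime (q ^ e) (addOrderOf (cl A x)) :=
    Nat.Coprime.pow_left _ ((Nat.Prime.coprime_iff_not_dvd hq).2 h3)
  have h5 : (pr A x z).den = 1 := Nat.eq_one_of_dvd_coprimes h4 h1 h2
  exact ⟨(pr A x z).num, ((Rat.den_eq_one_iff _).1 h5).symm⟩

/-- the cyclic subgroup attached to a vector -/
def rlaH (A : Matrix ι ι ℤ) (q s : ℕ) (y : ι → ℤ) : AddSubgroup (Gr A) :=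
  AddSubgroup.zmultiples
    (cl A (((q ^ s * (addOrderOf (cl A y) / q ^ aa A y q) : ℕ) : ℤ) • y))

theorem rla_card (hA : A.det ≠ 0) {q s : ℕ} (hq : q.Prime) {y : ι → ℤ} (h : s ≤ aa A y q) :
    Nat.card (rlaH A q s y) = q ^ (aa A y q - s) := by
  have := finite_Gr hA
  have ho : addOrderOf (cl A y) ≠ 0 := (addOrderOf_pos _).ne'
  unfold rlaH
  rw [Nat.card_zmultiples, rla_cl_nsmul, addOrderOf_nsmul]
  set t := addOrderOf (cl A y) / q ^ aa A y q with ht
  have e : addOrderOf (cl A y) = q ^ (aa A y q - s) * (q ^ s * t) := by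
    rw [← mul_assoc, ← pow_add, Nat.sub_add_cancel h, ht]
    exact (Nat.ordProj_mul_ordCompl_eq_self _ q).symm
  have hpos : 0 < q ^ s * t := by
    apply Nat.pos_of_ne_zero
    intro h0
    rw [h0, mul_zero] at e
    exact ho e
  have g : (addOrderOf (cl A y)).gcd (q ^ s * t) = q ^ s * t :=
    Nat.gcd_eq_right ⟨q ^ (aa A y q - s), by rw [mul_comm]; exact e⟩
  rw [g]
  conv_lhs => rw [e]
  exact Nat.mul_div_cancel _ hpos

theorem rla_ann (hA : A.det ≠ 0) {q s : ℕ} (hq : q.Prime) {x y : ι → ℤ}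
    (h : ¬ q ^ (s + 1) ∣ (pr A x y).den) : Ann A x (rlaH A q s y) := by
  have := finite_Gr hA
  have ho : addOrderOf (cl A y) ≠ 0 := (addOrderOf_pos _).ne'
  apply ann_zmultiples hA
  rw [pr_zsmul, Int.cast_natCast]
  apply rla_isInt_of_den_dvd
  have hd : (pr A x y).den ∣ addOrderOf (cl A y) :=
    rla_den_pr hA x ho (addOrderOf_nsmul_eq_zero _)
  have hd0 : (pr A x y).den ≠ 0 := (pr A x y).den_nz
  rw [← Nat.ordProj_mul_ordCompl_eq_self (pr A x y).den q]
  refine mul_dvd_mul (pow_dvd_pow _ ?_) (Nat.ordCompl_dvd_ordCompl_of_dvd hd q)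
  by_contra hlt
  exact h ((hq.pow_dvd_iff_le_factorization hd0).2 (by omega))

theorem rla_local (hA : A.det ≠ 0) (hs : A.IsSymm) {q : ℕ} (hq : q.Prime) :
    ∃ 𝓕 : Finset (AddSubgroup (Gr A)), 𝓕.card ≤ 3 ∧
      (∀ H ∈ 𝓕, ∃ k : ℕ, Nat.card H = q ^ k ∧ ee A q ≤ 10 * k + if q = 2 then 10 else 0) ∧
      ∀ x, IsInt (pr A x x) → Good A x q → ∃ H ∈ 𝓕, Ann A x H := by
  classical
  obtain ⟨H₀, hH₀⟩ := rla_sylow hA hq
  set u : ℕ := if q = 2 then 1 else 0 with hu
  set s : ℕ := (ee A q + u) / 3 with hs_def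
  let Deep : (ι → ℤ) → Prop := fun x => IsInt (pr A x x) ∧ 9 * ee A q ≤ 20 * aa A x q
  let Far : (ι → ℤ) → (ι → ℤ) → Prop := fun x y => q ^ (s + 1) ∣ (pr A x y).den
  have hD : A.det.natAbs ≠ 0 := Int.natAbs_ne_zero.2 hA
  have hfac : (2 * A.det.natAbs).factorization q = ee A q + u := by
    rw [Nat.factorization_mul two_ne_zero hD, Finsupp.add_apply, add_comm]
    unfold ee
    congr 1
    rw [Nat.Prime.factorization Nat.prime_two, Finsupp.single_apply, hu]
    by_cases h2 : q = 2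
    · simp [h2]
    · simp [h2, Ne.symm h2]
  have htri : ∀ x y z, Deep x → Deep y → Deep z → Far x y → Far x z → Far y z → False := by
    intro x y z hx hy hz h1 h2 h3
    have h4 := rla_three hq (triple hA hs hx.1 hy.1 hz.1) h1 h2 h3
    have h5 := (hq.pow_dvd_iff_le_factorization (mul_ne_zero two_ne_zero hD)).1 h4
    rw [hfac] at h5
    omega
  have hgood : ∀ y, Deep y → ∃ k : ℕ, Nat.card (rlaH A q s y) = q ^ k ∧
      ee A q ≤ 10 * k + if q = 2 then 10 else 0 := by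
    intro y hy
    have h1 := hy.2
    have hu1 : u ≤ 1 := by rw [hu]; split_ifs <;> omega
    refine ⟨aa A y q - s, rla_card hA hq (by omega), ?_⟩
    by_cases h2 : q = 2
    · rw [if_pos h2]; omega
    · have : u = 0 := by rw [hu, if_neg h2]
      rw [if_neg h2]; omega
  have hH₀good : ∃ k : ℕ, Nat.card H₀ = q ^ k ∧ ee A q ≤ 10 * k + if q = 2 then 10 else 0 :=
    ⟨ee A q, hH₀, by omega⟩
  by_cases h1 : ∃ y, Deep y
  · obtain ⟨y₁, hy₁⟩ := h1
    have : ∃ y₂, Deep y₂ ∧ ∀ x, Deep x → ¬ Far x y₁ ∨ ¬ Far x y₂ := by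
      by_cases h2 : ∃ y₂, Deep y₂ ∧ Far y₁ y₂
      · obtain ⟨y₂, hy₂, hf⟩ := h2
        refine ⟨y₂, hy₂, fun x hx => ?_⟩
        by_contra hc
        push Not at hc
        exact htri x y₁ y₂ hx hy₁ hy₂ hc.1 hc.2 hf
      · refine ⟨y₁, hy₁, fun x hx => Or.inl fun hf => h2 ⟨x, hx, ?_⟩⟩
        show q ^ (s + 1) ∣ (pr A y₁ x).den
        rw [pr_comm hs]; exact hf
    obtain ⟨y₂, hy₂, hall⟩ := this
    refine ⟨{H₀, rlaH A q s y₁, rlaH A q s y₂}, Finset.card_le_three, ?_, ?_⟩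
    · intro H hH
      simp only [Finset.mem_insert, Finset.mem_singleton] at hH
      rcases hH with rfl | rfl | rfl
      · exact hH₀good
      · exact hgood _ hy₁
      · exact hgood _ hy₂
    · intro x hx hg
      rcases hg with hg | hg
      · exact ⟨H₀, by simp, rla_ann_sylow hA hs hq hH₀ hg⟩
      · rcases hall x ⟨hx, hg⟩ with h | h
        · exact ⟨_, by simp, rla_ann hA hq h⟩
        · exact ⟨_, by simp, rla_ann hA hq h⟩
  · refine ⟨{H₀}, by simp, ?_, ?_⟩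
    · intro H hH
      rw [Finset.mem_singleton] at hH
      rw [hH]; exact hH₀good
    · intro x hx hg
      rcases hg with hg | hg
      · exact ⟨H₀, by simp, rla_ann_sylow hA hs hq hH₀ hg⟩
      · exact absurd ⟨x, hx, hg⟩ h1

end Crest.Agent.R152.RD
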