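import Crest.Agent.R152.RAri
import Crest.Agent.R152.RLocAux1

/-!
# RED: isotropic vectors annihilate one of few large subgroups

`local_family`: `e = ee A q`.  First member: a subgroup `H₀` of order `q^e` (Sylow:
`Sylow.exists_subgroup_card_pow_prime` for `Multiplicative (Gr A)`, or an additive version); if
`aa A x q = 0` then the order `t` of `x` is prime to `q`, `t * pr x z` and `q^e * pr x z` are integers,
so `pr x z` is an integer.  Call `x` deep if it is isotropic and `9 e ≤ 20 aa`.  Let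
`s = (e + [q = 2]) / 3` and call `x, y` far if `q^(s+1) ∣ (pr x y).den`.  Three deep vectors are not
pairwise far (`triple`, `padicValRat`).  For a deep `y` of order `t' q^a` (`q ∤ t'`) let
`H y = zmultiples (cl (q^s t' • y))`, of order `q^(a-s)`; if `x` is not far from `y` then
`(pr x y).den ∣ q^s t'` (it divides the order of `y`), so `x` annihilates `H y`
(`ann_zmultiples`).  Choose a deep `y₁` (if any) and a deep `y₂` far from `y₁` (if any): every deep
`x` is not far from `y₁` or not far from `y₂`.  Numerics: `e ≤ 10 (a - s)` for odd `q`,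
`e ≤ 10 (a - s) + 10` for `q = 2`.
`top_weights`: induction removing the smallest element, or averaging over `k`-subsets.
`global_family`: `ω = #primeFactors ≤ m` (`ω! ≤ ∏ q ≤ |det| ≤ m!`); `k = ⌊γ m⌋`; the family consists of
`P.sup H` over `P ⊆ primeFactors`, `|P| ≤ k`, and choices `H q ∈ 𝓕 q` (`Finset.pi`/`Fintype.piFinset`;
at most `exp(ε m/2) 3^(γ m)`), filtered by the size condition; orders of pairwise coprime subgroups
multiply (`AddSubgroup.card_dvd_of_le`, `Finset.prod_dvd_of_coprime`); `δ₂ = γ δ / 40`.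
-/

set_option autoImplicit false
set_option linter.unusedSectionVars false

open Matrix Filter Crest.FinProb

noncomputable section

namespace Crest.Agent.R152.RD

variable {ι : Type} [Fintype ι] [DecidableEq ι] {A : Matrix ι ι ℤ}

theorem local_family (hA : A.det ≠ 0) (hs : A.IsSymm) {q : ℕ} (hq : q.Prime) :
    ∃ 𝓕 : Finset (AddSubgroup (Gr A)), 𝓕.card ≤ 3 ∧
      (∀ H ∈ 𝓕, ∃ k : ℕ, Nat.card H = q ^ k ∧ ee A q ≤ 10 * k + if q = 2 then 10 else 0) ∧
      ∀ x, IsInt (pr A x x) → Good A x q → ∃ H ∈ 𝓕, Ann A x H :=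
  rla_local hA hs hq

theorem top_weights {τ : Type} [DecidableEq τ] (s : Finset τ) (w : τ → ℝ) (hw : ∀ t ∈ s, 0 ≤ w t)
    {n k : ℕ} (hs : s.card ≤ n) (hk : k ≤ n) :
    ∃ P ⊆ s, P.card ≤ k ∧ k * ∑ t ∈ s, w t ≤ n * ∑ t ∈ P, w t := by
  induction n, hk using Nat.le_induction generalizing s with
  | base => exact ⟨s, subset_rfl, hs, le_rfl⟩
  | succ n hkn ih =>
    by_cases h : s.card ≤ n
    · obtain ⟨P, hP, hc, hle⟩ := ih s hw h
      refine ⟨P, hP, hc, hle.trans ?_⟩
      have h0 : 0 ≤ ∑ t ∈ P, w t := Finset.sum_nonneg fun t ht => hw t (hP ht)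
      push_cast
      linarith
    · have hcard : s.card = n + 1 := by omega
      have hne : s.Nonempty := Finset.card_pos.1 (by omega)
      obtain ⟨t₀, ht₀, hmin⟩ := s.exists_min_image w hne
      have hc' : (s.erase t₀).card = n := by rw [Finset.card_erase_of_mem ht₀]; omega
      obtain ⟨P, hP, hc, hle⟩ := ih (s.erase t₀)
        (fun t ht => hw t (Finset.mem_of_mem_erase ht)) hc'.le
      refine ⟨P, hP.trans (Finset.erase_subset _ _), hc, ?_⟩
      have h0 : 0 ≤ ∑ t ∈ P, w t :=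
        Finset.sum_nonneg fun t ht => hw t (Finset.mem_of_mem_erase (hP ht))
      have h1 : ∑ t ∈ s, w t = w t₀ + ∑ t ∈ s.erase t₀, w t :=
        (Finset.add_sum_erase s w ht₀).symm
      have h2 : (n : ℝ) * w t₀ ≤ ∑ t ∈ s.erase t₀, w t := by
        have := Finset.card_nsmul_le_sum (s.erase t₀) w (w t₀)
          fun t ht => hmin t (Finset.mem_of_mem_erase ht)
        rwa [hc', nsmul_eq_mul] at this
      rcases Nat.eq_zero_or_pos n with hn | hn
      · have hk0 : k = 0 := by omega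
        subst hk0
        simp only [Nat.cast_zero, zero_mul]
        positivity
      · have hn' : (0 : ℝ) < n := by exact_mod_cast hn
        have hk0 : (0 : ℝ) ≤ k := Nat.cast_nonneg k
        refine le_of_mul_le_mul_left ?_ hn'
        rw [h1]
        push_cast
        have h3 : (k : ℝ) * (n * w t₀) ≤ k * ∑ t ∈ s.erase t₀, w t :=
          mul_le_mul_of_nonneg_left h2 hk0
        have h4 : ((n : ℝ) + 1) * (k * ∑ t ∈ s.erase t₀, w t) ≤ (n + 1) * (n * ∑ t ∈ P, w t) :=
          mul_le_mul_of_nonneg_left hle (by positivity)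
        linarith

theorem rlb_fact_le_prod (s : Finset ℕ) (hs : ∀ q ∈ s, 2 ≤ q) :
    (s.card + 1).factorial ≤ ∏ q ∈ s, q := by
  induction s using Finset.induction_on_max with
  | empty => simp
  | insert a s ha ih =>
    have hna : a ∉ s := fun h => lt_irrefl _ (ha a h)
    have ih' := ih fun q hq => hs q (Finset.mem_insert_of_mem hq)
    have hsub : s ⊆ Finset.Ico 2 a := fun q hq =>
      Finset.mem_Ico.2 ⟨hs q (Finset.mem_insert_of_mem hq), ha q hq⟩
    have hc : s.card ≤ a - 2 := by simpa using Finset.card_le_card hsub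
    have ha2 : 2 ≤ a := hs a (Finset.mem_insert_self _ _)
    rw [Finset.card_insert_of_notMem hna, Finset.prod_insert hna, Nat.factorial_succ]
    exact Nat.mul_le_mul (by omega) ih'

theorem card_primeFactors_le {D m : ℕ} (hD : D ≤ m.factorial) : D.primeFactors.card ≤ m := by
  rcases Nat.eq_zero_or_pos D with h0 | h0
  · subst h0; simp
  · by_contra hlt
    have h1 := rlb_fact_le_prod D.primeFactors fun q hq => (Nat.prime_of_mem_primeFactors hq).two_le
    have h2 : ∏ q ∈ D.primeFactors, q ≤ D := Nat.le_of_dvd h0 (Nat.prod_primeFactors_dvd D)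
    have h3 : (m + 1).factorial < (D.primeFactors.card + 1).factorial :=
      (Nat.factorial_lt (Nat.succ_pos m)).2 (by omega)
    have h4 : m.factorial ≤ (m + 1).factorial := Nat.factorial_le (Nat.le_succ m)
    omega

theorem rlb_fam {G τ : Type} [SemilatticeSup G] [OrderBot G] [DecidableEq τ] (𝓕 : τ → Finset G)
    (P : Finset τ) (h : ∀ q ∈ P, (𝓕 q).card ≤ 3) :
    ∃ Φ : Finset G, Φ.card ≤ 3 ^ P.card ∧ ∀ H : τ → G, (∀ q ∈ P, H q ∈ 𝓕 q) → P.sup H ∈ Φ := by
  classical
  induction P using Finset.induction_on with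
  | empty => exact ⟨{⊥}, by simp, fun H _ => by simp⟩
  | insert a P ha ih =>
    obtain ⟨Φ, hΦ, hH⟩ := ih fun q hq => h q (Finset.mem_insert_of_mem hq)
    refine ⟨Finset.image₂ (· ⊔ ·) (𝓕 a) Φ, (Finset.card_image₂_le _ _ _).trans ?_, fun H hm => ?_⟩
    · rw [Finset.card_insert_of_notMem ha, pow_succ']
      exact Nat.mul_le_mul (h a (Finset.mem_insert_self _ _)) hΦ
    · rw [Finset.sup_insert]
      exact Finset.mem_image₂_of_mem (hm a (Finset.mem_insert_self _ _))
        (hH H fun q hq => hm q (Finset.mem_insert_of_mem hq))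

theorem rlb_log_card_sup {G : Type} [AddCommGroup G] [Finite G] (P : Finset ℕ)
    (hP : ∀ q ∈ P, q.Prime) (H : ℕ → AddSubgroup G) (j : ℕ → ℕ)
    (hj : ∀ q ∈ P, Nat.card (H q) = q ^ j q) :
    ∑ q ∈ P, (j q : ℝ) * Real.log q ≤ Real.log (Nat.card (P.sup H : AddSubgroup G)) := by
  have h1 : ∏ q ∈ P, q ^ j q ∣ Nat.card (P.sup H : AddSubgroup G) := by
    refine Finset.prod_dvd_of_isRelPrime ?_ fun q hq => ?_
    · intro p hp q hq hpq
      exact Nat.coprime_iff_isRelPrime.1
        (Nat.Coprime.pow _ _ ((Nat.coprime_primes (hP p hp) (hP q hq)).2 hpq))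
    · rw [← hj q hq]
      exact AddSubgroup.card_dvd_of_le (Finset.le_sup hq)
  have h2 : ∏ q ∈ P, q ^ j q ≤ Nat.card (P.sup H : AddSubgroup G) :=
    Nat.le_of_dvd Nat.card_pos h1
  have h3 : ∀ q ∈ P, (0 : ℝ) < (q : ℝ) ^ j q := fun q hq =>
    pow_pos (by exact_mod_cast (hP q hq).pos) _
  calc ∑ q ∈ P, (j q : ℝ) * Real.log q = Real.log (∏ q ∈ P, (q : ℝ) ^ j q) := by
        rw [Real.log_prod fun q hq => (h3 q hq).ne']
        exact Finset.sum_congr rfl fun q _ => (Real.log_pow _ _).symm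
    _ ≤ _ := Real.log_le_log (Finset.prod_pos h3) (by exact_mod_cast h2)

theorem global_family {ε δ : ℝ} (hε : 0 < ε) (hδ : 0 < δ) : ∃ δ₂ : ℝ, 0 < δ₂ ∧
    ∀ᶠ m : ℕ in atTop, ∀ a : Sym2 (Fin m) → Bool, (sm a).det ≠ 0 →
      ∃ 𝓗 : Finset (AddSubgroup (Gr (sm a))), (𝓗.card : ℝ) ≤ Real.exp (ε * m) ∧
        (∀ H ∈ 𝓗, δ₂ * m * Real.log m ≤ Real.log (Nat.card H)) ∧
        ∀ x, InA δ (sm a) x → ∃ H ∈ 𝓗, Ann (sm a) x H := by
  classical
  obtain ⟨γ₀, hγ₀, hsub⟩ := card_small_subsets (half_pos hε)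
  obtain ⟨γ, hγ, hγ1, hγ2, hγ3⟩ : ∃ γ : ℝ, 0 < γ ∧ γ ≤ γ₀ ∧ γ ≤ ε / 4 ∧ γ ≤ 1 :=
    ⟨min γ₀ (min (ε / 4) 1), lt_min hγ₀ (lt_min (by positivity) one_pos), min_le_left _ _,
      (min_le_right _ _).trans (min_le_left _ _), (min_le_right _ _).trans (min_le_right _ _)⟩
  refine ⟨γ * δ / 40, by positivity, ?_⟩
  have e1 : ∀ᶠ m : ℕ in atTop, (2 / γ : ℝ) ≤ m :=
    tendsto_natCast_atTop_atTop.eventually_ge_atTop _
  have e2 : ∀ᶠ m : ℕ in atTop, (40 / (γ * δ) : ℝ) ≤ m :=
    tendsto_natCast_atTop_atTop.eventually_ge_atTop _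
  filter_upwards [e1, e2, eventually_ge_atTop 2] with m h1 h2 h3 a hA
  have hm2 : (2 : ℝ) ≤ m := by exact_mod_cast h3
  have hm0 : (0 : ℝ) < m := by linarith
  have hlog : Real.log 2 ≤ Real.log m := Real.log_le_log two_pos hm2
  have hlog2 : 0 < Real.log 2 := Real.log_pos one_lt_two
  have h1' : 2 ≤ γ * m := by rw [div_le_iff₀ hγ] at h1; linarith
  have h2' : 40 ≤ γ * δ * m := by rw [div_le_iff₀ (by positivity)] at h2; linarith
  obtain ⟨k, hk1, hk2⟩ : ∃ k : ℕ, (k : ℝ) ≤ γ * m ∧ γ * m / 2 ≤ k :=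
    ⟨⌊γ * m⌋₊, Nat.floor_le (by positivity), by
      have := Nat.lt_floor_add_one (γ * m); linarith⟩
  have hkm : k ≤ m := by
    have : (k : ℝ) ≤ m := hk1.trans (by simpa using mul_le_mul_of_nonneg_right hγ3 hm0.le)
    exact_mod_cast this
  have hω : (sm a).det.natAbs.primeFactors.card ≤ m :=
    card_primeFactors_le (by simpa using abs_det_sm_le a)
  have hfin : Finite (Gr (sm a)) := finite_Gr hA
  have hloc : ∀ q : ℕ, ∃ 𝓕 : Finset (AddSubgroup (Gr (sm a))), 𝓕.card ≤ 3 ∧ (q.Prime →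
      (∀ H ∈ 𝓕, ∃ k : ℕ, Nat.card H = q ^ k ∧ ee (sm a) q ≤ 10 * k + if q = 2 then 10 else 0) ∧
      ∀ x, IsInt (pr (sm a) x x) → Good (sm a) x q → ∃ H ∈ 𝓕, Ann (sm a) x H) := by
    intro q
    by_cases hq : q.Prime
    · obtain ⟨𝓕, h𝓕, h'⟩ := local_family hA (sm_isSymm a) hq
      exact ⟨𝓕, h𝓕, fun _ => h'⟩
    · exact ⟨∅, by simp, fun h => absurd h hq⟩
  choose 𝓕 h𝓕c h𝓕 using hloc
  choose Φ hΦc hΦ using fun P : Finset ℕ => rlb_fam 𝓕 P fun q _ => h𝓕c q
  refine ⟨((((sm a).det.natAbs.primeFactors.powerset.filter fun T => T.card ≤ k).biUnion Φ).filter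
    fun H => γ * δ / 40 * m * Real.log m ≤ Real.log (Nat.card H)), ?_, ?_, ?_⟩
  · have c1 := hsub ℕ (sm a).det.natAbs.primeFactors m k hω
      (hk1.trans (mul_le_mul_of_nonneg_right hγ1 hm0.le))
    have c2 : ((((sm a).det.natAbs.primeFactors.powerset.filter fun T => T.card ≤ k).biUnion
        Φ)).card ≤ ((sm a).det.natAbs.primeFactors.powerset.filter fun T => T.card ≤ k).card
          * 3 ^ k :=
      Finset.card_biUnion_le_card_mul _ _ _ fun T hT => (hΦc T).trans
        (Nat.pow_le_pow_right (by norm_num) (Finset.mem_filter.1 hT).2)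
    have c3 : (3 : ℝ) ^ k ≤ Real.exp (ε / 2 * m) := by
      have d1 : (3 : ℝ) ≤ Real.exp 2 := by have := Real.add_one_le_exp 2; linarith
      calc (3 : ℝ) ^ k ≤ Real.exp 2 ^ k := pow_le_pow_left₀ (by norm_num) d1 k
        _ = Real.exp (k * 2) := (Real.exp_nat_mul 2 k).symm
        _ ≤ Real.exp (ε / 2 * m) := by
          refine Real.exp_le_exp.2 ?_
          have := mul_le_mul_of_nonneg_right hγ2 hm0.le
          linarith
    have c4 := (Finset.card_filter_le _ fun H : AddSubgroup (Gr (sm a)) =>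
      γ * δ / 40 * m * Real.log m ≤ Real.log (Nat.card H)).trans c2
    refine (Nat.cast_le.2 c4).trans ?_
    push_cast
    calc _ ≤ Real.exp (ε / 2 * m) * Real.exp (ε / 2 * m) :=
          mul_le_mul c1 c3 (by positivity) (by positivity)
      _ = Real.exp (ε * m) := by rw [← Real.exp_add]; congr 1; ring
  · exact fun H hH => (Finset.mem_filter.1 hH).2
  · rintro x ⟨hx, hgw⟩
    have hGc : ((sm a).det.natAbs.primeFactors.filter (Good (sm a) x)).card ≤ m :=
      (Finset.card_filter_le _ _).trans hω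
    obtain ⟨P, hP, hPc, hPw⟩ := top_weights ((sm a).det.natAbs.primeFactors.filter (Good (sm a) x))
      (fun q => (ee (sm a) q : ℝ) * Real.log q)
      (fun q _ => mul_nonneg (Nat.cast_nonneg _) (Real.log_natCast_nonneg q)) hGc hkm
    have hPp : ∀ q ∈ P, q.Prime := fun q hq =>
      Nat.prime_of_mem_primeFactors (Finset.mem_filter.1 (hP hq)).1
    have hch : ∀ q : ℕ, ∃ H : AddSubgroup (Gr (sm a)), ∃ j : ℕ, q ∈ P → H ∈ 𝓕 q ∧ Ann (sm a) x H ∧
        Nat.card H = q ^ j ∧ ee (sm a) q ≤ 10 * j + if q = 2 then 10 else 0 := by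
      intro q
      by_cases hq : q ∈ P
      · obtain ⟨H, hH, hann⟩ := (h𝓕 q (hPp q hq)).2 x hx (Finset.mem_filter.1 (hP hq)).2
        obtain ⟨j, hj⟩ := (h𝓕 q (hPp q hq)).1 H hH
        exact ⟨H, j, fun _ => ⟨hH, hann, hj⟩⟩
      · exact ⟨⊥, 0, fun h => absurd h hq⟩
    choose H j hH using hch
    refine ⟨P.sup H, Finset.mem_filter.2 ⟨Finset.mem_biUnion.2 ⟨P, Finset.mem_filter.2
      ⟨Finset.mem_powerset.2 (hP.trans (Finset.filter_subset _ _)), hPc⟩,
        hΦ P H fun q hq => (hH q hq).1⟩, ?_⟩, ann_iSup hA P H fun q hq => (hH q hq).2.1⟩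
    have d1 := rlb_log_card_sup P hPp H j fun q hq => (hH q hq).2.2.1
    have d2 : ∑ q ∈ P, (ee (sm a) q : ℝ) * Real.log q ≤
        10 * ∑ q ∈ P, (j q : ℝ) * Real.log q + 10 * Real.log 2 := by
      have f1 : ∑ q ∈ P, (ee (sm a) q : ℝ) * Real.log q ≤
          ∑ q ∈ P, (10 * ((j q : ℝ) * Real.log q) + if q = 2 then 10 * Real.log 2 else 0) := by
        refine Finset.sum_le_sum fun q hq => ?_
        have g1 := (hH q hq).2.2.2
        have g0 := Real.log_natCast_nonneg q
        by_cases h2 : q = 2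
        · rw [if_pos h2] at g1 ⊢
          have g2 : (ee (sm a) q : ℝ) ≤ 10 * j q + 10 := by exact_mod_cast g1
          have g3 := mul_le_mul_of_nonneg_right g2 g0
          have g4 : Real.log q = Real.log 2 := by rw [h2]; norm_num
          linarith
        · rw [if_neg h2] at g1 ⊢
          have g2 : (ee (sm a) q : ℝ) ≤ 10 * j q := by exact_mod_cast g1
          have g3 := mul_le_mul_of_nonneg_right g2 g0
          linarith
      rw [Finset.sum_add_distrib, ← Finset.mul_sum, Finset.sum_ite_eq'] at f1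
      refine f1.trans ?_
      split_ifs
      · exact le_rfl
      · linarith
    have hgw' : δ * m * Real.log m ≤ ∑ q ∈ (sm a).det.natAbs.primeFactors.filter (Good (sm a) x),
        (ee (sm a) q : ℝ) * Real.log q := by
      refine hgw.trans (le_of_eq ?_)
      unfold gw
      congr
    have hL : 0 ≤ δ * m * Real.log m := by have := hlog2.le.trans hlog; positivity
    have d3 : γ * m / 2 * (δ * m * Real.log m) ≤ m * ∑ q ∈ P, (ee (sm a) q : ℝ) * Real.log q :=
      (mul_le_mul hk2 hgw' hL (Nat.cast_nonneg k)).trans hPw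
    have d4 : γ / 2 * (δ * m * Real.log m) ≤ ∑ q ∈ P, (ee (sm a) q : ℝ) * Real.log q := by
      refine le_of_mul_le_mul_left ?_ hm0
      linarith
    have d5 : 40 * Real.log 2 ≤ γ * δ * m * Real.log m :=
      mul_le_mul h2' hlog hlog2.le (by positivity)
    linarith

end Crest.Agent.R152.RD
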