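import Crest.Agent.R152.RProb

/-!
# RED: corank of symmetric random matrices (Odlyzko type bound) and reduction to corank one

`exists_principal`: choose a maximal independent set `I` of columns; by symmetry the rows `I` span the
row space too, so `M_II` is nonsingular (if `M_II u = 0` then `M_{·I} u` is killed on the rows `I`, hence
on all rows).  `eq_of_rank`: every column is a combination of the columns `I` (rank), with coefficients
determined by the rows `I`.  `rank_tail`: union over `I` (`2^n` sets); resample the block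
`Sym2 Iᶜ` (`prob_le_of_sections` with `Sym2.map Subtype.val`, `prob_subsingleton`, `Sym2.card`).
`exists_cor1`: add one index `i₀ ∉ I`; the principal submatrix on `insert i₀ I` has rank `≤ |I|`, so
determinant `0`, and the diagonal entry of its adjugate at `i₀` is `det M_II ≠ 0`; enumerate the set
by `Finset.orderEmbOfFin`.  `upper_of_cor1`: `s = ⌊γ n⌋`; `rank_tail` over `ℚ`; the remaining
singular matrices are covered by the index sets of size `> n - s` (`card_small_subsets` for the
complements, `prob_comp` with `Sym2.map`), each of probability `c1 p k ≤ θ^k ≤ θ^n / min(θ,1)^(γ n)`.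
-/

set_option autoImplicit false
set_option linter.unusedSectionVars false

open Matrix Filter Crest.FinProb Crest.ProbabilityR.SignMatrix

noncomputable section

namespace Crest.Agent.R152.RD

variable {ι : Type} [Fintype ι] [DecidableEq ι] {p : ℝ}

theorem rra_span {F : Type} [Field F] {M : Matrix ι ι F} {I : Finset ι}
    (hli : LinearIndependent F (fun k : I => M.col k)) (hM : M.rank ≤ I.card) (j : ι) :
    ∃ u : I → F, ∀ i, M i j = ∑ k : I, u k * M i k := by
  have hle : Submodule.span F (Set.range (fun k : I => M.col k)) ≤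
      Submodule.span F (Set.range M.col) :=
    Submodule.span_mono (by rintro _ ⟨k, rfl⟩; exact ⟨k, rfl⟩)
  have heq := Submodule.eq_of_le_of_finrank_le hle (by
    rw [finrank_span_eq_card hli, ← Matrix.rank_eq_finrank_span_cols]
    simpa using hM)
  have hj : M.col j ∈ Submodule.span F (Set.range (fun k : I => M.col k)) := by
    rw [heq]; exact Submodule.subset_span ⟨j, rfl⟩
  obtain ⟨u, hu⟩ := (Submodule.mem_span_range_iff_exists_fun F).1 hj
  refine ⟨u, fun i => ?_⟩
  have := congrFun hu i
  simp only [Finset.sum_apply, Pi.smul_apply, smul_eq_mul, Matrix.col_apply] at this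
  exact this.symm

theorem rra_li {F : Type} [Field F] {M : Matrix ι ι F} {I : Finset ι}
    (hd : (M.submatrix (Subtype.val : I → ι) (Subtype.val : I → ι)).det ≠ 0) :
    LinearIndependent F (fun k : I => M.col k) := by
  rw [Fintype.linearIndependent_iff]
  intro g hg
  have h0 : g = 0 := by
    refine Matrix.eq_zero_of_mulVec_eq_zero hd ?_
    funext i
    have := congrFun hg i
    simp only [Finset.sum_apply, Pi.smul_apply, smul_eq_mul, Matrix.col_apply,
      Pi.zero_apply] at this
    simp only [Matrix.mulVec, dotProduct, Matrix.submatrix_apply, Pi.zero_apply]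
    rw [← this]
    exact Finset.sum_congr rfl fun k _ => mul_comm _ _
  intro i
  rw [h0]; rfl

theorem exists_principal {F : Type} [Field F] {M : Matrix ι ι F} (hM : M.IsSymm) :
    ∃ I : Finset ι, I.card = M.rank ∧
      (M.submatrix (Subtype.val : I → ι) (Subtype.val : I → ι)).det ≠ 0 := by
  classical
  obtain ⟨s, hs, hmax⟩ := exists_maximal_linearIndepOn F M.col
  let I : Finset ι := s.toFinset
  have hli : LinearIndependent F (fun k : I => M.col k) := by
    have h1 : LinearIndepOn F M.col (I : Set ι) := by simpa [I] using hs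
    exact h1
  have hspan : Submodule.span F (Set.range (fun k : I => M.col k)) =
      Submodule.span F (Set.range M.col) := by
    refine le_antisymm (Submodule.span_mono (by rintro _ ⟨k, rfl⟩; exact ⟨k, rfl⟩)) ?_
    rw [Submodule.span_le]
    rintro _ ⟨i, rfl⟩
    by_cases hi : i ∈ s
    · exact Submodule.subset_span ⟨⟨i, by simpa [I] using hi⟩, rfl⟩
    · obtain ⟨a, ha, hai⟩ := hmax i hi
      have h2 : M.col '' s = Set.range (fun k : I => M.col k) := by
        ext x
        constructor
        · rintro ⟨k, hk, rfl⟩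
          exact ⟨⟨k, by simpa [I] using hk⟩, rfl⟩
        · rintro ⟨⟨k, hk⟩, rfl⟩
          exact ⟨k, by simpa [I] using hk, rfl⟩
      rw [h2] at hai
      exact (Submodule.smul_mem_iff _ ha).1 hai
  have hcard : I.card = M.rank := by
    rw [Matrix.rank_eq_finrank_span_cols, ← hspan, finrank_span_eq_card hli]
    simp
  refine ⟨I, hcard, fun hd => ?_⟩
  obtain ⟨u, hu0, hu⟩ := Matrix.exists_mulVec_eq_zero_iff.2 hd
  apply hu0
  have hu' : ∀ l : I, ∑ k : I, M l k * u k = 0 := fun l => by
    have := congrFun hu l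
    simpa [Matrix.mulVec, dotProduct] using this
  have hz : ∑ k : I, u k • M.col k = 0 := by
    funext i
    obtain ⟨c, hc⟩ := rra_span hli hcard.ge i
    simp only [Finset.sum_apply, Pi.smul_apply, smul_eq_mul, Matrix.col_apply, Pi.zero_apply]
    calc ∑ k : I, u k * M i k = ∑ k : I, ∑ l : I, c l * (M l k * u k) := by
          refine Finset.sum_congr rfl fun k _ => ?_
          rw [hM.apply k i, hc k, Finset.mul_sum]
          refine Finset.sum_congr rfl fun l _ => ?_
          rw [hM.apply l k]; ring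
      _ = 0 := by
          rw [Finset.sum_comm]
          refine Finset.sum_eq_zero fun l _ => ?_
          rw [← Finset.mul_sum, hu' l, mul_zero]
  funext k
  exact Fintype.linearIndependent_iff.1 hli u hz k

theorem eq_of_rank {F : Type} [Field F] {M M' : Matrix ι ι F} {I : Finset ι}
    (hM : M.rank ≤ I.card) (hM' : M'.rank ≤ I.card)
    (hd : (M.submatrix (Subtype.val : I → ι) (Subtype.val : I → ι)).det ≠ 0)
    (h : ∀ i j, i ∈ I ∨ j ∈ I → M i j = M' i j) : M = M' := by
  have he : M.submatrix (Subtype.val : I → ι) (Subtype.val : I → ι) =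
      M'.submatrix (Subtype.val : I → ι) (Subtype.val : I → ι) := by
    ext a b
    exact h _ _ (Or.inl a.2)
  have hd' : (M'.submatrix (Subtype.val : I → ι) (Subtype.val : I → ι)).det ≠ 0 := he ▸ hd
  ext i j
  obtain ⟨u, hu⟩ := rra_span (rra_li hd) hM j
  obtain ⟨u', hu'⟩ := rra_span (rra_li hd') hM' j
  have huu : u - u' = 0 := by
    refine Matrix.eq_zero_of_mulVec_eq_zero hd ?_
    funext l
    simp only [Matrix.mulVec, dotProduct, Matrix.submatrix_apply, Pi.zero_apply, Pi.sub_apply]
    have h1 := hu l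
    have h2 := hu' l
    rw [h l j (Or.inl l.2), h2] at h1
    calc ∑ k : I, M l k * (u k - u' k) = ∑ k : I, u k * M l k - ∑ k : I, u' k * M' l k := by
          rw [← Finset.sum_sub_distrib]
          refine Finset.sum_congr rfl fun k _ => ?_
          rw [← h l k (Or.inl l.2)]; ring
      _ = 0 := by rw [h1, sub_self]
  rw [hu i, hu' i, sub_eq_zero.1 huu]
  exact Finset.sum_congr rfl fun k _ => by rw [h i k (Or.inr k.2)]

theorem rank_tail (h0 : 0 ≤ p) (h1 : p ≤ 1) {F : Type} [Field F] {g : Bool → F}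
    (hg : Function.Injective g) (s : ℕ) :
    bernoulliProb p {b : Sym2 ι → Bool | (gm g b).rank + s ≤ Fintype.card ι} ≤
      2 ^ Fintype.card ι * max p (1 - p) ^ (s * (s + 1) / 2) := by
  classical
  have ht0 : 0 ≤ max p (1 - p) := le_max_of_le_left h0
  have ht1 : max p (1 - p) ≤ 1 := max_le h1 (by linarith)
  refine (prob_cover h0 h1 (Finset.univ.filter fun I : Finset ι => I.card + s ≤ Fintype.card ι) _
    (fun I => {b : Sym2 ι → Bool | (gm g b).rank ≤ I.card ∧
      ((gm g b).submatrix (Subtype.val : I → ι) (Subtype.val : I → ι)).det ≠ 0}) ?_).trans ?_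
  · intro b hb
    have hsymm : (gm g b).IsSymm := by
      ext i j
      simp [gm, Sym2.eq_swap]
    obtain ⟨I, hI, hd⟩ := exists_principal hsymm
    refine ⟨I, Finset.mem_filter.mpr ⟨Finset.mem_univ _, ?_⟩, hI.ge, hd⟩
    rw [hI]
    exact hb
  · have key : ∀ I ∈ (Finset.univ.filter fun I : Finset ι => I.card + s ≤ Fintype.card ι),
        bernoulliProb p {b : Sym2 ι → Bool | (gm g b).rank ≤ I.card ∧
          ((gm g b).submatrix (Subtype.val : I → ι) (Subtype.val : I → ι)).det ≠ 0} ≤
          max p (1 - p) ^ (s * (s + 1) / 2) := by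
      intro I hI
      have hI' := (Finset.mem_filter.mp hI).2
      have hf : Function.Injective (Sym2.map (Subtype.val : {i // i ∉ I} → ι)) :=
        Sym2.map.injective Subtype.val_injective
      refine prob_le_of_sections h0 h1 hf fun ω₀ => (prob_subsingleton h0 h1 ?_).trans ?_
      · intro η hη η' hη'
        have hout : ∀ (ζ : Sym2 {i // i ∉ I} → Bool) (i j : ι), i ∈ I ∨ j ∈ I →
            Function.extend (Sym2.map (Subtype.val : {i // i ∉ I} → ι)) ζ ω₀ s(i, j) =
              ω₀ s(i, j) := by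
          intro ζ i j hij
          refine Function.extend_apply' _ _ _ ?_
          rintro ⟨e, he⟩
          induction e using Sym2.ind with
          | _ a b =>
            rw [Sym2.map_mk, Sym2.eq_iff] at he
            rcases he with ⟨rfl, rfl⟩ | ⟨rfl, rfl⟩ <;> rcases hij with h | h
            exacts [a.2 h, b.2 h, b.2 h, a.2 h]
        have heq := eq_of_rank hη.1 hη'.1 hη.2 fun i j hij => by
          simp only [gm, Matrix.of_apply, hout _ i j hij]
        funext e
        induction e using Sym2.ind with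
        | _ a b =>
          have h2 := congrFun (congrFun heq a) b
          simp only [gm, Matrix.of_apply] at h2
          have h3 := hg h2
          rw [← Sym2.map_mk (Subtype.val : {i // i ∉ I} → ι), hf.extend_apply,
            hf.extend_apply] at h3
          exact h3
      · refine pow_le_pow_of_le_one ht0 ht1 ?_
        rw [Sym2.card, Nat.choose_two_right]
        have hc : s ≤ Fintype.card {i // i ∉ I} := by
          rw [Fintype.card_subtype_compl, Fintype.card_coe]
          omega
        refine Nat.div_le_div_right ?_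
        rw [Nat.add_sub_cancel, mul_comm]
        exact Nat.mul_le_mul (by omega) hc
    refine (Finset.sum_le_card_nsmul _ _ _ key).trans ?_
    rw [nsmul_eq_mul]
    refine mul_le_mul_of_nonneg_right ?_ (pow_nonneg ht0 _)
    have : (Finset.univ.filter fun I : Finset ι => I.card + s ≤ Fintype.card ι).card ≤
        2 ^ Fintype.card ι := by
      rw [← Fintype.card_finset]
      exact Finset.card_le_univ _
    exact_mod_cast this

theorem rrc_cast {κ : Type} [Fintype κ] [DecidableEq κ] (b : Sym2 ι → Bool) (e : κ → ι) :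
    ((sm (b ∘ Sym2.map e)).det : ℚ) =
      ((gm (fun t => if t then (1 : ℚ) else -1) b).submatrix e e).det := by
  rw [Int.cast_det]
  congr 1
  ext i j
  simp only [sm, gm, map_apply, of_apply, submatrix_apply, Function.comp_apply, Sym2.map_mk]
  split_ifs <;> simp

theorem exists_cor1 {n : ℕ} (b : Sym2 (Fin n) → Bool) (hd : (sm b).det = 0) :
    ∃ (I : Finset (Fin n)) (k : ℕ) (hk : I.card = k),
      k = (gm (fun t => if t then (1 : ℚ) else -1) b).rank + 1 ∧
      Cor1 (sm (b ∘ Sym2.map (I.orderEmbOfFin hk))) := by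
  have hM : (gm (fun t => if t then (1 : ℚ) else -1) b).IsSymm := by
    ext i j
    simp only [gm, transpose_apply, of_apply, Sym2.eq_swap]
  obtain ⟨I, hI, hdI⟩ := exists_principal hM
  obtain ⟨i₀, hi₀⟩ : ∃ i₀, i₀ ∉ I := by
    by_contra h
    have h' : Function.Bijective (Subtype.val : I → Fin n) :=
      ⟨Subtype.val_injective, fun i => ⟨⟨i, not_not.1 fun hi => h ⟨i, hi⟩⟩, rfl⟩⟩
    refine hdI ((det_submatrix_equiv_self (Equiv.ofBijective _ h') _).trans ?_)
    have := rrc_cast b id
    rw [Sym2.map_id, Function.comp_id, hd, submatrix_id_id] at this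
    exact_mod_cast this.symm
  have hk : (insert i₀ I).card = I.card + 1 := Finset.card_insert_of_notMem hi₀
  refine ⟨insert i₀ I, _, hk, by rw [hI], ?_, fun h => hdI ?_⟩
  · by_contra h
    have h1 := rrc_cast b ((insert i₀ I).orderEmbOfFin hk)
    have h2 := rank_of_isUnit _ ((isUnit_iff_isUnit_det _).2
      (isUnit_iff_ne_zero.2 (h1 ▸ Int.cast_ne_zero.2 h)))
    have h3 := rank_submatrix_le (gm (fun t => if t then (1 : ℚ) else -1) b)
      ((insert i₀ I).orderEmbOfFin hk) ((insert i₀ I).orderEmbOfFin hk)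
    rw [h2, Fintype.card_fin] at h3
    omega
  · obtain ⟨j, hj⟩ : i₀ ∈ Set.range ((insert i₀ I).orderEmbOfFin hk) := by
      rw [Finset.range_orderEmbOfFin]
      exact Finset.mem_insert_self _ _
    have hm : ∀ t, (insert i₀ I).orderEmbOfFin hk (j.succAbove t) ∈ I := fun t =>
      (Finset.mem_insert.1 (Finset.orderEmbOfFin_mem _ hk _)).resolve_left fun e =>
        j.succAbove_ne t (((insert i₀ I).orderEmbOfFin hk).injective (e.trans hj.symm))
    have h' : Function.Bijective fun t => (⟨_, hm t⟩ : I) :=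
      (Fintype.bijective_iff_injective_and_card _).2 ⟨fun t t' e => Fin.succAbove_right_injective
        (((insert i₀ I).orderEmbOfFin hk).injective (Subtype.mk.inj e)), by simp⟩
    have h1 := adjugate_fin_succ_eq_det_submatrix
      (sm (b ∘ Sym2.map ((insert i₀ I).orderEmbOfFin hk))) j j
    rw [h, Matrix.zero_apply, eq_comm, mul_eq_zero_iff_left (pow_ne_zero _ (by norm_num))] at h1
    rw [← det_submatrix_equiv_self (Equiv.ofBijective _ h')]
    have h2 := rrc_cast b ((insert i₀ I).orderEmbOfFin hk ∘ j.succAbove)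
    exact h2.symm.trans (Int.cast_eq_zero.2 h1)

theorem rrc_tail {q γ θ : ℝ} (q0 : 0 ≤ q) (q1 : q < 1) (hγ : 0 < γ) (hθ : 0 < θ) :
    ∀ᶠ n : ℕ in atTop, 2 ^ n * q ^ (⌊γ * n⌋₊ * (⌊γ * n⌋₊ + 1) / 2) ≤ θ ^ n := by
  obtain ⟨A, hA⟩ := exists_pow_lt_of_lt_one (half_pos hθ) q1
  filter_upwards [((tendsto_natCast_atTop_atTop (R := ℝ)).const_mul_atTop hγ).eventually_ge_atTop
    (2 * A / γ + 1)] with n hn
  have h1 : γ * n < ⌊γ * n⌋₊ + 1 := Nat.lt_floor_add_one _
  generalize ⌊γ * n⌋₊ = s at h1
  have h2 : 2 * A ≤ s * γ := (div_le_iff₀ hγ).1 (by linarith)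
  have h3 : (A : ℝ) * n * 2 ≤ s * (s + 1) := by
    linarith [mul_le_mul_of_nonneg_right h2 (n.cast_nonneg (α := ℝ)),
      mul_le_mul_of_nonneg_left h1.le (s.cast_nonneg (α := ℝ))]
  have h4 : A * n ≤ s * (s + 1) / 2 := (Nat.le_div_iff_mul_le two_pos).2 (by exact_mod_cast h3)
  refine (mul_le_mul_of_nonneg_left (pow_le_pow_of_le_one q0 q1.le h4) (by positivity)).trans ?_
  rw [pow_mul, ← mul_pow]
  exact pow_le_pow_left₀ (by positivity) (by linarith) n

theorem upper_of_cor1 (h0 : 0 < p) (h1 : p < 1) {θ θ' : ℝ} (hθ : 0 < θ) (hθ' : θ < θ')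
    (h : ∀ᶠ k : ℕ in atTop, c1 p k ≤ θ ^ k) : ∀ᶠ n : ℕ in atTop, singularProb n p ≤ θ' ^ n := by
  obtain ⟨k₀, hk₀⟩ := eventually_atTop.1 h
  have θ'0 : 0 < θ' := hθ.trans hθ'
  obtain ⟨ε, hε, e1⟩ : ∃ ε : ℝ, 0 < ε ∧ θ * Real.exp (3 * ε) = θ' := by
    refine ⟨Real.log (θ' / θ) / 3, div_pos (Real.log_pos ((one_lt_div hθ).2 hθ')) three_pos, ?_⟩
    rw [mul_div_cancel₀ _ three_ne_zero, Real.exp_log (by positivity), mul_div_cancel₀ _ hθ.ne']
  obtain ⟨γ₀, g0, hγ₀⟩ := card_small_subsets hε
  obtain ⟨γ, g1, g2, g3, g4⟩ : ∃ γ : ℝ, 0 < γ ∧ γ ≤ γ₀ ∧ γ ≤ 1 / 2 ∧ γ * |Real.log θ| ≤ ε := by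
    refine ⟨min γ₀ (min (1 / 2) (ε / (|Real.log θ| + 1))), by positivity, min_le_left _ _,
      (min_le_right _ _).trans (min_le_left _ _), ?_⟩
    refine (mul_le_mul_of_nonneg_right ((min_le_right _ _).trans (min_le_right _ _))
      (abs_nonneg _)).trans ?_
    rw [div_mul_eq_mul_div, div_le_iff₀ (by positivity)]
    linarith
  filter_upwards [rrc_tail (le_max_of_le_left h0.le) (max_lt h1 (by linarith : 1 - p < 1)) g1
    (half_pos θ'0), eventually_ge_atTop (2 * k₀ + 1),
    (tendsto_natCast_atTop_atTop (R := ℝ)).eventually_ge_atTop (1 / ε)] with n t1 t2 t3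
  have s1 : (⌊γ * n⌋₊ : ℝ) ≤ γ * n := Nat.floor_le (by positivity)
  generalize ⌊γ * n⌋₊ = s at t1 s1
  have n0 : (0 : ℝ) ≤ n := n.cast_nonneg
  have s2 : 2 * s ≤ n := by
    have : 2 * (s : ℝ) ≤ n := by linarith [mul_le_mul_of_nonneg_right g3 n0]
    exact_mod_cast this
  have a1 := rank_tail (ι := Fin n) h0.le h1.le (g := fun t => if t then (1 : ℚ) else -1)
    (by decide) s
  rw [Fintype.card_fin] at a1
  have a2 := prob_cover h0.le h1.le ((Finset.univ : Finset (Fin n)).powerset.filter fun T =>
    T.card ≤ s) {b : Sym2 (Fin n) → Bool | (sm b).det = 0 ∧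
      ¬ (gm (fun t => if t then (1 : ℚ) else -1) b).rank + s ≤ n}
    (fun T => {b | b ∘ Sym2.map (Tᶜ.orderEmbOfFin rfl) ∈ {a | Cor1 (sm a)}}) fun b hb => by
      obtain ⟨I, k, rfl, hk, hc⟩ := exists_cor1 b hb.1
      refine ⟨Iᶜ, Finset.mem_filter.2 ⟨Finset.mem_powerset.2 (Finset.subset_univ _), ?_⟩, ?_⟩
      · have := hb.2
        rw [Finset.card_compl, Fintype.card_fin]
        omega
      · rw [compl_compl]
        exact hc
  have a3 := Finset.sum_le_card_nsmul ((Finset.univ : Finset (Fin n)).powerset.filter fun T =>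
    T.card ≤ s) (fun T => bernoulliProb p {b : Sym2 (Fin n) → Bool |
      b ∘ Sym2.map (Tᶜ.orderEmbOfFin rfl) ∈ {a | Cor1 (sm a)}}) (θ ^ n * Real.exp (ε * n))
    fun T hT => by
      have b1 := (Finset.mem_filter.1 hT).2
      have b2 : Tᶜ.card + T.card = n := by rw [Finset.card_compl_add_card, Fintype.card_fin]
      have b3 : (T.card : ℝ) ≤ γ * n := le_trans (by exact_mod_cast b1) s1
      rw [prob_comp p (Sym2.map.injective (Tᶜ.orderEmbOfFin rfl).injective)]
      refine (hk₀ _ (by omega)).trans ?_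
      have b4 : 1 ≤ θ ^ T.card * Real.exp (ε * n) := by
        rw [← Real.exp_log hθ, ← Real.exp_nat_mul, ← Real.exp_add]
        refine Real.one_le_exp ?_
        linarith [mul_le_mul_of_nonneg_right b3 (abs_nonneg (Real.log θ)),
          mul_le_mul_of_nonneg_right g4 n0,
          mul_le_mul_of_nonneg_left (neg_abs_le (Real.log θ)) (T.card.cast_nonneg (α := ℝ))]
      rw [show θ ^ n = θ ^ Tᶜ.card * θ ^ T.card by rw [← pow_add, b2], mul_assoc]
      exact le_mul_of_one_le_right (by positivity) b4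
  have a4 := hγ₀ (Fin n) Finset.univ n s (by simp) (s1.trans (mul_le_mul_of_nonneg_right g2 n0))
  rw [nsmul_eq_mul] at a3
  have a5 := mul_le_mul_of_nonneg_right a4 (show 0 ≤ θ ^ n * Real.exp (ε * n) by positivity)
  have a6 : θ' ^ n = Real.exp (ε * n) * (θ ^ n * Real.exp (ε * n)) * Real.exp (ε * n) := by
    rw [← e1, mul_pow, ← Real.exp_nat_mul, show n * (3 * ε) = ε * n + ε * n + ε * n by ring,
      Real.exp_add, Real.exp_add]
    ring
  have a7 : 2 ≤ Real.exp (ε * n) := by
    rw [div_le_iff₀ hε] at t3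
    linarith [Real.add_one_le_exp (ε * n)]
  have a8 := mul_le_mul_of_nonneg_left a7
    (show 0 ≤ Real.exp (ε * n) * (θ ^ n * Real.exp (ε * n)) by positivity)
  have a9 : (θ' / 2) ^ n ≤ θ' ^ n / 2 := by
    rw [div_pow]
    exact div_le_div_of_nonneg_left (by positivity) two_pos (le_self_pow₀ one_le_two (by omega))
  refine le_trans (prob_mono h0.le h1.le (fun b hb => ?_)) ((prob_union h0.le h1.le _ _).trans
    ((add_le_add a1 a2).trans (by linarith)))
  exact (em _).imp id fun h' => ⟨hb, h'⟩

/-- union of `rank_tail` over the primes `q ≤ m ^ K` -/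
theorem prob_not_goodT (h0 : 0 < p) (h1 : p < 1) (K : ℕ) {γ θ : ℝ} (hγ : 0 < γ) (hθ : 0 < θ) :
    ∀ᶠ m : ℕ in atTop,
      bernoulliProb p {a : Sym2 (Fin m) → Bool | ¬ GoodT K ⌊γ * m⌋₊ a} ≤ θ ^ m := by
  classical
  set t := max p (1 - p) with ht
  have ht0 : 0 < t := lt_max_of_lt_left h0
  have ht1 : t < 1 := max_lt h1 (by linarith)
  have hc : 0 < -Real.log t := neg_pos.mpr (Real.log_neg ht0 ht1)
  set c := -Real.log t with hcdef
  filter_upwards [eventually_ge_atTop 1,
    (tendsto_natCast_atTop_atTop (R := ℝ)).eventually_ge_atTop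
      (2 * (K + 2 - Real.log θ) / (c * γ ^ 2))] with m hm1 hm
  set s := ⌊γ * m⌋₊ with hs
  set N := (s + 1) * (s + 1 + 1) / 2 with hN
  refine (prob_cover h0.le h1.le (Finset.range (m ^ K + 1)) _
    (fun q => {a : Sym2 (Fin m) → Bool | ∃ _ : Fact q.Prime,
      (bm (ZMod q) a).rank + (s + 1) ≤ m}) ?_).trans ?_
  · intro a ha
    simp only [Set.mem_ofPred_eq, GoodT, not_forall, not_le] at ha
    obtain ⟨q, hq, hq', ha⟩ := ha
    exact ⟨q, Finset.mem_range.mpr (Nat.lt_succ_of_le hq'), hq, ha⟩
  · have key : ∀ q ∈ Finset.range (m ^ K + 1),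
        bernoulliProb p {a : Sym2 (Fin m) → Bool | ∃ _ : Fact q.Prime,
          (bm (ZMod q) a).rank + (s + 1) ≤ m} ≤ 2 ^ m * t ^ N := by
      intro q _
      by_cases hq : q.Prime
      · have : Fact q.Prime := ⟨hq⟩
        have hg : Function.Injective (fun t : Bool => if t then (1 : ZMod q) else 0) := by
          intro x y hxy
          cases x <;> cases y <;> simp_all
        have h2 := rank_tail (ι := Fin m) h0.le h1.le hg (s + 1)
        rw [Fintype.card_fin] at h2
        refine (prob_mono h0.le h1.le ?_).trans h2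
        rintro a ⟨_, ha⟩
        exact ha
      · have : {a : Sym2 (Fin m) → Bool | ∃ _ : Fact q.Prime,
            (bm (ZMod q) a).rank + (s + 1) ≤ m} = ∅ := by
          ext a
          simp only [Set.mem_ofPred_eq, Set.mem_empty_iff_false, iff_false, not_exists]
          exact fun h _ => hq h.out
        rw [this]
        have h2 : bernoulliProb p (∅ : Set (Sym2 (Fin m) → Bool)) = 0 := by simp [bernoulliProb]
        rw [h2]
        positivity
    refine (Finset.sum_le_card_nsmul _ _ _ key).trans ?_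
    rw [nsmul_eq_mul, Finset.card_range]
    have hm1' : (1 : ℝ) ≤ m := by exact_mod_cast hm1
    have e1 : (2 : ℝ) ≤ Real.exp 1 := by linarith [Real.add_one_le_exp (1 : ℝ)]
    have e2 : (2 : ℝ) ^ m ≤ Real.exp m := by
      calc (2 : ℝ) ^ m ≤ Real.exp 1 ^ m := pow_le_pow_left₀ (by norm_num) e1 m
        _ = Real.exp m := by rw [← Real.exp_nat_mul, mul_one]
    have e3 : ((m ^ K + 1 : ℕ) : ℝ) ≤ Real.exp m * Real.exp (K * m) := by
      have a1 : (m : ℝ) ^ K ≤ Real.exp (K * m) := by
        rw [Real.exp_nat_mul]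
        exact pow_le_pow_left₀ (by positivity) (by linarith [Real.add_one_le_exp (m : ℝ)]) K
      have a2 : (1 : ℝ) ≤ Real.exp (K * m) := Real.one_le_exp (by positivity)
      have a3 : (2 : ℝ) ≤ Real.exp m := e1.trans (Real.exp_le_exp.mpr hm1')
      push_cast
      nlinarith
    have e4 : γ ^ 2 * (m : ℝ) ^ 2 / 2 ≤ N := by
      have a1 : γ * m < s + 1 := Nat.lt_floor_add_one _
      have a2 : (s + 1) * (s + 1) ≤ 2 * N := by
        have : (s + 1) * (s + 1 + 1) = (s + 1) * (s + 1) + (s + 1) := by ring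
        omega
      have a3 : ((s : ℝ) + 1) * (s + 1) ≤ 2 * N := by exact_mod_cast a2
      have a4 : 0 ≤ γ * m := by positivity
      nlinarith
    have e5 : t ^ N = Real.exp (-(c * N)) := by
      rw [hcdef, neg_mul, neg_neg, mul_comm, Real.exp_nat_mul, Real.exp_log ht0]
    have e6 : θ ^ m = Real.exp (m * Real.log θ) := by
      rw [Real.exp_nat_mul, Real.exp_log hθ]
    rw [e5, e6]
    calc ((m ^ K + 1 : ℕ) : ℝ) * (2 ^ m * Real.exp (-(c * N)))
        ≤ (Real.exp m * Real.exp (K * m)) * (Real.exp m * Real.exp (-(c * N))) := by gcongr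
      _ = Real.exp (m + K * m + (m + -(c * N))) := by simp only [Real.exp_add]
      _ ≤ Real.exp (m * Real.log θ) := by
        refine Real.exp_le_exp.mpr ?_
        have a1 : 0 < c * γ ^ 2 := by positivity
        rw [div_le_iff₀ a1] at hm
        have a2 : c * (γ ^ 2 * (m : ℝ) ^ 2 / 2) ≤ c * N := mul_le_mul_of_nonneg_left e4 hc.le
        nlinarith

end Crest.Agent.R152.RD
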