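import Crest.Agent.R152.RAri
import Crest.Agent.R152.RRank

/-!
# RED: small torsion of the discriminant group; `N1` from the master theorem

`card_ker_le`: strong induction on `k = q k'` (`q = k.minFac`): reduction modulo `q` maps the kernel
modulo `k` to the kernel modulo `q` (which has `q^(m - rank) ≤ q^s` elements); two elements with the same
reduction differ by `q u'` with `u'` in the kernel modulo `k'`.
`card_torsion_le`: `g = cl z` with `2k g = 0` gives the integer vector `u = 2k A⁻¹ z` with `A u = 2k z`,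
and `g` is determined by `u` modulo `2k`.  `A = 2 B - J`: `2 B u - σ 1 ≡ 0 (mod 2k)`, so `σ = 2τ` and
`B u ≡ τ 1 (mod k)`.  So `g` is determined by `u mod k` (for each `τ ∈ ZMod k` a coset of the kernel of
`B` modulo `k`, or empty) and `m` bits.
`exists_separated`: a maximal subset `Y` with the property (`Finset.exists_maximal`/greedy); every
`h ∈ H` lies in `y + B` for some `y ∈ Y`.
`n1_of_mts`: `MTS` with `ε, δ/2` gives `δ', K, c`; `γ = δ / (8 (K+1))`, `s = ⌊γ m⌋`; outside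
`BadM` and `¬ GoodT K s` (`prob_not_goodT`): `B = {g | ∃ k ∈ [1, m^K], 2k g = 0}` has at most
`m^K 2^m (m^K)^(s+1) ≤ exp(δ/2 m log m)` elements; take representatives `z` of `Y`, the pairs
`(iv A z, 0)`, `r = 0`.  Separation: if `2k (y - y') = z' + η`, `|η| < 1/(4m)`, then `A η` is an integer
vector with entries `< 1`, so `η = 0` and `2k (cl z - cl z₂) = 0` (`cl_eq_zero_iff_real`).
-/

set_option autoImplicit false
set_option linter.unusedSectionVars false

open Matrix Filter Crest.FinProb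

noncomputable section

namespace Crest.Agent.R152.RD

theorem rta_cast {ι : Type} [Fintype ι] (B : Matrix ι ι ℤ) (k : ℕ) (z : ι → ℤ) :
    B.map (Int.cast : ℤ → ZMod k) *ᵥ (fun i => (z i : ZMod k)) = 0 ↔ ∀ i, (k : ℤ) ∣ (B *ᵥ z) i := by
  rw [funext_iff]
  refine forall_congr' fun i => ?_
  rw [← ZMod.intCast_zmod_eq_zero_iff_dvd]
  exact Eq.congr_left (RingHom.map_mulVec (Int.castRingHom (ZMod k)) B z i).symm

theorem rta_mul {ι : Type} [Fintype ι] (B : Matrix ι ι ℤ) {a b : ℕ} (ha : 0 < a) (hb : 0 < b) :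
    Nat.card {u : ι → ZMod (a * b) // B.map (Int.cast : ℤ → ZMod (a * b)) *ᵥ u = 0} ≤
      Nat.card {u : ι → ZMod a // B.map (Int.cast : ℤ → ZMod a) *ᵥ u = 0} *
        Nat.card {u : ι → ZMod b // B.map (Int.cast : ℤ → ZMod b) *ᵥ u = 0} := by
  have : NeZero a := ⟨ha.ne'⟩
  have : NeZero b := ⟨hb.ne'⟩
  choose z hz using ZMod.intCast_surjective (n := a * b)
  have h1 : ∀ u : {u : ι → ZMod (a * b) // B.map (Int.cast : ℤ → ZMod (a * b)) *ᵥ u = 0}, ∀ i,
      ((a * b : ℕ) : ℤ) ∣ (B *ᵥ fun i => z (u.1 i)) i := fun u =>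
    (rta_cast B _ _).1 (by simpa only [hz] using u.2)
  let π : {u : ι → ZMod (a * b) // B.map (Int.cast : ℤ → ZMod (a * b)) *ᵥ u = 0} →
      {u : ι → ZMod a // B.map (Int.cast : ℤ → ZMod a) *ᵥ u = 0} := fun u =>
    ⟨fun i => (z (u.1 i) : ZMod a), (rta_cast B _ _).2 fun i =>
      (Int.natCast_dvd_natCast.2 (dvd_mul_right a b)).trans (h1 u i)⟩
  have : Nonempty {u : ι → ZMod (a * b) // B.map (Int.cast : ℤ → ZMod (a * b)) *ᵥ u = 0} :=
    ⟨⟨0, mulVec_zero _⟩⟩
  have key : ∀ u, ∃ w : {u : ι → ZMod b // B.map (Int.cast : ℤ → ZMod b) *ᵥ u = 0}, ∀ i,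
      u.1 i = (Function.invFun π (π u)).1 i + ((a * ZMod.cast (w.1 i) : ℤ) : ZMod (a * b)) := by
    intro u
    have h2 : π (Function.invFun π (π u)) = π u := Function.invFun_eq ⟨u, rfl⟩
    generalize Function.invFun π (π u) = v at h2
    have h3 : ∀ i, ∃ w, z (u.1 i) - z (v.1 i) = a * w := fun i =>
      (ZMod.intCast_eq_intCast_iff_dvd_sub _ _ _).1 (congrFun (congrArg Subtype.val h2) i)
    choose w hw using h3
    refine ⟨⟨fun i => (w i : ZMod b), (rta_cast B _ _).2 fun i => ?_⟩, fun i => ?_⟩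
    · have h4 := (h1 u i).sub (h1 v i)
      rw [← Pi.sub_apply, ← mulVec_sub,
        show ((fun i => z (u.1 i)) - fun i => z (v.1 i)) = (a : ℤ) • w from funext hw, mulVec_smul,
        Nat.cast_mul] at h4
      exact (mul_dvd_mul_iff_left (Int.natCast_ne_zero.2 ha.ne')).1 h4
    · rw [ZMod.coe_intCast, (ZMod.intCast_eq_intCast_iff _ _ _).2
        (by push_cast; exact (Int.mod_modEq (w i) b).mul_left'), ← hw, Int.cast_sub, hz, hz,
        add_sub_cancel]
  choose g hg using key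
  rw [← Nat.card_prod]
  refine Nat.card_le_card_of_injective (fun u => (π u, g u)) fun u u' e =>
    Subtype.ext (funext fun i => ?_)
  rw [hg u, hg u', (Prod.mk.inj e).1, (Prod.mk.inj e).2]

theorem card_ker_le {ι : Type} [Fintype ι] [DecidableEq ι] (B : Matrix ι ι ℤ) (s : ℕ) {k : ℕ}
    (hk : 0 < k) (h : ∀ (q : ℕ) [Fact q.Prime], q ∣ k →
      Fintype.card ι ≤ (B.map (Int.cast : ℤ → ZMod q)).rank + s) :
    Nat.card {u : ι → ZMod k // B.map (Int.cast : ℤ → ZMod k) *ᵥ u = 0} ≤ k ^ s := by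
  induction k using induction_on_primes with
  | zero => exact absurd hk (lt_irrefl _)
  | one =>
    rw [one_pow]
    exact Finite.card_le_one_iff_subsingleton.2 inferInstance
  | prime_mul q a hq ih =>
    have ha : 0 < a := Nat.pos_of_mul_pos_left hk
    have : Fact q.Prime := ⟨hq⟩
    rw [mul_pow]
    refine (rta_mul B hq.pos ha).trans (Nat.mul_le_mul ?_ (ih ha fun r _ hr => h r (hr.mul_left q)))
    have h1 := h q (dvd_mul_right q a)
    have h2 := (B.map (Int.cast : ℤ → ZMod q)).mulVecLin.finrank_range_add_finrank_ker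
    have h3 := Module.natCard_eq_pow_finrank (K := ZMod q)
      (V := LinearMap.ker (B.map (Int.cast : ℤ → ZMod q)).mulVecLin)
    rw [Nat.card_zmod] at h3
    rw [Module.finrank_fintype_fun_eq_card] at h2
    unfold Matrix.rank at h1
    exact h3.le.trans (Nat.pow_le_pow_right hq.pos (by omega))

theorem rtb_map {ι : Type} [Fintype ι] [DecidableEq ι] (R : Type) [Ring R] (a : Sym2 ι → Bool) :
    (bm ℤ a).map (Int.cast : ℤ → R) = bm R a := by
  ext i j
  simp only [bm, gm, Matrix.map_apply, Matrix.of_apply]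
  split_ifs <;> simp

theorem rtb_sm {ι : Type} [Fintype ι] [DecidableEq ι] (a : Sym2 ι → Bool) (u : ι → ℤ) (i : ι) :
    (sm a *ᵥ u) i = 2 * (bm ℤ a *ᵥ u) i - ∑ j, u j := by
  simp only [Matrix.mulVec, dotProduct, sm, bm, gm, Matrix.of_apply, Finset.mul_sum,
    ← Finset.sum_sub_distrib]
  refine Finset.sum_congr rfl fun j _ => ?_
  split_ifs <;> ring

theorem rtb_dvd {k u v : ℤ} (h1 : u % k = v % k) (h2 : (u / k) % 2 = (v / k) % 2) :
    ∃ w, u - v = 2 * k * w := by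
  obtain ⟨w, hw⟩ : (2 : ℤ) ∣ u / k - v / k := by omega
  refine ⟨w, ?_⟩
  have e1 := Int.mul_ediv_add_emod u k
  have e2 := Int.mul_ediv_add_emod v k
  have : u - v = k * (u / k - v / k) := by rw [mul_sub]; linarith
  rw [this, hw]
  ring

theorem card_torsion_le {m K s k : ℕ} {a : Sym2 (Fin m) → Bool} (hA : (sm a).det ≠ 0)
    (hg : GoodT K s a) (hk : 1 ≤ k) (hkK : k ≤ m ^ K) :
    Nat.card {g : Gr (sm a) // (2 * k) • g = 0} ≤ 2 ^ m * k ^ (s + 1) := by
  classical
  have : NeZero k := ⟨by omega⟩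
  have hker := card_ker_le (bm ℤ a) s (k := k) hk fun q _ hq => by
    rw [rtb_map, Fintype.card_fin]
    exact hg q ((Nat.le_of_dvd hk hq).trans hkK)
  set B := (bm ℤ a).map (Int.cast : ℤ → ZMod k) with hB
  have hex : ∀ g : {g : Gr (sm a) // (2 * k) • g = 0}, ∃ z u : Fin m → ℤ, cl (sm a) z = g.1 ∧
      sm a *ᵥ u = ((2 * k : ℕ) : ℤ) • z := by
    rintro ⟨g, hg2⟩
    obtain ⟨z, rfl⟩ := cl_surjective (sm a) g
    have h1 : cl (sm a) (((2 * k : ℕ) : ℤ) • z) = 0 := by rw [cl_zsmul, natCast_zsmul, hg2]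
    obtain ⟨u, hu⟩ := (Submodule.Quotient.mk_eq_zero _).1 h1
    exact ⟨z, u, rfl, hu⟩
  choose z u hz hu using hex
  have hBu : ∀ g, B *ᵥ (fun i => ((u g i : ℤ) : ZMod k)) =
      fun _ => ((((∑ j, u g j) / 2 : ℤ)) : ZMod k) := by
    intro g
    funext i
    have h1 := congrFun (hu g) i
    rw [rtb_sm, Pi.smul_apply, smul_eq_mul] at h1
    have h2 : (bm ℤ a *ᵥ u g) i = (∑ j, u g j) / 2 + k * z g i := by
      push_cast at h1
      rw [mul_assoc] at h1
      omega
    have h3 : (B *ᵥ fun i => ((u g i : ℤ) : ZMod k)) i = (((bm ℤ a *ᵥ u g) i : ℤ) : ZMod k) := by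
      simp only [hB, Matrix.mulVec, dotProduct, Matrix.map_apply]
      push_cast
      rfl
    rw [h3, h2]
    push_cast
    simp
  have hw : ∀ τ : ZMod k, ∃ w : Fin m → ZMod k, (∃ w', B *ᵥ w' = fun _ => τ) →
      B *ᵥ w = fun _ => τ := by
    intro τ
    by_cases h : ∃ w', B *ᵥ w' = fun _ => τ
    · obtain ⟨w', hw'⟩ := h
      exact ⟨w', fun _ => hw'⟩
    · exact ⟨0, fun h' => (h h').elim⟩
  choose w hw using hw
  let F : {g : Gr (sm a) // (2 * k) • g = 0} →
      (Fin m → Bool) × ZMod k × {v : Fin m → ZMod k // B *ᵥ v = 0} := fun g =>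
    (fun i => decide ((u g i / k) % 2 = 0), ((((∑ j, u g j) / 2 : ℤ)) : ZMod k),
      ⟨(fun i => ((u g i : ℤ) : ZMod k)) - w ((((∑ j, u g j) / 2 : ℤ)) : ZMod k), by
        rw [Matrix.mulVec_sub, hw _ ⟨_, hBu g⟩, hBu g, sub_self]⟩)
  have hF : Function.Injective F := by
    intro g g' h
    simp only [F, Prod.mk.injEq, Subtype.mk.injEq] at h
    obtain ⟨h1, h2, h3⟩ := h
    rw [h2, sub_left_inj] at h3
    have h4 : ∀ i, ∃ t, u g i - u g' i = 2 * k * t := fun i => by
      refine rtb_dvd ((ZMod.intCast_eq_intCast_iff' _ _ _).1 (congrFun h3 i)) ?_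
      have := congrFun h1 i
      simp only [decide_eq_decide] at this
      omega
    choose t ht using h4
    have h5 : u g - u g' = ((2 * k : ℕ) : ℤ) • t := by
      funext i
      rw [Pi.sub_apply, ht i, Pi.smul_apply, smul_eq_mul]
      push_cast
      ring
    have h6 : ((2 * k : ℕ) : ℤ) • (sm a *ᵥ t) = ((2 * k : ℕ) : ℤ) • (z g - z g') := by
      rw [← Matrix.mulVec_smul, ← h5, Matrix.mulVec_sub, hu, hu, smul_sub]
    have h7 : sm a *ᵥ t = z g - z g' :=
      smul_right_injective _ (by exact_mod_cast (by omega : 2 * k ≠ 0)) h6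
    refine Subtype.ext ?_
    rw [← hz, ← hz]
    exact (Submodule.Quotient.eq _).2 ⟨t, h7⟩
  calc Nat.card {g : Gr (sm a) // (2 * k) • g = 0}
      ≤ Nat.card ((Fin m → Bool) × ZMod k × {v : Fin m → ZMod k // B *ᵥ v = 0}) :=
        Nat.card_le_card_of_injective F hF
    _ = 2 ^ m * (k * Nat.card {v : Fin m → ZMod k // B *ᵥ v = 0}) := by
        rw [Nat.card_prod, Nat.card_prod, Nat.card_zmod, Nat.card_eq_fintype_card]
        simp
    _ ≤ 2 ^ m * k ^ (s + 1) := by
        rw [pow_succ']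
        exact Nat.mul_le_mul_left _ (Nat.mul_le_mul_left _ hker)

theorem exists_separated {G : Type} [AddCommGroup G] [DecidableEq G] (H B : Finset G)
    (h0 : (0 : G) ∈ B) (hB : ∀ g ∈ B, -g ∈ B) :
    ∃ Y ⊆ H, H.card ≤ Y.card * B.card ∧ ∀ y ∈ Y, ∀ y' ∈ Y, y ≠ y' → y - y' ∉ B := by
  obtain ⟨Y, hY, hmax⟩ := Finset.exists_max_image
    (H.powerset.filter fun Y => ∀ y ∈ Y, ∀ y' ∈ Y, y ≠ y' → y - y' ∉ B) Finset.card ⟨∅, by simp⟩
  obtain ⟨h1, h2⟩ := Finset.mem_filter.1 hY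
  rw [Finset.mem_powerset] at h1
  refine ⟨Y, h1, ?_, h2⟩
  refine (Finset.card_le_card (t := Y.biUnion fun y => B.image (y + ·)) fun h hh => ?_).trans
    (Finset.card_biUnion_le_card_mul _ _ _ fun y _ => Finset.card_image_le)
  by_contra hc
  have h3 : ∀ y ∈ Y, h - y ∉ B := fun y hy hb =>
    hc (Finset.mem_biUnion.2 ⟨y, hy, Finset.mem_image.2 ⟨_, hb, add_sub_cancel y h⟩⟩)
  have h4 : h ∉ Y := fun hy => h3 h hy (by rwa [sub_self])
  have h5 := hmax (insert h Y) (Finset.mem_filter.2 ⟨Finset.mem_powerset.2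
    (Finset.insert_subset hh h1), fun y hy y' hy' hne => ?_⟩)
  · rw [Finset.card_insert_of_notMem h4] at h5
    omega
  · rcases Finset.mem_insert.1 hy with rfl | a1 <;> rcases Finset.mem_insert.1 hy' with rfl | a2
    · exact absurd rfl hne
    · exact h3 _ a2
    · exact fun hb => h3 _ a1 (neg_sub y _ ▸ hB _ hb)
    · exact h2 _ a1 _ a2 hne

theorem rtc_mul_iv {ι : Type} [Fintype ι] [DecidableEq ι] {A : Matrix ι ι ℤ} (hA : A.det ≠ 0)
    (z : ι → ℤ) : A.map (Int.cast : ℤ → ℝ) *ᵥ iv A z = fun i => (z i : ℝ) := by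
  have h : IsUnit (A.map (Int.cast : ℤ → ℝ)).det := by
    rw [← Int.cast_det]
    exact isUnit_iff_ne_zero.2 (Int.cast_ne_zero.2 hA)
  rw [iv, mulVec_mulVec, mul_nonsing_inv _ h, one_mulVec]

theorem rtc_sep {m k : ℕ} (hm : 1 ≤ m) {a : Sym2 (Fin m) → Bool} (hA : (sm a).det ≠ 0)
    (z z' w : Fin m → ℤ)
    (h : ∀ i, |2 * k * (iv (sm a) z i - iv (sm a) z' i) - w i| < 1 / (4 * (m : ℝ))) :
    (2 * k) • (cl (sm a) z - cl (sm a) z') = 0 := by
  have hm' : (0 : ℝ) < m := by exact_mod_cast hm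
  have key : sm a *ᵥ w = ((2 * k : ℕ) : ℤ) • (z - z') := by
    funext i
    have e1 := congrFun (rtc_mul_iv hA z) i
    have e2 := congrFun (rtc_mul_iv hA z') i
    simp only [mulVec, dotProduct, map_apply] at e1 e2
    have e3 : ((((2 * k : ℕ) : ℤ) * (z i - z' i) - (sm a *ᵥ w) i : ℤ) : ℝ) =
        ∑ j, (sm a i j : ℝ) * (2 * k * (iv (sm a) z j - iv (sm a) z' j) - w j) := by
      simp only [mulVec, dotProduct]
      push_cast
      rw [← e1, ← e2, ← Finset.sum_sub_distrib, Finset.mul_sum, ← Finset.sum_sub_distrib]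
      exact Finset.sum_congr rfl fun j _ => by ring
    have e4 : |((((2 * k : ℕ) : ℤ) * (z i - z' i) - (sm a *ᵥ w) i : ℤ) : ℝ)| < 1 := by
      rw [e3]
      refine (Finset.abs_sum_le_sum_abs _ _).trans_lt ?_
      refine (Finset.sum_le_sum (g := fun _ => 1 / (4 * (m : ℝ))) fun j _ => ?_).trans_lt ?_
      · rw [abs_mul, ← Int.cast_abs, abs_sm, Int.cast_one, one_mul]
        exact (h j).le
      · rw [Finset.sum_const, Finset.card_univ, Fintype.card_fin, nsmul_eq_mul, mul_one_div,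
          div_lt_one (by positivity)]
        linarith
    rw [← Int.cast_abs] at e4
    have e5 : |((2 * k : ℕ) : ℤ) * (z i - z' i) - (sm a *ᵥ w) i| < 1 := by exact_mod_cast e4
    have e6 := Int.abs_lt_one_iff.1 e5
    simp only [Pi.smul_apply, Pi.sub_apply, smul_eq_mul]
    linarith
  have h1 : cl (sm a) (((2 * k : ℕ) : ℤ) • (z - z')) = 0 :=
    (Submodule.Quotient.mk_eq_zero _).2 ⟨w, key⟩
  rw [cl_zsmul, natCast_zsmul] at h1
  rw [← h1]
  rfl

theorem rtc_bad {m K s : ℕ} {ε δ δ' : ℝ} (hm : 1 ≤ m) (hδ' : 0 < δ') {a : Sym2 (Fin m) → Bool}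
    (hA : (sm a).det ≠ 0) (hg : GoodT K s a) (H : AddSubgroup (Gr (sm a)))
    (hH : δ * m * Real.log m ≤ Real.log (Nat.card H)) (S : Finset (Fin m → Bool))
    (hS : Real.exp (ε * m) ≤ S.card) (hann : ∀ x ∈ S, Ann (sm a) (sv x) H)
    (hnum : ((m ^ K * (2 ^ m * (m ^ K) ^ (s + 1)) : ℕ) : ℝ) ≤ Real.exp (δ / 2 * m * Real.log m)) :
    BadM ε (δ / 2) δ' K a := by
  classical
  have := finite_Gr hA
  have := Fintype.ofFinite (Gr (sm a))
  set B : Finset (Gr (sm a)) := (Finset.Icc 1 (m ^ K)).biUnion fun k =>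
    Finset.univ.filter fun g => (2 * k) • g = 0 with hB
  have memB : ∀ g, g ∈ B ↔ ∃ k, (1 ≤ k ∧ k ≤ m ^ K) ∧ (2 * k) • g = 0 := by
    intro g
    simp only [hB, Finset.mem_biUnion, Finset.mem_Icc, Finset.mem_filter, Finset.mem_univ, true_and]
  have cB : B.card ≤ m ^ K * (2 ^ m * (m ^ K) ^ (s + 1)) := by
    refine (Finset.card_biUnion_le_card_mul _ _ (2 ^ m * (m ^ K) ^ (s + 1)) fun k hk => ?_).trans ?_
    · obtain ⟨k1, k2⟩ := Finset.mem_Icc.1 hk
      have h1 := card_torsion_le hA hg k1 k2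
      rw [Nat.card_eq_fintype_card, Fintype.card_subtype] at h1
      exact h1.trans (Nat.mul_le_mul_left _ (Nat.pow_le_pow_left k2 _))
    · simp
  obtain ⟨Y, hY, cY, sY⟩ := exists_separated (Finset.univ.filter fun g => g ∈ H) B
    ((memB 0).2 ⟨1, ⟨le_rfl, Nat.one_le_pow _ _ hm⟩, smul_zero _⟩)
    (fun g hg => by
      obtain ⟨k, hk, h⟩ := (memB g).1 hg
      exact (memB _).2 ⟨k, hk, by rw [smul_neg, h, neg_zero]⟩)
  have cH : (Finset.univ.filter fun g => g ∈ H).card = Nat.card H := by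
    rw [Nat.card_eq_fintype_card, Fintype.card_subtype]
  have cY' : Real.exp (δ / 2 * m * Real.log m) ≤ Y.card := by
    have h1 : Real.exp (δ * m * Real.log m) ≤ Nat.card H :=
      (Real.le_log_iff_exp_le (by exact_mod_cast Nat.card_pos)).1 hH
    have h2 : (Nat.card H : ℝ) ≤ Y.card * Real.exp (δ / 2 * m * Real.log m) := by
      rw [← cH]
      refine le_trans ?_ (mul_le_mul_of_nonneg_left hnum (Nat.cast_nonneg _))
      exact_mod_cast cY.trans (Nat.mul_le_mul_left _ cB)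
    have h3 : Real.exp (δ * m * Real.log m) =
        Real.exp (δ / 2 * m * Real.log m) * Real.exp (δ / 2 * m * Real.log m) := by
      rw [← Real.exp_add]
      congr 1
      ring
    exact le_of_mul_le_mul_right (h3 ▸ h1.trans h2) (Real.exp_pos _)
  choose z hz using cl_surjective (sm a)
  have inj : Function.Injective fun g =>
      ((iv (sm a) (z g), fun _ => 0) : (Fin m → ℝ) × (Fin 0 → ℝ)) := by
    intro g g' h
    have h1 : iv (sm a) (z g) = iv (sm a) (z g') := congrArg Prod.fst h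
    have h2 := rtc_mul_iv hA (z g)
    rw [h1, rtc_mul_iv hA] at h2
    have h3 : z g' = z g := funext fun i => by exact_mod_cast congrFun h2 i
    rw [← hz g, ← hz g', h3]
  refine ⟨S, 0, 0, Y.image fun g => (iv (sm a) (z g), fun _ => 0), hS,
    by rw [Nat.cast_zero]; positivity, ?_, ?_, ?_, ?_, ?_, ?_⟩
  · rwa [Finset.card_image_of_injective _ inj]
  · intro x _ x' _
    simp
  · intro x hx x' hx' h hh
    obtain ⟨g, hg, rfl⟩ := Finset.mem_image.1 hh
    have hgH : cl (sm a) (z g) ∈ H := by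
      rw [hz]
      exact (Finset.mem_filter.1 (hY hg)).2
    obtain ⟨k, hk⟩ := hann x hx _ hgH
    obtain ⟨k', hk'⟩ := hann x' hx' _ hgH
    have e1 := pr_cast (sm a) (sv x) (z g)
    have e2 := pr_cast (sm a) (sv x') (z g)
    rw [hk] at e1
    rw [hk'] at e2
    refine ⟨k - k', ?_⟩
    push_cast at e1 e2 ⊢
    rw [e1, e2, ← Finset.sum_sub_distrib]
    exact Finset.sum_congr rfl fun i _ => by ring
  · intro h _ l
    exact l.elim0
  · intro h hh
    obtain ⟨g, -, rfl⟩ := Finset.mem_image.1 hh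
    refine ⟨z g, fun i => ?_⟩
    rw [zero_mulVec, add_zero, rtc_mul_iv hA, sub_self, abs_zero]
    positivity
  · intro h hh h' hh' hne k k1 k2 w
    obtain ⟨g, hg, rfl⟩ := Finset.mem_image.1 hh
    obtain ⟨g', hg', rfl⟩ := Finset.mem_image.1 hh'
    by_contra hc
    simp only [zero_mulVec, add_zero, not_exists, not_le] at hc
    have h1 := rtc_sep hm hA _ _ w hc
    rw [hz, hz] at h1
    exact sY g hg g' hg' (fun e => hne (by rw [e])) ((memB _).2 ⟨k, ⟨k1, k2⟩, h1⟩)

theorem rtc_num {δ : ℝ} (hδ : 0 < δ) (K : ℕ) : ∀ᶠ m : ℕ in atTop,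
    ((m ^ K * (2 ^ m * (m ^ K) ^ (⌊δ / (8 * (K + 1)) * m⌋₊ + 1)) : ℕ) : ℝ) ≤
      Real.exp (δ / 2 * m * Real.log m) := by
  have t1 : Tendsto (fun m : ℕ => (m : ℝ)) atTop atTop := tendsto_natCast_atTop_atTop
  filter_upwards [t1.eventually_ge_atTop (16 * K / δ), eventually_ge_atTop 1,
    (Real.tendsto_log_atTop.comp t1).eventually_ge_atTop (4 / δ)] with m h1 h2 h3
  have hm : (0 : ℝ) < m := by exact_mod_cast h2
  have h3' : 4 / δ ≤ Real.log m := h3
  rw [div_le_iff₀ hδ] at h1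
  rw [div_le_iff₀ hδ] at h3'
  set s := ⌊δ / (8 * (K + 1)) * m⌋₊ with hs
  have hs1 : (s : ℝ) ≤ δ / (8 * (K + 1)) * m := Nat.floor_le (by positivity)
  have hs2 : (K : ℝ) * s ≤ δ * m / 8 := by
    have h4 : (s : ℝ) * (8 * (K + 1)) ≤ δ * m := by
      rw [div_mul_eq_mul_div, le_div_iff₀ (by positivity)] at hs1
      exact hs1
    have : (0 : ℝ) ≤ s := Nat.cast_nonneg _
    nlinarith
  have hl : 0 ≤ Real.log m := Real.log_natCast_nonneg m
  have hl2 : Real.log 2 ≤ 1 := by linarith [Real.log_two_lt_d9]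
  rw [← Real.log_le_iff_le_exp (by positivity)]
  push_cast
  rw [Real.log_mul (by positivity) (by positivity), Real.log_mul (by positivity) (by positivity),
    Real.log_pow, Real.log_pow, Real.log_pow, Real.log_pow]
  push_cast
  have a1 : (K * s + 2 * K) * Real.log m ≤ (δ * m / 4) * Real.log m :=
    mul_le_mul_of_nonneg_right (by linarith) hl
  have a2 : (m : ℝ) * Real.log 2 ≤ m * (Real.log m * δ / 4) :=
    mul_le_mul_of_nonneg_left (by linarith) hm.le
  nlinarith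

theorem n1_of_mts {p : ℝ} (h0 : 0 < p) (h1 : p < 1) (h : MTS p) : N1 p := by
  intro ε δ θ hε hδ hθ
  obtain ⟨δ', K, c, hδ', hc, hb⟩ := h ε (δ / 2) hε (half_pos hδ)
  have t1 : Tendsto (fun m : ℕ => Real.exp (-(c * m))) atTop (nhds 0) :=
    Real.tendsto_exp_neg_atTop_nhds_zero.comp (tendsto_natCast_atTop_atTop.const_mul_atTop hc)
  filter_upwards [hb, prob_not_goodT h0 h1 K (γ := δ / (8 * (K + 1))) (by positivity) (half_pos hθ),
    rtc_num hδ K, eventually_ge_atTop 1, t1.eventually (ge_mem_nhds (half_pos hθ))]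
    with m b1 b2 b3 hm b4
  refine (prob_mono h0.le h1.le (E' := {a | BadM ε (δ / 2) δ' K a} ∪
    {a | ¬ GoodT K ⌊δ / (8 * (K + 1)) * m⌋₊ a}) ?_).trans ((prob_union h0.le h1.le _ _).trans ?_)
  · rintro a ⟨hA, H, hH, S, hS, hann⟩
    by_cases hg : GoodT K ⌊δ / (8 * (K + 1)) * m⌋₊ a
    · exact Or.inl (rtc_bad hm hδ' hA hg H hH S hS hann b3)
    · exact Or.inr hg
  · have e1 : Real.exp (-(c * m ^ 2)) ≤ (θ / 2) ^ m := by
      have : Real.exp (-(c * m ^ 2)) = Real.exp (-(c * m)) ^ m := by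
        rw [← Real.exp_nat_mul]
        congr 1
        ring
      rw [this]
      exact pow_le_pow_left₀ (Real.exp_pos _).le b4 m
    have e2 : 2 * (θ / 2) ^ m ≤ θ ^ m := by
      have h2 : (2 : ℝ) ≤ 2 ^ m := le_self_pow₀ one_le_two (by omega)
      calc 2 * (θ / 2) ^ m ≤ 2 ^ m * (θ / 2) ^ m :=
            mul_le_mul_of_nonneg_right h2 (by positivity)
        _ = θ ^ m := by rw [← mul_pow]; congr 1; ring
    linarith

end Crest.Agent.R152.RD
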