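import Crest.Agent.R152.RTwo
import Crest.Agent.R152.RRank
import Crest.Agent.R152.RTor
import Crest.Agent.R152.RArch

/-!
# RED: the limit

`lower`: the rows `0` and `1` are equal (`det_zero_of_row_eq`) when `b s(0,0) = b s(0,1) = b s(1,1)` and
`b s(0,k) = b s(1,k)` for `k ≥ 2`: probability `(p³ + (1-p)³) ρ^n ≥ ρ^n / 4` (`Ex_pair`/`prob_comp`,
`prob_pi` with `α = Fin n`, `β = Bool`).  `tendsto_of`: squeeze: eventually
`(ρ^n/4)^(1/n) ≤ P^(1/n) ≤ θ` for every `θ > ρ`.
-/

set_option autoImplicit false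
set_option linter.unusedSectionVars false

open Matrix Filter Crest.FinProb Crest.ProbabilityR.SignMatrix

noncomputable section

namespace Crest.Agent.R152.RD

variable {p : ℝ}

theorem rma_const (h0 : 0 < p) (h1 : p < 1) (k : ℕ) :
    p ^ (k + 1) + (1 - p) ^ (k + 1) ≤
      bernoulliProb p {y : Fin (k + 1) → Bool | ∀ i j, y i = y j} := by
  rw [prob_eq_Ex]
  refine le_trans (le_of_eq ?_) (Finset.sum_le_sum_of_subset_of_nonneg
    (Finset.subset_univ {fun _ => true, fun _ => false}) fun ω _ _ =>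
      mul_nonneg (weight_nonneg h0.le h1.le ω) (Set.indicator_nonneg (fun _ _ => zero_le_one) ω))
  rw [Finset.sum_pair fun h => absurd (congrFun h 0) (by decide),
    Set.indicator_of_mem (by exact fun _ _ => rfl), Set.indicator_of_mem (by exact fun _ _ => rfl),
    mul_one, mul_one]
  change _ = ∏ _i : Fin (k + 1), p + ∏ _i : Fin (k + 1), (1 - p)
  simp only [Finset.prod_const, Finset.card_univ, Fintype.card_fin]

theorem lower (h0 : 0 < p) (h1 : p < 1) (n : ℕ) :
    rho p ^ (n + 2) / 4 ≤ singularProb (n + 2) p := by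
  obtain ⟨F, hF⟩ : ∃ F : Fin n × Fin 2 → Sym2 (Fin (n + 2)),
    F = fun q => s(⟨q.2, by omega⟩, ⟨q.1 + 2, by omega⟩) := ⟨_, rfl⟩
  obtain ⟨G, hG⟩ : ∃ G : Fin 3 → Sym2 (Fin (n + 2)),
    G = fun i => s(⟨i / 2, by omega⟩, ⟨(i + 1) / 2, by omega⟩) := ⟨_, rfl⟩
  have iF : Function.Injective F := fun q q' h => by
    simp only [hF, Sym2.eq_iff, Fin.mk.injEq] at h
    exact Prod.ext (Fin.ext (by omega)) (Fin.ext (by omega))
  have iG : Function.Injective G := fun q q' h => by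
    simp only [hG, Sym2.eq_iff, Fin.mk.injEq] at h
    exact Fin.ext (by omega)
  have hFG : ∀ a b, F a ≠ G b := fun a b h => by
    simp only [hF, hG, Sym2.eq_iff, Fin.mk.injEq] at h
    omega
  obtain ⟨A, hA⟩ : ∃ A : Set (Fin n × Fin 2 → Bool), A = {η | ∀ a, (fun b => η (a, b)) ∈
    {y : Fin 2 → Bool | ∀ i j, y i = y j}} := ⟨_, rfl⟩
  obtain ⟨B, hB⟩ : ∃ B : Set (Fin 3 → Bool), B = {y | ∀ i j, y i = y j} := ⟨_, rfl⟩
  have e := Ex_pair p iF iG hFG fun a x => A.indicator (fun _ => 1) a * B.indicator (fun _ => 1) x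
  simp only [Ex_mul, ← prob_eq_Ex] at e
  simp only [mul_comm _ (bernoulliProb p B), Ex_mul, ← prob_eq_Ex] at e
  have a1 : rho p ^ n ≤ bernoulliProb p A := by
    rw [hA, prob_pi, Finset.prod_const, Finset.card_univ, Fintype.card_fin]
    exact pow_le_pow_left₀ (rho_pos p).le (rma_const h0 h1 1) n
  have a2 : rho p ^ 2 / 4 ≤ bernoulliProb p B := by
    rw [hB]
    refine le_trans ?_ (rma_const h0 h1 2)
    nlinarith [pow_le_one₀ (n := 2) (rho_pos p).le (rho_le_one h0.le h1.le), sq_nonneg (2 * p - 1)]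
  rw [pow_add, mul_div_assoc, mul_comm]
  refine (mul_le_mul a2 a1 (pow_pos (rho_pos p) n).le (prob_nonneg h0.le h1.le B)).trans
    (e.ge.trans ((Ex_mono h0.le h1.le fun b => ?_).trans (prob_eq_Ex p _).ge))
  by_cases hb : b ∘ F ∈ A ∧ b ∘ G ∈ B
  · rw [Set.indicator_of_mem hb.1, Set.indicator_of_mem hb.2, mul_one, Set.indicator_of_mem]
    rw [hA, hB, hF, hG] at hb
    refine det_zero_of_row_eq (i := 0) (j := 1) Fin.zero_ne_one (funext fun j => ?_)
    refine congrArg (fun t : Bool => if t then (1 : ℤ) else -1) (?_ : b s(0, j) = b s(1, j))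
    obtain ⟨_ | _ | j, hj⟩ := j
    exacts [(hb.2 0 1).trans (congrArg b Sym2.eq_swap), hb.2 1 2, hb.1 ⟨j, by omega⟩ 0 1]
  · refine le_trans (le_of_eq ?_) (Set.indicator_nonneg (fun _ _ => zero_le_one) b)
    rcases not_and_or.1 hb with h | h <;> rw [Set.indicator_of_notMem h] <;> simp

theorem tendsto_of (h0 : 0 < p) (h1 : p < 1)
    (h : ∀ θ : ℝ, rho p < θ → ∀ᶠ n : ℕ in atTop, singularProb n p ≤ θ ^ n) :
    Tendsto (fun n : ℕ => singularProb n p ^ (1 / (n : ℝ))) atTop (nhds (rho p)) := by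
  have hr := rho_pos p
  refine tendsto_order.2 ⟨fun a ha => ?_, fun a ha => ?_⟩
  · have h2 := ((Real.continuousAt_const_rpow (a := 1 / 4) (b := 0) (by norm_num)).tendsto.comp
      tendsto_one_div_atTop_nhds_zero_nat).const_mul (rho p)
    rw [Real.rpow_zero, mul_one] at h2
    filter_upwards [h2.eventually_const_lt ha, eventually_ge_atTop 2] with n hn hn2
    obtain ⟨m, rfl⟩ := Nat.exists_eq_add_of_le' hn2
    refine hn.trans_le (le_trans (le_of_eq ?_)
      (Real.rpow_le_rpow (by positivity) (lower h0 h1 m) (by positivity)))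
    rw [div_eq_mul_one_div (rho p ^ _), Real.mul_rpow (by positivity) (by norm_num),
      one_div ((m + 2 : ℕ) : ℝ), Real.pow_rpow_inv_natCast hr.le (by omega), Function.comp_apply,
      one_div ((m + 2 : ℕ) : ℝ)]
  · obtain ⟨θ, h2, h3⟩ := exists_between ha
    filter_upwards [h θ h2, eventually_ge_atTop 1] with n hn hn1
    refine (Real.rpow_le_rpow (prob_nonneg h0.le h1.le _) hn (by positivity)).trans_lt ?_
    rwa [one_div, Real.pow_rpow_inv_natCast (hr.trans h2).le (by omega)]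

theorem main_of_n (h0 : 0 < p) (h1 : p < 1) (hn1 : N1 p) (hn2 : N2 p) :
    Tendsto (fun n : ℕ => singularProb n p ^ (1 / (n : ℝ))) atTop (nhds (p ^ 2 + (1 - p) ^ 2)) := by
  refine tendsto_of h0 h1 fun θ hθ => ?_
  have h2 : rho p < (rho p + θ) / 2 := by linarith
  exact upper_of_cor1 h0 h1 ((rho_pos p).trans h2) (by linarith) (c1_le h0 h1 hn1 hn2 h2)

theorem main_of_mts (h0 : 0 < p) (h1 : p < 1) (h : MTS p) :
    Tendsto (fun n : ℕ => singularProb n p ^ (1 / (n : ℝ))) atTop (nhds (p ^ 2 + (1 - p) ^ 2)) :=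
  main_of_n h0 h1 (n1_of_mts h0 h1 h) (n2_of_mts h0 h1 h)

end Crest.Agent.R152.RD
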