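import Crest.Agent.R152.RDefs

/-!
# RED: finite probability toolkit

`bernoulliProb p E = Ex p (indicator E)`.  `Ex_resample`: the map
`(ω₀, η) ↦ (extend f η ω₀, ω₀ ∘ f)` is a weight preserving involution of pairs.
`Ex_border`: `Sym2 (Fin (m+1))` is the disjoint union of the images of `Sym2.map j.succAbove`,
`i ↦ s(j, j.succAbove i)` and `s(j,j)`; use `Ex_pair` (two injective maps with disjoint ranges).
`card_small_subsets`: `∑_{k ≤ γ n} C(n,k) ≤ t^(-γ n) (1+t)^n` for `0 < t ≤ 1`.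
-/

set_option autoImplicit false
set_option linter.unusedSectionVars false

open Matrix Filter Crest.FinProb

noncomputable section

namespace Crest.Agent.R152.RD

variable {ι α β : Type} [Fintype ι] [DecidableEq ι] [Fintype α] [DecidableEq α] [Fintype β]
  [DecidableEq β] {p : ℝ}

theorem weight_nonneg (h0 : 0 ≤ p) (h1 : p ≤ 1) (ω : ι → Bool) : 0 ≤ bernoulliWeight p ω := by
  unfold bernoulliWeight
  refine Finset.prod_nonneg fun i _ => ?_
  split_ifs <;> linarith

theorem sum_weight (p : ℝ) : ∑ ω : ι → Bool, bernoulliWeight p ω = 1 := by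
  unfold bernoulliWeight
  have h := Finset.prod_univ_sum (fun _ : ι => (Finset.univ : Finset Bool))
    (fun (_ : ι) (b : Bool) => if b then p else 1 - p)
  rw [Fintype.piFinset_univ] at h
  rw [← h]
  simp

theorem sum_weight_sq (p : ℝ) :
    ∑ ω : ι → Bool, bernoulliWeight p ω * bernoulliWeight p ω = rho p ^ Fintype.card ι := by
  unfold bernoulliWeight
  have h := Finset.prod_univ_sum (fun _ : ι => (Finset.univ : Finset Bool))
    (fun (_ : ι) (b : Bool) => (if b then p else 1 - p) * (if b then p else 1 - p))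
  rw [Fintype.piFinset_univ] at h
  simp only [← Finset.prod_mul_distrib]
  rw [← h]
  have e : (∑ b : Bool, (if b then p else 1 - p) * (if b then p else 1 - p)) = rho p := by
    rw [Fintype.sum_bool]
    unfold rho
    simp only [if_true, Bool.false_eq_true, if_false]
    ring
  simp only [e, Finset.prod_const, Finset.card_univ]

theorem weight_le (h0 : 0 ≤ p) (h1 : p ≤ 1) (ω : ι → Bool) :
    bernoulliWeight p ω ≤ max p (1 - p) ^ Fintype.card ι := by
  unfold bernoulliWeight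
  rw [← Finset.card_univ, ← Finset.prod_const]
  refine Finset.prod_le_prod (fun i _ => ?_) fun i _ => ?_
  · split_ifs <;> linarith
  · split_ifs
    · exact le_max_left _ _
    · exact le_max_right _ _

theorem prob_eq_Ex (p : ℝ) (E : Set (ι → Bool)) :
    bernoulliProb p E = Ex p (E.indicator fun _ => 1) := by
  classical
  unfold bernoulliProb Ex
  rw [Finset.sum_filter]
  refine Finset.sum_congr rfl fun ω _ => ?_
  by_cases h : ω ∈ E
  · simp [h]
  · simp [h]

theorem Ex_mono (h0 : 0 ≤ p) (h1 : p ≤ 1) {F G : (ι → Bool) → ℝ} (h : ∀ ω, F ω ≤ G ω) :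
    Ex p F ≤ Ex p G := by
  unfold Ex
  exact Finset.sum_le_sum fun ω _ => mul_le_mul_of_nonneg_left (h ω) (weight_nonneg h0 h1 ω)

theorem Ex_const (p c : ℝ) : Ex p (fun _ : ι → Bool => c) = c := by
  unfold Ex
  rw [← Finset.sum_mul, sum_weight, one_mul]

theorem Ex_add (p : ℝ) (F G : (ι → Bool) → ℝ) : Ex p (fun ω => F ω + G ω) = Ex p F + Ex p G := by
  unfold Ex
  simp only [mul_add, Finset.sum_add_distrib]

theorem Ex_mul (p c : ℝ) (F : (ι → Bool) → ℝ) : Ex p (fun ω => c * F ω) = c * Ex p F := by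
  unfold Ex
  rw [Finset.mul_sum]
  exact Finset.sum_congr rfl fun ω _ => by ring

theorem Ex_sum {τ : Type} (p : ℝ) (s : Finset τ) (F : τ → (ι → Bool) → ℝ) :
    Ex p (fun ω => ∑ t ∈ s, F t ω) = ∑ t ∈ s, Ex p (F t) := by
  unfold Ex
  simp only [Finset.mul_sum]
  exact Finset.sum_comm

theorem prob_nonneg (h0 : 0 ≤ p) (h1 : p ≤ 1) (E : Set (ι → Bool)) : 0 ≤ bernoulliProb p E := by
  rw [prob_eq_Ex, ← Ex_const (ι := ι) p 0]
  exact Ex_mono h0 h1 fun ω => Set.indicator_nonneg (fun _ _ => zero_le_one) ω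

theorem prob_le_one (h0 : 0 ≤ p) (h1 : p ≤ 1) (E : Set (ι → Bool)) : bernoulliProb p E ≤ 1 := by
  rw [prob_eq_Ex]
  refine le_trans (Ex_mono h0 h1 fun ω => ?_) (Ex_const (ι := ι) p 1).le
  by_cases h : ω ∈ E
  · simp [h]
  · simp [h]

theorem prob_mono (h0 : 0 ≤ p) (h1 : p ≤ 1) {E E' : Set (ι → Bool)} (h : E ⊆ E') :
    bernoulliProb p E ≤ bernoulliProb p E' := by
  rw [prob_eq_Ex, prob_eq_Ex]
  exact Ex_mono h0 h1 fun ω =>
    Set.indicator_le_indicator_of_subset h (fun _ => zero_le_one) ω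

theorem prob_union (h0 : 0 ≤ p) (h1 : p ≤ 1) (E E' : Set (ι → Bool)) :
    bernoulliProb p (E ∪ E') ≤ bernoulliProb p E + bernoulliProb p E' := by
  rw [prob_eq_Ex, prob_eq_Ex, prob_eq_Ex, ← Ex_add]
  refine Ex_mono h0 h1 fun ω => ?_
  by_cases h : ω ∈ E <;> by_cases h' : ω ∈ E' <;> simp [h, h']

theorem prob_cover {τ : Type} (h0 : 0 ≤ p) (h1 : p ≤ 1) (s : Finset τ) (E : Set (ι → Bool))
    (F : τ → Set (ι → Bool)) (h : ∀ ω ∈ E, ∃ t ∈ s, ω ∈ F t) :
    bernoulliProb p E ≤ ∑ t ∈ s, bernoulliProb p (F t) := by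
  simp only [prob_eq_Ex]
  rw [← Ex_sum]
  refine Ex_mono h0 h1 fun ω => ?_
  have hn : ∀ t ∈ s, (0 : ℝ) ≤ (F t).indicator (fun _ => (1 : ℝ)) ω := fun t _ =>
    Set.indicator_nonneg (fun _ _ => zero_le_one) ω
  by_cases hω : ω ∈ E
  · obtain ⟨t, ht, hωt⟩ := h ω hω
    have h2 := Finset.single_le_sum hn ht
    rw [Set.indicator_of_mem hωt] at h2
    rw [Set.indicator_of_mem hω]
    exact h2
  · rw [Set.indicator_of_notMem hω]
    exact Finset.sum_nonneg hn

theorem prob_subsingleton (h0 : 0 ≤ p) (h1 : p ≤ 1) {E : Set (ι → Bool)} (h : E.Subsingleton) :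
    bernoulliProb p E ≤ max p (1 - p) ^ Fintype.card ι := by
  have hm : 0 ≤ max p (1 - p) ^ Fintype.card ι := pow_nonneg (le_max_of_le_left h0) _
  rcases h.eq_empty_or_singleton with rfl | ⟨ω, rfl⟩
  · rw [prob_eq_Ex, Set.indicator_empty]
    exact (Ex_const (ι := ι) p 0).le.trans hm
  · rw [prob_eq_Ex]
    unfold Ex
    rw [Finset.sum_eq_single ω]
    · simpa using weight_le h0 h1 ω
    · intro b _ hb
      simp [hb]
    · simp

theorem rpb_split (p : ℝ) {f : α → ι} (hf : Function.Injective f) (ω : ι → Bool) :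
    bernoulliWeight p ω = bernoulliWeight p (ω ∘ f) *
      ∏ i ∈ (Finset.univ.map ⟨f, hf⟩)ᶜ, if ω i then p else 1 - p := by
  unfold bernoulliWeight
  rw [← Finset.prod_mul_prod_compl (Finset.univ.map ⟨f, hf⟩), Finset.prod_map]
  rfl

theorem rpb_swap (p : ℝ) {f : α → ι} (hf : Function.Injective f) (η : α → Bool) (ω : ι → Bool) :
    bernoulliWeight p (Function.extend f η ω) * bernoulliWeight p (ω ∘ f) =
      bernoulliWeight p ω * bernoulliWeight p η := by
  rw [rpb_split p hf (Function.extend f η ω), rpb_split p hf ω, Function.extend_comp hf]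
  have h : (∏ i ∈ (Finset.univ.map ⟨f, hf⟩)ᶜ, if Function.extend f η ω i then p else 1 - p) =
      ∏ i ∈ (Finset.univ.map ⟨f, hf⟩)ᶜ, if ω i then p else 1 - p := by
    refine Finset.prod_congr rfl fun i hi => ?_
    rw [Function.extend_apply' _ _ _ (by simpa using hi)]
  rw [h]
  ring

theorem Ex_resample (p : ℝ) {f : α → ι} (hf : Function.Injective f) (F : (ι → Bool) → ℝ) :
    Ex p F = Ex p fun ω₀ : ι → Bool => Ex p fun η : α → Bool => F (Function.extend f η ω₀) := by
  let φ : (ι → Bool) × (α → Bool) → (ι → Bool) × (α → Bool) :=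
    fun z => (Function.extend f z.2 z.1, z.1 ∘ f)
  have hφ : Function.Involutive φ := by
    rintro ⟨ω, η⟩
    refine Prod.ext (funext fun i => ?_) (Function.extend_comp hf _ _)
    by_cases hi : ∃ a, f a = i
    · obtain ⟨a, rfl⟩ := hi
      exact hf.extend_apply _ _ _
    · change Function.extend f (ω ∘ f) (Function.extend f η ω) i = ω i
      rw [Function.extend_apply' _ _ _ hi, Function.extend_apply' _ _ _ hi]
  have h1 : Ex p F = ∑ z : (ι → Bool) × (α → Bool),
      bernoulliWeight p z.1 * bernoulliWeight p z.2 * F z.1 := by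
    rw [Fintype.sum_prod_type]
    refine Finset.sum_congr rfl fun ω _ => ?_
    simp only
    rw [← Finset.sum_mul, ← Finset.mul_sum, sum_weight, mul_one]
  rw [h1, ← hφ.bijective.sum_comp, Fintype.sum_prod_type]
  refine Finset.sum_congr rfl fun ω _ => ?_
  simp only [φ, Ex, Finset.mul_sum]
  refine Finset.sum_congr rfl fun η _ => ?_
  rw [rpb_swap p hf, mul_assoc]

theorem Ex_comp (p : ℝ) {f : α → ι} (hf : Function.Injective f) (F : (α → Bool) → ℝ) :
    Ex p (fun ω : ι → Bool => F (ω ∘ f)) = Ex p F := by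
  rw [Ex_resample p hf]
  simp only [Function.extend_comp hf]
  exact Ex_const p _

theorem Ex_pair (p : ℝ) {f : α → ι} {g : β → ι} (hf : Function.Injective f)
    (hg : Function.Injective g) (hfg : ∀ a b, f a ≠ g b) (F : (α → Bool) → (β → Bool) → ℝ) :
    Ex p (fun ω : ι → Bool => F (ω ∘ f) (ω ∘ g)) = Ex p fun a => Ex p fun x => F a x := by
  rw [Ex_resample p hg]
  have h : ∀ (η : β → Bool) (ω : ι → Bool), Function.extend g η ω ∘ f = ω ∘ f := fun η ω =>
    funext fun a => Function.extend_apply' _ _ _ fun ⟨b, hb⟩ => hfg a b hb.symm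
  simp only [Function.extend_comp hg, h]
  exact Ex_comp p hf fun a => Ex p fun x => F a x

theorem prob_comp (p : ℝ) {f : α → ι} (hf : Function.Injective f) (E : Set (α → Bool)) :
    bernoulliProb p {ω : ι → Bool | ω ∘ f ∈ E} = bernoulliProb p E := by
  rw [prob_eq_Ex, prob_eq_Ex, ← Ex_comp p hf]
  rfl

theorem prob_le_of_sections (h0 : 0 ≤ p) (h1 : p ≤ 1) {f : α → ι} (hf : Function.Injective f)
    {E : Set (ι → Bool)} {c : ℝ}
    (h : ∀ ω₀ : ι → Bool, bernoulliProb p {η : α → Bool | Function.extend f η ω₀ ∈ E} ≤ c) :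
    bernoulliProb p E ≤ c := by
  rw [prob_eq_Ex, Ex_resample p hf, ← Ex_const (ι := ι) p c]
  refine Ex_mono h0 h1 fun ω₀ => ?_
  have h2 := h ω₀
  rw [prob_eq_Ex] at h2
  exact h2

theorem prob_pi (p : ℝ) (E : α → Set (β → Bool)) :
    bernoulliProb p {η : α × β → Bool | ∀ a, (fun b => η (a, b)) ∈ E a} =
      ∏ a, bernoulliProb p (E a) := by
  classical
  simp only [prob_eq_Ex, Ex]
  rw [Finset.prod_univ_sum, Fintype.piFinset_univ]
  refine Fintype.sum_equiv (Equiv.curry α β Bool) _ _ fun η => ?_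
  rw [Finset.prod_mul_distrib]
  congr 1
  · unfold bernoulliWeight
    rw [Fintype.prod_prod_type]
    rfl
  · by_cases h : ∀ a, (fun b => η (a, b)) ∈ E a
    · rw [Set.indicator_of_mem (show η ∈ {η : α × β → Bool | ∀ a, (fun b => η (a, b)) ∈ E a} from h)]
      exact (Finset.prod_eq_one fun a _ => Set.indicator_of_mem (h a) _).symm
    · rw [Set.indicator_of_notMem
        (show η ∉ {η : α × β → Bool | ∀ a, (fun b => η (a, b)) ∈ E a} from h)]
      push Not at h
      obtain ⟨a, ha⟩ := h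
      exact (Finset.prod_eq_zero (Finset.mem_univ a) (Set.indicator_of_notMem ha _)).symm

theorem Ex_border (p : ℝ) {m : ℕ} (j : Fin (m + 1))
    (F : (Sym2 (Fin m) → Bool) → (Fin m → Bool) → ℝ) :
    Ex p (fun b => F (res j b) (rw j b)) = Ex p fun a => Ex p fun x => F a x := by
  refine Ex_pair p (f := Sym2.map j.succAbove) (g := fun i => s(j, j.succAbove i))
    (Sym2.map.injective Fin.succAbove_right_injective) (fun i i' h => ?_) (fun e i h => ?_) F
  · exact Fin.succAbove_right_injective (Sym2.congr_right.1 h)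
  · have hj : j ∈ Sym2.map j.succAbove e := h ▸ Sym2.mem_mk_left _ _
    obtain ⟨k, -, hk⟩ := Sym2.mem_map.1 hj
    exact Fin.succAbove_ne j k hk

theorem sm_res {m : ℕ} (j : Fin (m + 1)) (b : Sym2 (Fin (m + 1)) → Bool) :
    sm (res j b) = (sm b).submatrix j.succAbove j.succAbove := by
  ext i k
  rfl

theorem sv_rw {m : ℕ} (j : Fin (m + 1)) (b : Sym2 (Fin (m + 1)) → Bool) (i : Fin m) :
    sv (rw j b) i = sm b j (j.succAbove i) := by
  rfl

theorem sm_isSymm (b : Sym2 ι → Bool) : (sm b).IsSymm := by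
  ext i j
  simp only [sm, Matrix.transpose_apply, Matrix.of_apply, Sym2.eq_swap]

theorem abs_sm (b : Sym2 ι → Bool) (i j : ι) : |sm b i j| = 1 := by
  simp only [sm, Matrix.of_apply]
  split_ifs <;> simp

theorem abs_det_sm_le (b : Sym2 ι → Bool) : (sm b).det.natAbs ≤ (Fintype.card ι).factorial := by
  have h := Matrix.det_le (A := sm b) (abv := AbsoluteValue.abs) (x := 1)
    (fun i j => (abs_sm b i j).le)
  rw [one_pow, AbsoluteValue.abs_apply, nsmul_eq_mul, mul_one, Int.abs_eq_natAbs] at h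
  exact_mod_cast h

theorem rho_pos (p : ℝ) : 0 < rho p := by
  unfold rho
  nlinarith [sq_nonneg (p - 1 / 2)]

theorem rho_le_one (h0 : 0 ≤ p) (h1 : p ≤ 1) : rho p ≤ 1 := by
  unfold rho
  nlinarith [mul_nonneg h0 (sub_nonneg.2 h1)]

theorem card_small_subsets {ε : ℝ} (hε : 0 < ε) : ∃ γ₀ : ℝ, 0 < γ₀ ∧ ∀ (τ : Type) [DecidableEq τ]
    (s : Finset τ) (n k : ℕ), s.card ≤ n → (k : ℝ) ≤ γ₀ * n →
      ((s.powerset.filter fun T => T.card ≤ k).card : ℝ) ≤ Real.exp (ε * n) := by
  obtain ⟨t, ht0, ht1, ht2⟩ : ∃ t : ℝ, 0 < t ∧ t ≤ 1 ∧ t ≤ ε / 2 :=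
    ⟨min 1 (ε / 2), lt_min one_pos (by positivity), min_le_left _ _, min_le_right _ _⟩
  have hL : 0 ≤ -Real.log t := neg_nonneg.2 (Real.log_nonpos ht0.le ht1)
  refine ⟨ε / (2 * (-Real.log t + 1)), by positivity, fun τ _ s n k hs hk => ?_⟩
  have h1 : ((s.powerset.filter fun T => T.card ≤ k).card : ℝ) * t ^ k ≤ (t + 1) ^ s.card := by
    rw [← Finset.sum_pow_mul_eq_add_pow, ← nsmul_eq_mul]
    refine le_trans (Finset.card_nsmul_le_sum _ (fun T => t ^ T.card * 1 ^ (s.card - T.card)) _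
      fun T hT => ?_) (Finset.sum_le_sum_of_subset_of_nonneg (Finset.filter_subset _ _)
        fun _ _ _ => by positivity)
    rw [one_pow, mul_one]
    exact pow_le_pow_of_le_one ht0.le ht1 (Finset.mem_filter.1 hT).2
  have h2 : (t + 1) ^ s.card ≤ Real.exp (ε / 2 * n) := by
    calc (t + 1) ^ s.card ≤ (t + 1) ^ n := pow_le_pow_right₀ (by linarith) hs
      _ ≤ Real.exp (ε / 2) ^ n :=
          pow_le_pow_left₀ (by linarith) (by linarith [Real.add_one_le_exp (ε / 2)]) n
      _ = _ := by rw [← Real.exp_nat_mul, mul_comm]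
  have h3 : Real.exp (-(ε / 2 * n)) ≤ t ^ k := by
    rw [← Real.exp_log ht0, ← Real.exp_nat_mul, Real.exp_le_exp]
    have h4 : (k : ℝ) * (-Real.log t + 1) ≤ ε / 2 * n := by
      calc (k : ℝ) * (-Real.log t + 1) ≤ ε / (2 * (-Real.log t + 1)) * n * (-Real.log t + 1) :=
            mul_le_mul_of_nonneg_right hk (by positivity)
        _ = ε / 2 * n := by field_simp
    have h5 : (0 : ℝ) ≤ k := Nat.cast_nonneg _
    linarith
  have h6 : ((s.powerset.filter fun T => T.card ≤ k).card : ℝ) * Real.exp (-(ε / 2 * n)) ≤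
      Real.exp (ε * n) * Real.exp (-(ε / 2 * n)) := by
    rw [← Real.exp_add, show ε * n + -(ε / 2 * n) = ε / 2 * n by ring]
    exact (mul_le_mul_of_nonneg_left h3 (Nat.cast_nonneg _)).trans (h1.trans h2)
  exact le_of_mul_le_mul_right h6 (Real.exp_pos _)

end Crest.Agent.R152.RD
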