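import Crest.Agent.R152.RProb

/-! # RED: the compression lemma (auxiliary file) -/

set_option autoImplicit false
set_option linter.unusedSectionVars false

open Matrix Filter Crest.FinProb

noncomputable section

namespace Crest.Agent.R152.RD

variable {κ : Type} [Fintype κ] [DecidableEq κ]

/-- independence modulo `q`, in elementary terms -/
def rsbInd (q : ℕ) (X : Finset (κ → ℤ)) : Prop :=
  ∀ c : (κ → ℤ) → ℤ, (∀ j, (q : ℤ) ∣ ∑ x ∈ X, c x * x j) → ∀ x ∈ X, (q : ℤ) ∣ c x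

/-- Gram matrix of a finite set of vectors -/
def rsbGram (X : Finset (κ → ℤ)) : Matrix X X ℤ := Matrix.of fun a b => a.1 ⬝ᵥ b.1

theorem rsb_card_le {q : ℕ} (hq : q.Prime) {X : Finset (κ → ℤ)} (h : rsbInd q X) :
    X.card ≤ Fintype.card κ := by
  have := Fact.mk hq
  have hli : LinearIndependent (ZMod q) fun (x : X) (j : κ) => ((x.1 j : ℤ) : ZMod q) := by
    rw [Fintype.linearIndependent_iff]
    intro g hg x
    classical
    let c : (κ → ℤ) → ℤ := fun y => if hy : y ∈ X then ((g ⟨y, hy⟩).val : ℤ) else 0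
    have h1 : ∀ j, (q : ℤ) ∣ ∑ y ∈ X, c y * y j := fun j => by
      rw [← ZMod.intCast_zmod_eq_zero_iff_dvd]
      have h2 := congrFun hg j
      rw [Finset.sum_apply] at h2
      simp only [Pi.smul_apply, smul_eq_mul, Pi.zero_apply] at h2
      rw [← h2, ← Finset.sum_coe_sort X]
      push_cast
      refine Finset.sum_congr rfl fun y _ => ?_
      simp [c, y.2]
    have h3 := h c h1 x.1 x.2
    rw [← ZMod.intCast_zmod_eq_zero_iff_dvd] at h3
    simpa [c, x.2] using h3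
  have := hli.fintype_card_le_finrank
  simpa using this

/-- if `insert y X` is dependent modulo `q` and `X` is independent, `y` is orthogonal to whatever
`X` is orthogonal to -/
theorem rsb_dep {q : ℕ} (hq : q.Prime) {X : Finset (κ → ℤ)} (hX : rsbInd q X) {y : κ → ℤ}
    (hy : ¬ rsbInd q (insert y X)) {w : κ → ℤ} (hw : ∀ x ∈ X, (q : ℤ) ∣ x ⬝ᵥ w) :
    (q : ℤ) ∣ y ⬝ᵥ w := by
  classical
  by_cases hyX : y ∈ X
  · exact hw y hyX
  unfold rsbInd at hy
  push Not at hy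
  obtain ⟨c, hc, x₀, hx₀, hn⟩ := hy
  simp only [Finset.sum_insert hyX] at hc
  have hcy : ¬ (q : ℤ) ∣ c y := fun hd => by
    have h1 : ∀ j, (q : ℤ) ∣ ∑ x ∈ X, c x * x j := fun j =>
      (dvd_add_right (hd.mul_right _)).1 (hc j)
    rcases Finset.mem_insert.1 hx₀ with rfl | h2
    · exact hn hd
    · exact hn (hX c h1 x₀ h2)
  have h2 : (q : ℤ) ∣ ∑ j, (c y * y j + ∑ x ∈ X, c x * x j) * w j :=
    Finset.dvd_sum fun j _ => (hc j).mul_right _
  have h3 : ∑ j, (c y * y j + ∑ x ∈ X, c x * x j) * w j =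
      c y * (y ⬝ᵥ w) + ∑ x ∈ X, c x * (x ⬝ᵥ w) := by
    simp only [dotProduct, add_mul, Finset.sum_add_distrib, Finset.mul_sum, Finset.sum_mul, mul_assoc]
    rw [Finset.sum_comm]
  rw [h3] at h2
  have h4 : (q : ℤ) ∣ c y * (y ⬝ᵥ w) :=
    (dvd_add_left (Finset.dvd_sum fun x hx => (hw x hx).mul_left _)).1 h2
  exact ((Int.prime_iff_natAbs_prime.2 (by simpa using hq)).dvd_or_dvd h4).resolve_left hcy

/-- dependence modulo `q` makes the Gram determinant divisible by `q` -/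
theorem rsb_dvd_gram {q : ℕ} (hq : q.Prime) {X : Finset (κ → ℤ)} (h : ¬ rsbInd q X) :
    (q : ℤ) ∣ (rsbGram X).det := by
  classical
  have := Fact.mk hq
  unfold rsbInd at h
  push Not at h
  obtain ⟨c, hc, x₀, hx₀, hn⟩ := h
  rw [← ZMod.intCast_zmod_eq_zero_iff_dvd]
  have e : (((rsbGram X).det : ℤ) : ZMod q) = ((rsbGram X).map (Int.cast : ℤ → ZMod q)).det :=
    (Int.castRingHom (ZMod q)).map_det _
  rw [e, ← Matrix.exists_mulVec_eq_zero_iff]
  refine ⟨fun x => ((c x.1 : ℤ) : ZMod q), fun h0 => hn ?_, ?_⟩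
  · have := congrFun h0 ⟨x₀, hx₀⟩
    exact (ZMod.intCast_zmod_eq_zero_iff_dvd _ _).1 this
  · funext a
    have h1 : (q : ℤ) ∣ ∑ j, a.1 j * ∑ x ∈ X, c x * x j :=
      Finset.dvd_sum fun j _ => (hc j).mul_left _
    rw [← ZMod.intCast_zmod_eq_zero_iff_dvd] at h1
    rw [Pi.zero_apply, ← h1]
    simp only [mulVec, dotProduct, rsbGram, Matrix.map_apply, Matrix.of_apply]
    push_cast
    simp only [Finset.mul_sum, Finset.sum_mul]
    rw [Finset.sum_comm, ]
    refine Finset.sum_congr rfl fun j _ => ?_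
    rw [← Finset.sum_coe_sort X]
    exact Finset.sum_congr rfl fun x _ => by ring

/-- a vanishing Gram determinant makes the set dependent modulo every prime -/
theorem rsb_gram_zero {q : ℕ} (hq : q.Prime) {X : Finset (κ → ℤ)} (h : (rsbGram X).det = 0) :
    ¬ rsbInd q X := by
  classical
  obtain ⟨v, hv0, hv⟩ := Matrix.exists_mulVec_eq_zero_iff.2 h
  -- the combination vanishes
  have hs : ∀ j, ∑ x : X, v x * x.1 j = 0 := by
    have h1 : ∑ j, (∑ x : X, v x * x.1 j) ^ 2 = 0 := by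
      have h2 : v ⬝ᵥ (rsbGram X *ᵥ v) = 0 := by rw [hv, dotProduct_zero]
      rw [← h2]
      simp only [mulVec, dotProduct, rsbGram, Matrix.of_apply, sq, Finset.sum_mul, Finset.mul_sum]
      rw [Finset.sum_comm]
      refine Finset.sum_congr rfl fun a _ => ?_
      rw [Finset.sum_comm]
      refine Finset.sum_congr rfl fun b _ => Finset.sum_congr rfl fun j _ => by ring
    intro j
    exact pow_eq_zero_iff two_ne_zero |>.1
      ((Finset.sum_eq_zero_iff_of_nonneg fun j _ => sq_nonneg _).1 h1 j (Finset.mem_univ _))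
  -- divide by the gcd
  obtain ⟨a₀, ha₀⟩ := Function.ne_iff.1 hv0
  obtain ⟨g, hg, hg1⟩ := Finset.extract_gcd v (s := Finset.univ) ⟨a₀, Finset.mem_univ _⟩
  have hd0 : Finset.univ.gcd v ≠ 0 := fun h0 =>
    ha₀ (Finset.gcd_eq_zero_iff.1 h0 a₀ (Finset.mem_univ _))
  intro hI
  let c : (κ → ℤ) → ℤ := fun y => if hy : y ∈ X then g ⟨y, hy⟩ else 0
  have h3 : ∀ j, (q : ℤ) ∣ ∑ y ∈ X, c y * y j := fun j => by
    have h4 : Finset.univ.gcd v * ∑ y ∈ X, c y * y j = 0 := by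
      rw [← hs j, ← Finset.sum_coe_sort X, Finset.mul_sum]
      refine Finset.sum_congr rfl fun y _ => ?_
      rw [hg y (Finset.mem_univ _)]
      simp only [c, y.2, dif_pos]
      rw [mul_assoc]
    rw [(mul_eq_zero.1 h4).resolve_left hd0]
    exact dvd_zero _
  have h5 : (q : ℤ) ∣ Finset.univ.gcd g := Finset.dvd_gcd fun y _ => by
    have := hI c h3 y.1 y.2
    simpa [c, y.2] using this
  rw [hg1] at h5
  exact hq.one_lt.ne' (by exact_mod_cast Int.eq_one_of_dvd_one (Int.natCast_nonneg q) h5)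

theorem rsb_card_primes {X : Finset (κ → ℤ)} (h : ∀ x ∈ X, ∀ j, |x j| ≤ 1)
    (hc : X.card ≤ Fintype.card κ + 1) :
    (rsbGram X).det.natAbs.primeFactors.card + 1 ≤ (Fintype.card κ + 2) ^ 3 := by
  classical
  set d := Fintype.card κ with hd
  have h1 : ∀ a b, |rsbGram X a b| ≤ (d : ℤ) := fun a b => by
    simp only [rsbGram, Matrix.of_apply, dotProduct]
    refine (Finset.abs_sum_le_sum_abs _ _).trans ?_
    calc ∑ j, |a.1 j * b.1 j| ≤ ∑ _j : κ, (1 : ℤ) := Finset.sum_le_sum fun j _ => by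
          rw [abs_mul]
          exact mul_le_one₀ (h _ a.2 j) (abs_nonneg _) (h _ b.2 j)
      _ = d := by simp [hd]
  have h2 := Matrix.det_le (A := rsbGram X) (abv := AbsoluteValue.abs) (x := (d : ℤ)) h1
  simp only [Fintype.card_coe, AbsoluteValue.abs_apply, nsmul_eq_mul] at h2
  set D := (rsbGram X).det.natAbs with hD
  have h3 : D ≤ X.card.factorial * d ^ X.card := by
    have : (D : ℤ) ≤ ((X.card.factorial * d ^ X.card : ℕ) : ℤ) := by
      rw [hD, Int.natCast_natAbs]; push_cast; exact h2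
    exact_mod_cast this
  have h4 : D ≤ 2 ^ (2 * (d + 1) * (d + 1)) := by
    have e1 : X.card.factorial ≤ (d + 1) ^ (d + 1) :=
      (Nat.factorial_le hc).trans (Nat.factorial_le_pow _)
    have e2 : d ^ X.card ≤ (d + 1) ^ (d + 1) :=
      (Nat.pow_le_pow_left (Nat.le_succ d) _).trans (Nat.pow_le_pow_right (Nat.succ_pos d) hc)
    have e3 : d + 1 ≤ 2 ^ (d + 1) := Nat.lt_two_pow_self.le
    calc D ≤ (d + 1) ^ (d + 1) * (d + 1) ^ (d + 1) := h3.trans (Nat.mul_le_mul e1 e2)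
      _ ≤ (2 ^ (d + 1)) ^ (d + 1) * (2 ^ (d + 1)) ^ (d + 1) :=
          Nat.mul_le_mul (Nat.pow_le_pow_left e3 _) (Nat.pow_le_pow_left e3 _)
      _ = _ := by rw [← pow_mul, ← pow_add]; congr 1; ring
  have h5 : D.primeFactors.card ≤ 2 * (d + 1) * (d + 1) := by
    rcases Nat.eq_zero_or_pos D with h0 | h0
    · simp [h0]
    have e1 : 2 ^ D.primeFactors.card ≤ ∏ r ∈ D.primeFactors, r :=
      Finset.pow_card_le_prod _ _ _ fun r hr => (Nat.prime_of_mem_primeFactors hr).two_le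
    have e2 : ∏ r ∈ D.primeFactors, r ≤ D := Nat.le_of_dvd h0 (Nat.prod_primeFactors_dvd D)
    exact (Nat.pow_le_pow_iff_right (by norm_num)).1 (e1.trans (e2.trans h4))
  have h6 : (d + 2) ^ 3 = 2 * (d + 1) * (d + 1) + 1 + (d ^ 3 + 4 * d ^ 2 + 8 * d + 5) := by ring
  omega

theorem rsb_compress (κ : Type) [Fintype κ] [DecidableEq κ] (Adm : ℕ → (κ → ℤ) → Prop) :
    ∃ Φ : Finset (κ → ℤ) → Finset (ℕ × (κ → ℤ)),
      (∀ X, (∀ x ∈ X, ∀ j, |x j| ≤ 1) → X.card ≤ Fintype.card κ + 1 →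
        (Φ X).card ≤ (Fintype.card κ + 2) ^ 3) ∧
      (∀ X, ∀ t ∈ Φ X, Adm t.1 t.2) ∧
      ∀ (Y : Finset (κ → ℤ)) (q : ℕ) (w : κ → ℤ), q.Prime → Adm q w →
        (∀ y ∈ Y, (q : ℤ) ∣ y ⬝ᵥ w) →
        ∃ X ⊆ Y, X.card ≤ Fintype.card κ + 1 ∧ ∃ t ∈ Φ X, ∀ y ∈ Y, (t.1 : ℤ) ∣ y ⬝ᵥ t.2 := by
  classical
  let P₀ : Finset (κ → ℤ) → ℕ × (κ → ℤ) → Prop := fun X t =>
    t.1.Prime ∧ rsbInd t.1 X ∧ Adm t.1 t.2 ∧ ∀ x ∈ X, (t.1 : ℤ) ∣ x ⬝ᵥ t.2
  let P₁ : Finset (κ → ℤ) → ℕ → (κ → ℤ) → Prop := fun X q w =>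
    Adm q w ∧ ∀ x ∈ X, (q : ℤ) ∣ x ⬝ᵥ w
  let Φ₀ : Finset (κ → ℤ) → Finset (ℕ × (κ → ℤ)) := fun X =>
    if h : ∃ t, P₀ X t then {h.choose} else ∅
  let f : Finset (κ → ℤ) → ℕ → ℕ × (κ → ℤ) := fun X q =>
    (q, if h : ∃ w, P₁ X q w then h.choose else 0)
  let Φ₁ : Finset (κ → ℤ) → Finset (ℕ × (κ → ℤ)) := fun X =>
    ((rsbGram X).det.natAbs.primeFactors.filter fun q => ∃ w, P₁ X q w).image (f X)
  have hf : ∀ X q, (∃ w, P₁ X q w) → P₁ X q (f X q).2 := fun X q h => by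
    simp only [f, dif_pos h]; exact h.choose_spec
  refine ⟨fun X => Φ₀ X ∪ Φ₁ X, fun X hX hc => ?_, fun X t ht => ?_, fun Y q w hq hA hY => ?_⟩
  · have h0 : (Φ₀ X).card ≤ 1 := by
      simp only [Φ₀]; split_ifs <;> simp
    have h1 : (Φ₁ X).card ≤ (rsbGram X).det.natAbs.primeFactors.card :=
      Finset.card_image_le.trans (Finset.card_filter_le _ _)
    have h2 := rsb_card_primes hX hc
    have h3 := Finset.card_union_le (Φ₀ X) (Φ₁ X)
    show (Φ₀ X ∪ Φ₁ X).card ≤ _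
    omega
  · rcases Finset.mem_union.1 ht with h | h
    · simp only [Φ₀] at h
      split_ifs at h with h0
      · rw [Finset.mem_singleton.1 h]; exact h0.choose_spec.2.2.1
      · simp at h
    · obtain ⟨r, hr, rfl⟩ := Finset.mem_image.1 h
      exact (hf X r (Finset.mem_filter.1 hr).2).1
  · obtain ⟨R, hR, hmax⟩ := Finset.exists_max_image (Y.powerset.filter (rsbInd q)) Finset.card
      ⟨∅, Finset.mem_filter.2 ⟨Finset.empty_mem_powerset _, fun c _ x hx => absurd hx (by simp)⟩⟩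
    obtain ⟨hRY, hRI⟩ := Finset.mem_filter.1 hR
    rw [Finset.mem_powerset] at hRY
    have hRc := rsb_card_le hq hRI
    have hdep : ∀ y ∈ Y, y ∉ R → ¬ rsbInd q (insert y R) := fun y hy hyR hI => by
      have := hmax (insert y R) (Finset.mem_filter.2
        ⟨Finset.mem_powerset.2 (Finset.insert_subset hy hRY), hI⟩)
      rw [Finset.card_insert_of_notMem hyR] at this
      omega
    by_cases hz : ∀ y ∈ Y, y ∉ R → (rsbGram (insert y R)).det = 0
    · have h0 : ∃ t, P₀ R t := ⟨(q, w), hq, hRI, hA, fun x hx => hY x (hRY hx)⟩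
      refine ⟨R, hRY, by omega, h0.choose, Finset.mem_union_left _ (by
        simp only [Φ₀, dif_pos h0]; exact Finset.mem_singleton_self _),
        fun y hy => ?_⟩
      obtain ⟨h1, h2, _, h4⟩ := h0.choose_spec
      by_cases hyR : y ∈ R
      · exact h4 y hyR
      · exact rsb_dep h1 h2 (rsb_gram_zero h1 (hz y hy hyR)) h4
    · push Not at hz
      obtain ⟨y₀, hy₀, hy₀R, hg⟩ := hz
      have hsub : insert y₀ R ⊆ Y := Finset.insert_subset hy₀ hRY
      have h0 : ∃ w, P₁ (insert y₀ R) q w := ⟨w, hA, fun x hx => hY x (hsub hx)⟩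
      refine ⟨insert y₀ R, hsub, (Finset.card_insert_le _ _).trans (by omega), f (insert y₀ R) q,
        Finset.mem_union_right _ (Finset.mem_image_of_mem _ (Finset.mem_filter.2 ⟨?_, h0⟩)),
        fun y hy => ?_⟩
      · exact Nat.mem_primeFactors.2 ⟨hq, Int.natCast_dvd.1 (rsb_dvd_gram hq (hdep y₀ hy₀ hy₀R)),
          Int.natAbs_ne_zero.2 hg⟩
      · have h4 := (hf _ q h0).2
        by_cases hyR : y ∈ R
        · exact h4 y (Finset.mem_insert_of_mem hyR)
        · exact rsb_dep hq hRI (hdep y hy hyR) fun x hx => h4 x (Finset.mem_insert_of_mem hx)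

end Crest.Agent.R152.RD
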