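import Crest.Agent.R152.RProb

/-! Auxiliary lemmas for `atom_le` and `sparse_rows`. -/

set_option autoImplicit false

open Matrix Filter Crest.FinProb

noncomputable section

namespace Crest.Agent.R152.RD

variable {p : ℝ}

theorem rsa_prob_eq (p : ℝ) : bernoulliProb p {η : Fin 2 → Bool | η 0 = η 1} = rho p := by
  classical
  unfold bernoulliProb
  rw [Finset.sum_filter, ← (finTwoArrowEquiv Bool).symm.sum_comp, Fintype.sum_prod_type]
  simp [bernoulliWeight, Fin.prod_univ_two, rho]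
  ring

theorem rsa_prob_ne (p : ℝ) : bernoulliProb p {η : Fin 2 → Bool | η 0 ≠ η 1} ≤ rho p := by
  classical
  unfold bernoulliProb
  rw [Finset.sum_filter, ← (finTwoArrowEquiv Bool).symm.sum_comp, Fintype.sum_prod_type]
  simp [bernoulliWeight, Fin.prod_univ_two, rho]
  nlinarith [sq_nonneg (p - (1 - p))]

theorem rsa_atom_le (h0 : 0 ≤ p) (h1 : p ≤ 1) {κ : Type} [Fintype κ] [DecidableEq κ] {q : ℕ}
    (u : κ → ℤ) (τ : ℤ) {a b : κ} (hab : a ≠ b) (ha : ¬ (q : ℤ) ∣ u a) (hb : ¬ (q : ℤ) ∣ u b) :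
    bernoulliProb p {β : κ → Bool | (q : ℤ) ∣ (∑ j, (if β j then 1 else 0) * u j) - τ} ≤ rho p := by
  have hf : Function.Injective (![a, b] : Fin 2 → κ) := by
    intro i j h
    fin_cases i <;> fin_cases j <;> simp_all [eq_comm]
  refine prob_le_of_sections h0 h1 hf fun ω₀ => ?_
  set c : ℤ := (∑ j ∈ (Finset.univ.erase a).erase b, (if ω₀ j then 1 else 0) * u j) - τ with hc
  have key : ∀ η : Fin 2 → Bool,
      (∑ j, (if Function.extend ![a, b] η ω₀ j then 1 else 0) * u j) - τ =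
        (if η 0 then 1 else 0) * u a + (if η 1 then 1 else 0) * u b + c := by
    intro η
    have ea : Function.extend ![a, b] η ω₀ a = η 0 := hf.extend_apply η ω₀ 0
    have eb : Function.extend ![a, b] η ω₀ b = η 1 := hf.extend_apply η ω₀ 1
    rw [← Finset.add_sum_erase _ _ (Finset.mem_univ a),
      ← Finset.add_sum_erase _ _ (Finset.mem_erase.2 ⟨hab.symm, Finset.mem_univ b⟩), ea, eb, hc]
    have : ∑ j ∈ (Finset.univ.erase a).erase b,
        (if Function.extend ![a, b] η ω₀ j then (1 : ℤ) else 0) * u j =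
        ∑ j ∈ (Finset.univ.erase a).erase b, (if ω₀ j then (1 : ℤ) else 0) * u j := by
      refine Finset.sum_congr rfl fun j hj => ?_
      rw [Function.extend_apply']
      rintro ⟨i, rfl⟩
      fin_cases i <;> simp at hj
    rw [this]
    ring
  simp only [Set.mem_ofPred_eq, key]
  by_cases hq : (q : ℤ) ∣ c ∨ (q : ℤ) ∣ u a + u b + c
  · refine (prob_mono h0 h1 ?_).trans (rsa_prob_eq p).le
    intro η hη
    simp only [Set.mem_ofPred_eq] at hη ⊢
    by_contra hne
    cases h2 : η 0 <;> cases h3 : η 1 <;> simp [h2, h3] at hη hne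
    · rcases hq with hq | hq
      · exact hb ((dvd_add_left hq).1 hη)
      · exact ha (by simpa [add_assoc] using (dvd_add_left hη).1 (by simpa [add_assoc] using hq))
    · rcases hq with hq | hq
      · exact ha ((dvd_add_left hq).1 hη)
      · refine hb ((dvd_add_left hη).1 ?_)
        rwa [show u b + (u a + c) = u a + u b + c by ring]
  · refine (prob_mono h0 h1 ?_).trans (rsa_prob_ne p)
    intro η hη
    simp only [Set.mem_ofPred_eq] at hη ⊢
    intro heq
    cases h2 : η 0 <;> cases h3 : η 1 <;> simp [h2, h3] at hη heq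
    · exact hq (Or.inl hη)
    · exact hq (Or.inr hη)

theorem rsa_sparse_rows {γ : ℝ} {n : ℕ} {b : Sym2 (Fin n) → Bool} (h : Sparse γ b) :
    ∃ (q : ℕ) (T : Finset (Fin n)) (u : T → ℤ) (τ : ℤ), q.Prime ∧ (T.card : ℝ) ≤ γ * n ∧
      (∃ a c : T, a ≠ c ∧ ¬ (q : ℤ) ∣ u a ∧ ¬ (q : ℤ) ∣ u c) ∧
      ∀ i, (q : ℤ) ∣ (∑ t : T, (if b s(i, t.1) then 1 else 0) * u t) - τ := by
  classical
  obtain ⟨q, v, hq, hv, ⟨j, hj⟩, hc⟩ := h
  set T := Finset.univ.filter fun j => ¬ (q : ℤ) ∣ v j with hT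
  have hrow : ∀ i, ∑ t, (if b s(i, t) then (1 : ℤ) else -1) * v t = 0 := fun i => congrFun hv i
  have hsplit : ∀ g : Fin n → ℤ, (q : ℤ) ∣ (∑ t : T, g t.1 * v t.1) - ∑ t, g t * v t := by
    intro g
    rw [Finset.sum_coe_sort T fun t => g t * v t,
      ← Finset.sum_filter_add_sum_filter_not Finset.univ (fun j => ¬ (q : ℤ) ∣ v j), ← hT,
      sub_add_cancel_left, dvd_neg]
    refine Finset.dvd_sum fun t ht => Dvd.dvd.mul_left ?_ _
    simpa using ht
  have h2 : ∀ i, 2 * ∑ t, (if b s(i, t) then (1 : ℤ) else 0) * v t = ∑ t, v t := by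
    intro i
    refine sub_eq_zero.1 (Eq.trans ?_ (hrow i))
    rw [Finset.mul_sum, ← Finset.sum_sub_distrib]
    refine Finset.sum_congr rfl fun t _ => ?_
    split_ifs <;> ring
  have hjT : j ∈ T := by simp [hT, hj]
  refine ⟨q, T, fun t => v t.1, ∑ t, (if b s(j, t) then (1 : ℤ) else 0) * v t, hq, by convert hc, ?_,
    fun i => ?_⟩
  · by_contra hne
    have hall : ∀ c : T, c = ⟨j, hjT⟩ := by
      intro c
      by_contra hcj
      exact hne ⟨c, ⟨j, hjT⟩, hcj, (Finset.mem_filter.1 c.2).2, hj⟩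
    have h3 := hsplit fun t => if b s(j, t) then (1 : ℤ) else -1
    rw [hrow j, sub_zero, Finset.sum_eq_single ⟨j, hjT⟩ (fun c _ hc => absurd (hall c) hc)
      (fun h => absurd (Finset.mem_univ _) h)] at h3
    apply hj
    split_ifs at h3
    · simpa using h3
    · simpa using h3
  · have h3 := hsplit fun t => if b s(i, t) then (1 : ℤ) else 0
    have h4 : ∑ t, (if b s(i, t) then (1 : ℤ) else 0) * v t =
        ∑ t, (if b s(j, t) then (1 : ℤ) else 0) * v t := by
      have := (h2 i).trans (h2 j).symm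
      omega
    rwa [h4] at h3

end Crest.Agent.R152.RD
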