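import Crest.Agent.R152.RProb
import Crest.Agent.R152.RSparseAux1
import Crest.Agent.R152.RSparseAux2

/-!
# RED: kernel vectors that are sparse modulo a prime

`atom_le`: resample the two coordinates `a ≠ b`; among the values `0, u a, u b, u a + u b` modulo `q`
we have `0 ≠ u a, u b` and `u a + u b ≠ u a, u b`, so the solutions lie in `{00, 11}` or in `{10, 01}`,
of mass `p² + (1-p)²` and `2 p (1-p) ≤ p² + (1-p)²`.
`compress`: `Φ X` consists of one chosen admissible pair `(q₀, w₀)` with `X` independent modulo `q₀`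
and `X ⊥ w₀` (if there is one), and, for every prime `q'` dividing the Gram determinant of `X`
(if nonzero; it is at most `(d+1)! d^(d+1) ≤ 2^((d+2)^3 - 2)`), one chosen admissible `w' ⊥ X` modulo
`q'`.  Given `Y, q, w` take `R ⊆ Y` maximal independent modulo `q` (`|R| ≤ d`).  If all of `Y` is in
the rational span of `R`, use `X = R`: for `y ∈ Y`, `c y = ∑ c_x x` with coprime integers, `q₀ ∤ c` by
independence modulo `q₀`.  Otherwise `X = insert y₀ R` is independent over `ℚ` and dependent modulo `q`,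
so `q` divides its nonzero Gram determinant, and `Y` lies in the span of `R` modulo `q`.
`sparse_rows`: `sm b = 2 B - J`, so `2 B v = σ 1`, `σ = ∑ v` is even (`n ≥ 1`) and `B v = (σ/2) 1`;
a support of size one is impossible (a row of `sm b *ᵥ v = 0` modulo `q` would give `q ∣ ± v t`).
`prob_sparse`: `T` the support, `κ = Option T`, rows `y_i = (B i|_T, -1)`, `w = (v|_T, τ)`; pull the set
`X` of `compress` back to a set `R` of at most `|T| + 2` indices.  Union over `T`, `R`; resample the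
entries `s(i, t)`, `i ∉ R ∪ T`, `t ∈ T` (`prob_le_of_sections`; `X` does not change), union over
`Φ X`, `prob_pi`, `atom_le`: total `e^{εn} e^{εn} (n+3)^3 ρ^(n - 2γn - 2)`.
-/

set_option autoImplicit false
set_option linter.unusedSectionVars false

open Matrix Filter Crest.FinProb

noncomputable section

namespace Crest.Agent.R152.RD

variable {p : ℝ}

theorem atom_le (h0 : 0 ≤ p) (h1 : p ≤ 1) {κ : Type} [Fintype κ] [DecidableEq κ] {q : ℕ}
    (u : κ → ℤ) (τ : ℤ) {a b : κ} (hab : a ≠ b) (ha : ¬ (q : ℤ) ∣ u a) (hb : ¬ (q : ℤ) ∣ u b) :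
    bernoulliProb p {β : κ → Bool | (q : ℤ) ∣ (∑ j, (if β j then 1 else 0) * u j) - τ} ≤ rho p :=
  rsa_atom_le h0 h1 u τ hab ha hb

theorem compress (κ : Type) [Fintype κ] [DecidableEq κ] (Adm : ℕ → (κ → ℤ) → Prop) :
    ∃ Φ : Finset (κ → ℤ) → Finset (ℕ × (κ → ℤ)),
      (∀ X, (∀ x ∈ X, ∀ j, |x j| ≤ 1) → X.card ≤ Fintype.card κ + 1 →
        (Φ X).card ≤ (Fintype.card κ + 2) ^ 3) ∧
      (∀ X, ∀ t ∈ Φ X, Adm t.1 t.2) ∧
      ∀ (Y : Finset (κ → ℤ)) (q : ℕ) (w : κ → ℤ), q.Prime → Adm q w →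
        (∀ y ∈ Y, (q : ℤ) ∣ y ⬝ᵥ w) →
        ∃ X ⊆ Y, X.card ≤ Fintype.card κ + 1 ∧ ∃ t ∈ Φ X, ∀ y ∈ Y, (t.1 : ℤ) ∣ y ⬝ᵥ t.2 :=
  rsb_compress κ Adm

theorem sparse_rows {γ : ℝ} {n : ℕ} {b : Sym2 (Fin n) → Bool} (h : Sparse γ b) :
    ∃ (q : ℕ) (T : Finset (Fin n)) (u : T → ℤ) (τ : ℤ), q.Prime ∧ (T.card : ℝ) ≤ γ * n ∧
      (∃ a c : T, a ≠ c ∧ ¬ (q : ℤ) ∣ u a ∧ ¬ (q : ℤ) ∣ u c) ∧
      ∀ i, (q : ℤ) ∣ (∑ t : T, (if b s(i, t.1) then 1 else 0) * u t) - τ :=
  rsa_sparse_rows h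

/-- the row `i` restricted to `T`, extended by `-1` -/
def rspY {n : ℕ} (T : Finset (Fin n)) (b : Sym2 (Fin n) → Bool) (i : Fin n) : Option T → ℤ :=
  fun o => o.elim (-1) fun t => if b s(i, t.1) then 1 else 0

theorem rsp_dot {n : ℕ} (T : Finset (Fin n)) (b : Sym2 (Fin n) → Bool) (i : Fin n)
    (w : Option T → ℤ) :
    rspY T b i ⬝ᵥ w = (∑ t : T, (if b s(i, t.1) then 1 else 0) * w (some t)) - w none := by
  simp only [dotProduct, Fintype.sum_option, rspY, Option.elim]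
  ring

theorem rsp_one (h0 : 0 ≤ p) (h1 : p ≤ 1) {n : ℕ} (T R : Finset (Fin n)) (hR : R.card ≤ T.card + 2)
    (Φ : Finset (Option T → ℤ) → Finset (ℕ × (Option T → ℤ)))
    (hΦ1 : ∀ X, (∀ x ∈ X, ∀ j, |x j| ≤ 1) → X.card ≤ Fintype.card (Option T) + 1 →
      (Φ X).card ≤ (Fintype.card (Option T) + 2) ^ 3)
    (hΦ2 : ∀ X, ∀ t ∈ Φ X, ∃ a c : T, a ≠ c ∧ ¬ (t.1 : ℤ) ∣ t.2 (some a) ∧
      ¬ (t.1 : ℤ) ∣ t.2 (some c)) :
    bernoulliProb p {b : Sym2 (Fin n) → Bool |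
      ∃ t ∈ Φ (R.image (rspY T b)), ∀ i, (t.1 : ℤ) ∣ rspY T b i ⬝ᵥ t.2} ≤
      ((T.card : ℝ) + 3) ^ 3 * rho p ^ (n - (2 * T.card + 2)) := by
  let f : ((R ∪ T)ᶜ : Finset (Fin n)) × T → Sym2 (Fin n) := fun z => s(z.1.1, z.2.1)
  have hI : ∀ i : ((R ∪ T)ᶜ : Finset (Fin n)), i.1 ∉ R ∧ i.1 ∉ T := fun i => by
    have := Finset.mem_compl.1 i.2
    rwa [Finset.mem_union, not_or] at this
  have hf : Function.Injective f := by
    rintro ⟨i, t⟩ ⟨i', t'⟩ h
    rcases Sym2.eq_iff.1 h with h | h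
    · exact Prod.ext (Subtype.ext h.1) (Subtype.ext h.2)
    · exact absurd (h.1 ▸ t'.2) (hI i).2
  refine prob_le_of_sections h0 h1 hf fun ω => ?_
  have hX : ∀ η, R.image (rspY T (Function.extend f η ω)) = R.image (rspY T ω) := fun η => by
    refine Finset.image_congr fun r hr => ?_
    funext o
    rcases o with _ | t
    · rfl
    · simp only [rspY, Option.elim]
      rw [Function.extend_apply']
      rintro ⟨⟨i, t'⟩, h⟩
      rcases Sym2.eq_iff.1 h with h | h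
      · exact (hI i).1 (h.1 ▸ hr)
      · exact (hI i).2 (h.1 ▸ t.2)
  have hc : Fintype.card (Option T) = T.card + 1 := by simp
  have hcard : ((Φ (R.image (rspY T ω))).card : ℝ) ≤ ((T.card : ℝ) + 3) ^ 3 := by
    have := hΦ1 (R.image (rspY T ω)) (fun x hx j => by
      obtain ⟨r, -, rfl⟩ := Finset.mem_image.1 hx
      rcases j with _ | t
      · simp [rspY]
      · simp only [rspY, Option.elim]
        split_ifs <;> simp) (Finset.card_image_le.trans (by omega))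
    rw [hc] at this
    exact_mod_cast this
  have hn : n - (2 * T.card + 2) ≤ ((R ∪ T)ᶜ : Finset (Fin n)).card := by
    have := Finset.card_union_le R T
    rw [Finset.card_compl, Fintype.card_fin]
    omega
  refine (prob_cover h0 h1 (Φ (R.image (rspY T ω))) _ (fun t => {η | ∀ i, (fun j => η (i, j)) ∈
    {β : T → Bool | (t.1 : ℤ) ∣ (∑ j, (if β j then 1 else 0) * t.2 (some j)) - t.2 none}})
    fun η hη => ?_).trans ?_
  · obtain ⟨t, ht, hd⟩ := hη
    rw [hX] at ht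
    refine ⟨t, ht, fun i => ?_⟩
    have := hd i.1
    rw [rsp_dot] at this
    have e : ∀ j : T, Function.extend f η ω s(i.1, j.1) = η (i, j) := fun j =>
      hf.extend_apply η ω (i, j)
    simp only [e] at this
    exact this
  · refine (Finset.sum_le_card_nsmul _ _ (rho p ^ (n - (2 * T.card + 2))) fun t ht => ?_).trans ?_
    · obtain ⟨a, c, hac, ha, hc⟩ := hΦ2 _ t ht
      rw [prob_pi, Finset.prod_const, Finset.card_univ, Fintype.card_coe]
      exact (pow_le_pow_left₀ (prob_nonneg h0 h1 _) (atom_le h0 h1 _ _ hac ha hc) _).trans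
        (pow_le_pow_of_le_one (rho_pos p).le (rho_le_one h0 h1) hn)
    · rw [nsmul_eq_mul]
      exact mul_le_mul_of_nonneg_right hcard (pow_pos (rho_pos p) _).le

open Classical in
theorem rsp_all (h0 : 0 ≤ p) (h1 : p ≤ 1) {γ : ℝ} (n k : ℕ) (hk : ∀ m : ℕ, (m : ℝ) ≤ γ * n → m ≤ k) :
    bernoulliProb p {b : Sym2 (Fin n) → Bool | Sparse γ b} ≤
      ((((Finset.univ : Finset (Fin n)).powerset.filter fun T => T.card ≤ k + 2).card : ℝ)) ^ 2 *
        (((n : ℝ) + 3) ^ 3 * rho p ^ (n - (2 * k + 2))) := by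
  choose Φ hΦ1 hΦ2 hΦ3 using fun T : Finset (Fin n) => compress (Option T)
    fun q w => ∃ a c : T, a ≠ c ∧ ¬ (q : ℤ) ∣ w (some a) ∧ ¬ (q : ℤ) ∣ w (some c)
  set F := (Finset.univ : Finset (Fin n)).powerset.filter fun T => T.card ≤ k + 2 with hF
  refine (prob_cover h0 h1 ((F ×ˢ F).filter fun z => z.1.card ≤ k ∧ z.2.card ≤ z.1.card + 2) _
    (fun z => {b | ∃ t ∈ Φ z.1 (z.2.image (rspY z.1 b)), ∀ i, (t.1 : ℤ) ∣ rspY z.1 b i ⬝ᵥ t.2})
    fun b hb => ?_).trans ?_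
  · obtain ⟨q, T, u, τ, hq, hT, hac, hd⟩ := sparse_rows hb
    obtain ⟨X, hXY, hX, t, ht, htd⟩ := hΦ3 T (Finset.univ.image (rspY T b)) q
      (fun o => o.elim τ u) hq hac (fun y hy => by
        obtain ⟨i, -, rfl⟩ := Finset.mem_image.1 hy
        rw [rsp_dot]
        exact hd i)
    obtain ⟨R, -, hinj, hR⟩ := Finset.exists_subset_injOn_image_eq_of_surjOn
      (f := rspY T b) Set.univ X fun x hx => by
        obtain ⟨i, -, rfl⟩ := Finset.mem_image.1 (hXY hx)
        exact ⟨i, trivial, rfl⟩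
    have hRc : R.card ≤ T.card + 2 := by
      rw [← Finset.card_image_of_injOn hinj, hR]
      simpa using hX
    have hTk := hk _ hT
    refine ⟨(T, R), ?_, t, hR ▸ ht, fun i => htd _ (Finset.mem_image_of_mem _ (Finset.mem_univ i))⟩
    simp only [hF, Finset.mem_filter, Finset.mem_product, Finset.mem_powerset, Finset.subset_univ,
      true_and]
    omega
  · refine (Finset.sum_le_card_nsmul _ _ (((n : ℝ) + 3) ^ 3 * rho p ^ (n - (2 * k + 2)))
      fun z hz => ?_).trans ?_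
    · obtain ⟨hz1, hz2⟩ := (Finset.mem_filter.1 hz).2
      refine (rsp_one h0 h1 z.1 z.2 hz2 _ (hΦ1 _) (hΦ2 _)).trans ?_
      have hn : (z.1.card : ℝ) ≤ n := by
        exact_mod_cast (Finset.card_le_univ _).trans (Fintype.card_fin n).le
      exact mul_le_mul (by gcongr)
        (pow_le_pow_of_le_one (rho_pos p).le (rho_le_one h0 h1) (by omega))
        (pow_pos (rho_pos p) _).le (by positivity)
    · rw [nsmul_eq_mul]
      refine mul_le_mul_of_nonneg_right ?_ (by have := rho_pos p; positivity)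
      have := Finset.card_filter_le (F ×ˢ F) fun z => z.1.card ≤ k ∧ z.2.card ≤ z.1.card + 2
      rw [Finset.card_product, ← sq] at this
      exact_mod_cast this

theorem rsp_poly {c : ℝ} (hc : 0 < c) (C : ℝ) :
    ∀ᶠ n : ℕ in atTop, ((n : ℝ) + 3) ^ 3 * C ≤ Real.exp (c * n) := by
  filter_upwards [eventually_ge_atTop 1,
    (tendsto_natCast_atTop_atTop (R := ℝ)).eventually_ge_atTop (24 * 64 * |C| / c ^ 4)] with n h1 h2
  have hn : (1 : ℝ) ≤ n := by exact_mod_cast h1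
  have h3 := Real.pow_div_factorial_le_exp (c * n) (by positivity) 4
  rw [div_le_iff₀ (by positivity)] at h2
  have h4 : ((n : ℝ) + 3) ^ 3 ≤ (4 * n) ^ 3 := pow_le_pow_left₀ (by positivity) (by linarith) 3
  calc ((n : ℝ) + 3) ^ 3 * C ≤ ((n : ℝ) + 3) ^ 3 * |C| :=
        mul_le_mul_of_nonneg_left (le_abs_self _) (by positivity)
    _ ≤ (4 * n) ^ 3 * |C| := mul_le_mul_of_nonneg_right h4 (abs_nonneg _)
    _ = (24 * 64 * |C|) * (n : ℝ) ^ 3 / 24 := by ring
    _ ≤ (n * c ^ 4) * (n : ℝ) ^ 3 / 24 := by gcongr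
    _ = (c * n) ^ 4 / (Nat.factorial 4 : ℕ) := by norm_num [Nat.factorial]; ring
    _ ≤ _ := h3

theorem prob_sparse (h0 : 0 < p) (h1 : p < 1) {θ : ℝ} (hθ : rho p < θ) :
    ∃ γ : ℝ, 0 < γ ∧ γ ≤ 1 ∧ ∀ᶠ n : ℕ in atTop,
      bernoulliProb p {b : Sym2 (Fin n) → Bool | Sparse γ b} ≤ θ ^ n := by
  have hρ := rho_pos p
  have hρ1 := rho_le_one h0.le h1.le
  set l := Real.log (θ / rho p) with hl
  have hl0 : 0 < l := Real.log_pos ((one_lt_div hρ).2 hθ)
  set L := -Real.log (rho p) with hL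
  have hL0 : 0 ≤ L := neg_nonneg.2 (Real.log_nonpos hρ.le hρ1)
  obtain ⟨γ₀, hγ₀, hcount⟩ := card_small_subsets (ε := l / 8) (by positivity)
  set γ := min (min (γ₀ / 2) (l / (8 * (L + 1)))) 1 with hγ
  have hγ0 : 0 < γ := by positivity
  have hγ1 : γ ≤ γ₀ / 2 := (min_le_left _ _).trans (min_le_left _ _)
  have hγ2 : γ * (8 * (L + 1)) ≤ l :=
    (le_div_iff₀ (by positivity)).1 ((min_le_left _ _).trans (min_le_right _ _))
  refine ⟨γ, hγ0, min_le_right _ _, ?_⟩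
  filter_upwards [rsp_poly (c := l / 2) (by positivity) (Real.exp (2 * L)),
    (tendsto_natCast_atTop_atTop (R := ℝ)).eventually_ge_atTop (4 / γ₀)] with n hn1 hn2
  have hn0 : (0 : ℝ) ≤ n := Nat.cast_nonneg n
  set k := ⌊γ * n⌋₊ with hk
  have hk1 : (k : ℝ) ≤ γ * n := Nat.floor_le (by positivity)
  refine (rsp_all h0.le h1.le n k fun m hm => Nat.le_floor hm).trans ?_
  have h2 := hcount (Fin n) Finset.univ n (k + 2) (by simp) (by
    rw [div_le_iff₀ hγ₀] at hn2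
    have := mul_le_mul_of_nonneg_right hγ1 hn0
    push_cast
    linarith)
  have h3 : rho p ^ (n - (2 * k + 2)) ≤ rho p ^ n * (Real.exp (2 * L) * Real.exp (l / 4 * n)) := by
    have e1 : rho p ^ (2 * k + 2) * Real.exp (((2 * k + 2 : ℕ) : ℝ) * L) = 1 := by
      rw [Real.exp_nat_mul, ← mul_pow, hL, Real.exp_neg, Real.exp_log hρ, mul_inv_cancel₀ hρ.ne',
        one_pow]
    have e2 : rho p ^ (n - (2 * k + 2)) * rho p ^ (2 * k + 2) ≤ rho p ^ n := by
      rw [← pow_add]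
      exact pow_le_pow_of_le_one hρ.le hρ1 (by omega)
    have e3 : Real.exp (((2 * k + 2 : ℕ) : ℝ) * L) ≤ Real.exp (2 * L) * Real.exp (l / 4 * n) := by
      rw [← Real.exp_add]
      refine Real.exp_le_exp.2 ?_
      have a1 := mul_le_mul_of_nonneg_right hk1 hL0
      have a2 := mul_le_mul_of_nonneg_right hγ2 hn0
      have a3 : 0 ≤ γ * n := by positivity
      push_cast
      linarith
    calc rho p ^ (n - (2 * k + 2)) = rho p ^ (n - (2 * k + 2)) * rho p ^ (2 * k + 2) *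
          Real.exp (((2 * k + 2 : ℕ) : ℝ) * L) := by rw [mul_assoc, e1, mul_one]
      _ ≤ _ := mul_le_mul e2 e3 (Real.exp_pos _).le (by positivity)
  have h4 : θ ^ n = rho p ^ n * Real.exp (l * n) := by
    rw [mul_comm l, Real.exp_nat_mul, ← mul_pow, hl, Real.exp_log (div_pos (hρ.trans hθ) hρ),
      mul_div_cancel₀ _ hρ.ne']
  have h5 : Real.exp (l * n) =
      Real.exp (l / 8 * n) ^ 2 * Real.exp (l / 4 * n) * Real.exp (l / 2 * n) := by
    rw [sq, ← Real.exp_add, ← Real.exp_add, ← Real.exp_add]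
    congr 1
    ring
  calc _ ≤ Real.exp (l / 8 * n) ^ 2 * (((n : ℝ) + 3) ^ 3 *
        (rho p ^ n * (Real.exp (2 * L) * Real.exp (l / 4 * n)))) := by gcongr
    _ = rho p ^ n * (Real.exp (l / 8 * n) ^ 2 * Real.exp (l / 4 * n) *
        (((n : ℝ) + 3) ^ 3 * Real.exp (2 * L))) := by ring
    _ ≤ rho p ^ n * (Real.exp (l / 8 * n) ^ 2 * Real.exp (l / 4 * n) * Real.exp (l / 2 * n)) := by
        gcongr
    _ = θ ^ n := by rw [h4, h5]

end Crest.Agent.R152.RD
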