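import Crest.Agent.R152.RAdm
import Crest.Agent.R152.RLoc
import Crest.Agent.R152.RSparse

/-!
# RED: comparison of two rows, and the probability of corank one

`two_rows`: swap `j, j'` so that `wt (rw j b) ≤ wt (rw j' b)` (`wt = bernoulliWeight p`); union over the
pairs.  With `j' = j.succAbove i'` and `a = res j b`, the row `rw j' b` and the row
`fun i => a s(i', i)` have the same entries except one (products over `Fin (m+1)`:
`wt (rw j' b) * w(b s(j',j')) = ∏_k w (b s(j',k)) = wt (row) * w (b s(j',j))`, `Fin.prod_univ_succAbove`),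
so `wt (rw j b) ≤ wt (row i' of a) / ν`, `ν = min p (1-p)`.  By `Ex_border` the probability is at most
`P(N < card (S a)) + N/ν · Ex_a wt (row i' of a)`, and `Ex_comp`, `sum_weight_sq` give `ρ^m`.
`prob_card_SS`: `SS ⊆ SS_A ∪ SS_B`; if `card SS > exp(ε m)` then the part with `InB` has
`≥ exp(ε m/2)` elements (`N2`), or some `H` of `global_family` (with `ε/4`) is annihilated by
`≥ exp(ε m/2)` elements (`N1`).
`c1_le`: `prob_sparse`, `two_admissible`, `two_rows` with `N = exp(ε m)`, `exp(ε) ρ < θ`.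
-/

set_option autoImplicit false
set_option linter.unusedSectionVars false

open Matrix Filter Crest.FinProb

noncomputable section

namespace Crest.Agent.R152.RD

variable {p : ℝ}

theorem rwa_cmp (h0 : 0 < p) (h1 : p < 1) {m : ℕ} (b : Sym2 (Fin (m + 1)) → Bool)
    (j : Fin (m + 1)) (i' : Fin m) :
    min p (1 - p) * bernoulliWeight p (rw (j.succAbove i') b) ≤
      bernoulliWeight p (fun i => res j b s(i', i)) := by
  have e1 := Fin.prod_univ_succAbove
    (fun k => if b s(j.succAbove i', k) then p else 1 - p) (j.succAbove i')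
  have e2 := Fin.prod_univ_succAbove (fun k => if b s(j.succAbove i', k) then p else 1 - p) j
  have e3 : (if b s(j.succAbove i', j.succAbove i') then p else 1 - p) *
      bernoulliWeight p (rw (j.succAbove i') b) =
      (if b s(j.succAbove i', j) then p else 1 - p) *
        bernoulliWeight p (fun i => res j b s(i', i)) := e1.symm.trans e2
  have e4 : min p (1 - p) ≤ if b s(j.succAbove i', j.succAbove i') then p else 1 - p := by
    split_ifs
    · exact min_le_left _ _
    · exact min_le_right _ _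
  have e5 : (if b s(j.succAbove i', j) then p else 1 - p) ≤ 1 := by
    split_ifs <;> linarith
  calc _ ≤ _ := mul_le_mul_of_nonneg_right e4 (weight_nonneg h0.le h1.le _)
    _ = _ := e3
    _ ≤ _ := mul_le_of_le_one_left (weight_nonneg h0.le h1.le _) e5

theorem rwa_one (h0 : 0 < p) (h1 : p < 1) {m : ℕ}
    (S : (Sym2 (Fin m) → Bool) → Finset (Fin m → Bool)) {N : ℝ} (hN : 0 ≤ N)
    (j : Fin (m + 1)) (i' : Fin m) :
    bernoulliProb p {b : Sym2 (Fin (m + 1)) → Bool | rw j b ∈ S (res j b) ∧
        min p (1 - p) * bernoulliWeight p (rw j b) ≤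
          bernoulliWeight p (fun i => res j b s(i', i))} ≤
      bernoulliProb p {a | N < (S a).card} + N * rho p ^ m / min p (1 - p) := by
  classical
  have hν : 0 < min p (1 - p) := lt_min h0 (by linarith)
  have e1 := Ex_border p j (fun a x => if x ∈ S a ∧ min p (1 - p) * bernoulliWeight p x ≤
    bernoulliWeight p (fun i => a s(i', i)) then (1 : ℝ) else 0)
  have e2 : bernoulliProb p {b : Sym2 (Fin (m + 1)) → Bool | rw j b ∈ S (res j b) ∧
        min p (1 - p) * bernoulliWeight p (rw j b) ≤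
          bernoulliWeight p (fun i => res j b s(i', i))} =
      Ex p (fun b => if rw j b ∈ S (res j b) ∧ min p (1 - p) * bernoulliWeight p (rw j b) ≤
        bernoulliWeight p (fun i => res j b s(i', i)) then (1 : ℝ) else 0) := by
    rw [prob_eq_Ex]
    congr 1
    funext b
    simp only [Set.indicator_apply, Set.mem_ofPred_eq]
  have hinj : Function.Injective (fun i : Fin m => s(i', i)) := fun i k h => Sym2.congr_right.mp h
  have e3 : Ex p (fun a : Sym2 (Fin m) → Bool => bernoulliWeight p (fun i => a s(i', i))) =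
      rho p ^ m := by
    refine (Ex_comp p hinj (bernoulliWeight p)).trans ?_
    have := sum_weight_sq (ι := Fin m) p
    rwa [Fintype.card_fin] at this
  have e4 : bernoulliProb p {a | N < (S a).card} + N * rho p ^ m / min p (1 - p) =
      Ex p (fun a : Sym2 (Fin m) → Bool => ({a | N < (S a).card} : Set _).indicator (fun _ => 1) a +
        N / min p (1 - p) * bernoulliWeight p (fun i => a s(i', i))) := by
    rw [Ex_add, Ex_mul, e3, prob_eq_Ex]
    ring_nf
  rw [e2, e1, e4]
  refine Ex_mono h0.le h1.le fun a => ?_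
  have hw := weight_nonneg h0.le h1.le (fun i => a s(i', i))
  by_cases hc : N < (S a).card
  · rw [Set.indicator_of_mem (by exact hc)]
    refine le_trans (Ex_mono h0.le h1.le (G := fun _ => 1) fun x => ?_) ?_
    · split_ifs <;> norm_num
    · rw [Ex_const]
      exact le_add_of_nonneg_right (by positivity)
  · rw [Set.indicator_of_notMem (by exact hc), zero_add]
    have f1 : ∀ x ∈ (Finset.univ : Finset (Fin m → Bool)), bernoulliWeight p x *
        (if x ∈ S a ∧ min p (1 - p) * bernoulliWeight p x ≤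
          bernoulliWeight p (fun i => a s(i', i)) then (1 : ℝ) else 0) ≤
        if x ∈ S a then bernoulliWeight p (fun i => a s(i', i)) / min p (1 - p) else 0 := by
      intro x _
      by_cases hx : x ∈ S a ∧ min p (1 - p) * bernoulliWeight p x ≤
          bernoulliWeight p (fun i => a s(i', i))
      · rw [if_pos hx, if_pos hx.1, mul_one, le_div_iff₀ hν, mul_comm]
        exact hx.2
      · rw [if_neg hx, mul_zero]
        split_ifs
        · positivity
        · exact le_rfl
    refine (Finset.sum_le_sum f1).trans ?_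
    rw [Finset.sum_ite_mem, Finset.univ_inter, Finset.sum_const, nsmul_eq_mul, div_mul_eq_mul_div,
      mul_div_assoc]
    exact mul_le_mul_of_nonneg_right (not_lt.mp hc) (by positivity)

theorem two_rows (h0 : 0 < p) (h1 : p < 1) {m : ℕ}
    (S : (Sym2 (Fin m) → Bool) → Finset (Fin m → Bool)) {N : ℝ} (hN : 0 ≤ N) :
    bernoulliProb p {b : Sym2 (Fin (m + 1)) → Bool |
        ∃ j j' : Fin (m + 1), j ≠ j' ∧ rw j b ∈ S (res j b) ∧ rw j' b ∈ S (res j' b)} ≤
      ((m : ℝ) + 1) ^ 2 * (bernoulliProb p {a | N < (S a).card} + N * rho p ^ m / min p (1 - p)) := by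
  have hν : 0 < min p (1 - p) := lt_min h0 (by linarith)
  refine (prob_cover h0.le h1.le (Finset.univ : Finset (Fin (m + 1) × Fin m)) _
    (fun t => {b : Sym2 (Fin (m + 1)) → Bool | rw t.1 b ∈ S (res t.1 b) ∧
      min p (1 - p) * bernoulliWeight p (rw t.1 b) ≤
        bernoulliWeight p (fun i => res t.1 b s(t.2, i))}) ?_).trans ?_
  · have key : ∀ (b : Sym2 (Fin (m + 1)) → Bool) (j j' : Fin (m + 1)), j ≠ j' →
        rw j b ∈ S (res j b) → bernoulliWeight p (rw j b) ≤ bernoulliWeight p (rw j' b) →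
        ∃ t ∈ (Finset.univ : Finset (Fin (m + 1) × Fin m)), rw t.1 b ∈ S (res t.1 b) ∧
          min p (1 - p) * bernoulliWeight p (rw t.1 b) ≤
            bernoulliWeight p (fun i => res t.1 b s(t.2, i)) := by
      intro b j j' hne hj hle
      obtain ⟨i', rfl⟩ := Fin.exists_succAbove_eq hne.symm
      exact ⟨(j, i'), Finset.mem_univ _, hj,
        (mul_le_mul_of_nonneg_left hle hν.le).trans (rwa_cmp h0 h1 b j i')⟩
    rintro b ⟨j, j', hne, hj, hj'⟩
    rcases le_total (bernoulliWeight p (rw j b)) (bernoulliWeight p (rw j' b)) with h | h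
    · exact key b j j' hne hj h
    · exact key b j' j hne.symm hj' h
  · refine (Finset.sum_le_card_nsmul _ _ _ fun t _ => rwa_one h0 h1 S hN t.1 t.2).trans ?_
    rw [nsmul_eq_mul, Finset.card_univ, Fintype.card_prod, Fintype.card_fin, Fintype.card_fin]
    have hm : (0 : ℝ) ≤ m := Nat.cast_nonneg m
    refine mul_le_mul_of_nonneg_right (by push_cast; nlinarith) ?_
    have := prob_nonneg h0.le h1.le {a | N < (S a).card}
    have := (rho_pos p).le
    positivity

theorem prob_card_SS (h0 : 0 < p) (h1 : p < 1) (hn1 : N1 p) (hn2 : N2 p) {ε δ θ : ℝ} (hε : 0 < ε)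
    (hδ : 0 < δ) (hθ : 0 < θ) : ∀ᶠ m : ℕ in atTop,
      bernoulliProb p {a : Sym2 (Fin m) → Bool | Real.exp (ε * m) < (SS δ a).card} ≤ θ ^ m := by
  classical
  obtain ⟨δ₂, hδ₂, hfam⟩ := global_family (ε := ε / 4) (by positivity) hδ
  have e1 := hn1 (ε / 2) δ₂ (θ / 2) (by positivity) hδ₂ (by positivity)
  have e2 := hn2 (ε / 2) (θ / 2) (by positivity) (by positivity)
  have e3 : ∀ᶠ m : ℕ in atTop, 4 / ε ≤ (m : ℝ) :=
    tendsto_natCast_atTop_atTop.eventually_ge_atTop _
  filter_upwards [hfam, e1, e2, e3, eventually_ge_atTop 1] with m hfam e1 e2 e3 hm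
  refine le_trans (prob_mono h0.le h1.le ?_)
    (le_trans (prob_union h0.le h1.le _ _) (le_trans (add_le_add e1 e2) ?_))
  · intro a ha
    have ha' : Real.exp (ε * m) < (SS δ a).card := ha
    have hne : (SS δ a).Nonempty := by
      rw [← Finset.card_pos]
      exact_mod_cast lt_trans (Real.exp_pos _) ha'
    obtain ⟨x₀, hx₀⟩ := hne
    have hdet : (sm a).det ≠ 0 := (Finset.mem_filter.1 hx₀).2.1
    obtain ⟨𝓗, hc, hH, hcov⟩ := hfam a hdet
    by_contra hcon
    rw [Set.mem_union, not_or] at hcon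
    obtain ⟨c1, c2⟩ := hcon
    have hB : ((Finset.univ.filter fun x : Fin m → Bool => InB (sm a) (sv x)).card : ℝ) ≤
        Real.exp (ε / 2 * m) := by
      by_contra hlt
      exact c2 ⟨hdet, _, (not_le.1 hlt).le, fun x hx => (Finset.mem_filter.1 hx).2⟩
    have hA : ∀ H ∈ 𝓗, ((Finset.univ.filter fun x : Fin m → Bool => Ann (sm a) (sv x) H).card : ℝ) ≤
        Real.exp (ε / 2 * m) := by
      intro H hH'
      by_contra hlt
      exact c1 ⟨hdet, H, hH H hH', _, (not_le.1 hlt).le, fun x hx => (Finset.mem_filter.1 hx).2⟩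
    have hsub : SS δ a ⊆ (Finset.univ.filter fun x : Fin m → Bool => InB (sm a) (sv x)) ∪
        𝓗.biUnion fun H => Finset.univ.filter fun x : Fin m → Bool => Ann (sm a) (sv x) H := by
      intro x hx
      rcases (Finset.mem_filter.1 hx).2.2 with h | h
      · obtain ⟨H, hH1, hH2⟩ := hcov _ h
        exact Finset.mem_union_right _ (Finset.mem_biUnion.2
          ⟨H, hH1, Finset.mem_filter.2 ⟨Finset.mem_univ _, hH2⟩⟩)
      · exact Finset.mem_union_left _ (Finset.mem_filter.2 ⟨Finset.mem_univ _, h⟩)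
    have k1 : ((SS δ a).card : ℝ) ≤
        ((Finset.univ.filter fun x : Fin m → Bool => InB (sm a) (sv x)).card : ℝ) +
          ∑ H ∈ 𝓗, ((Finset.univ.filter fun x : Fin m → Bool => Ann (sm a) (sv x) H).card : ℝ) := by
      exact_mod_cast le_trans (Finset.card_le_card hsub)
        (le_trans (Finset.card_union_le _ _) (Nat.add_le_add_left Finset.card_biUnion_le _))
    have k2 := Finset.sum_le_card_nsmul 𝓗 _ _ hA
    rw [nsmul_eq_mul] at k2
    set u := Real.exp (ε / 4 * m) with hu
    have hu2 : 2 ≤ u := by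
      rw [div_le_iff₀ hε] at e3
      have := Real.add_one_le_exp (ε / 4 * m)
      linarith
    have k3 : Real.exp (ε / 2 * m) = u ^ 2 := by
      rw [hu, ← Real.exp_nat_mul]; congr 1; push_cast; ring
    have k4 : Real.exp (ε * m) = u ^ 4 := by
      rw [hu, ← Real.exp_nat_mul]; congr 1; push_cast; ring
    rw [k3] at hB k2
    rw [k4] at ha'
    have k5 : (𝓗.card : ℝ) * u ^ 2 ≤ u * u ^ 2 := mul_le_mul_of_nonneg_right hc (by positivity)
    have k6 : u ^ 2 * (1 + u) ≤ u ^ 2 * u ^ 2 :=
      mul_le_mul_of_nonneg_left (by nlinarith) (by positivity)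
    nlinarith
  · obtain ⟨k, rfl⟩ : ∃ k, m = k + 1 := ⟨m - 1, by omega⟩
    have : (θ / 2) ^ k ≤ θ ^ k := pow_le_pow_left₀ (by positivity) (by linarith) k
    rw [pow_succ, pow_succ]
    nlinarith

theorem c1_le (h0 : 0 < p) (h1 : p < 1) (hn1 : N1 p) (hn2 : N2 p) {θ : ℝ} (hθ : rho p < θ) :
    ∀ᶠ n : ℕ in atTop, c1 p n ≤ θ ^ n := by
  have hρ := rho_pos p
  set θ₁ := (rho p + θ) / 2 with hθ₁
  have hρ1 : rho p < θ₁ := by rw [hθ₁]; linarith
  have h1θ : θ₁ < θ := by rw [hθ₁]; linarith
  have hθ10 : 0 < θ₁ := by linarith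
  have hθ0 : 0 < θ := by linarith
  obtain ⟨γ, hγ, hγ1, hsp⟩ := prob_sparse h0 h1 hρ1
  set ε := Real.log (θ₁ / rho p) with hε
  have hε0 : 0 < ε := Real.log_pos ((one_lt_div hρ).2 hρ1)
  have hexp : Real.exp ε * rho p = θ₁ := by
    rw [hε, Real.exp_log (by positivity)]
    field_simp
  have hν : 0 < min p (1 - p) := lt_min h0 (by linarith)
  set C : ℝ := 1 + (1 + 1 / min p (1 - p)) / θ₁ with hC
  have hC0 : 0 < C := by positivity
  have hlim : ∀ᶠ n : ℕ in atTop, (n : ℝ) ^ 2 * (θ₁ / θ) ^ n ≤ 1 / C :=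
    (tendsto_pow_const_mul_const_pow_of_abs_lt_one 2 (r := θ₁ / θ) (by
      rw [abs_of_pos (by positivity)]
      exact (div_lt_one hθ0).2 h1θ)).eventually (ge_mem_nhds (by positivity))
  have hcard := prob_card_SS h0 h1 hn1 hn2 hε0 (δ := γ / 4000) (by positivity) hθ10
  have hadm := two_admissible hγ hγ1
  have key : ∀ᶠ m : ℕ in atTop, c1 p (m + 1) ≤ θ ^ (m + 1) := by
    filter_upwards [hcard, hadm, (tendsto_add_atTop_nat 1).eventually hsp,
      (tendsto_add_atTop_nat 1).eventually hlim] with m hcard hadm hsp hlim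
    have hrows := two_rows h0 h1 (m := m) (SS (γ / 4000)) (N := Real.exp (ε * m))
      (Real.exp_pos _).le
    have hN : Real.exp (ε * m) * rho p ^ m = θ₁ ^ m := by
      rw [mul_comm ε, Real.exp_nat_mul, ← mul_pow, hexp]
    rw [hN] at hrows
    have k1 : c1 p (m + 1) ≤ θ₁ ^ (m + 1) +
        ((m : ℝ) + 1) ^ 2 * (θ₁ ^ m + θ₁ ^ m / min p (1 - p)) := by
      refine le_trans (prob_mono h0.le h1.le ?_) (le_trans (prob_union h0.le h1.le _ _)
        (add_le_add hsp (le_trans hrows ?_)))
      · intro b hb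
        by_cases hs : Sparse γ b
        · exact Or.inl hs
        · exact Or.inr (hadm b hb hs)
      · gcongr
    have k2 : θ₁ ^ m + θ₁ ^ m / min p (1 - p) = (C - 1) * θ₁ ^ (m + 1) := by
      rw [hC, pow_succ]
      field_simp
      ring
    have k3 : (1 : ℝ) ≤ ((m : ℝ) + 1) ^ 2 := one_le_pow₀ (by linarith [Nat.cast_nonneg (α := ℝ) m])
    have k4 : 0 < θ₁ ^ (m + 1) := by positivity
    have k5 : c1 p (m + 1) ≤ C * (((m : ℝ) + 1) ^ 2 * θ₁ ^ (m + 1)) := by
      rw [k2] at k1
      nlinarith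
    rw [div_pow, ← mul_div_assoc, div_le_div_iff₀ (by positivity) hC0] at hlim
    push_cast at hlim
    linarith
  obtain ⟨M, hM⟩ := eventually_atTop.1 key
  refine eventually_atTop.2 ⟨M + 1, fun n hn => ?_⟩
  obtain ⟨m, rfl⟩ : ∃ m, n = m + 1 := ⟨n - 1, by omega⟩
  exact hM m (by omega)

end Crest.Agent.R152.RD
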