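import Crest.Prelude.Def_SignMatrix
import Crest.Agent.Lib.BoolCube.Basic
import Crest.Agent.R152.LDefs

/-!
# Row 152, modules LRT (linear richness) and RED (reduction): definitions
-/

set_option autoImplicit false

open Matrix Crest.FinProb Crest.ProbabilityR.SignMatrix

noncomputable section

namespace Crest.Agent.R152

/-- sign of a coin -/
def sg (b : Bool) : ℤ := if b then 1 else -1

/-- sign vector -/
def sv {κ : Type} (x : κ → Bool) : κ → ℤ := fun i => sg (x i)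

/-- integer vector as a rational vector -/
def qv {κ : Type} (z : κ → ℤ) : κ → ℚ := fun i => (z i : ℚ)

/-- integer matrix as a rational matrix -/
def qm {α β : Type} (A : Matrix α β ℤ) : Matrix α β ℚ := A.map (Int.cast : ℤ → ℚ)

/-- distance to the nearest integer -/
def cn (t : ℝ) : ℝ := |t - round t|

/-- `p² + (1-p)²` -/
def r2 (p : ℝ) : ℝ := p ^ 2 + (1 - p) ^ 2

/-- symmetric sign matrix -/
def IsSign {n : ℕ} (A : Matrix (Fin n) (Fin n) ℤ) : Prop :=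
  Aᵀ = A ∧ ∀ i j, A i j = 1 ∨ A i j = -1

/-- the coins of the principal minor obtained by deleting row and column `j` -/
def minorB {n : ℕ} (j : Fin (n + 1)) (b : Sym2 (Fin (n + 1)) → Bool) : Sym2 (Fin n) → Bool :=
  b ∘ Sym2.map j.succAbove

/-- the coins of row `j` without the diagonal entry -/
def rowB {n : ℕ} (j : Fin (n + 1)) (b : Sym2 (Fin (n + 1)) → Bool) : Fin n → Bool :=
  fun i => b s(j, j.succAbove i)

/-- the embedding `w ↦ (w, 0)` -/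
def inlM (n k : ℕ) : Matrix (Fin n ⊕ Fin k) (Fin n) ℚ := fromRows 1 0

/-- extended column `(a_i, b_i)` -/
def ecol {n k : ℕ} (A : Matrix (Fin n) (Fin n) ℤ) (B : Matrix (Fin k) (Fin n) ℤ) (i : Fin n) :
    Fin n ⊕ Fin k → ℚ := Sum.elim (fun r => (A r i : ℚ)) (fun a => (B a i : ℚ))

/-- a lattice of huge covolume containing the extended columns of `A` and the differences of many
cube points -/
structure RD (δ ε : ℝ) (n : ℕ) (A : Matrix (Fin n) (Fin n) ℤ) (k : ℕ) (B : Matrix (Fin k) (Fin n) ℤ)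
    (Λ : Lat (Fin n ⊕ Fin k)) (S : Finset (Fin n → Bool)) : Prop where
  hk : (k : ℝ) * Real.log n ≤ n
  hB : ∀ a i, |B a i| ≤ (n : ℤ) ^ 3
  hZ : Λ ≤ ZZ _
  hrk : rk Λ = n
  hcol : ∀ i, ecol A B i ∈ Λ
  hcv : (n : ℝ) ^ (δ * n) ≤ (cv Λ : ℝ)
  hS : ∀ x ∈ S, ∀ x' ∈ S, inlM n k *ᵥ qv (sv x - sv x') ∈ Λ
  hcard : Real.exp (ε * n) ≤ S.card

def Rich (δ ε : ℝ) (n : ℕ) (A : Matrix (Fin n) (Fin n) ℤ) : Prop :=
  ∃ (k : ℕ) (B : Matrix (Fin k) (Fin n) ℤ) (Λ : Lat (Fin n ⊕ Fin k)) (S : Finset (Fin n → Bool)),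
    RD δ ε n A k B Λ S

/-- number of solutions of `A y = 0` modulo `c` -/
def kerN {n : ℕ} (A : Matrix (Fin n) (Fin n) ℤ) (c : ℕ) : ℕ :=
  Nat.card {y : Fin n → ZMod c // A.map (Int.cast : ℤ → ZMod c) *ᵥ y = 0}

def TorsOK (K n : ℕ) (A : Matrix (Fin n) (Fin n) ℤ) : Prop :=
  ∀ c : ℕ, 1 ≤ c → c ≤ n ^ K → kerN A c ≤ 4 ^ n

open Classical in
/-- all small nonzero integer combinations of the `2 u_i` are far from integers on half of `J` -/
def Unstr {n l : ℕ} (J : Finset (Fin n)) (ρ : ℝ) (M : ℕ) (u : Fin l → Fin n → ℚ) : Prop :=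
  ∀ m : Fin l → ℤ, m ≠ 0 → (∀ i, |m i| ≤ M) →
    J.card ≤ 2 * (J.filter fun j => ρ < cn ((2 * ∑ i, (m i : ℚ) * u i j : ℚ) : ℝ)).card

/-- a map from a group which is additive modulo integers -/
def AddMod {H κ : Type} [AddCommGroup H] (y : H → κ → ℚ) : Prop :=
  ∀ h h' j, ∃ m : ℤ, y (h + h') j = y h j + y h' j + m

/-! ### reduction -/

/-- `x` is isotropic for the discriminant form -/
def Iso {n : ℕ} (A : Matrix (Fin n) (Fin n) ℤ) (x : Fin n → ℤ) : Prop :=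
  ∃ m : ℤ, qv x ⬝ᵥ ((qm A)⁻¹ *ᵥ qv x) = m

/-- order of `x` in the cokernel -/
def ordx {n : ℕ} (A : Matrix (Fin n) (Fin n) ℤ) (x : Fin n → ℤ) : ℕ :=
  Finset.univ.lcm fun i => (((qm A)⁻¹ *ᵥ qv x) i).den

def Nice {n : ℕ} (A : Matrix (Fin n) (Fin n) ℤ) (x : Fin n → ℤ) (q : ℕ) : Prop :=
  ¬ q ∣ ordx A x ∨
    4 * (2 * (A.det.natAbs / ordx A x ^ 2) ^ 2).factorization q ≤ A.det.natAbs.factorization q

open Classical in
/-- logarithmic weight of the nice primes -/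
def nw {n : ℕ} (A : Matrix (Fin n) (Fin n) ℤ) (x : Fin n → ℤ) : ℝ :=
  ∑ q ∈ A.det.natAbs.primeFactors.filter (Nice A x),
    (A.det.natAbs.factorization q : ℝ) * Real.log q

/-- Gram determinant of the columns outside `T` -/
def colG {n : ℕ} (A : Matrix (Fin n) (Fin n) ℤ) (T : Finset (Fin n)) : ℚ :=
  gdet fun (i : {i // i ∉ T}) (r : Fin n) => (A r i : ℚ)

def VolOK (κ ζ : ℝ) (n : ℕ) (A : Matrix (Fin n) (Fin n) ℤ) : Prop :=
  ∃ T : Finset (Fin n), (T.card : ℝ) * Real.log n ≤ ζ * n ∧ (n : ℝ) ^ (κ * n) ≤ (colG A T : ℝ)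

/-- the admissible borderings of `A` -/
def InS (δ κ : ℝ) (n : ℕ) (A : Matrix (Fin n) (Fin n) ℤ) (x : Fin n → Bool) : Prop :=
  (Iso A (sv x) ∧ δ * n * Real.log n ≤ nw A (sv x)) ∨
    (((A.det : ℝ)) ^ 2 ≤ (n : ℝ) ^ (κ * n / 2) ∧ ∀ i, |((qm A)⁻¹ *ᵥ qv (sv x)) i| ≤ n)

/-- singular with a nonsingular principal minor of corank one -/
def E1 {n : ℕ} (M : Matrix (Fin (n + 1)) (Fin (n + 1)) ℤ) : Prop :=
  M.det = 0 ∧ ∃ j : Fin (n + 1), (M.submatrix j.succAbove j.succAbove).det ≠ 0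

/-- probability of `E1` in size `n + 1` -/
def e1 (p : ℝ) (n : ℕ) : ℝ := bernoulliProb p {b | E1 (symSignMatrix (n + 1) b)}

open Classical in
/-- an integer kernel vector whose reduction modulo some prime is nonzero with small support -/
def Sparse (δ : ℝ) (N : ℕ) (M : Matrix (Fin N) (Fin N) ℤ) : Prop :=
  ∃ (v : Fin N → ℤ) (q : ℕ), q.Prime ∧ M *ᵥ v = 0 ∧ (∃ j, ¬ (q : ℤ) ∣ v j) ∧
    ((Finset.univ.filter fun j => ¬ (q : ℤ) ∣ v j).card : ℝ) ≤ δ * N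

end Crest.Agent.R152
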