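import Crest.Agent.R152.PBas
import Crest.Agent.R152.LHN

/-! # Row 152: pigeonhole and nets -/

set_option autoImplicit false
set_option linter.unusedSectionVars false
set_option linter.unusedVariables false

open Matrix Filter Topology Crest.FinProb Crest.ProbabilityR.SignMatrix Crest.Agent.Lib.BoolCube

noncomputable section

namespace Crest.Agent.R152

open Classical

variable {ι : Type} [Fintype ι] [DecidableEq ι] {p : ℝ}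

/-- classes of `⌊y⌋` modulo the projection of `ℤ^n ∩ ker P` to a Plücker information set -/
theorem kill1 {n : ℕ} {P : Matrix (Fin n) (Fin n) ℚ} (hP : IsPrj P) :
    ∃ (α : Type) (_ : Fintype α) (cl : (Fin n → ℚ) → α) (red : (Fin n → ℚ) → Fin n → ℚ),
      (Fintype.card α : ℚ) ≤ cv (ZZ (Fin n) ⊓ kerM P) ∧
      (∀ y, P *ᵥ red y = 0 ∧ ∀ j, |red y j| ≤ n) ∧
      ∀ y y', P *ᵥ y = 0 → P *ᵥ y' = 0 → cl y = cl y' → y - y' - (red y - red y') ∈ ZZ (Fin n) := by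
  sorry

/-- cells in the orthogonal complement of `ker P ∩ ker P'` inside `ker P` -/
theorem kill2 {n : ℕ} (hn : 1 ≤ n) {P P' : Matrix (Fin n) (Fin n) ℚ} (hP : IsPrj P) (hP' : IsPrj P')
    {d : ℕ}
    (hd : Module.finrank ℚ ↥(LinearMap.range P.mulVecLin ⊔ LinearMap.range P'.mulVecLin) ≤ P.rank + d)
    {q : ℕ} (hq : 1 ≤ q) :
    ∃ (α : Type) (_ : Fintype α) (cl : (Fin n → ℚ) → α), Fintype.card α ≤ (4 * n ^ 2 * q) ^ d ∧
      ∀ y y', P *ᵥ y = 0 → P *ᵥ y' = 0 → (∀ j, |y j| ≤ n) → (∀ j, |y' j| ≤ n) → cl y = cl y' →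
        ∃ u, P' *ᵥ u = 0 ∧ ∀ j, |y j - y' j - u j| ≤ (n : ℚ) / q := by
  sorry

theorem killing {n k : ℕ} (hn : 1 ≤ n) {P P' : Matrix (Fin n) (Fin n) ℚ} (hP : IsPrj P)
    (hP' : IsPrj P') {d : ℕ}
    (hd : Module.finrank ℚ ↥(LinearMap.range P.mulVecLin ⊔ LinearMap.range P'.mulVecLin) ≤ P.rank + d)
    {q : ℕ} (hq : 1 ≤ q) {H : Type} [Fintype H] [Nonempty H] (y : H → Fin n → ℚ)
    (c : H → Fin k → ℚ) (hy : ∀ h, P *ᵥ y h = 0) :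
    ∃ C : Finset H, C.Nonempty ∧
      (Fintype.card H : ℝ) ≤
        C.card * ((cv (ZZ (Fin n) ⊓ kerM P) : ℝ) * (4 * n ^ 2 * q) ^ d * q ^ k) ∧
      ∀ h ∈ C, ∀ h' ∈ C, (∃ u : Fin n → ℚ, P' *ᵥ u = 0 ∧ (∀ j, |u j| ≤ 3 * n) ∧
        ∀ j, cn (((y h j - y h' j : ℚ) : ℝ) - u j) ≤ (n : ℝ) / q) ∧
        ∀ a, cn ((c h a - c h' a : ℚ) : ℝ) ≤ 1 / q := by
  sorry

theorem net {n : ℕ} {P : Matrix (Fin n) (Fin n) ℚ} (hP : IsPrj P) {q : ℕ} (hq : 1 ≤ q) :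
    ∃ Net : Finset (Fin n → ℚ), Net.card ≤ (8 * n * q) ^ (n - P.rank) ∧
      ∀ u : Fin n → ℚ, P *ᵥ u = 0 → (∀ j, |u j| ≤ 3 * n) →
        ∃ u' ∈ Net, ∀ j, |u j - u' j| ≤ (n : ℚ) / q := by
  sorry

end Crest.Agent.R152
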