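import Crest.Agent.R152.PBas

/-! # Row 152: unstructured points -/

set_option autoImplicit false
set_option linter.unusedSectionVars false
set_option linter.unusedVariables false

open Matrix Filter Topology Crest.FinProb Crest.ProbabilityR.SignMatrix Crest.Agent.Lib.BoolCube

noncomputable section

namespace Crest.Agent.R152

open Classical

variable {ι : Type} [Fintype ι] [DecidableEq ι] {p : ℝ}

/-- `|Σ_{a<N} e(a t)|² ≥ N²/2` for `‖t‖ ≤ 1/(4N)` -/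
theorem fejer_lower {N : ℕ} (hN : 1 ≤ N) {t : ℝ} (ht : cn t ≤ 1 / (4 * N)) :
    (N : ℝ) ^ 2 / 2 ≤ ‖∑ a ∈ Finset.range N, Complex.exp (2 * Real.pi * Complex.I * (a * t))‖ ^ 2 := by
  sorry

/-- few points are close to a given point on `J'` (expand the product of Fejér kernels) -/
theorem pop_bad {n : ℕ} {H : Type} [Fintype H] (y : H → Fin n → ℚ) {N : ℕ} (hN : 1 ≤ N)
    (G : (Fin n → ℤ) → Prop) (J : Finset (Fin n)) {W : ℝ}
    (horth : ∀ w : Fin n → ℤ, (∀ j, |w j| ≤ N) → ¬ G w →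
      ∑ h, Complex.exp (2 * Real.pi * Complex.I * ((qv w ⬝ᵥ y h : ℚ) : ℂ)) = 0)
    (hcount : ∀ X : Finset (Fin n → ℤ),
      (∀ w ∈ X, (∀ j ∉ J, w j = 0) ∧ (∀ j, |w j| ≤ N) ∧ G w) → (X.card : ℝ) ≤ W)
    {J' : Finset (Fin n)} (hJ : J' ⊆ J) (θ : Fin n → ℝ) :
    ((Finset.univ.filter fun h => ∀ j ∈ J', cn ((y h j : ℝ) + θ j) ≤ 1 / (4 * N)).card : ℝ) ≤
      Fintype.card H * W * (2 / N) ^ J'.card := by
  sorry

theorem addMod_zsmul {H κ : Type} [AddCommGroup H] {y : H → κ → ℚ} (hy : AddMod y) (m : ℤ) (h : H)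
    (j : κ) : ∃ z : ℤ, y (m • h) j = m * y h j + z := by
  sorry

theorem pop_tors {n k : ℕ} {A : Matrix (Fin n) (Fin n) ℤ} (hA : Aᵀ = A)
    (B : Matrix (Fin k) (Fin n) ℤ) {H : Type} [Fintype H] [AddCommGroup H] {y : H → Fin n → ℚ}
    {c : H → Fin k → ℚ} (hy : AddMod y) (hc : AddMod c)
    (heq : ∀ h i, ∃ m : ℤ, ∑ r, (A r i : ℚ) * y h r + ∑ a, (B a i : ℚ) * c h a = m)
    (hinj : ∀ h, y h ∈ ZZ (Fin n) → c h ∈ ZZ (Fin k) → h = 0) {q : ℕ} (hq : 1 ≤ q) :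
    (Finset.univ.filter fun h : H => (q : ℤ) • h = 0).card ≤ q ^ k * kerN A q := by
  sorry

/-- choose the points one after the other -/
theorem selection {n : ℕ} {H : Type} [Fintype H] [AddCommGroup H] {y : H → Fin n → ℚ}
    (hy : AddMod y) (J : Finset (Fin n)) {N M : ℕ} (hN : 2 ≤ N) {τ W : ℝ} (hτ : 0 ≤ τ) (hW : 0 ≤ W)
    (htors : ∀ q : ℕ, 1 ≤ q → q ≤ 2 * M →
      ((Finset.univ.filter fun h : H => (q : ℤ) • h = 0).card : ℝ) ≤ τ)
    (hbad : ∀ J' ⊆ J, ∀ θ : Fin n → ℝ,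
      ((Finset.univ.filter fun h => ∀ j ∈ J', cn ((y h j : ℝ) + θ j) ≤ 1 / (4 * N)).card : ℝ) ≤
        Fintype.card H * W * (2 / N) ^ J'.card)
    (C : Finset H) (h₀ : H) (l : ℕ)
    (hlt : (2 * M + 1 : ℝ) ^ l * 2 ^ J.card * τ * (Fintype.card H * W * (2 / N) ^ (J.card / 2)) <
      C.card) :
    ∃ h : Fin l → H, (∀ i, h i ∈ C) ∧
      Unstr J (1 / (4 * N)) M fun i j => y (h i) j - y h₀ j := by
  sorry

theorem unstr_perturb {n l : ℕ} {J : Finset (Fin n)} {ρ ρ' η : ℝ} {M : ℕ} {u u' : Fin l → Fin n → ℚ}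
    (h : Unstr J ρ M u) (hu : ∀ i j, cn ((u i j : ℝ) - u' i j) ≤ η) (hρ : ρ' + 2 * l * M * η ≤ ρ) :
    Unstr J ρ' M u' := by
  sorry

end Crest.Agent.R152
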