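import Crest.Agent.R152.TPop
import Crest.Agent.R152.TUns
import Crest.Agent.R152.TKil
import Crest.Agent.R152.CReg

/-! # Row 152: the deterministic part of the richness theorem -/

set_option autoImplicit false
set_option linter.unusedSectionVars false
set_option linter.unusedVariables false

open Matrix Filter Topology Crest.FinProb Crest.ProbabilityR.SignMatrix Crest.Agent.Lib.BoolCube

noncomputable section

namespace Crest.Agent.R152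

open Classical

variable {ι : Type} [Fintype ι] [DecidableEq ι] {p : ℝ}

/-- numerical inequality needed for `selection` -/
theorem det_arith {θ ω : ℝ} (hθ : 0 < θ) (hθ1 : θ ≤ 1) (hω : 0 ≤ ω) {K : ℕ} (hK : 7 ≤ K) :
    ∃ N : ℕ, 2 ≤ N ∧ ∀ᶠ n : ℕ in atTop, ∀ (l k d : ℕ) (X : ℝ), (l : ℝ) * K * Real.log n ≤ n →
      (k : ℝ) * Real.log n ≤ n → (d : ℝ) * Real.log n ≤ 2 * ω * n → 0 ≤ X → X ≤ Real.exp (ω * n) →
      (2 * (n ^ (K - 6) : ℕ) + 1 : ℝ) ^ l * 2 ^ ⌊θ * n⌋₊ * (((n : ℝ) ^ K) ^ k * 4 ^ n) *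
        (Real.exp n * (2 / N) ^ (⌊θ * n⌋₊ / 2)) *
        (X * (4 * n ^ 2 * (n ^ K : ℕ)) ^ d * ((n ^ K : ℕ) : ℝ) ^ k) < 1 := by
  sorry

theorem lrt_det {δ ε : ℝ} (hδ : 0 < δ) (hε : 0 < ε) (hε1 : ε ≤ 1) {K : ℕ} (hK : 7 ≤ K) :
    ∃ (θ ω : ℝ) (N : ℕ), 0 < θ ∧ θ ≤ ε / 12 ∧ 0 ≤ ω ∧ 1 ≤ N ∧ ∀ᶠ n : ℕ in atTop,
      ∀ l : ℕ, (l : ℝ) * K * Real.log n ≤ n → ∀ A : Matrix (Fin n) (Fin n) ℤ, IsSign A →
        A.det ≠ 0 → Rich δ ε n A → TorsOK K n A →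
        ∃ (P : Matrix (Fin n) (Fin n) ℚ) (J : Finset (Fin n)) (u : Fin l → Fin n → ℚ),
          Reg ω n P ∧ ε * n / 3 ≤ P.rank ∧ J.card = ⌊θ * n⌋₊ ∧
          (∀ i, P *ᵥ u i = 0 ∧ ∀ j, |u i j| ≤ 3 * n) ∧
          (∀ i r, cn (∑ s, (A r s : ℝ) * (u i s : ℝ)) ≤ 2 * n ^ 4 / n ^ K) ∧
          Unstr J (1 / (5 * N)) (n ^ (K - 6)) u := by
  sorry

end Crest.Agent.R152
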