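import Crest.Agent.R152.TUns

/-! # Row 152: small ball probability for unstructured points -/

set_option autoImplicit false
set_option linter.unusedSectionVars false
set_option linter.unusedVariables false

open Matrix Filter Topology Crest.FinProb Crest.ProbabilityR.SignMatrix Crest.Agent.Lib.BoolCube

noncomputable section

namespace Crest.Agent.R152

open Classical

variable {ι : Type} [Fintype ι] [DecidableEq ι] {p : ℝ}

theorem char_bound (h0 : 0 ≤ p) (h1 : p ≤ 1) (t : ℝ) :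
    ‖(p : ℂ) * Complex.exp (2 * Real.pi * Complex.I * t) +
      ((1 - p : ℝ) : ℂ) * Complex.exp (-(2 * Real.pi * Complex.I * t))‖ ≤
      Real.exp (-(8 * p * (1 - p) * cn (2 * t) ^ 2)) := by
  sorry

theorem row_prob (h0 : 0 ≤ p) (h1 : p ≤ 1) {n l M : ℕ} (hM : 1 ≤ M) {J : Finset (Fin n)} {ρ : ℝ}
    (hρ : 0 ≤ ρ) {u : Fin l → Fin n → ℚ} (hU : Unstr J ρ M u) (θ : Fin l → ℝ) :
    bernoulliProb p {x : J → Bool |
      ∀ i, cn (∑ j : J, (sg (x j) : ℝ) * (u i j : ℝ) + θ i) ≤ 1 / (4 * M)} ≤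
      2 ^ l * ((1 / M) ^ l + Real.exp (-(4 * p * (1 - p) * ρ ^ 2 * J.card))) := by
  sorry

/-- resample the entries in `Jᶜ × J` (`Pr_fresh`, `Pr_pi`) -/
theorem matrix_prob (h0 : 0 ≤ p) (h1 : p ≤ 1) {n l M : ℕ} (hM : 1 ≤ M) {J : Finset (Fin n)} {ρ : ℝ}
    (hρ : 0 ≤ ρ) {u : Fin l → Fin n → ℚ} (hU : Unstr J ρ M u) :
    bernoulliProb p {b : Sym2 (Fin n) → Bool |
      ∀ i r, cn (∑ s, (symSignMatrix n b r s : ℝ) * (u i s : ℝ)) ≤ 1 / (4 * M)} ≤
      (2 ^ l * ((1 / M) ^ l + Real.exp (-(4 * p * (1 - p) * ρ ^ 2 * J.card)))) ^ (n - J.card) := by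
  sorry

end Crest.Agent.R152
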