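import Crest.Agent.R152.TDet
import Crest.Agent.R152.TRow
import Crest.Agent.R152.CCnt
import Crest.Agent.R152.PCor

/-! # Row 152: the richness theorem -/

set_option autoImplicit false
set_option linter.unusedSectionVars false
set_option linter.unusedVariables false

open Matrix Filter Topology Crest.FinProb Crest.ProbabilityR.SignMatrix Crest.Agent.Lib.BoolCube

noncomputable section

namespace Crest.Agent.R152

open Classical

variable {ι : Type} [Fintype ι] [DecidableEq ι] {p : ℝ}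

theorem rich_mono {δ δ' ε ε' : ℝ} (hδ : δ' ≤ δ) (hε : ε' ≤ ε) {n : ℕ} (hn : 1 ≤ n)
    {A : Matrix (Fin n) (Fin n) ℤ} (h : Rich δ ε n A) : Rich δ' ε' n A := by
  sorry

/-- the union bound, numerically; `γ ≤ 1` is the decay rate, `l = ⌊γ n / (K log n)⌋` -/
theorem lrt_arith {ε γ θ C : ℝ} (hε : 0 < ε) (hε1 : ε ≤ 1) (hγ : 0 < γ) (hγ1 : γ ≤ 1) (hθ : 0 < θ)
    (hθε : θ ≤ ε / 12) {K : ℕ} (hK : 100 ≤ K * ε) : ∀ᶠ n : ℕ in atTop,
    ∀ t : ℕ, ε * n / 3 ≤ t → ∀ e : ℝ, 0 ≤ e → e ≤ Real.exp (-(γ * n)) →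
      Real.exp (γ / K * n ^ 2) * 2 ^ n *
        (((8 * n * n ^ K : ℕ) : ℝ) ^ (n - t)) ^ ⌊γ * n / (K * Real.log n)⌋₊ *
        (2 ^ ⌊γ * n / (K * Real.log n)⌋₊ *
          ((1 / ((n ^ (K - 6) : ℕ) : ℝ)) ^ ⌊γ * n / (K * Real.log n)⌋₊ + e)) ^ (n - ⌊θ * n⌋₊) ≤
        Real.exp (-(C * n)) := by
  sorry

theorem lrt (h0 : 0 < p) (h1 : p < 1) {δ ε : ℝ} (hδ : 0 < δ) (hε : 0 < ε) (C : ℝ) :
    ∀ᶠ n : ℕ in atTop, bernoulliProb p
      {b | (symSignMatrix n b).det ≠ 0 ∧ Rich δ ε n (symSignMatrix n b)} ≤ Real.exp (-(C * n)) := by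
  sorry

end Crest.Agent.R152
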