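import Crest.Agent.R152.TStr

/-! # Row 152: the finite population of dual points -/

set_option autoImplicit false
set_option linter.unusedSectionVars false
set_option linter.unusedVariables false

open Matrix Filter Topology Crest.FinProb Crest.ProbabilityR.SignMatrix Crest.Agent.Lib.BoolCube

noncomputable section

namespace Crest.Agent.R152

open Classical

variable {ι : Type} [Fintype ι] [DecidableEq ι] {p : ℝ}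

/-- the dual of `ℤ^ι ∩ range P` is `P ℤ^ι` (`cv_pair`, `cv_mmap_ZZ`, `height_dual`, `cv_index`) -/
theorem dual_prj {P : Matrix ι ι ℚ} (hP : IsPrj P) {y : ι → ℚ}
    (h : ∀ l ∈ ZZ ι ⊓ kerM (1 - P), ∃ m : ℤ, l ⬝ᵥ y = m) : ∃ z ∈ ZZ ι, P *ᵥ (y - z) = 0 := by
  sorry

/-- a finite index overlattice `Γ₀ + q (0 × ℤ^k)` that contains no new short vector `(w, 0)` -/
theorem exists_finite_index {n k : ℕ} {A : Matrix (Fin n) (Fin n) ℤ} (hA : A.det ≠ 0)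
    (B : Matrix (Fin k) (Fin n) ℤ) {Γ₀ : Lat (Fin n ⊕ Fin k)} (hZ : Γ₀ ≤ ZZ _)
    (hcol : ∀ i, ecol A B i ∈ Γ₀) (hsp : ∀ v ∈ Γ₀, v ∈ Submodule.span ℚ (Set.range (ecol A B)))
    (N : ℕ) : ∃ Γ : Lat (Fin n ⊕ Fin k), Γ₀ ≤ Γ ∧ Γ ≤ ZZ _ ∧ idx Γ (ZZ _) ≠ 0 ∧
      ∀ w : Fin n → ℤ, (∀ j, |w j| ≤ N) → inlM n k *ᵥ qv w ∈ Γ → inlM n k *ᵥ qv w ∈ Γ₀ := by
  sorry

/-- characters of the finite group `ℤ^ι / Γ`, with rational representatives -/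
theorem characters {Γ : Lat ι} (hZ : Γ ≤ ZZ ι) (hi : idx Γ (ZZ ι) ≠ 0) :
    ∃ (H : Type) (_ : Fintype H) (_ : AddCommGroup H) (y : H → ι → ℚ), AddMod y ∧
      (∀ h, ∀ v ∈ Γ, ∃ m : ℤ, v ⬝ᵥ y h = m) ∧ (∀ h, y h ∈ ZZ ι → h = 0) ∧
      ∀ w ∈ ZZ ι, w ∉ Γ →
        ∑ h, Complex.exp (2 * Real.pi * Complex.I * ((w ⬝ᵥ y h : ℚ) : ℂ)) = 0 := by
  sorry

theorem population {n k : ℕ} {A : Matrix (Fin n) (Fin n) ℤ} (hA : A.det ≠ 0)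
    (B : Matrix (Fin k) (Fin n) ℤ) {Λ : Lat (Fin n ⊕ Fin k)} (hZ : Λ ≤ ZZ _) (hrk : rk Λ = n)
    (hcol : ∀ i, ecol A B i ∈ Λ) {P : Matrix (Fin n) (Fin n) ℚ} (hP : IsPrj P)
    {D : Lat (Fin n ⊕ Fin k)} (hD : D ≤ Λ)
    (hPD : ∀ w, (1 - P) *ᵥ w = 0 → inlM n k *ᵥ w ∈ qspan D) (N : ℕ) :
    ∃ (H : Type) (_ : Fintype H) (_ : AddCommGroup H) (y : H → Fin n → ℚ) (c : H → Fin k → ℚ),
      AddMod y ∧ AddMod c ∧ (∀ h, P *ᵥ y h = 0) ∧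
      (∀ h i, ∃ m : ℤ, ∑ r, (A r i : ℚ) * y h r + ∑ a, (B a i : ℚ) * c h a = m) ∧
      (∀ h, y h ∈ ZZ (Fin n) → c h ∈ ZZ (Fin k) → h = 0) ∧
      ∀ w : Fin n → ℤ, (∀ j, |w j| ≤ N) → (¬ ∃ v ∈ Λ, inlM n k *ᵥ qv w - v ∈ qspan D) →
        ∑ h, Complex.exp (2 * Real.pi * Complex.I * ((qv w ⬝ᵥ y h : ℚ) : ℂ)) = 0 := by
  sorry

end Crest.Agent.R152
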