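import Crest.Agent.R152.PBas
import Crest.Agent.R152.LHN

/-! # Row 152: structure of a rich lattice -/

set_option autoImplicit false
set_option linter.unusedSectionVars false
set_option linter.unusedVariables false

open Matrix Filter Topology Crest.FinProb Crest.ProbabilityR.SignMatrix Crest.Agent.Lib.BoolCube

noncomputable section

namespace Crest.Agent.R152

open Classical

variable {ι : Type} [Fintype ι] [DecidableEq ι] {p : ℝ}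

theorem inlM_mulVec (n k : ℕ) (w : Fin n → ℚ) : inlM n k *ᵥ w = Sum.elim w 0 := by
  sorry

/-- Odlyzko's lemma (`plucker`) -/
theorem odlyzko (U : Submodule ℚ (ι → ℚ)) (S : Finset (ι → Bool))
    (h : ∀ x ∈ S, ∀ x' ∈ S, qv (sv x - sv x') ∈ U) : S.card ≤ 2 ^ Module.finrank ℚ U := by
  sorry

/-- canonical sublattice of `{w | (w,0) ∈ Λ}` at a constant scale -/
theorem struct1 {ε : ℝ} (hε : 0 < ε) : ∃ ω : ℝ, 0 ≤ ω ∧
    ∀ (n k : ℕ) (Λ : Lat (Fin n ⊕ Fin k)) (S : Finset (Fin n → Bool)), Λ ≤ ZZ _ →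
      (∀ x ∈ S, ∀ x' ∈ S, inlM n k *ᵥ qv (sv x - sv x') ∈ Λ) → Real.exp (ε * n) ≤ S.card →
      ∃ (P : Matrix (Fin n) (Fin n) ℚ) (D : Lat (Fin n ⊕ Fin k)), IsPrj P ∧ ε * n / 2 ≤ P.rank ∧
        (cv (ZZ (Fin n) ⊓ kerM (1 - P)) : ℝ) ≤ Real.exp (ω * n) ∧ D ≤ Λ ∧
        (cv D : ℝ) ≤ Real.exp (ω * n) ∧ ∀ w, (1 - P) *ᵥ w = 0 → inlM n k *ᵥ w ∈ qspan D := by
  sorry

theorem ecol_indep {n k : ℕ} {A : Matrix (Fin n) (Fin n) ℤ} (hA : A.det ≠ 0)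
    (B : Matrix (Fin k) (Fin n) ℤ) : LinearIndependent ℚ (ecol A B) := by
  sorry

/-- canonical sublattice above `D` at the scale `m = n ^ (δ/2)`; the quotient has rank `≥ δ n / 20`,
`J` lies in the complement of an information set of `{w | Q (w,0) = 0}` -/
theorem struct2 {δ ω : ℝ} (hδ : 0 < δ) (hω : 0 ≤ ω) (N : ℕ) : ∀ᶠ n : ℕ in atTop,
    ∀ (ε : ℝ) (A : Matrix (Fin n) (Fin n) ℤ) (k : ℕ) (B : Matrix (Fin k) (Fin n) ℤ)
      (Λ : Lat (Fin n ⊕ Fin k)) (S : Finset (Fin n → Bool)), RD δ ε n A k B Λ S → IsSign A →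
      A.det ≠ 0 → ∀ D : Lat (Fin n ⊕ Fin k), D ≤ Λ → (cv D : ℝ) ≤ Real.exp (ω * n) →
      ∀ j₀ : ℕ, (j₀ : ℝ) ≤ δ * n / 20 → ∃ J : Finset (Fin n), J.card = j₀ ∧
        ∀ X : Finset (Fin n → ℤ), (∀ w ∈ X, (∀ j ∉ J, w j = 0) ∧ (∀ j, |w j| ≤ N) ∧
          ∃ v ∈ Λ, inlM n k *ᵥ qv w - v ∈ qspan D) → (X.card : ℝ) ≤ Real.exp n := by
  sorry

end Crest.Agent.R152
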