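import Crest.Agent.R152.WDefs

/-! # Row 152: the algebra of posterior means -/

set_option autoImplicit false
set_option linter.unusedSectionVars false
set_option linter.unusedVariables false

open MeasureTheory Set Matrix Filter Topology

noncomputable section

namespace Crest.Agent.R152

variable {ι : Type} [Fintype ι] [DecidableEq ι]

variable {V : Set (ι → ℝ)}

theorem wa_wt_pos (p : ℝ × (ι → ℝ)) (x : ι → ℝ) : 0 < wt p x := Real.exp_pos _

theorem wa_wt_cont2 : Continuous fun q : (ℝ × (ι → ℝ)) × (ι → ℝ) => wt q.1 q.2 := by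
  unfold wt dotProduct
  fun_prop

theorem wa_wt_cont (p : ℝ × (ι → ℝ)) : Continuous (wt p) := by
  unfold wt dotProduct
  fun_prop

theorem wa_int (hV : Body V) {h : (ι → ℝ) → ℝ} (hh : Continuous h) (p : ℝ × (ι → ℝ)) :
    IntegrableOn (fun x => h x * wt p x) V :=
  (hh.mul (wa_wt_cont p)).continuousOn.integrableOn_compact hV.cpt

/-- the derivative of the exponent -/
def wa_ell (x : ι → ℝ) : (ℝ × (ι → ℝ)) →L[ℝ] ℝ :=
  ∑ i, x i • ((ContinuousLinearMap.proj i).comp (ContinuousLinearMap.snd ℝ ℝ (ι → ℝ))) -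
    ((x ⬝ᵥ x) / 2) • ContinuousLinearMap.fst ℝ ℝ (ι → ℝ)

theorem wa_ell_apply (x : ι → ℝ) (q : ℝ × (ι → ℝ)) :
    wa_ell x q = q.2 ⬝ᵥ x - q.1 * (x ⬝ᵥ x) / 2 := by
  simp only [wa_ell, _root_.sub_apply, _root_.sum_apply,
    _root_.smul_apply, ContinuousLinearMap.comp_apply, ContinuousLinearMap.proj_apply,
    ContinuousLinearMap.coe_snd', ContinuousLinearMap.coe_fst', smul_eq_mul]
  rw [dotProduct_comm q.2 x]
  simp only [dotProduct]
  ring

theorem wa_ell_cont : Continuous (wa_ell : (ι → ℝ) → _) := by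
  unfold wa_ell dotProduct
  fun_prop

theorem wa_deriv (c : ℝ) (x : ι → ℝ) (p : ℝ × (ι → ℝ)) :
    HasFDerivAt (fun q => c * wt q x) ((c * wt p x) • wa_ell x) p := by
  have e : ∀ q : ℝ × (ι → ℝ), wt q x = Real.exp (wa_ell x q - (x ⬝ᵥ x) / 2) := by
    intro q
    rw [wa_ell_apply, wt]
    congr 1
    ring
  simp only [e]
  have h1 := (((wa_ell x).hasFDerivAt (x := p)).sub_const ((x ⬝ᵥ x) / 2)).exp.const_mul c
  rwa [smul_smul] at h1

theorem wa_II_deriv (hV : Body V) {h : (ι → ℝ) → ℝ} (hh : Continuous h) (p : ℝ × (ι → ℝ)) :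
    HasFDerivAt (II V h) (∫ x in V, (h x * wt p x) • wa_ell x) p := by
  have hc : Continuous fun q : (ℝ × (ι → ℝ)) × (ι → ℝ) => (h q.2 * wt q.1 q.2) • wa_ell q.2 :=
    ((hh.comp continuous_snd).mul wa_wt_cont2).smul (wa_ell_cont.comp continuous_snd)
  obtain ⟨B, hB⟩ := ((isCompact_closedBall p 1).prod hV.cpt).exists_bound_of_continuousOn
    hc.continuousOn
  refine hasFDerivAt_integral_of_dominated_of_fderiv_le (𝕜 := ℝ) (μ := volume.restrict V)
    (F := fun q x => h x * wt q x) (F' := fun q x => (h x * wt q x) • wa_ell x)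
    (bound := fun _ => B) (Metric.closedBall_mem_nhds p one_pos)
    (Eventually.of_forall fun q => (hh.mul (wa_wt_cont q)).aestronglyMeasurable) (wa_int hV hh p)
    ((hh.mul (wa_wt_cont p)).smul wa_ell_cont).aestronglyMeasurable ?_ ?_
    (Eventually.of_forall fun x q _ => wa_deriv _ x q)
  · filter_upwards [ae_restrict_mem hV.cpt.measurableSet] with x hx q hq
    exact hB (q, x) ⟨hq, hx⟩
  · exact continuousOn_const.integrableOn_compact hV.cpt

theorem wa_II_fderiv (hV : Body V) {h : (ι → ℝ) → ℝ} (hh : Continuous h) (p q : ℝ × (ι → ℝ)) :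
    fderiv ℝ (II V h) p q = ∫ x in V, (h x * wt p x) * (q.2 ⬝ᵥ x - q.1 * (x ⬝ᵥ x) / 2) := by
  rw [(wa_II_deriv hV hh p).fderiv, ContinuousLinearMap.integral_apply]
  · simp only [_root_.smul_apply, wa_ell_apply, smul_eq_mul]
  · exact ((hh.mul (wa_wt_cont p)).smul wa_ell_cont).continuousOn.integrableOn_compact hV.cpt

theorem II_one_pos (hV : Body V) (p : ℝ × (ι → ℝ)) : 0 < II V (fun _ => 1) p := by
  rw [II, setIntegral_pos_iff_support_of_nonneg_ae
    (Eventually.of_forall fun x => (mul_pos one_pos (wa_wt_pos p x)).le)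
    (wa_int hV continuous_const p)]
  refine lt_of_lt_of_le (isOpen_interior.measure_pos volume hV.int) (measure_mono fun x hx => ?_)
  exact ⟨(mul_pos one_pos (wa_wt_pos p x)).ne', interior_subset hx⟩

theorem II_differentiable (hV : Body V) {h : (ι → ℝ) → ℝ} (hh : Continuous h) :
    Differentiable ℝ (II V h) := by
  exact fun p => (wa_II_deriv hV hh p).differentiableAt

theorem ds_II (hV : Body V) {h : (ι → ℝ) → ℝ} (hh : Continuous h) (p : ℝ × (ι → ℝ)) :
    ds (II V h) p = -(1 / 2) * II V (fun x => h x * (x ⬝ᵥ x)) p := by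
  rw [ds, wa_II_fderiv hV hh, II, ← integral_const_mul]
  congr 1
  funext x
  simp only [zero_dotProduct]
  ring

theorem dy_II (hV : Body V) {h : (ι → ℝ) → ℝ} (hh : Continuous h) (i : ι) (p : ℝ × (ι → ℝ)) :
    dy i (II V h) p = II V (fun x => h x * x i) p := by
  rw [dy, wa_II_fderiv hV hh, II]
  congr 1
  funext x
  simp only [single_dotProduct]
  ring

theorem post_one (hV : Body V) (p : ℝ × (ι → ℝ)) : post V (fun _ => 1) p = 1 := by
  exact div_self (II_one_pos hV p).ne'

theorem post_add (hV : Body V) {h k : (ι → ℝ) → ℝ} (hh : Continuous h) (hk : Continuous k)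
    (p : ℝ × (ι → ℝ)) : post V (fun x => h x + k x) p = post V h p + post V k p := by
  simp only [post, II, add_mul]
  rw [integral_add (wa_int hV hh p) (wa_int hV hk p), add_div]

theorem post_smul (c : ℝ) (h : (ι → ℝ) → ℝ) (p : ℝ × (ι → ℝ)) :
    post V (fun x => c * h x) p = c * post V h p := by
  simp only [post, II, mul_assoc]
  rw [integral_const_mul, mul_div_assoc]

theorem post_sum (hV : Body V) {κ : Type} (s : Finset κ) {h : κ → (ι → ℝ) → ℝ}
    (hh : ∀ a, Continuous (h a)) (p : ℝ × (ι → ℝ)) :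
    post V (fun x => ∑ a ∈ s, h a x) p = ∑ a ∈ s, post V (h a) p := by
  simp only [post, II, Finset.sum_mul]
  rw [integral_finsetSum _ fun a _ => wa_int hV (hh a) p, Finset.sum_div]

theorem post_mono (hV : Body V) {h k : (ι → ℝ) → ℝ} (hh : Continuous h) (hk : Continuous k)
    (hle : ∀ x ∈ V, h x ≤ k x) (p : ℝ × (ι → ℝ)) : post V h p ≤ post V k p := by
  refine div_le_div_of_nonneg_right ?_ (II_one_pos hV p).le
  exact setIntegral_mono_on (wa_int hV hh p) (wa_int hV hk p) hV.cpt.measurableSet
    fun x hx => mul_le_mul_of_nonneg_right (hle x hx) (wa_wt_pos p x).le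

/-- Cauchy–Schwarz for covariances -/
theorem post_cov_sq (hV : Body V) {h k : (ι → ℝ) → ℝ} (hh : Continuous h) (hk : Continuous k)
    (p : ℝ × (ι → ℝ)) :
    (post V (fun x => h x * k x) p - post V h p * post V k p) ^ 2 ≤
      (post V (fun x => h x ^ 2) p - post V h p ^ 2) * (post V (fun x => k x ^ 2) p - post V k p ^ 2) := by
  set a := post V h p with ha
  set b := post V k p with hb
  have key : ∀ t : ℝ, 0 ≤ (post V (fun x => h x ^ 2) p - a ^ 2) * (t * t) +
      (2 * (post V (fun x => h x * k x) p - a * b)) * t + (post V (fun x => k x ^ 2) p - b ^ 2) := by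
    intro t
    have h1 := post_mono hV (h := fun _ => 0 * 1) (k := fun x => (t * (h x - a) + (k x - b)) ^ 2)
      continuous_const (by fun_prop) (fun x _ => by rw [zero_mul]; exact sq_nonneg _) p
    have e : (fun x => (t * (h x - a) + (k x - b)) ^ 2) = fun x =>
        t ^ 2 * h x ^ 2 + ((2 * t) * (h x * k x) + (k x ^ 2 + ((-2 * t * (t * a + b)) * h x +
          ((-2 * (t * a + b)) * k x + (t * a + b) ^ 2 * 1)))) := by
      funext x
      ring
    rw [e, post_smul, post_add hV (by fun_prop) (by fun_prop),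
      post_add hV (by fun_prop) (by fun_prop), post_add hV (by fun_prop) (by fun_prop),
      post_add hV (by fun_prop) (by fun_prop), post_add hV (by fun_prop) (by fun_prop),
      post_smul, post_smul, post_smul, post_smul, post_smul, post_one hV, ← ha, ← hb] at h1
    nlinarith
  have h2 := discrim_le_zero key
  rw [discrim] at h2
  nlinarith

theorem post_neg (hV : Body V) (h : (ι → ℝ) → ℝ) (s : ℝ) (y : ι → ℝ) :
    post V h (s, -y) = post V (fun x => h (-x)) (s, y) := by
  have key : ∀ g : (ι → ℝ) → ℝ, II V g (s, -y) = II V (fun x => g (-x)) (s, y) := by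
    intro g
    have h1 := (Measure.measurePreserving_neg (volume : Measure (ι → ℝ))).setIntegral_preimage_emb
      (MeasurableEquiv.neg (ι → ℝ)).measurableEmbedding (fun x => g x * wt (s, -y) x) V
    have h2 : (Neg.neg ⁻¹' V : Set (ι → ℝ)) = V := by
      ext x
      exact ⟨fun hx => by simpa using hV.sym _ hx, fun hx => hV.sym _ hx⟩
    rw [h2] at h1
    rw [II, ← h1, II]
    congr 1
    funext x
    simp [wt]
  rw [post, post, key, key]

theorem algA_post_differentiable (hV : Body V) {h : (ι → ℝ) → ℝ} (hh : Continuous h) :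
    Differentiable ℝ (post V h) := by
  have e : post V h = fun p => II V h p * (II V (fun _ => 1) p)⁻¹ :=
    funext fun p => div_eq_mul_inv _ _
  rw [e]
  exact (II_differentiable hV hh).mul ((II_differentiable hV continuous_const).inv
    fun p => (II_one_pos hV p).ne')

theorem algA_fderiv_post (hV : Body V) {h : (ι → ℝ) → ℝ} (hh : Continuous h)
    (p v : ℝ × (ι → ℝ)) :
    fderiv ℝ (post V h) p v =
      (fderiv ℝ (II V h) p v - post V h p * fderiv ℝ (II V (fun _ => 1)) p v) /
        II V (fun _ => 1) p := by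
  have hp := (II_one_pos hV p).ne'
  have e : II V h = fun q => post V h q * II V (fun _ => 1) q := by
    funext q
    have hq := (II_one_pos hV q).ne'
    change II V h q = II V h q / II V (fun _ => 1) q * II V (fun _ => 1) q
    field_simp
  have hd : fderiv ℝ (II V h) p = post V h p • fderiv ℝ (II V (fun _ => 1)) p +
      II V (fun _ => 1) p • fderiv ℝ (post V h) p := by
    conv_lhs => rw [e]
    exact fderiv_fun_mul (algA_post_differentiable hV hh p)
      (II_differentiable hV continuous_const p)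
  rw [hd]
  simp only [_root_.add_apply, _root_.smul_apply, smul_eq_mul]
  field_simp
  ring

theorem dy_post (hV : Body V) {h : (ι → ℝ) → ℝ} (hh : Continuous h) (i : ι) (p : ℝ × (ι → ℝ)) :
    dy i (post V h) p = post V (fun x => h x * x i) p - post V h p * post V (fun x => x i) p := by
  have h1 := algA_fderiv_post hV hh p (0, Pi.single i 1)
  have h2 := dy_II hV hh i p
  have h3 := dy_II hV (continuous_const (y := (1 : ℝ))) i p
  have h4 : (fun x : ι → ℝ => (1 : ℝ) * x i) = fun x => x i := by funext x; ring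
  rw [h4] at h3
  have hp := (II_one_pos hV p).ne'
  change fderiv ℝ (II V h) p (0, Pi.single i 1) = _ at h2
  change fderiv ℝ (II V (fun _ => 1)) p (0, Pi.single i 1) = _ at h3
  change fderiv ℝ (post V h) p (0, Pi.single i 1) =
    II V (fun x => h x * x i) p / II V (fun _ => 1) p -
      post V h p * (II V (fun x => x i) p / II V (fun _ => 1) p)
  rw [h1, h2, h3]
  field_simp

theorem ds_post (hV : Body V) {h : (ι → ℝ) → ℝ} (hh : Continuous h) (p : ℝ × (ι → ℝ)) :
    ds (post V h) p = -(1 / 2) *
      (post V (fun x => h x * (x ⬝ᵥ x)) p - post V h p * post V (fun x => x ⬝ᵥ x) p) := by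
  have h1 := algA_fderiv_post hV hh p (1, 0)
  have h2 := ds_II hV hh p
  have h3 := ds_II hV (continuous_const (y := (1 : ℝ))) p
  have h4 : (fun x : ι → ℝ => (1 : ℝ) * (x ⬝ᵥ x)) = fun x => x ⬝ᵥ x := by funext x; ring
  rw [h4] at h3
  have hp := (II_one_pos hV p).ne'
  change fderiv ℝ (II V h) p (1, 0) = _ at h2
  change fderiv ℝ (II V (fun _ => 1)) p (1, 0) = _ at h3
  change fderiv ℝ (post V h) p (1, 0) = -(1 / 2) *
    (II V (fun x => h x * (x ⬝ᵥ x)) p / II V (fun _ => 1) p -
      post V h p * (II V (fun x => x ⬝ᵥ x) p / II V (fun _ => 1) p))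
  rw [h1, h2, h3]
  field_simp
  ring

theorem alg_differentiable (hV : Body V) {F : ℝ × (ι → ℝ) → ℝ} (hF : Alg V F) :
    Differentiable ℝ F := by
  induction hF with
  | post h hh => exact algA_post_differentiable hV hh
  | add _ _ ihF ihG => exact ihF.add ihG
  | mul _ _ ihF ihG => exact ihF.mul ihG
  | smul c _ ihF => exact ihF.const_mul c

theorem alg_bdd (hV : Body V) {F : ℝ × (ι → ℝ) → ℝ} (hF : Alg V F) : ∃ B, ∀ p, |F p| ≤ B := by
  induction hF with
  | post h hh =>
    obtain ⟨B, hB⟩ := hV.cpt.exists_bound_of_continuousOn hh.continuousOn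
    refine ⟨B, fun p => abs_le.2 ⟨?_, ?_⟩⟩
    · have h1 := post_mono hV (h := fun _ => (-B) * 1) (k := h) continuous_const hh
        (fun x hx => by
          have := hB x hx
          rw [Real.norm_eq_abs] at this
          have := (abs_le.1 this).1
          linarith) p
      rw [post_smul (-B) (fun _ => 1) p, post_one hV p] at h1
      linarith
    · have h1 := post_mono hV (h := h) (k := fun _ => B * 1) hh continuous_const
        (fun x hx => by
          have := hB x hx
          rw [Real.norm_eq_abs] at this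
          have := (abs_le.1 this).2
          linarith) p
      rw [post_smul B (fun _ => 1) p, post_one hV p] at h1
      linarith
  | add _ _ ihF ihG =>
    obtain ⟨B, hB⟩ := ihF
    obtain ⟨C, hC⟩ := ihG
    exact ⟨B + C, fun p => (abs_add_le _ _).trans (add_le_add (hB p) (hC p))⟩
  | mul _ _ ihF ihG =>
    obtain ⟨B, hB⟩ := ihF
    obtain ⟨C, hC⟩ := ihG
    refine ⟨B * C, fun p => ?_⟩
    rw [abs_mul]
    exact mul_le_mul (hB p) (hC p) (abs_nonneg _) ((abs_nonneg _).trans (hB p))
  | smul c _ ihF =>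
    obtain ⟨B, hB⟩ := ihF
    refine ⟨|c| * B, fun p => ?_⟩
    rw [abs_mul]
    exact mul_le_mul_of_nonneg_left (hB p) (abs_nonneg _)

theorem alg_const (hV : Body V) (c : ℝ) : Alg V (fun _ => c) := by
  have h := Alg.smul c (Alg.post (V := V) (fun _ => (1 : ℝ)) continuous_const)
  have e : (fun p => c * post V (fun _ => (1 : ℝ)) p) = fun _ => c := by
    funext p; rw [post_one hV p, mul_one]
  rwa [e] at h

theorem alg_sub {F G : ℝ × (ι → ℝ) → ℝ} (hF : Alg V F) (hG : Alg V G) :
    Alg V (fun p => F p - G p) := by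
  have h := Alg.add hF (Alg.smul (-1) hG)
  have e : (fun p => F p + -1 * G p) = fun p => F p - G p := by funext p; ring
  rwa [e] at h

theorem alg_sum (hV : Body V) {κ : Type} (s : Finset κ) {F : κ → ℝ × (ι → ℝ) → ℝ}
    (hF : ∀ a, Alg V (F a)) : Alg V (fun p => ∑ a ∈ s, F a p) := by
  classical
  induction s using Finset.induction_on with
  | empty => simpa using alg_const hV 0
  | insert a s ha ih =>
    have h := Alg.add (hF a) ih
    have e : (fun p => F a p + ∑ b ∈ s, F b p) = fun p => ∑ b ∈ insert a s, F b p := by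
      funext p; rw [Finset.sum_insert ha]
    rwa [e] at h

theorem algA_fderiv (hV : Body V) (v : ℝ × (ι → ℝ))
    (hv : ∀ h : (ι → ℝ) → ℝ, Continuous h → Alg V (fun p => fderiv ℝ (post V h) p v))
    {F : ℝ × (ι → ℝ) → ℝ} (hF : Alg V F) : Alg V (fun p => fderiv ℝ F p v) := by
  induction hF with
  | post h hh => exact hv h hh
  | @add F G hF hG ihF ihG =>
    have e : (fun p => fderiv ℝ (fun p => F p + G p) p v) =
        fun p => fderiv ℝ F p v + fderiv ℝ G p v := by
      funext p
      rw [fderiv_fun_add (alg_differentiable hV hF p) (alg_differentiable hV hG p)]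
      rfl
    rw [e]
    exact Alg.add ihF ihG
  | @mul F G hF hG ihF ihG =>
    have e : (fun p => fderiv ℝ (fun p => F p * G p) p v) =
        fun p => F p * fderiv ℝ G p v + G p * fderiv ℝ F p v := by
      funext p
      rw [fderiv_fun_mul (alg_differentiable hV hF p) (alg_differentiable hV hG p)]
      rfl
    rw [e]
    exact Alg.add (Alg.mul hF ihG) (Alg.mul hG ihF)
  | @smul c F hF ihF =>
    have e : (fun p => fderiv ℝ (fun p => c * F p) p v) = fun p => c * fderiv ℝ F p v := by
      funext p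
      rw [fderiv_const_mul (alg_differentiable hV hF p)]
      rfl
    rw [e]
    exact Alg.smul c ihF

theorem alg_ds (hV : Body V) {F : ℝ × (ι → ℝ) → ℝ} (hF : Alg V F) : Alg V (ds F) := by
  refine algA_fderiv hV (1, 0) (fun h hh => ?_) hF
  have hc : Continuous fun x : ι → ℝ => x ⬝ᵥ x := by fun_prop
  have h1 := Alg.smul (-(1 / 2)) (alg_sub (Alg.post (V := V) _ (hh.mul hc))
    (Alg.mul (Alg.post (V := V) _ hh) (Alg.post (V := V) _ hc)))
  have e : (fun p => fderiv ℝ (post V h) p (1, 0)) = fun p => -(1 / 2) *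
      (post V (fun x => h x * (x ⬝ᵥ x)) p - post V h p * post V (fun x => x ⬝ᵥ x) p) :=
    funext fun p => ds_post hV hh p
  rw [e]
  exact h1

theorem alg_dy (hV : Body V) {F : ℝ × (ι → ℝ) → ℝ} (hF : Alg V F) (i : ι) : Alg V (dy i F) := by
  refine algA_fderiv hV (0, Pi.single i 1) (fun h hh => ?_) hF
  have hc : Continuous fun x : ι → ℝ => x i := continuous_apply i
  have h1 := alg_sub (Alg.post (V := V) _ (hh.mul hc))
    (Alg.mul (Alg.post (V := V) _ hh) (Alg.post (V := V) _ hc))
  have e : (fun p => fderiv ℝ (post V h) p (0, Pi.single i 1)) = fun p =>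
      post V (fun x => h x * x i) p - post V h p * post V (fun x => x i) p :=
    funext fun p => dy_post hV hh i p
  rw [e]
  exact h1

theorem alg_LL (hV : Body V) {F : ℝ × (ι → ℝ) → ℝ} (hF : Alg V F) : Alg V (LL V F) := by
  exact Alg.add (Alg.add (alg_ds hV hF) (alg_sum hV Finset.univ fun i =>
    Alg.mul (Alg.post (V := V) _ (continuous_apply i)) (alg_dy hV hF i)))
    (Alg.smul (1 / 2) (alg_sum hV Finset.univ fun i => alg_dy hV (alg_dy hV hF i) i))

end Crest.Agent.R152
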