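import Crest.Agent.R152.WPL

/-! # Row 152: Poincaré inequality for strongly log-concave weights -/

set_option autoImplicit false
set_option linter.unusedSectionVars false
set_option linter.unusedVariables false

open MeasureTheory Set Matrix Filter Topology

noncomputable section

namespace Crest.Agent.R152

variable {ι : Type} [Fintype ι] [DecidableEq ι]

/-- linearisation of property (τ) -/
theorem tau_lin {α : Type} [MeasurableSpace α] (μ : Measure α) [IsFiniteMeasure μ] {f Γ : α → ℝ}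
    (hf : AEStronglyMeasurable f μ) (hΓ : AEStronglyMeasurable Γ μ) {B : ℝ}
    (hfB : ∀ᵐ x ∂μ, |f x| ≤ B) (hΓB : ∀ᵐ x ∂μ, |Γ x| ≤ B) {lam : ℝ → ℝ} {lam0 : ℝ}
    (hlam : Tendsto lam (𝓝[>] 0) (𝓝 lam0))
    (H : ∀ᶠ ε in 𝓝[>] (0 : ℝ), (∫ x, Real.exp (ε * f x - ε ^ 2 * lam ε * Γ x) ∂μ) *
      (∫ x, Real.exp (-(ε * f x)) ∂μ) ≤ μ.real univ ^ 2) :
    μ.real univ * (∫ x, f x ^ 2 ∂μ) - (∫ x, f x ∂μ) ^ 2 ≤ lam0 * (μ.real univ * ∫ x, Γ x ∂μ) := by
  have hexp : ∀ t r : ℝ, |t| ≤ r → r ≤ 1 → 1 + t + t ^ 2 / 2 - r ^ 3 ≤ Real.exp t := by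
    intro t r h1 h2
    have h3 := (abs_le.1 (Real.exp_bound (h1.trans h2) (n := 3) (by norm_num))).1
    have h4 := pow_le_pow_left₀ (abs_nonneg t) h1 3
    have h5 : 0 ≤ |t| ^ 3 := by positivity
    norm_num [Finset.sum_range_succ, Nat.factorial] at h3
    linarith
  have bi : ∀ {h : α → ℝ} (c : ℝ), AEStronglyMeasurable h μ → (∀ᵐ x ∂μ, |h x| ≤ c) →
      Integrable h μ := fun c h1 h2 => (integrable_const c).mono' h1 h2
  replace hfB : ∀ᵐ x ∂μ, |f x| ≤ |B| := hfB.mono fun x hx => hx.trans (le_abs_self B)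
  replace hΓB : ∀ᵐ x ∂μ, |Γ x| ≤ |B| := hΓB.mono fun x hx => hx.trans (le_abs_self B)
  have hB := abs_nonneg B
  generalize |B| = A at hfB hΓB hB
  obtain ⟨L, hL0, hL⟩ : ∃ L : ℝ, 0 ≤ L ∧ ∀ᶠ ε in 𝓝[>] (0 : ℝ), |lam ε| ≤ L :=
    ⟨|lam0| + 1, by positivity, hlam.abs.eventually (ge_mem_nhds (lt_add_one _))⟩
  obtain ⟨C, hC⟩ : ∃ C, C = L * A ^ 2 + (A + L * A) ^ 3 := ⟨_, rfl⟩
  have i1 := bi A hf hfB
  have i2 : Integrable (fun x => f x ^ 2) μ := bi (A ^ 2) (hf.pow 2)
    (hfB.mono fun x hx => by rw [abs_pow]; exact pow_le_pow_left₀ (abs_nonneg _) hx 2)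
  have i3 := bi A hΓ hΓB
  have lin : ∀ c0 c1 c2 c3 : ℝ, Integrable (fun x => c0 + c1 * f x + c2 * f x ^ 2 + c3 * Γ x) μ ∧
      ∫ x, (c0 + c1 * f x + c2 * f x ^ 2 + c3 * Γ x) ∂μ = c0 * μ.real univ + c1 * ∫ x, f x ∂μ +
        c2 * ∫ x, f x ^ 2 ∂μ + c3 * ∫ x, Γ x ∂μ := by
    intro c0 c1 c2 c3
    have j1 : Integrable (fun x => c0 + c1 * f x) μ := (integrable_const c0).add (i1.const_mul c1)
    have j2 : Integrable (fun x => c0 + c1 * f x + c2 * f x ^ 2) μ := j1.add (i2.const_mul c2)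
    refine ⟨j2.add (i3.const_mul c3), ?_⟩
    rw [integral_add j2 (i3.const_mul c3), integral_add j1 (i2.const_mul c2),
      integral_add (integrable_const c0) (i1.const_mul c1), integral_const_mul, integral_const_mul,
      integral_const_mul, integral_const, smul_eq_mul, mul_comm _ c0]
  generalize μ.real univ = m at H lin ⊢
  generalize ∫ x, f x ∂μ = F1 at lin ⊢
  generalize ∫ x, f x ^ 2 ∂μ = F2 at lin ⊢
  generalize ∫ x, Γ x ∂μ = G at lin ⊢
  have t0 : Tendsto (fun ε : ℝ => ε) (𝓝[>] 0) (𝓝 0) := tendsto_id.mono_left nhdsWithin_le_nhds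
  have sm : ∀ c d : ℝ, 0 < d → ∀ᶠ ε in 𝓝[>] (0 : ℝ), ε * c ≤ d := fun c d hd =>
    (t0.mul_const c).eventually (ge_mem_nhds (by rwa [zero_mul]))
  let φ : ℝ × ℝ → ℝ := fun p => m * (F2 / 2 - p.2 * G - p.1 * C * m) + m * (F2 / 2 - p.1 * C * m) -
    F1 ^ 2 + p.1 * F1 * (p.2 * G) + p.1 ^ 2 * ((F2 / 2 - p.2 * G - p.1 * C * m) * (F2 / 2 - p.1 * C * m))
  have hφ : Continuous φ := by fun_prop
  have key : φ (0, lam0) ≤ 0 := by
    refine le_of_tendsto ((hφ.tendsto _).comp (t0.prodMk_nhds hlam)) ?_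
    filter_upwards [H, hL, self_mem_nhdsWithin, sm 1 1 one_pos, sm (A + L * A) (1 / 2) one_half_pos,
      sm C (1 / 2) one_half_pos] with ε h1 h2 h3 h4 h5 h6
    replace h3 : 0 < ε := h3
    rw [mul_one] at h4
    have hLA : 0 ≤ L * A := by positivity
    have e3 : 0 < ε ^ 3 := by positivity
    have b1 : ∀ᵐ x ∂μ, |ε * f x - ε ^ 2 * lam ε * Γ x| ≤ ε * (A + L * A) := by
      filter_upwards [hfB, hΓB] with x hx hx'
      refine (abs_sub _ _).trans ?_
      rw [abs_mul, abs_mul, abs_mul, abs_of_pos h3, abs_of_pos (pow_pos h3 2), mul_add]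
      refine add_le_add (mul_le_mul_of_nonneg_left hx h3.le) ?_
      rw [mul_assoc]
      exact mul_le_mul (by nlinarith) (mul_le_mul h2 hx' (abs_nonneg _) hL0) (by positivity) h3.le
    have b2 : ∀ᵐ x ∂μ, |-(ε * f x)| ≤ ε * (A + L * A) := by
      filter_upwards [hfB] with x hx
      rw [abs_neg, abs_mul, abs_of_pos h3]
      exact mul_le_mul_of_nonneg_left (by linarith) h3.le
    have ie : ∀ t : α → ℝ, AEStronglyMeasurable t μ → (∀ᵐ x ∂μ, |t x| ≤ ε * (A + L * A)) →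
        Integrable (fun x => Real.exp (t x)) μ := fun t ht hb =>
      bi (Real.exp 1) (Real.continuous_exp.comp_aestronglyMeasurable ht) (hb.mono fun x hx => by
        rw [Real.abs_exp]
        exact Real.exp_le_exp.2 (by linarith [le_abs_self (t x)]))
    obtain ⟨k1, k2⟩ := lin (1 - ε ^ 3 * C) ε (ε ^ 2 / 2) (-(ε ^ 2 * lam ε))
    obtain ⟨k3, k4⟩ := lin (1 - ε ^ 3 * C) (-ε) (ε ^ 2 / 2) 0
    have c1 := integral_mono_ae k1 (ie (fun x => ε * f x - ε ^ 2 * lam ε * Γ x)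
      ((hf.const_mul ε).sub (hΓ.const_mul _)) b1) (by
      filter_upwards [b1, hfB, hΓB] with x hx hx1 hx2
      have h7 := hexp _ _ hx (by linarith)
      have h8 : lam ε * (f x * Γ x) ≤ L * A ^ 2 := by
        refine (le_abs_self _).trans ?_
        rw [abs_mul, abs_mul, pow_two]
        exact mul_le_mul h2 (mul_le_mul hx1 hx2 (abs_nonneg _) hB) (by positivity) hL0
      have h9 := mul_le_mul_of_nonneg_left h8 e3.le
      have h10 := sq_nonneg (ε ^ 2 * lam ε * Γ x)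
      rw [hC]
      linarith)
    have c2 := integral_mono_ae k3 (ie (fun x => -(ε * f x)) (hf.const_mul ε).neg b2) (by
      filter_upwards [b2] with x hx
      have h7 := hexp _ _ hx (by linarith)
      have h9 : 0 ≤ ε ^ 3 * (L * A ^ 2) := by positivity
      rw [hC]
      linarith)
    have c3 : 0 ≤ ∫ x, (1 - ε ^ 3 * C + -ε * f x + ε ^ 2 / 2 * f x ^ 2 + 0 * Γ x) ∂μ := by
      refine integral_nonneg_of_ae ?_
      filter_upwards [b2] with x hx
      have h7 := (abs_le.1 hx).1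
      have h8 : 0 ≤ ε ^ 2 / 2 * f x ^ 2 := by positivity
      have h9 : 0 ≤ ε * C := by rw [hC]; positivity
      have h10 := mul_le_mul_of_nonneg_right (show ε ^ 2 ≤ 1 by nlinarith) h9
      show (0 : ℝ) ≤ _
      linarith
    have c4 := (mul_le_mul c1 c2 c3 (integral_nonneg fun x => (Real.exp_pos _).le)).trans h1
    rw [k2, k4] at c4
    refine le_of_mul_le_mul_left (a := ε ^ 2) ?_ (pow_pos h3 2)
    simp only [φ, Function.comp]
    linarith
  simp only [φ] at key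
  linarith

theorem poin_int {c : ℝ} (hc : 0 < c) (b : ι → ℝ) :
    Integrable fun x : ι → ℝ => Real.exp (-c * ((x - b) ⬝ᵥ (x - b)) / 2) := by
  have h := Integrable.fintype_prod (μ := fun _ : ι => (volume : Measure ℝ))
    (f := fun i t => Real.exp (-(c / 2) * (t - b i) ^ 2))
    fun i => (integrable_exp_neg_mul_sq (half_pos hc)).comp_sub_right (b i)
  refine h.congr (Eventually.of_forall fun x => ?_)
  simp only [← Real.exp_sum, dotProduct, Pi.sub_apply, Finset.mul_sum, Finset.sum_div]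
  congr 1
  exact Finset.sum_congr rfl fun i _ => by ring

/-- Prékopa–Leindler for a weighted measure on a convex set -/
theorem poin_pl {K : Set (ι → ℝ)} (hKm : MeasurableSet K) (hK : Convex ℝ K) {w u v : (ι → ℝ) → ℝ}
    (hw : Continuous w) (hu : Continuous u) (hv : Continuous v)
    (hi : Integrable fun x => Real.exp (w x))
    (H : ∀ x ∈ K, ∀ y ∈ K, u x + w x + (v y + w y) ≤ 2 * w fun i => (x i + y i) / 2) :
    (∫ x in K, Real.exp (u x) * Real.exp (w x)) * (∫ x in K, Real.exp (v x) * Real.exp (w x)) ≤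
      (∫ x in K, Real.exp (w x)) ^ 2 := by
  have e : ∀ F : (ι → ℝ) → ℝ, Continuous F → ∫ x in K, Real.exp (F x) =
      (∫⁻ x, K.indicator (fun x => ENNReal.ofReal (Real.exp (F x))) x).toReal := fun F hF => by
    rw [lintegral_indicator hKm, integral_eq_lintegral_of_nonneg_ae
      (Eventually.of_forall fun x => (Real.exp_pos _).le) hF.rexp.aestronglyMeasurable]
  have m : ∀ F : (ι → ℝ) → ℝ, Continuous F →
      Measurable (K.indicator fun x => ENNReal.ofReal (Real.exp (F x))) := fun F hF =>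
    hF.rexp.measurable.ennreal_ofReal.indicator hKm
  have h := plProp_iota _ _ _ (m _ (hu.add hw)) (m _ (hv.add hw)) (m _ hw) fun x y => by
    by_cases hx : x ∈ K
    · by_cases hy : y ∈ K
      · have hm : (fun i => (x i + y i) / 2) ∈ K := by
          convert hK hx hy (a := 1 / 2) (b := 1 / 2) (by norm_num) (by norm_num) (by norm_num) using 1
          funext i
          simp only [Pi.add_apply, Pi.smul_apply, smul_eq_mul]
          ring
        rw [indicator_of_mem hx, indicator_of_mem hy, indicator_of_mem hm,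
          ← ENNReal.ofReal_mul (Real.exp_pos _).le, ← ENNReal.ofReal_pow (Real.exp_pos _).le,
          ← Real.exp_add, ← Real.exp_nat_mul]
        exact ENNReal.ofReal_le_ofReal (Real.exp_le_exp.2 (by exact_mod_cast H x hx y hy))
      · simp [indicator_of_notMem hy]
    · simp [indicator_of_notMem hx]
  simp only [← Real.exp_add]
  rw [e (fun x => u x + w x) (hu.add hw), e (fun x => v x + w x) (hv.add hw), e _ hw,
    ← ENNReal.toReal_mul, ← ENNReal.toReal_pow]
  refine ENNReal.toReal_mono (ENNReal.pow_ne_top ?_) h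
  rw [lintegral_indicator hKm]
  exact hi.integrableOn.lintegral_lt_top.ne

/-- Poincaré inequality with constant `1/c` for the weight `1_K exp(-c|x-b|²/2)`, `K` convex
(not necessarily bounded), for a bounded semiconvex `f` with bounded (sub)gradient `g`. -/
theorem poincare {K : Set (ι → ℝ)} (hKm : MeasurableSet K) (hK : Convex ℝ K) {c : ℝ} (hc : 0 < c)
    (b : ι → ℝ) {f : (ι → ℝ) → ℝ} {g : ι → (ι → ℝ) → ℝ} (hf : Continuous f)
    (hg : ∀ i, Continuous (g i)) {B M : ℝ} (hfB : ∀ x ∈ K, |f x| ≤ B)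
    (hgB : ∀ i, ∀ x ∈ K, |g i x| ≤ B)
    (hsc : ∀ x ∈ K, ∀ y ∈ K,
      f x + ∑ i, g i x * (y i - x i) - M * ∑ i, (y i - x i) ^ 2 ≤ f y) :
    (∫ x in K, Real.exp (-c * ((x - b) ⬝ᵥ (x - b)) / 2)) *
        (∫ x in K, f x ^ 2 * Real.exp (-c * ((x - b) ⬝ᵥ (x - b)) / 2)) -
      (∫ x in K, f x * Real.exp (-c * ((x - b) ⬝ᵥ (x - b)) / 2)) ^ 2 ≤
    (1 / c) * ((∫ x in K, Real.exp (-c * ((x - b) ⬝ᵥ (x - b)) / 2)) *
      ∫ x in K, (∑ i, g i x ^ 2) * Real.exp (-c * ((x - b) ⬝ᵥ (x - b)) / 2)) := by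
  have hw : Continuous fun x : ι → ℝ => -c * ((x - b) ⬝ᵥ (x - b)) / 2 := by fun_prop
  have hi := poin_int hc b
  set μ : Measure (ι → ℝ) := (volume.restrict K).withDensity fun x =>
    ENNReal.ofReal (Real.exp (-c * ((x - b) ⬝ᵥ (x - b)) / 2)) with hμ
  have : IsFiniteMeasure μ := isFiniteMeasure_withDensity_ofReal hi.integrableOn.2
  have e : ∀ F : (ι → ℝ) → ℝ, ∫ x, F x ∂μ =
      ∫ x in K, F x * Real.exp (-c * ((x - b) ⬝ᵥ (x - b)) / 2) := fun F => by
    rw [hμ, integral_withDensity_eq_integral_toReal_smul hw.rexp.measurable.ennreal_ofReal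
      (Eventually.of_forall fun _ => ENNReal.ofReal_lt_top)]
    simp only [ENNReal.toReal_ofReal (Real.exp_pos _).le, smul_eq_mul, mul_comm]
  have e1 : μ.real univ = ∫ x in K, Real.exp (-c * ((x - b) ⬝ᵥ (x - b)) / 2) := by
    simpa using e fun _ => 1
  have hae : ∀ᵐ x ∂μ, x ∈ K :=
    (withDensity_absolutelyContinuous _ _).ae_le (ae_restrict_mem hKm)
  have hΓ : Continuous fun x => ∑ i, g i x ^ 2 := by fun_prop
  have hl : Tendsto (fun ε : ℝ => c - 4 * ε * M) (𝓝[>] 0) (𝓝 c) := by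
    have h1 : Continuous fun ε : ℝ => c - 4 * ε * M := by fun_prop
    simpa using (h1.tendsto 0).mono_left nhdsWithin_le_nhds
  have h := tau_lin μ (B := max B (Fintype.card ι * B ^ 2)) hf.aestronglyMeasurable
    hΓ.aestronglyMeasurable (hae.mono fun x hx => le_max_of_le_left (hfB x hx))
    (hae.mono fun x hx => le_max_of_le_right ?_) (lam := fun ε => 1 / (c - 4 * ε * M))
    (lam0 := 1 / c) (tendsto_const_nhds.div hl hc.ne') ?_
  · rwa [e1, e, e, e] at h
  · rw [abs_of_nonneg (Finset.sum_nonneg fun i _ => sq_nonneg _), ← nsmul_eq_mul, ← Finset.card_univ]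
    exact Finset.sum_le_card_nsmul _ _ _ fun i _ => sq_le_sq' (abs_le.1 (hgB i x hx)).1
      (abs_le.1 (hgB i x hx)).2
  · filter_upwards [hl.eventually (lt_mem_nhds hc), self_mem_nhdsWithin] with ε ha hε
    rw [e1, e, e]
    refine poin_pl hKm hK hw (by fun_prop) (by fun_prop) hi fun x hx y hy => ?_
    have h1 := mul_le_mul_of_nonneg_left (hsc x hx y hy) (le_of_lt hε)
    have h2 : -(ε * ∑ i, g i x * (y i - x i)) ≤ ε ^ 2 * (1 / (c - 4 * ε * M)) * ∑ i, g i x ^ 2 +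
        (c - 4 * ε * M) / 4 * ∑ i, (y i - x i) ^ 2 := by
      simp only [Finset.mul_sum, ← Finset.sum_add_distrib, ← Finset.sum_neg_distrib]
      refine Finset.sum_le_sum fun i _ => ?_
      have h3 : 0 ≤ 1 / (c - 4 * ε * M) * (ε * g i x + (c - 4 * ε * M) / 2 * (y i - x i)) ^ 2 := by
        positivity
      have h4 : 1 / (c - 4 * ε * M) * (ε * g i x + (c - 4 * ε * M) / 2 * (y i - x i)) ^ 2 =
          ε ^ 2 * (1 / (c - 4 * ε * M)) * g i x ^ 2 + (c - 4 * ε * M) / 4 * (y i - x i) ^ 2 +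
            ε * (g i x * (y i - x i)) := by
        field_simp
        ring
      linarith
    have h3 : 2 * (-c * (((fun i => (x i + y i) / 2) - b) ⬝ᵥ ((fun i => (x i + y i) / 2) - b)) / 2) =
        -c * ((x - b) ⬝ᵥ (x - b)) / 2 + -c * ((y - b) ⬝ᵥ (y - b)) / 2 +
          c / 4 * ∑ i, (y i - x i) ^ 2 := by
      simp only [dotProduct, Pi.sub_apply, Finset.mul_sum, Finset.sum_div, ← Finset.sum_add_distrib]
      exact Finset.sum_congr rfl fun i _ => by ring
    rw [h3]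
    linarith

end Crest.Agent.R152
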