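import Crest.Agent.R152.WChan
import Crest.Agent.R152.WPoin

/-! # Row 152: Poincaré inequalities for the posterior and for the observation -/

set_option autoImplicit false
set_option linter.unusedSectionVars false
set_option linter.unusedVariables false

open MeasureTheory Set Matrix Filter Topology

noncomputable section

namespace Crest.Agent.R152

variable {ι : Type} [Fintype ι] [DecidableEq ι]

variable {V : Set (ι → ℝ)}

/-- the posterior at time `s ≥ 0` is `(1+s)`-strongly log-concave -/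
theorem post_poincare (hV : Body V) {s : ℝ} (hs : 0 ≤ s) (y : ι → ℝ) {f : (ι → ℝ) → ℝ}
    {g : ι → (ι → ℝ) → ℝ} (hf : Continuous f) (hg : ∀ i, Continuous (g i)) {M : ℝ}
    (hsc : ∀ x x' : ι → ℝ,
      f x + ∑ i, g i x * (x' i - x i) - M * ∑ i, (x' i - x i) ^ 2 ≤ f x') :
    post V (fun x => f x ^ 2) (s, y) - post V f (s, y) ^ 2 ≤
      (1 / (1 + s)) * post V (fun x => ∑ i, g i x ^ 2) (s, y) := by
  have hc : 0 < 1 + s := by linarith
  obtain ⟨B1, hB1⟩ := hV.cpt.exists_bound_of_continuousOn hf.continuousOn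
  obtain ⟨B2, hB2⟩ := hV.cpt.exists_bound_of_continuousOn (continuous_pi hg).continuousOn
  have key := poincare hV.cpt.measurableSet hV.cvx hc ((1 + s)⁻¹ • y) hf hg (B := max B1 B2)
    (M := M) (fun x hx => (hB1 x hx).trans (le_max_left _ _))
    (fun i x hx => ((norm_le_pi_norm (fun i => g i x) i).trans (hB2 x hx)).trans
      (le_max_right _ _)) (fun x _ x' _ => hsc x x')
  set κ := Real.exp ((1 + s)⁻¹ * (y ⬝ᵥ y) / 2) with hκ
  have κ0 : 0 < κ := Real.exp_pos _
  have hw : ∀ x, wt (s, y) x =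
      κ * Real.exp (-(1 + s) * ((x - (1 + s)⁻¹ • y) ⬝ᵥ (x - (1 + s)⁻¹ • y)) / 2) := fun x => by
    rw [hκ, ← Real.exp_add, wt]
    congr 1
    simp only [sub_dotProduct, dotProduct_sub, smul_dotProduct, dotProduct_smul, smul_eq_mul,
      dotProduct_comm x y]
    field_simp
    ring
  have hI : ∀ h : (ι → ℝ) → ℝ, II V h (s, y) = κ * ∫ x in V,
      h x * Real.exp (-(1 + s) * ((x - (1 + s)⁻¹ • y) ⬝ᵥ (x - (1 + s)⁻¹ • y)) / 2) := fun h => by
    rw [II, ← integral_const_mul]
    refine integral_congr_ae (.of_forall fun x => ?_)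
    simp only [hw]
    ring
  simp only [post, hI, one_mul, mul_div_mul_left _ _ κ0.ne']
  set Z := ∫ x in V, Real.exp (-(1 + s) * ((x - (1 + s)⁻¹ • y) ⬝ᵥ (x - (1 + s)⁻¹ • y)) / 2)
  have Z0 : 0 ≤ Z := integral_nonneg fun _ => (Real.exp_pos _).le
  rcases Z0.eq_or_lt with h0 | h0
  · simp [← h0]
  · rw [div_pow, div_sub_div _ _ h0.ne' (by positivity), ← mul_div_assoc,
      div_le_div_iff₀ (by positivity) h0]
    nlinarith [mul_le_mul_of_nonneg_left key (mul_pos h0 h0).le]

theorem chanP_JJ (hV : Body V) {Φ : (ι → ℝ) → (ι → ℝ) → ℝ}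
    (hΦ : Continuous fun p : (ι → ℝ) × (ι → ℝ) => Φ p.1 p.2) {B : ℝ} (hB : ∀ x g, |Φ x g| ≤ B) :
    ∫ z in {z : ι ⊕ ι → ℝ | (fun i => z (.inl i)) ∈ V},
      Φ (fun i => z (.inl i)) (fun i => z (.inr i)) * Real.exp (-1 * ((z - 0) ⬝ᵥ (z - 0)) / 2) =
      JJ V Φ := by
  have hm := volume_measurePreserving_sumPiEquivProdPi fun _ : ι ⊕ ι => ℝ
  have h1 := hm.setIntegral_preimage_emb (MeasurableEquiv.measurableEmbedding _)
    (fun p => Φ p.1 p.2 * Real.exp (-(p.1 ⬝ᵥ p.1 + p.2 ⬝ᵥ p.2) / 2)) (V ×ˢ univ)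
  have hi : Integrable (fun p : (ι → ℝ) × (ι → ℝ) =>
      Φ p.1 p.2 * Real.exp (-(p.1 ⬝ᵥ p.1 + p.2 ⬝ᵥ p.2) / 2)) (volume.prod volume) := by
    have h2 := ((WChan1_gauss (ι := ι) one_half_pos).mul_prod (WChan1_gauss (ι := ι) one_half_pos)).bdd_mul
      hΦ.aestronglyMeasurable (Eventually.of_forall fun p => hB p.1 p.2)
    refine h2.congr (Eventually.of_forall fun p => ?_)
    simp only [← Real.exp_add]
    congr 2
    ring
  rw [Measure.volume_eq_prod, setIntegral_prod _ hi.integrableOn, Measure.restrict_univ] at h1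
  refine Eq.trans ?_ h1
  congr 1
  · congr 1
    ext z
    simp only [mem_ofPred_eq, mem_preimage, mem_prod, mem_univ, and_true]
    rfl
  · funext z
    simp only [sub_zero, dotProduct, Fintype.sum_sum_type, neg_mul, one_mul]
    rfl

/-- the pair `(X, g)` is 1-strongly log-concave on `ι ⊕ ι → ℝ` -/
theorem EE_poincare (hV : Body V) {s : ℝ} (hs : 0 ≤ s) {F : ℝ × (ι → ℝ) → ℝ} (hF : Alg V F)
    (h0 : EE V s F = 0) :
    EE V s (fun p => F p ^ 2) ≤ (s ^ 2 + s) * EE V s (fun p => ∑ i, dy i F p ^ 2) := by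
  have hc : ∀ G, Alg V G → Continuous fun p : (ι → ℝ) × (ι → ℝ) =>
      G (s, s • p.1 + Real.sqrt s • p.2) := fun G hG =>
    (alg_differentiable hV hG).continuous.comp (by fun_prop)
  have hc' : ∀ G, Alg V G → Continuous fun z : ι ⊕ ι → ℝ =>
      G (s, s • (fun i => z (.inl i)) + Real.sqrt s • fun i => z (.inr i)) := fun G hG =>
    (alg_differentiable hV hG).continuous.comp (by fun_prop)
  have e : ∀ G, Alg V G → ∫ z in {z : ι ⊕ ι → ℝ | (fun i => z (.inl i)) ∈ V},
      G (s, s • (fun i => z (.inl i)) + Real.sqrt s • fun i => z (.inr i)) *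
        Real.exp (-1 * ((z - 0) ⬝ᵥ (z - 0)) / 2) = EE V s G := fun G hG => by
    obtain ⟨B, hB⟩ := alg_bdd hV hG
    exact chanP_JJ hV (Φ := fun x g => G (s, s • x + Real.sqrt s • g)) (hc G hG) fun x g => hB _
  obtain ⟨M, hM, hsc⟩ := alg_semiconvex hV hF
  obtain ⟨B0, hB0⟩ := alg_bdd hV hF
  choose B hB using fun i => alg_bdd hV (alg_dy hV hF i)
  have hB1 : ∀ i p, |dy i F p| ≤ ∑ i, B i := fun i p => (hB i p).trans
    (Finset.single_le_sum (fun j _ => (abs_nonneg _).trans (hB j p)) (Finset.mem_univ i))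
  have hr := Real.sqrt_nonneg s
  have hr2 := Real.sq_sqrt hs
  have hKm : MeasurableSet {z : ι ⊕ ι → ℝ | (fun i => z (.inl i)) ∈ V} :=
    hV.cpt.isClosed.measurableSet.preimage (by fun_prop)
  have hK : Convex ℝ {z : ι ⊕ ι → ℝ | (fun i => z (.inl i)) ∈ V} :=
    fun _ hx _ hy _ _ ha hb hab => hV.cvx hx hy ha hb hab
  have h := poincare hKm hK one_pos 0 (hc' F hF)
    (g := fun j z => Sum.elim (fun _ => s) (fun _ => Real.sqrt s) j * dy (Sum.elim id id j) F
      (s, s • (fun i => z (.inl i)) + Real.sqrt s • fun i => z (.inr i)))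
    (fun j => continuous_const.mul (hc' _ (alg_dy hV hF _)))
    (B := max B0 ((s + Real.sqrt s) * ∑ i, B i)) (M := M * (s ^ 2 + s))
    (fun z _ => le_max_of_le_left (hB0 _))
    (fun j z _ => le_max_of_le_right (by
      rw [abs_mul]
      refine mul_le_mul ?_ (hB1 _ _) (abs_nonneg _) (add_nonneg hs hr)
      rcases j with i | i
      · exact (abs_of_nonneg hs).trans_le (le_add_of_nonneg_right hr)
      · exact (abs_of_nonneg hr).trans_le (le_add_of_nonneg_left hs)))
    (fun z _ z' _ => le_trans ?_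
      (hsc s (s • (fun i => z (.inl i)) + Real.sqrt s • fun i => z (.inr i)) _))
  · have hS : Alg V fun p => ∑ i, dy i F p ^ 2 :=
      alg_sum hV _ fun i => by simpa only [sq] using (alg_dy hV hF i).mul (alg_dy hV hF i)
    have e1 := chanP_JJ hV (Φ := fun _ _ => 1) continuous_const (B := 1) fun _ _ => abs_one.le
    have e2 := e (fun p => F p ^ 2) (by simpa only [sq] using hF.mul hF)
    have e3 := e _ (hS.smul (s ^ 2 + s))
    simp only [one_mul] at e1
    have e4 : ∀ p, ∑ j : ι ⊕ ι, (Sum.elim (fun _ => s) (fun _ => Real.sqrt s) j *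
        dy (Sum.elim id id j) F p) ^ 2 = (s ^ 2 + s) * ∑ i, dy i F p ^ 2 := fun p => by
      simp only [Fintype.sum_sum_type, Sum.elim_inl, Sum.elim_inr, id, mul_pow, hr2, add_mul,
        Finset.mul_sum, Finset.sum_add_distrib]
    simp only [e4] at h
    rw [e1, e2, e3, e F hF, h0, EE_smul] at h
    refine le_of_mul_le_mul_left ?_ (EE_one_pos hV)
    linarith
  · simp only [Fintype.sum_sum_type, Sum.elim_inl, Sum.elim_inr, id, Pi.add_apply, Pi.smul_apply,
      smul_eq_mul, ← Finset.sum_add_distrib]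
    refine sub_le_sub (add_le_add_right (Finset.sum_congr rfl fun i _ => by ring).le _) ?_
    rw [mul_assoc, Finset.mul_sum _ _ (s ^ 2 + s)]
    refine mul_le_mul_of_nonneg_left (Finset.sum_le_sum fun i _ => ?_) hM
    have h3 := sq_nonneg (s * (z' (.inr i) - z (.inr i)) - Real.sqrt s * (z' (.inl i) - z (.inl i)))
    have h4 : (s ^ 2 + Real.sqrt s ^ 2) * ((z' (.inl i) - z (.inl i)) ^ 2 + (z' (.inr i) - z (.inr i)) ^ 2) =
        (s * z' (.inl i) + Real.sqrt s * z' (.inr i) - (s * z (.inl i) + Real.sqrt s * z (.inr i))) ^ 2 +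
          (s * (z' (.inr i) - z (.inr i)) - Real.sqrt s * (z' (.inl i) - z (.inl i))) ^ 2 := by ring
    rw [hr2] at h4
    linarith

end Crest.Agent.R152
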