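import Crest.Agent.R152.WDer
import Crest.Agent.R152.WChanP

/-! # Row 152: auxiliary facts for the differential inequality of the B-theorem -/

set_option autoImplicit false
set_option linter.unusedSectionVars false
set_option linter.unusedVariables false

open MeasureTheory Set Matrix Filter Topology

noncomputable section

namespace Crest.Agent.R152

variable {ι : Type} [Fintype ι] [DecidableEq ι]

variable {V : Set (ι → ℝ)}

theorem wb1_post_const (hV : Body V) (c : ℝ) (p : ℝ × (ι → ℝ)) :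
    post V (fun _ => c) p = c := by
  have h := post_smul (V := V) c (fun _ => (1 : ℝ)) p
  simp only [mul_one] at h
  rw [h, post_one hV, mul_one]

theorem wb1_post_lin (hV : Body V) (w : ι → ℝ) {h : (ι → ℝ) → ℝ} (hh : Continuous h)
    (p : ℝ × (ι → ℝ)) :
    post V (fun x => h x * ∑ i, w i * x i) p = ∑ i, w i * post V (fun x => h x * x i) p := by
  have e : (fun x : ι → ℝ => h x * ∑ i, w i * x i) = fun x => ∑ i, w i * (h x * x i) := by
    funext x
    rw [Finset.mul_sum]
    exact Finset.sum_congr rfl fun i _ => by ring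
  rw [e, post_sum hV Finset.univ (h := fun i x => w i * (h x * x i)) (fun i => by fun_prop)]
  exact Finset.sum_congr rfl fun i _ => post_smul _ _ _

theorem wb1_post_lin0 (hV : Body V) (w : ι → ℝ) (p : ℝ × (ι → ℝ)) :
    post V (fun x => ∑ i, w i * x i) p = ∑ i, w i * post V (fun x => x i) p := by
  have h := wb1_post_lin hV w (h := fun _ => (1 : ℝ)) continuous_const p
  simpa only [one_mul] using h

/-- the variance of a linear function -/
theorem wb1_var_lin (hV : Body V) (w : ι → ℝ) (p : ℝ × (ι → ℝ)) :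
    post V (fun x => (∑ i, w i * x i) ^ 2) p - post V (fun x => ∑ i, w i * x i) p ^ 2 =
      ∑ i, ∑ j, w i * w j * dy j (post V fun x => x i) p := by
  have e : (fun x : ι → ℝ => (∑ i, w i * x i) ^ 2) =
      fun x => (∑ i, w i * x i) * ∑ i, w i * x i := by
    funext x; ring
  rw [e, wb1_post_lin hV w (h := fun x => ∑ i, w i * x i) (by fun_prop), wb1_post_lin0 hV w, sq,
    Finset.sum_mul_sum, Finset.sum_comm (f := fun i j => w i * w j * dy j (post V fun x => x i) p),
    Finset.sum_comm (f := fun i j => w i * post V (fun x => x i) p * (w j * post V (fun x => x j) p)),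
    ← Finset.sum_sub_distrib]
  refine Finset.sum_congr rfl fun j _ => ?_
  have e2 : (fun x : ι → ℝ => (∑ i, w i * x i) * x j) = fun x => x j * ∑ i, w i * x i := by
    funext x; ring
  rw [e2, wb1_post_lin hV w (h := fun x => x j) (by fun_prop), Finset.mul_sum,
    ← Finset.sum_sub_distrib]
  refine Finset.sum_congr rfl fun i _ => ?_
  rw [dy_post hV (h := fun x => x i) (by fun_prop) j p]
  have e3 : (fun x : ι → ℝ => x j * x i) = fun x => x i * x j := by
    funext x; ring
  rw [e3]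
  ring

theorem wb1_var_lin_le (hV : Body V) (w : ι → ℝ) {s : ℝ} (hs : 0 ≤ s) (y : ι → ℝ) :
    post V (fun x => (∑ i, w i * x i) ^ 2) (s, y) - post V (fun x => ∑ i, w i * x i) (s, y) ^ 2 ≤
      (1 / (1 + s)) * ∑ i, w i ^ 2 := by
  have h := post_poincare hV hs y (f := fun x => ∑ i, w i * x i) (g := fun i _ => w i)
    (by fun_prop) (fun i => continuous_const) (M := 0) (fun x x' => by
      rw [zero_mul, sub_zero, ← Finset.sum_add_distrib]
      exact le_of_eq (Finset.sum_congr rfl fun i _ => by ring))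
  rwa [wb1_post_const hV] at h

theorem wb1_dy_eq (hV : Body V) {φ : (ι → ℝ) → ℝ} (hφ : Continuous φ) (i : ι) :
    dy i (post V φ) = fun p => post V (fun x => φ x * x i) p - post V φ p * post V (fun x => x i) p :=
  funext fun p => dy_post hV hφ i p

theorem wb1_LL_dy (hV : Body V) {φ : (ι → ℝ) → ℝ} (hφ : Continuous φ) (i : ι)
    (p : ℝ × (ι → ℝ)) :
    LL V (dy i (post V φ)) p = -∑ j, dy j (post V φ) p * dy j (post V fun x => x i) p := by
  have c1 : Continuous fun x : ι → ℝ => φ x * x i := by fun_prop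
  have c2 : Continuous fun x : ι → ℝ => x i := by fun_prop
  have h1 := LL_sub hV (Alg.post (V := V) _ c1)
    (Alg.mul (Alg.post (V := V) _ hφ) (Alg.post (V := V) _ c2)) p
  have h2 := LL_mul hV (Alg.post (V := V) _ hφ) (Alg.post (V := V) _ c2) p
  rw [← wb1_dy_eq hV hφ i] at h1
  rw [h1, h2, LL_post hV c1, LL_post hV c2, LL_post hV hφ]
  ring

theorem wb1_dy_odd (hV : Body V) {φ : (ι → ℝ) → ℝ} (hφ : Continuous φ) (hev : ∀ x, φ (-x) = φ x)
    (i : ι) (s : ℝ) (y : ι → ℝ) : dy i (post V φ) (s, -y) = -dy i (post V φ) (s, y) := by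
  rw [dy_post hV hφ, dy_post hV hφ, post_neg hV, post_neg hV, post_neg hV]
  have e1 : (fun x : ι → ℝ => φ (-x) * (-x) i) = fun x => (-1) * (φ x * x i) := by
    funext x; rw [hev, Pi.neg_apply]; ring
  have e2 : (fun x : ι → ℝ => φ (-x)) = φ := funext hev
  have e3 : (fun x : ι → ℝ => (-x) i) = fun x => (-1) * x i := by
    funext x; rw [Pi.neg_apply]; ring
  rw [e1, e2, e3, post_smul, post_smul]
  ring

theorem wb1_alg_sq {F : ℝ × (ι → ℝ) → ℝ} (hF : Alg V F) : Alg V (fun p => F p ^ 2) := by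
  have h := Alg.mul hF hF
  simpa only [sq] using h

theorem wb1_LL_sq (hV : Body V) {F : ℝ × (ι → ℝ) → ℝ} (hF : Alg V F) (p : ℝ × (ι → ℝ)) :
    LL V (fun p => F p ^ 2) p = 2 * (F p * LL V F p) + ∑ j, dy j F p ^ 2 := by
  have h := LL_mul hV hF hF p
  simp only [sq]
  rw [h]
  ring

theorem wb1_LL_ge (hV : Body V) {φ : (ι → ℝ) → ℝ} (hφ : Continuous φ) {s : ℝ} (hs : 0 ≤ s)
    (y : ι → ℝ) :
    ∑ i, ∑ j, dy j (dy i (post V φ)) (s, y) ^ 2 +
        (-(2 / (1 + s))) * ∑ i, dy i (post V φ) (s, y) ^ 2 ≤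
      LL V (fun p => ∑ i, dy i (post V φ) p ^ 2) (s, y) := by
  have hv : ∀ i, Alg V (dy i (post V φ)) := fun i => alg_dy hV (Alg.post _ hφ) i
  rw [LL_sum hV Finset.univ (F := fun i p => dy i (post V φ) p ^ 2) (fun i => wb1_alg_sq (hv i))]
  have h1 : ∀ i, LL V (fun p => dy i (post V φ) p ^ 2) (s, y) =
      -2 * (∑ j, dy i (post V φ) (s, y) * dy j (post V φ) (s, y) *
        dy j (post V fun x => x i) (s, y)) + ∑ j, dy j (dy i (post V φ)) (s, y) ^ 2 := by
    intro i
    rw [wb1_LL_sq hV (hv i), wb1_LL_dy hV hφ, mul_neg, Finset.mul_sum]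
    simp only [mul_assoc]
    ring
  simp only [h1]
  rw [Finset.sum_add_distrib, ← Finset.mul_sum]
  have h2 := wb1_var_lin_le hV (fun i => dy i (post V φ) (s, y)) hs y
  rw [wb1_var_lin hV] at h2
  have e : (-(2 / (1 + s))) * ∑ i, dy i (post V φ) (s, y) ^ 2 =
      -2 * ((1 / (1 + s)) * ∑ i, dy i (post V φ) (s, y) ^ 2) := by ring
  rw [e]
  linarith

theorem wb1_grad_le (hV : Body V) {φ : (ι → ℝ) → ℝ} {g : ι → (ι → ℝ) → ℝ} (hφ : Continuous φ)
    (hg : ∀ i, Continuous (g i)) {M : ℝ}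
    (hsc : ∀ x x' : ι → ℝ, φ x + ∑ i, g i x * (x' i - x i) - M * ∑ i, (x' i - x i) ^ 2 ≤ φ x')
    {s : ℝ} (hs : 0 ≤ s) (y : ι → ℝ) :
    ∑ i, dy i (post V φ) (s, y) ^ 2 ≤
      (1 / (1 + s) ^ 2) * post V (fun x => ∑ i, g i x ^ 2) (s, y) := by
  set w : ι → ℝ := fun i => dy i (post V φ) (s, y) with hw
  have hq : ∑ i, w i ^ 2 = post V (fun x => φ x * ∑ i, w i * x i) (s, y) -
      post V φ (s, y) * post V (fun x => ∑ i, w i * x i) (s, y) := by
    rw [wb1_post_lin hV w hφ, wb1_post_lin0 hV w, Finset.mul_sum, ← Finset.sum_sub_distrib]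
    refine Finset.sum_congr rfl fun i _ => ?_
    have : w i = post V (fun x => φ x * x i) (s, y) - post V φ (s, y) * post V (fun x => x i) (s, y) :=
      dy_post hV hφ i (s, y)
    rw [sq]
    nth_rewrite 2 [this]
    ring
  have hcs := post_cov_sq hV (h := φ) (k := fun x => ∑ i, w i * x i) hφ (by fun_prop) (s, y)
  rw [← hq] at hcs
  have h1 := post_poincare hV hs y hφ hg hsc
  have h2 := wb1_var_lin_le hV w hs y
  have hG : 0 ≤ post V (fun x => ∑ i, g i x ^ 2) (s, y) := by
    have := post_mono hV (h := fun _ => (0 : ℝ)) (k := fun x => ∑ i, g i x ^ 2) continuous_const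
      (by fun_prop) (fun x _ => Finset.sum_nonneg fun i _ => sq_nonneg _) (s, y)
    rwa [wb1_post_const hV] at this
  have hvar : 0 ≤ post V (fun x => (∑ i, w i * x i) ^ 2) (s, y) -
      post V (fun x => ∑ i, w i * x i) (s, y) ^ 2 := by
    have := post_mono hV (h := fun _ => (0 : ℝ))
      (k := fun x => (∑ i, w i * x i) ^ 2 + (-2 * post V (fun x => ∑ i, w i * x i) (s, y)) *
        (∑ i, w i * x i) + post V (fun x => ∑ i, w i * x i) (s, y) ^ 2) continuous_const
      (by fun_prop) (fun x _ => by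
        nlinarith [sq_nonneg ((∑ i, w i * x i) - post V (fun x => ∑ i, w i * x i) (s, y))]) (s, y)
    rw [wb1_post_const hV, post_add hV (by fun_prop) continuous_const,
      post_add hV (by fun_prop) (by fun_prop), post_smul, wb1_post_const hV] at this
    nlinarith
  have hq0 : 0 ≤ ∑ i, w i ^ 2 := Finset.sum_nonneg fun i _ => sq_nonneg _
  have hs1 : 0 < 1 + s := by linarith
  have hinv : 0 ≤ 1 / (1 + s) := by positivity
  have h3 : (∑ i, w i ^ 2) ^ 2 ≤ ((1 / (1 + s)) * post V (fun x => ∑ i, g i x ^ 2) (s, y)) *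
      ((1 / (1 + s)) * ∑ i, w i ^ 2) :=
    hcs.trans (mul_le_mul h1 h2 hvar (mul_nonneg hinv hG))
  show ∑ i, w i ^ 2 ≤ _
  rcases hq0.eq_or_lt with h0 | h0
  · rw [← h0]; positivity
  · have e : ((1 / (1 + s)) * post V (fun x => ∑ i, g i x ^ 2) (s, y)) *
        ((1 / (1 + s)) * ∑ i, w i ^ 2) =
        ((1 / (1 + s) ^ 2) * post V (fun x => ∑ i, g i x ^ 2) (s, y)) * ∑ i, w i ^ 2 := by
      field_simp
    rw [e, sq] at h3
    exact le_of_mul_le_mul_right h3 h0

end Crest.Agent.R152
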