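import Crest.Agent.R152.WDer
import Crest.Agent.R152.WChanP
import Crest.Agent.R152.WBAux1

/-! # Row 152: the B-theorem, variance form -/

set_option autoImplicit false
set_option linter.unusedSectionVars false
set_option linter.unusedVariables false

open MeasureTheory Set Matrix Filter Topology

noncomputable section

namespace Crest.Agent.R152

variable {ι : Type} [Fintype ι] [DecidableEq ι]

variable {V : Set (ι → ℝ)}

/-- `b(s) = EE s |∇ m|²`, `m = post φ` -/
def bb (V : Set (ι → ℝ)) (φ : (ι → ℝ) → ℝ) (s : ℝ) : ℝ :=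
  EE V s (fun p => ∑ i, dy i (post V φ) p ^ 2)

/-- differential inequality: with `v i = dy i m`, `LL (v i) = -Σ_j v j · A i j`,
`b' = EE (Σ |∇ v i|² - 2 vᵀ A v)`, `vᵀ A v ≤ |v|²/(1+s)` (`post_poincare` for a linear function),
`EE |∇ v i|² ≥ EE (v i)²/(s²+s)` (`EE_poincare`, `v i` is odd). -/
theorem bb_deriv (hV : Body V) {φ : (ι → ℝ) → ℝ} (hφ : Continuous φ) (hev : ∀ x, φ (-x) = φ x)
    {s : ℝ} (hs : 0 < s) :
    ∃ b' : ℝ, HasDerivAt (bb V φ) b' s ∧ (1 / (s ^ 2 + s) - 2 / (1 + s)) * bb V φ s ≤ b' := by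
  have hv : ∀ i, Alg V (dy i (post V φ)) := fun i => alg_dy hV (Alg.post _ hφ) i
  have hQ : Alg V (fun p => ∑ i, dy i (post V φ) p ^ 2) :=
    alg_sum hV Finset.univ (F := fun i p => dy i (post V φ) p ^ 2) (fun i => wb1_alg_sq (hv i))
  have hD : ∀ i, Alg V (fun p => ∑ j, dy j (dy i (post V φ)) p ^ 2) := fun i =>
    alg_sum hV Finset.univ (F := fun j p => dy j (dy i (post V φ)) p ^ 2)
      (fun j => wb1_alg_sq (alg_dy hV (hv i) j))
  have hDD : Alg V (fun p => ∑ i, ∑ j, dy j (dy i (post V φ)) p ^ 2) :=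
    alg_sum hV Finset.univ (F := fun i p => ∑ j, dy j (dy i (post V φ)) p ^ 2) hD
  refine ⟨_, EE_hasDerivAt hV hQ hs, ?_⟩
  have h1 := EE_mono hV s (Alg.add hDD (Alg.smul (-(2 / (1 + s))) hQ)) (alg_LL hV hQ)
    (fun y => wb1_LL_ge hV hφ hs.le y)
  rw [EE_add hV s hDD (Alg.smul (-(2 / (1 + s))) hQ), EE_smul,
    EE_sum hV s Finset.univ (F := fun i p => ∑ j, dy j (dy i (post V φ)) p ^ 2) hD] at h1
  have hpos : 0 < s ^ 2 + s := by positivity
  have h2 : bb V φ s ≤ (s ^ 2 + s) * ∑ i, EE V s (fun p => ∑ j, dy j (dy i (post V φ)) p ^ 2) := by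
    unfold bb
    rw [EE_sum hV s Finset.univ (F := fun i p => dy i (post V φ) p ^ 2)
      (fun i => wb1_alg_sq (hv i)), Finset.mul_sum]
    exact Finset.sum_le_sum fun i _ =>
      EE_poincare hV hs.le (hv i) (EE_odd hV s (wb1_dy_odd hV hφ hev i s))
  have h3 : 1 / (s ^ 2 + s) * bb V φ s ≤
      ∑ i, EE V s (fun p => ∑ j, dy j (dy i (post V φ)) p ^ 2) := by
    rw [one_div, inv_mul_le_iff₀ hpos]
    exact h2
  have e : EE V s (fun p => ∑ i, dy i (post V φ) p ^ 2) = bb V φ s := rfl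
  rw [e] at h1
  linarith

/-- `|v|² = Cov(φ, v·x) ≤ √(Var φ · vᵀAv)` -/
theorem bb_le (hV : Body V) {φ : (ι → ℝ) → ℝ} {g : ι → (ι → ℝ) → ℝ} (hφ : Continuous φ)
    (hg : ∀ i, Continuous (g i)) {M : ℝ}
    (hsc : ∀ x x' : ι → ℝ, φ x + ∑ i, g i x * (x' i - x i) - M * ∑ i, (x' i - x i) ^ 2 ≤ φ x')
    {s : ℝ} (hs : 0 ≤ s) :
    bb V φ s ≤ (1 / (1 + s) ^ 2) * (post V (fun x => ∑ i, g i x ^ 2) (0, 0) * JJ V (fun _ _ => 1)) := by
  have hv : ∀ i, Alg V (dy i (post V φ)) := fun i => alg_dy hV (Alg.post _ hφ) i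
  have hQ : Alg V (fun p => ∑ i, dy i (post V φ) p ^ 2) :=
    alg_sum hV Finset.univ (F := fun i p => dy i (post V φ) p ^ 2) (fun i => wb1_alg_sq (hv i))
  have hc : Continuous fun x => ∑ i, g i x ^ 2 := by fun_prop
  have h1 := EE_mono hV s hQ (Alg.smul (1 / (1 + s) ^ 2) (Alg.post (V := V) _ hc))
    (fun y => wb1_grad_le hV hφ hg hsc hs y)
  rw [EE_smul, EE_post hV hs hc] at h1
  exact h1

/-- the ODE argument: `b(s)(1+s)³/s` is monotone, so `b(s) ≤ β s/(1+s)³`; integrate -/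
theorem ode_bound {b c : ℝ → ℝ} {β : ℝ} (hβ : 0 ≤ β)
    (hb : ∀ s, 0 < s → ∃ b', HasDerivAt b b' s ∧ (1 / (s ^ 2 + s) - 2 / (1 + s)) * b s ≤ b')
    (hle : ∀ s, 0 < s → b s ≤ (1 / (1 + s) ^ 2) * β) (hc : ContinuousOn c (Ici 0))
    (hc' : ∀ s, 0 < s → HasDerivAt c (b s) s) {S : ℝ} (hS : 0 ≤ S) : c S - c 0 ≤ β / 2 := by
  have hk : ∀ s, 0 < s → ∃ k', HasDerivAt (fun s => b s * ((1 + s) ^ 3 / s)) k' s ∧ 0 ≤ k' := by
    intro s hs
    obtain ⟨b', h1, h2⟩ := hb s hs
    have h3 : HasDerivAt (fun s : ℝ => (1 + s) ^ 3 / s)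
        ((3 * (1 + s) ^ 2 * s - (1 + s) ^ 3) / s ^ 2) s := by
      have := (((hasDerivAt_id' s).const_add 1).fun_pow 3).fun_div (hasDerivAt_id' s) hs.ne'
      refine this.congr_deriv ?_
      norm_num
    refine ⟨_, h1.mul h3, ?_⟩
    have h4 : b' * ((1 + s) ^ 3 / s) + b s * ((3 * (1 + s) ^ 2 * s - (1 + s) ^ 3) / s ^ 2) =
        (b' - (1 / (s ^ 2 + s) - 2 / (1 + s)) * b s) * ((1 + s) ^ 3 / s) := by
      field_simp
      ring
    rw [h4]
    exact mul_nonneg (sub_nonneg.2 h2) (by positivity)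
  have hmono : MonotoneOn (fun s => b s * ((1 + s) ^ 3 / s)) (Ioi 0) := by
    refine monotoneOn_of_deriv_nonneg (convex_Ioi 0) (fun s hs => ?_) (fun s hs => ?_)
      fun s hs => ?_
    · exact (hk s hs).choose_spec.1.continuousAt.continuousWithinAt
    · rw [interior_Ioi] at hs
      exact (hk s hs).choose_spec.1.differentiableAt.differentiableWithinAt
    · rw [interior_Ioi] at hs
      rw [(hk s hs).choose_spec.1.deriv]
      exact (hk s hs).choose_spec.2
  have hb2 : ∀ s, 0 < s → b s ≤ β * s / (1 + s) ^ 3 := by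
    intro s hs
    have h1 : b s * ((1 + s) ^ 3 / s) ≤ β := by
      refine le_of_forall_pos_le_add fun ε hε => ?_
      have hT : 0 < s + β / ε := by positivity
      have h2 := hmono (mem_Ioi.2 hs) (mem_Ioi.2 hT) (le_add_of_nonneg_right (by positivity))
      set T := s + β / ε with hTd
      have h3 : b T * ((1 + T) ^ 3 / T) ≤ 1 / (1 + T) ^ 2 * β * ((1 + T) ^ 3 / T) :=
        mul_le_mul_of_nonneg_right (hle T hT) (by positivity)
      have h4 : 1 / (1 + T) ^ 2 * β * ((1 + T) ^ 3 / T) = β + β / T := by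
        field_simp
        ring
      have h5 : β / T ≤ ε := by
        rw [div_le_iff₀ hT, hTd, mul_add, mul_div_cancel₀ _ hε.ne']
        nlinarith
      linarith
    rw [le_div_iff₀ (by positivity)]
    have h6 := mul_le_mul_of_nonneg_right h1 hs.le
    have h7 : b s * ((1 + s) ^ 3 / s) * s = b s * (1 + s) ^ 3 := by field_simp
    linarith
  have hG : ∀ s : ℝ, 0 ≤ s → HasDerivAt (fun s : ℝ => -(β * (1 + 2 * s)) / (2 * (1 + s) ^ 2))
      (β * s / (1 + s) ^ 3) s := by
    intro s hs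
    have := ((((hasDerivAt_id' s).const_mul 2).const_add 1).const_mul β).fun_neg.fun_div
      ((((hasDerivAt_id' s).const_add 1).fun_pow 2).const_mul 2) (by positivity)
    refine this.congr_deriv ?_
    norm_num
    field_simp
    ring
  have hmono2 : MonotoneOn (fun s : ℝ => -(β * (1 + 2 * s)) / (2 * (1 + s) ^ 2) - c s) (Ici 0) := by
    refine monotoneOn_of_deriv_nonneg (convex_Ici 0) ?_ (fun s hs => ?_) fun s hs => ?_
    · exact ContinuousOn.sub (fun s hs => (hG s hs).continuousAt.continuousWithinAt) hc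
    · rw [interior_Ici] at hs
      exact ((hG s (le_of_lt hs)).sub (hc' s hs)).differentiableAt.differentiableWithinAt
    · rw [interior_Ici] at hs
      rw [((hG s (le_of_lt hs)).fun_sub (hc' s hs)).deriv]
      exact sub_nonneg.2 (hb2 s hs)
  have h1 := hmono2 (mem_Ici.2 le_rfl) (mem_Ici.2 hS) hS
  have h2 : -(β * (1 + 2 * S)) / (2 * (1 + S) ^ 2) ≤ 0 :=
    div_nonpos_of_nonpos_of_nonneg (neg_nonpos.2 (by positivity)) (by positivity)
  norm_num at h1
  linarith

/-- improved Poincaré inequality (constant 1/2) for even functions -/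
theorem var_half (hV : Body V) {φ : (ι → ℝ) → ℝ} {g : ι → (ι → ℝ) → ℝ} (hφ : Continuous φ)
    (hev : ∀ x, φ (-x) = φ x) (hg : ∀ i, Continuous (g i)) {M : ℝ}
    (hsc : ∀ x x' : ι → ℝ, φ x + ∑ i, g i x * (x' i - x i) - M * ∑ i, (x' i - x i) ^ 2 ≤ φ x') :
    post V (fun x => φ x ^ 2) (0, 0) - post V φ (0, 0) ^ 2 ≤
      (1 / 2) * post V (fun x => ∑ i, g i x ^ 2) (0, 0) := by
  have hJ := EE_one_pos hV
  set J := JJ V (fun _ _ => 1) with hJd
  have hΓ : Continuous fun x => ∑ i, g i x ^ 2 := by fun_prop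
  set P := post V (fun x => ∑ i, g i x ^ 2) (0, 0) with hP
  have hP0 : 0 ≤ P := by
    have := post_mono hV (h := fun _ => 0 * 1) continuous_const hΓ
      (fun x _ => by rw [zero_mul]; positivity) (0, 0)
    rwa [post_smul, zero_mul] at this
  have hm : Alg V (post V φ) := Alg.post φ hφ
  have hmm : Alg V fun p => post V φ p * post V φ p := hm.mul hm
  have key : ∀ S : ℝ, 0 ≤ S → EE V S (fun p => post V φ p * post V φ p) -
      EE V 0 (fun p => post V φ p * post V φ p) ≤ P * J / 2 := by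
    intro S hS
    refine ode_bound (b := bb V φ) (c := fun s => EE V s fun p => post V φ p * post V φ p)
      (by positivity) (fun s hs => bb_deriv hV hφ hev hs) (fun s hs => bb_le hV hφ hg hsc hs.le)
      (EE_continuous hV hmm).continuousOn (fun s hs => ?_) hS
    convert EE_hasDerivAt hV hmm hs using 1
    rw [bb]
    congr 1
    funext p
    rw [LL_mul hV hm hm, LL_post hV hφ]
    simp [sq]
  have low : ∀ S : ℝ, 0 ≤ S → post V (fun x => φ x ^ 2) (0, 0) * J - 1 / (1 + S) * (P * J) ≤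
      EE V S (fun p => post V φ p * post V φ p) := by
    intro S hS
    have h2 : Alg V (post V fun x => φ x ^ 2) := Alg.post _ (by fun_prop)
    have h3 : Alg V fun p => -(1 / (1 + S)) * post V (fun x => ∑ i, g i x ^ 2) p :=
      (Alg.post _ hΓ).smul _
    have h4 := EE_mono hV S (h2.add h3) hmm fun y => by
      have := post_poincare hV hS y hφ hg hsc
      nlinarith
    rw [EE_add hV S h2 h3, EE_smul, EE_post hV hS (by fun_prop), EE_post hV hS hΓ] at h4
    linarith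
  have h5 : (post V (fun x => φ x ^ 2) (0, 0) - post V φ (0, 0) ^ 2) * J ≤ 1 / 2 * P * J := by
    refine le_of_forall_pos_le_add fun ε hε => ?_
    have hS : 0 ≤ P * J / ε := by positivity
    have h6 := key _ hS
    have h7 := low _ hS
    rw [EE_zero hV] at h6
    have h8 : 1 / (1 + P * J / ε) * (P * J) ≤ ε := by
      rw [one_div_mul_eq_div, div_le_iff₀ (by positivity), mul_add, mul_div_cancel₀ _ hε.ne']
      linarith
    nlinarith
  exact le_of_mul_le_mul_right h5 hJ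

end Crest.Agent.R152
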