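import Crest.Agent.R152.WGam

/-! # Row 152: invariance of periodic integrals under a unimodular change of basis -/

set_option autoImplicit false
set_option linter.unusedSectionVars false
set_option linter.unusedVariables false

open MeasureTheory Set Matrix Filter Topology

noncomputable section

namespace Crest.Agent.R152

variable {ι : Type} [Fintype ι] [DecidableEq ι]

theorem WBlk1_rm_mulVec {κ : Type} [Fintype κ] (U : Matrix ι κ ℤ) (z : κ → ℤ) :
    rm U *ᵥ rv z = rv (U *ᵥ z) := by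
  ext i
  simp [rm, rv, Matrix.mulVec, dotProduct]

theorem WBlk1_rm_mul {κ : Type} [Fintype κ] (U : Matrix ι κ ℤ) (U' : Matrix κ ι ℤ)
    (h1 : U * U' = 1) : rm U * rm U' = 1 := by
  have h : rm (U * U') = rm U * rm U' := by
    ext i j
    simp [rm, Matrix.mul_apply]
  rw [← h, h1]
  ext i j
  simp [rm, Matrix.one_apply]

/-- the linear equivalence of a unimodular matrix -/
def WBlk1_L {κ : Type} [Fintype κ] [DecidableEq κ] (U : Matrix ι κ ℤ) (U' : Matrix κ ι ℤ)
    (h1 : U * U' = 1) (h2 : U' * U = 1) : (κ → ℝ) ≃ₗ[ℝ] (ι → ℝ) where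
  toFun x := rm U *ᵥ x
  invFun y := rm U' *ᵥ y
  map_add' x y := Matrix.mulVec_add _ _ _
  map_smul' c x := Matrix.mulVec_smul _ _ _
  left_inv x := by
    simp only [Matrix.mulVec_mulVec, WBlk1_rm_mul U' U h2, Matrix.one_mulVec]
  right_inv y := by
    simp only [Matrix.mulVec_mulVec, WBlk1_rm_mul U U' h1, Matrix.one_mulVec]

theorem WBlk1_exists_rv (x : ι → ℝ) :
    (∀ i, x i ∈ Set.range (algebraMap ℤ ℝ)) ↔ ∃ z, x = rv z := by
  constructor
  · intro h
    choose z hz using h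
    exact ⟨z, funext fun i => by simpa [rv] using (hz i).symm⟩
  · rintro ⟨z, rfl⟩ i
    exact ⟨z i, by simp [rv]⟩

theorem WBlk1_box : box ι = ZSpan.fundamentalDomain (Pi.basisFun ℝ ι) :=
  ZSpan.fundamentalDomain_pi_basisFun.symm

theorem WBlk1_integral {κ : Type} [Fintype κ] [DecidableEq κ] (U : Matrix ι κ ℤ)
    (U' : Matrix κ ι ℤ) (h1 : U * U' = 1) (h2 : U' * U = 1) {f : (ι → ℝ) → ℝ}
    (hf : ∀ x z, f (x + rv z) = f x) : ∫ x in box κ, f (rm U *ᵥ x) = ∫ y in box ι, f y := by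
  set L := WBlk1_L U U' h1 h2 with hL
  set Lc : (κ → ℝ) ≃L[ℝ] (ι → ℝ) := L.toContinuousLinearEquiv with hLc
  set μ : Measure (ι → ℝ) := Measure.map Lc volume with hμ
  have : μ.IsAddHaarMeasure := Lc.isAddHaarMeasure_map volume
  have : VAddInvariantMeasure (Submodule.span ℤ (Set.range (Pi.basisFun ℝ ι))) (ι → ℝ) μ :=
    inferInstanceAs <| VAddInvariantMeasure
      (Submodule.span ℤ (Set.range (Pi.basisFun ℝ ι))).toAddSubgroup (ι → ℝ) μ
  set b := (Pi.basisFun ℝ κ).map L with hb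
  have hmem : ∀ x, x ∈ Submodule.span ℤ (Set.range (Pi.basisFun ℝ ι)) ↔ ∃ z, x = rv z := by
    intro x
    rw [Module.Basis.mem_span_iff_repr_mem, ← WBlk1_exists_rv]
    simp only [Pi.basisFun_repr]
  have hspan : Submodule.span ℤ (Set.range b) =
      Submodule.span ℤ (Set.range (Pi.basisFun ℝ ι)) := by
    ext x
    rw [hmem, Module.Basis.mem_span_iff_repr_mem]
    have h3 : (∀ i, b.repr x i ∈ Set.range (algebraMap ℤ ℝ)) ↔ ∃ z, L.symm x = rv z := by
      rw [← WBlk1_exists_rv]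
      simp only [hb, Module.Basis.map_repr, LinearEquiv.trans_apply, Pi.basisFun_repr]
    rw [h3]
    constructor
    · rintro ⟨z, hz⟩
      refine ⟨U *ᵥ z, ?_⟩
      rw [← WBlk1_rm_mulVec, ← hz]
      exact (L.apply_symm_apply x).symm
    · rintro ⟨z, rfl⟩
      exact ⟨U' *ᵥ z, WBlk1_rm_mulVec U' z⟩
  have hs : IsAddFundamentalDomain (Submodule.span ℤ (Set.range (Pi.basisFun ℝ ι)))
      (ZSpan.fundamentalDomain b) μ := by
    rw [← hspan]
    exact ZSpan.isAddFundamentalDomain b μ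
  have ht : IsAddFundamentalDomain (Submodule.span ℤ (Set.range (Pi.basisFun ℝ ι)))
      (box ι) μ := by
    rw [WBlk1_box]
    exact ZSpan.isAddFundamentalDomain _ μ
  have hpre : Lc ⁻¹' ZSpan.fundamentalDomain b = box κ := by
    ext x
    simp only [Set.mem_preimage, ZSpan.mem_fundamentalDomain, hb, Module.Basis.map_repr,
      LinearEquiv.trans_apply, Pi.basisFun_repr, hLc, LinearEquiv.coe_toContinuousLinearEquiv',
      LinearEquiv.symm_apply_apply, box, Set.mem_univ_pi]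
  have hme : MeasurableEmbedding Lc := Lc.toHomeomorph.measurableEmbedding
  have hμ1 : μ (box ι) = 1 := by
    rw [← hs.measure_eq ht, hμ, hme.map_apply, hpre, volume_box]
  have hμv : μ = volume := by
    have h3 := Measure.isAddLeftInvariant_eq_smul μ (volume : Measure (ι → ℝ))
    have h4 : Measure.addHaarScalarFactor μ (volume : Measure (ι → ℝ)) = 1 := by
      have h5 := hμ1
      rw [h3, Measure.smul_apply, volume_box] at h5
      simpa using h5
    rw [h3, h4, one_smul]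
  have h6 : ∫ y in ZSpan.fundamentalDomain b, f y ∂μ = ∫ y in box ι, f y ∂μ := by
    refine hs.setIntegral_eq ht fun g x => ?_
    obtain ⟨z, hz⟩ := (hmem g.1).1 g.2
    rw [Submodule.vadd_def, vadd_eq_add, hz, add_comm, hf]
  have h7 : ∫ y in ZSpan.fundamentalDomain b, f y ∂μ = ∫ x in box κ, f (rm U *ᵥ x) := by
    rw [hμ, hme.setIntegral_map, hpre]
    rfl
  rw [← h7, h6, hμv]

theorem WBlk1_dsq_conj {κ : Type} [Fintype κ] [DecidableEq κ] (T : Matrix ι ι ℝ)
    (U : Matrix ι κ ℤ) (U' : Matrix κ ι ℤ) (h1 : U * U' = 1) (x : κ → ℝ) :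
    dsq ((rm U)ᵀ * T * rm U) x = dsq T (rm U *ᵥ x) := by
  have hs : Function.Surjective fun z : κ → ℤ => U *ᵥ z := fun w =>
    ⟨U' *ᵥ w, by simp only [Matrix.mulVec_mulVec, h1, Matrix.one_mulVec]⟩
  unfold dsq
  rw [← hs.iInf_comp fun z => qf T (rm U *ᵥ x - rv z)]
  simp only [qf_conj, Matrix.mulVec_sub, WBlk1_rm_mulVec]

theorem WBlk1_Gam_conj {κ : Type} [Fintype κ] [DecidableEq κ] (T : Matrix ι ι ℝ)
    (U : Matrix ι κ ℤ) (U' : Matrix κ ι ℤ) (h1 : U * U' = 1) (h2 : U' * U = 1) :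
    Gam ((rm U)ᵀ * T * rm U) = Gam T := by
  unfold Gam
  simp only [WBlk1_dsq_conj T U U' h1]
  exact WBlk1_integral U U' h1 h2 (f := fun y => Real.exp (-dsq T y))
    fun x z => by simp only [dsq_periodic]

end Crest.Agent.R152
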