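import Crest.Agent.R152.WGam
import Crest.Agent.R152.WBlkAux1

/-! # Row 152: invariance of Gam and the block inequality -/

set_option autoImplicit false
set_option linter.unusedSectionVars false
set_option linter.unusedVariables false

open MeasureTheory Set Matrix Filter Topology

noncomputable section

namespace Crest.Agent.R152

variable {ι : Type} [Fintype ι] [DecidableEq ι]

/-- invariance under a unimodular change of basis (this includes reindexing) -/
theorem Gam_conj {κ : Type} [Fintype κ] [DecidableEq κ] (T : Matrix ι ι ℝ) (hT : T.PosDef)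
    (U : Matrix ι κ ℤ) (U' : Matrix κ ι ℤ) (h1 : U * U' = 1) (h2 : U' * U = 1) :
    Gam ((rm U)ᵀ * T * rm U) = Gam T :=
  WBlk1_Gam_conj T U U' h1 h2

theorem blk_posDef_right {κ : Type} [Fintype κ] [DecidableEq κ] {A : Matrix ι ι ℝ}
    {B : Matrix ι κ ℝ} {D : Matrix κ κ ℝ} (hT : (fromBlocks A B Bᵀ D).PosDef) : D.PosDef := by
  have h := hT.submatrix (e := (Sum.inr : κ → ι ⊕ κ)) Sum.inr_injective
  have e : (fromBlocks A B Bᵀ D).submatrix (Sum.inr : κ → ι ⊕ κ) Sum.inr = D := by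
    ext i j; simp
  rwa [e] at h

theorem blk_posDef_left {κ : Type} [Fintype κ] [DecidableEq κ] {A : Matrix ι ι ℝ}
    {B : Matrix ι κ ℝ} {D : Matrix κ κ ℝ} (hT : (fromBlocks A B Bᵀ D).PosDef) : A.PosDef := by
  have h := hT.submatrix (e := (Sum.inl : ι → ι ⊕ κ)) Sum.inl_injective
  have e : (fromBlocks A B Bᵀ D).submatrix (Sum.inl : ι → ι ⊕ κ) Sum.inl = A := by
    ext i j; simp
  rwa [e] at h

theorem blk_qf {κ : Type} [Fintype κ] [DecidableEq κ] (A : Matrix ι ι ℝ) (B : Matrix ι κ ℝ)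
    {D : Matrix κ κ ℝ} (hD : D.PosDef) (x : ι → ℝ) (y : κ → ℝ) :
    qf (fromBlocks A B Bᵀ D) (Sum.elim x y) =
      qf D ((D⁻¹ * Bᵀ) *ᵥ x + y) + qf (A - B * D⁻¹ * Bᵀ) x := by
  let _ := hD.isUnit.invertible
  have h := Matrix.schur_complement_eq₂₂ A B x y hD.1
  simp only [conjTranspose_eq_transpose_of_trivial, star_trivial, ← dotProduct_mulVec] at h
  exact h

theorem blk_schur_posDef {κ : Type} [Fintype κ] [DecidableEq κ] {A : Matrix ι ι ℝ}
    {B : Matrix ι κ ℝ} {D : Matrix κ κ ℝ} (hT : (fromBlocks A B Bᵀ D).PosDef) :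
    (A - B * D⁻¹ * Bᵀ).PosDef := by
  have hD := blk_posDef_right hT
  have hA := blk_posDef_left hT
  refine PosDef.of_dotProduct_mulVec_pos ?_ ?_
  · refine hA.1.sub ?_
    have h := isHermitian_mul_mul_conjTranspose B hD.1.inv
    rwa [conjTranspose_eq_transpose_of_trivial] at h
  · intro x hx
    have h := blk_qf A B hD x (-((D⁻¹ * Bᵀ) *ᵥ x))
    have hne : (Sum.elim x (-((D⁻¹ * Bᵀ) *ᵥ x)) : ι ⊕ κ → ℝ) ≠ 0 := by
      intro h0
      apply hx
      funext i
      simpa using congrFun h0 (Sum.inl i)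
    have hp := hT.dotProduct_mulVec_pos hne
    rw [star_trivial] at hp ⊢
    have h0 : qf D ((D⁻¹ * Bᵀ) *ᵥ x + -((D⁻¹ * Bᵀ) *ᵥ x)) = 0 := by
      simp [qf]
    rw [h0, zero_add] at h
    unfold qf at h
    rwa [h] at hp

theorem blk_dsq {κ : Type} [Fintype κ] [DecidableEq κ] {A : Matrix ι ι ℝ}
    {B : Matrix ι κ ℝ} {D : Matrix κ κ ℝ} (hT : (fromBlocks A B Bᵀ D).PosDef) (x : ι → ℝ) :
    ∃ a : κ → ℝ, ∀ y : κ → ℝ, dsq (fromBlocks A B Bᵀ D) (Sum.elim x y) ≤
      dsq (A - B * D⁻¹ * Bᵀ) x + dsq D (y + a) := by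
  have hD := blk_posDef_right hT
  obtain ⟨z₁, hz₁⟩ := dsq_attained (blk_schur_posDef hT) x
  refine ⟨(D⁻¹ * Bᵀ) *ᵥ (x - rv z₁), fun y => ?_⟩
  obtain ⟨z₂, hz₂⟩ := dsq_attained hD (y + (D⁻¹ * Bᵀ) *ᵥ (x - rv z₁))
  have h := dsq_le hT.posSemidef (Sum.elim x y) (Sum.elim z₁ z₂)
  have e : (Sum.elim x y : ι ⊕ κ → ℝ) - rv (Sum.elim z₁ z₂) =
      Sum.elim (x - rv z₁) (y - rv z₂) := by
    funext i
    cases i <;> simp [rv]
  rw [e, blk_qf A B hD] at h
  rw [hz₁, hz₂]
  have e2 : (D⁻¹ * Bᵀ) *ᵥ (x - rv z₁) + (y - rv z₂) =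
      y + (D⁻¹ * Bᵀ) *ᵥ (x - rv z₁) - rv z₂ := by abel
  rw [e2] at h
  linarith

theorem blk_integrableOn {α : Type} [MeasurableSpace α] {μ : Measure α} {s : Set α}
    (hs : μ s ≠ ⊤) {f : α → ℝ} (hf : Measurable f) (h0 : ∀ x, 0 ≤ f x) :
    IntegrableOn (fun x => Real.exp (-f x)) s μ := by
  refine Measure.integrableOn_of_bounded (M := 1) hs hf.neg.exp.aestronglyMeasurable ?_
  refine Eventually.of_forall fun x => ?_
  rw [Real.norm_eq_abs, abs_of_pos (Real.exp_pos _)]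
  exact Real.exp_le_one_iff.mpr (by linarith [h0 x])

/-- `q_T(x₁,x₂) = q_{A - B D⁻¹ Bᵀ}(x₁) + q_D(x₂ + D⁻¹ Bᵀ x₁)` -/
theorem Gam_block {κ : Type} [Fintype κ] [DecidableEq κ] (A : Matrix ι ι ℝ) (B : Matrix ι κ ℝ)
    (D : Matrix κ κ ℝ) (hT : (fromBlocks A B Bᵀ D).PosDef) :
    Gam (A - B * D⁻¹ * Bᵀ) * Gam D ≤ Gam (fromBlocks A B Bᵀ D) := by
  have hD := blk_posDef_right hT
  have hS := blk_schur_posDef hT
  set T := fromBlocks A B Bᵀ D with hTdef
  set S := A - B * D⁻¹ * Bᵀ with hSdef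
  let e := (MeasurableEquiv.sumPiEquivProdPi (fun _ : ι ⊕ κ => ℝ)).symm
  have he : MeasurePreserving e volume volume :=
    volume_measurePreserving_sumPiEquivProdPi_symm (fun _ : ι ⊕ κ => ℝ)
  have hev : ∀ p : (ι → ℝ) × (κ → ℝ), e p = Sum.elim p.1 p.2 := by
    intro p
    funext i
    cases i <;> rfl
  have hpre : e ⁻¹' box (ι ⊕ κ) = box ι ×ˢ box κ :=
    Equiv.sumPiEquivProdPi_symm_preimage_univ_pi (fun _ : ι ⊕ κ => ℝ) (fun _ => Set.Ico (0 : ℝ) 1)
  have hmeas : Measurable fun p : (ι → ℝ) × (κ → ℝ) => dsq T (e p) :=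
    (dsq_measurable T).comp e.measurable
  have hint : IntegrableOn (fun p : (ι → ℝ) × (κ → ℝ) => Real.exp (-dsq T (e p)))
      (box ι ×ˢ box κ) (volume.prod volume) := by
    refine blk_integrableOn ?_ hmeas fun p => dsq_nonneg hT.posSemidef _
    rw [Measure.prod_prod, volume_box, volume_box]
    simp
  have h1 : Gam T = ∫ x in box ι, ∫ y in box κ, Real.exp (-dsq T (e (x, y))) := by
    unfold Gam
    rw [← he.setIntegral_preimage_emb e.measurableEmbedding, hpre]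
    exact setIntegral_prod _ hint
  have hint2 : IntegrableOn (fun x : ι → ℝ => ∫ y in box κ, Real.exp (-dsq T (e (x, y))))
      (box ι) := by
    have h := hint
    rw [IntegrableOn, ← Measure.prod_restrict] at h
    exact h.integral_prod_left
  rw [h1]
  have h2 : Gam S * Gam D = ∫ x in box ι, Real.exp (-dsq S x) * Gam D := by
    rw [integral_mul_const]; rfl
  rw [h2]
  refine setIntegral_mono ((Gam_integrable hS.posSemidef).mul_const _) hint2 fun x => ?_
  obtain ⟨a, ha⟩ := blk_dsq hT x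
  have h3 : Gam D = ∫ y in box κ, Real.exp (-dsq D (y + a)) :=
    (integral_box_shift (f := fun y => Real.exp (-dsq D y))
      (fun y z => by rw [dsq_periodic]) a).symm
  have hb : volume (box κ) ≠ ⊤ := by rw [volume_box]; simp
  show Real.exp (-dsq S x) * Gam D ≤ ∫ y in box κ, Real.exp (-dsq T (e (x, y)))
  rw [h3, ← integral_const_mul]
  refine setIntegral_mono ?_ ?_ fun y => ?_
  · exact (blk_integrableOn hb ((dsq_measurable D).comp (measurable_id.add_const a))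
      fun y => dsq_nonneg hD.posSemidef _).const_mul _
  · exact blk_integrableOn hb (hmeas.comp measurable_prodMk_left)
      fun y => dsq_nonneg hT.posSemidef _
  · show Real.exp (-dsq S x) * Real.exp (-dsq D (y + a)) ≤ Real.exp (-dsq T (e (x, y)))
    rw [← Real.exp_add, hev]
    refine Real.exp_le_exp.mpr ?_
    have := ha y
    simp only
    linarith

end Crest.Agent.R152
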