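import Crest.Agent.R152.WGen

/-! # Row 152: elementary properties of `JJ` -/

set_option autoImplicit false
set_option linter.unusedSectionVars false

open MeasureTheory Set Matrix Filter Topology

noncomputable section

namespace Crest.Agent.R152

variable {ι : Type} [Fintype ι] [DecidableEq ι]

variable {V : Set (ι → ℝ)}

theorem ce_gauss : Integrable fun g : ι → ℝ => Real.exp (-(g ⬝ᵥ g) / 2) := by
  have h := Integrable.fintype_prod (ι := ι) (μ := fun _ => (volume : Measure ℝ))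
    (f := fun _ (v : ℝ) => Real.exp (-(1 / 2) * v ^ 2))
    (fun _ => integrable_exp_neg_mul_sq (by norm_num))
  refine h.congr (Eventually.of_forall fun g => ?_)
  simp only
  rw [← Real.exp_sum]
  congr 1
  rw [dotProduct, ← Finset.mul_sum]
  simp only [sq]
  ring

theorem ce_gauss_pos : 0 < ∫ g : ι → ℝ, Real.exp (-(g ⬝ᵥ g) / 2) := integral_exp_pos ce_gauss

theorem ce_split (x g : ι → ℝ) : Real.exp (-(x ⬝ᵥ x + g ⬝ᵥ g) / 2) =
    Real.exp (-(x ⬝ᵥ x) / 2) * Real.exp (-(g ⬝ᵥ g) / 2) := by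
  rw [← Real.exp_add]
  congr 1
  ring

theorem ce_w (V : Set (ι → ℝ)) : Integrable
    (fun z : (ι → ℝ) × (ι → ℝ) => Real.exp (-(z.1 ⬝ᵥ z.1 + z.2 ⬝ᵥ z.2) / 2))
    ((volume.restrict V).prod volume) := by
  simp_rw [ce_split]
  exact (ce_gauss.restrict (s := V)).mul_prod ce_gauss

theorem ce_cont {F : ℝ × (ι → ℝ) → ℝ} (hF : Continuous F) (s : ℝ) :
    Continuous fun z : (ι → ℝ) × (ι → ℝ) => F (s, s • z.1 + Real.sqrt s • z.2) := by
  fun_prop

theorem ce_cont_w : Continuous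
    fun z : (ι → ℝ) × (ι → ℝ) => Real.exp (-(z.1 ⬝ᵥ z.1 + z.2 ⬝ᵥ z.2) / 2) := by
  fun_prop

theorem ce_int (hV : Body V) (s : ℝ) {F : ℝ × (ι → ℝ) → ℝ} (hF : Alg V F) : Integrable
    (fun z : (ι → ℝ) × (ι → ℝ) => F (s, s • z.1 + Real.sqrt s • z.2) *
      Real.exp (-(z.1 ⬝ᵥ z.1 + z.2 ⬝ᵥ z.2) / 2)) ((volume.restrict V).prod volume) := by
  obtain ⟨B, hB⟩ := alg_bdd hV hF
  exact (ce_w V).bdd_mul (c := B)
    (ce_cont (alg_differentiable hV hF).continuous s).aestronglyMeasurable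
    (Eventually.of_forall fun z => hB _)

theorem ce_EE (hV : Body V) (s : ℝ) {F : ℝ × (ι → ℝ) → ℝ} (hF : Alg V F) :
    EE V s F = ∫ z : (ι → ℝ) × (ι → ℝ), F (s, s • z.1 + Real.sqrt s • z.2) *
      Real.exp (-(z.1 ⬝ᵥ z.1 + z.2 ⬝ᵥ z.2) / 2) ∂((volume.restrict V).prod volume) :=
  (integral_prod _ (ce_int hV s hF)).symm

theorem ce_JJ_smul (V : Set (ι → ℝ)) (c : ℝ) (Φ : (ι → ℝ) → (ι → ℝ) → ℝ) :
    JJ V (fun x g => c * Φ x g) = c * JJ V Φ := by
  simp only [JJ, mul_assoc, integral_const_mul]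

theorem ce_JJ_fst (V : Set (ι → ℝ)) (h : (ι → ℝ) → ℝ) :
    JJ V (fun x _ => h x) = II V h (0, 0) * ∫ g : ι → ℝ, Real.exp (-(g ⬝ᵥ g) / 2) := by
  simp only [JJ, II, ce_split, ← mul_assoc, integral_const_mul, integral_mul_const]
  congr 1
  refine integral_congr_ae (Eventually.of_forall fun x => ?_)
  simp only [wt]
  congr 2
  simp
  ring

theorem ce_neg (hV : Body V) (f : (ι → ℝ) → ℝ) : ∫ x in V, f (-x) = ∫ x in V, f x := by
  rw [← integral_indicator hV.cpt.measurableSet, ← integral_indicator hV.cpt.measurableSet,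
    ← integral_neg_eq_self (V.indicator f)]
  refine integral_congr_ae (Eventually.of_forall fun x => ?_)
  by_cases hx : x ∈ V
  · simp only [indicator_of_mem hx, indicator_of_mem (hV.sym x hx)]
  · have : -x ∉ V := fun h => hx (by simpa using hV.sym _ h)
    simp only [indicator_of_notMem hx, indicator_of_notMem this]

theorem ce_JJ_neg (hV : Body V) (Φ : (ι → ℝ) → (ι → ℝ) → ℝ) :
    JJ V (fun x g => Φ (-x) (-g)) = JJ V Φ := by
  unfold JJ
  rw [← ce_neg hV fun x => ∫ g : ι → ℝ, Φ x g * Real.exp (-(x ⬝ᵥ x + g ⬝ᵥ g) / 2)]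
  refine integral_congr_ae (Eventually.of_forall fun x => ?_)
  simp only
  rw [← integral_neg_eq_self
    (fun g : ι → ℝ => Φ (-x) g * Real.exp (-((-x) ⬝ᵥ (-x) + g ⬝ᵥ g) / 2))]
  simp only [neg_dotProduct, dotProduct_neg, neg_neg]

end Crest.Agent.R152
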