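import Crest.Agent.R152.WGen
import Crest.Agent.R152.WChanAuxE

/-! # Row 152: the expectation along the channel -/

set_option autoImplicit false
set_option linter.unusedSectionVars false
set_option linter.unusedVariables false

open MeasureTheory Set Matrix Filter Topology

noncomputable section

namespace Crest.Agent.R152

variable {ι : Type} [Fintype ι] [DecidableEq ι]

variable {V : Set (ι → ℝ)}

theorem WChan1_gauss {b : ℝ} (hb : 0 < b) :
    Integrable fun g : ι → ℝ => Real.exp (-b * (g ⬝ᵥ g)) := by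
  have := Integrable.fintype_prod (f := fun (_ : ι) (t : ℝ) => Real.exp (-b * t ^ 2))
    (μ := fun _ => volume) fun _ => integrable_exp_neg_mul_sq hb
  refine this.congr (ae_of_all _ fun g => ?_)
  simp only [← Real.exp_sum, dotProduct, Finset.mul_sum, sq]

/-- Gaussian integration by parts -/
theorem stein {H : (ι → ℝ) → ℝ} {H' : (ι → ℝ) → ℝ} (i : ι) (hH : Differentiable ℝ H)
    (hH' : ∀ g, fderiv ℝ H g (Pi.single i 1) = H' g) (hc : Continuous H') {B : ℝ}
    (hB : ∀ g, |H g| ≤ B) (hB' : ∀ g, |H' g| ≤ B) :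
    ∫ g : ι → ℝ, g i * H g * Real.exp (-(g ⬝ᵥ g) / 2) =
      ∫ g : ι → ℝ, H' g * Real.exp (-(g ⬝ᵥ g) / 2) := by
  have hd : ∀ g : ι → ℝ, DifferentiableAt ℝ (fun g : ι → ℝ => Real.exp (-(g ⬝ᵥ g) / 2)) g := by
    intro g
    simp only [dotProduct]
    fun_prop
  have hf : ∀ g : ι → ℝ, fderiv ℝ (fun g : ι → ℝ => Real.exp (-(g ⬝ᵥ g) / 2)) g (Pi.single i 1)
      = -(g i * Real.exp (-(g ⬝ᵥ g) / 2)) := by
    intro g
    rw [← (hd g).lineDeriv_eq_fderiv]
    refine HasDerivAt.deriv ?_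
    have e : (fun t : ℝ => Real.exp (-((g + t • (Pi.single i 1 : ι → ℝ)) ⬝ᵥ
        (g + t • (Pi.single i 1 : ι → ℝ))) / 2)) =
        fun t => Real.exp (-(g ⬝ᵥ g + 2 * g i * t + t ^ 2) / 2) := by
      funext t
      simp only [add_dotProduct, dotProduct_add, smul_dotProduct, dotProduct_smul,
        single_dotProduct, dotProduct_single, smul_eq_mul, Pi.single_eq_same, Pi.add_apply,
        Pi.smul_apply]
      congr 1; ring
    rw [e]
    have := ((((((hasDerivAt_id (0 : ℝ)).const_mul (2 * g i)).const_add (g ⬝ᵥ g)).add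
      (hasDerivAt_pow 2 (0 : ℝ))).neg).div_const 2).exp
    refine HasDerivAt.congr_deriv this ?_
    simp; ring
  have e2 : ∀ g : ι → ℝ, Real.exp (-(g ⬝ᵥ g) / 2) = Real.exp (-(1 / 2) * (g ⬝ᵥ g)) := fun g => by
    congr 1; ring
  have i0 : ∀ {K : (ι → ℝ) → ℝ}, Continuous K → (∀ g, |K g| ≤ B) →
      Integrable fun g => K g * Real.exp (-(g ⬝ᵥ g) / 2) := fun hK hb => by
    simp only [e2]
    exact (WChan1_gauss (by norm_num)).bdd_mul hK.aestronglyMeasurable (ae_of_all _ hb)
  have i1 : Integrable fun g : ι → ℝ => g i * Real.exp (-(g ⬝ᵥ g) / 2) := by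
    refine (WChan1_gauss (b := 1 / 4) (by norm_num)).mono' (by fun_prop) (ae_of_all _ fun g => ?_)
    rw [norm_mul, Real.norm_eq_abs, Real.norm_of_nonneg (Real.exp_pos _).le,
      show -(1 / 4) * (g ⬝ᵥ g) = g ⬝ᵥ g / 4 + -(g ⬝ᵥ g) / 2 by ring, Real.exp_add]
    refine mul_le_mul_of_nonneg_right ?_ (Real.exp_pos _).le
    have a1 := Real.add_one_le_exp (g ⬝ᵥ g / 4)
    have a2 : g i * g i ≤ g ⬝ᵥ g :=
      Finset.single_le_sum (f := fun j => g j * g j) (fun _ _ => mul_self_nonneg _)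
        (Finset.mem_univ i)
    nlinarith [sq_nonneg (1 - |g i| / 2), abs_mul_abs_self (g i)]
  have := integral_mul_fderiv_eq_neg_fderiv_mul_of_integrable (μ := volume) (f := H)
    (g := fun g : ι → ℝ => Real.exp (-(g ⬝ᵥ g) / 2)) (v := Pi.single i 1)
    (by simp only [hH']; exact i0 hc hB')
    (by
      simp only [hf]
      exact i1.neg.bdd_mul hH.continuous.aestronglyMeasurable (ae_of_all _ hB))
    (i0 hH.continuous hB) (fun x _ => hH x) fun x _ => hd x
  simp only [hf, hH', mul_neg, integral_neg, neg_inj] at this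
  rw [← this]
  exact integral_congr_ae (ae_of_all _ fun g => by ring)

theorem WChan1_key (hV : Body V) {s : ℝ} (hs : 0 ≤ s) {F : ℝ × (ι → ℝ) → ℝ} (hF : Alg V F)
    {k : (ι → ℝ) → ℝ} (hk : Continuous k) :
    JJ V (fun x g => k x * F (s, s • x + Real.sqrt s • g)) =
      ∫ g : ι → ℝ, F (s, Real.sqrt s • g) * II V k (s, Real.sqrt s • g) *
        Real.exp (-(g ⬝ᵥ g) / 2) := by
  obtain ⟨B, hB⟩ := alg_bdd hV hF
  have hFc := (alg_differentiable hV hF).continuous
  have hss : Real.sqrt s * Real.sqrt s = s := Real.mul_self_sqrt hs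
  have e1 : ∀ x : ι → ℝ, ∫ g : ι → ℝ, k x * F (s, s • x + Real.sqrt s • g) *
      Real.exp (-(x ⬝ᵥ x + g ⬝ᵥ g) / 2) = ∫ g : ι → ℝ, F (s, Real.sqrt s • g) *
        (k x * wt (s, Real.sqrt s • g) x) * Real.exp (-(g ⬝ᵥ g) / 2) := by
    intro x
    rw [← integral_sub_right_eq_self _ (Real.sqrt s • x)]
    refine integral_congr_ae (ae_of_all _ fun g => ?_)
    have a1 : s • x + Real.sqrt s • (g - Real.sqrt s • x) = Real.sqrt s • g := by
      rw [smul_sub, smul_smul, hss]; abel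
    have a2 : Real.exp (-(x ⬝ᵥ x + (g - Real.sqrt s • x) ⬝ᵥ (g - Real.sqrt s • x)) / 2) =
        wt (s, Real.sqrt s • g) x * Real.exp (-(g ⬝ᵥ g) / 2) := by
      rw [wt, ← Real.exp_add]
      congr 1
      simp only [sub_dotProduct, dotProduct_sub, smul_dotProduct, dotProduct_smul, smul_eq_mul,
        dotProduct_comm x g]
      linear_combination (-(x ⬝ᵥ x) / 2) * hss
    simp only [a1, a2]
    ring
  simp only [JJ, e1]
  rw [integral_integral_swap]
  · refine integral_congr_ae (ae_of_all _ fun g => ?_)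
    simp only [II]
    rw [integral_mul_const, integral_const_mul]
  · have i1 : IntegrableOn (fun x : ι → ℝ => |k x| * Real.exp (s * (x ⬝ᵥ x))) V :=
      ContinuousOn.integrableOn_compact hV.cpt (by fun_prop)
    refine (i1.mul_prod ((WChan1_gauss (b := 1 / 4) (by norm_num)).const_mul B)).mono'
      (Continuous.aestronglyMeasurable ?_) (ae_of_all _ fun p => ?_)
    · unfold wt Function.uncurry
      fun_prop
    · obtain ⟨x, g⟩ := p
      have a1 : wt (s, Real.sqrt s • g) x * Real.exp (-(g ⬝ᵥ g) / 2) ≤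
          Real.exp (s * (x ⬝ᵥ x)) * Real.exp (-(1 / 4) * (g ⬝ᵥ g)) := by
        rw [wt, ← Real.exp_add, ← Real.exp_add]
        refine Real.exp_le_exp.2 ?_
        have b1 : 0 ≤ ((1 / 2 : ℝ) • g - Real.sqrt s • x) ⬝ᵥ ((1 / 2 : ℝ) • g - Real.sqrt s • x) :=
          Finset.sum_nonneg fun _ _ => mul_self_nonneg _
        have b2 : 0 ≤ x ⬝ᵥ x := Finset.sum_nonneg fun _ _ => mul_self_nonneg _
        simp only [sub_dotProduct, dotProduct_sub, smul_dotProduct, dotProduct_smul, smul_eq_mul,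
          dotProduct_comm x g] at b1 ⊢
        nlinarith
      have a2 : 0 ≤ wt (s, Real.sqrt s • g) x := (Real.exp_pos _).le
      simp only [Function.uncurry, Real.norm_eq_abs, abs_mul, abs_of_nonneg a2,
        abs_of_pos (Real.exp_pos _)]
      calc _ = |F (s, Real.sqrt s • g)| * (|k x| *
            (wt (s, Real.sqrt s • g) x * Real.exp (-(g ⬝ᵥ g) / 2))) := by ring
        _ ≤ B * (|k x| * (Real.exp (s * (x ⬝ᵥ x)) * Real.exp (-(1 / 4) * (g ⬝ᵥ g)))) := by
            gcongr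
            · exact (abs_nonneg _).trans (hB 0)
            · exact hB _
        _ = _ := by ring

/-- Bayes formula: for `0 ≤ s`, conditioning on `Y_s` replaces `h(X)` by `post V h (s, Y_s)`
(translate `g ↦ g - √s x`, Fubini) -/
theorem tower (hV : Body V) {s : ℝ} (hs : 0 ≤ s) {F : ℝ × (ι → ℝ) → ℝ} (hF : Alg V F)
    {h : (ι → ℝ) → ℝ} (hh : Continuous h) :
    JJ V (fun x g => h x * F (s, s • x + Real.sqrt s • g)) =
      EE V s (fun p => F p * post V h p) := by
  have := WChan1_key hV hs (hF.mul (Alg.post h hh)) (k := fun _ => 1) continuous_const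
  simp only [one_mul] at this
  rw [EE, this, WChan1_key hV hs hF hh]
  refine integral_congr_ae (ae_of_all _ fun g => ?_)
  have := (II_one_pos hV (s, Real.sqrt s • g)).ne'
  simp only [post]
  field_simp

theorem EE_one_pos (hV : Body V) : 0 < JJ V (fun _ _ => 1) := by
  rw [ce_JJ_fst V fun _ => 1]
  exact mul_pos (II_one_pos hV _) ce_gauss_pos

theorem EE_zero (hV : Body V) (F : ℝ × (ι → ℝ) → ℝ) :
    EE V 0 F = F (0, 0) * JJ V (fun _ _ => 1) := by
  rw [← ce_JJ_smul]
  simp [EE]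

theorem EE_post (hV : Body V) {s : ℝ} (hs : 0 ≤ s) {h : (ι → ℝ) → ℝ} (hh : Continuous h) :
    EE V s (post V h) = post V h (0, 0) * JJ V (fun _ _ => 1) := by
  have h1 := tower hV hs (alg_const hV 1) hh
  simp only [mul_one, one_mul] at h1
  rw [← h1, ce_JJ_fst V h, ce_JJ_fst V fun _ => 1, post, ← mul_assoc,
    div_mul_cancel₀ _ (II_one_pos hV _).ne']

theorem EE_add (hV : Body V) (s : ℝ) {F G : ℝ × (ι → ℝ) → ℝ} (hF : Alg V F) (hG : Alg V G) :
    EE V s (fun p => F p + G p) = EE V s F + EE V s G := by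
  rw [ce_EE hV s (hF.add hG), ce_EE hV s hF, ce_EE hV s hG,
    ← integral_add (ce_int hV s hF) (ce_int hV s hG)]
  simp only [add_mul]

theorem EE_smul (s c : ℝ) (F : ℝ × (ι → ℝ) → ℝ) :
    EE V s (fun p => c * F p) = c * EE V s F := by
  exact ce_JJ_smul V c _

theorem EE_sum (hV : Body V) (s : ℝ) {κ : Type} (t : Finset κ) {F : κ → ℝ × (ι → ℝ) → ℝ}
    (hF : ∀ a, Alg V (F a)) : EE V s (fun p => ∑ a ∈ t, F a p) = ∑ a ∈ t, EE V s (F a) := by
  rw [ce_EE hV s (alg_sum hV t hF), Finset.sum_congr rfl fun a _ => ce_EE hV s (hF a),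
    ← integral_finsetSum t fun a _ => ce_int hV s (hF a)]
  simp only [Finset.sum_mul]

theorem EE_mono (hV : Body V) (s : ℝ) {F G : ℝ × (ι → ℝ) → ℝ} (hF : Alg V F) (hG : Alg V G)
    (hle : ∀ y, F (s, y) ≤ G (s, y)) : EE V s F ≤ EE V s G := by
  rw [ce_EE hV s hF, ce_EE hV s hG]
  exact integral_mono (ce_int hV s hF) (ce_int hV s hG)
    fun z => mul_le_mul_of_nonneg_right (hle _) (Real.exp_pos _).le

theorem EE_continuous (hV : Body V) {F : ℝ × (ι → ℝ) → ℝ} (hF : Alg V F) :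
    Continuous fun s => EE V s F := by
  obtain ⟨B, hB⟩ := alg_bdd hV hF
  have hc := (alg_differentiable hV hF).continuous
  simp_rw [fun s => ce_EE hV s hF]
  refine continuous_of_dominated (fun s => (ce_int hV s hF).aestronglyMeasurable)
    (fun s => Eventually.of_forall fun z => ?_) ((ce_w V).const_mul B)
    (Eventually.of_forall fun z => by fun_prop)
  rw [Real.norm_eq_abs, abs_mul, abs_of_pos (Real.exp_pos _)]
  exact mul_le_mul_of_nonneg_right (hB _) (Real.exp_pos _).le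

theorem EE_odd (hV : Body V) (s : ℝ) {F : ℝ × (ι → ℝ) → ℝ} (hodd : ∀ y, F (s, -y) = -F (s, y)) :
    EE V s F = 0 := by
  have h1 := ce_JJ_neg hV fun x g => F (s, s • x + Real.sqrt s • g)
  have h2 : ∀ x g : ι → ℝ, F (s, s • -x + Real.sqrt s • -g) =
      -1 * F (s, s • x + Real.sqrt s • g) := by
    intro x g
    rw [smul_neg, smul_neg, ← neg_add, hodd, neg_one_mul]
  simp only [h2] at h1
  rw [ce_JJ_smul] at h1
  unfold EE
  linarith

end Crest.Agent.R152
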