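import Crest.Agent.R152.WB
import Crest.Agent.R152.WForm

/-! # Row 152: log-concavity of the Gaussian mass along geodesics of forms -/

set_option autoImplicit false
set_option linter.unusedSectionVars false
set_option linter.unusedVariables false

open MeasureTheory Set Matrix Filter Topology

noncomputable section

namespace Crest.Agent.R152

variable {ι : Type} [Fintype ι] [DecidableEq ι]

variable {V : Set (ι → ℝ)}

theorem body_image (hV : Body V) {C : Matrix ι ι ℝ} (hC : IsUnit C.det) :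
    Body ((fun x => C *ᵥ x) '' V) := by
  have hsurj : Function.Surjective (Matrix.mulVecLin C) := fun y =>
    ⟨C⁻¹ *ᵥ y, by rw [mulVecLin_apply, mulVec_mulVec, mul_nonsing_inv _ hC, one_mulVec]⟩
  refine ⟨hV.cpt.image (continuous_const.matrix_mulVec continuous_id),
    hV.cvx.linear_image (Matrix.mulVecLin C), ?_, ?_⟩
  · exact (hV.int.image _).mono
      (((Matrix.mulVecLin C).isOpenMap_of_finiteDimensional hsurj).image_interior_subset V)
  · rintro _ ⟨x, hx, rfl⟩
    exact ⟨-x, hV.sym x hx, mulVec_neg _ _⟩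

theorem WConc_int (hV : Body V) (T : Matrix ι ι ℝ) :
    IntegrableOn (fun x => Real.exp (-qf T x)) V volume := by
  refine ContinuousOn.integrableOn_compact hV.cpt (Continuous.continuousOn ?_)
  exact Real.continuous_exp.comp
    (continuous_id.dotProduct (continuous_const.matrix_mulVec continuous_id)).neg

theorem Zf_pos (hV : Body V) (T : Matrix ι ι ℝ) : 0 < Zf V T := by
  unfold Zf
  rw [setIntegral_pos_iff_support_of_nonneg_ae (Eventually.of_forall fun x => (Real.exp_pos _).le)
    (WConc_int hV T)]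
  have : Function.support (fun x => Real.exp (-qf T x)) = univ :=
    eq_univ_of_forall fun x => (Real.exp_pos _).ne'
  rw [this, univ_inter]
  exact Measure.measure_pos_of_nonempty_interior _ hV.int

theorem integral_image_mulVec {V : Set (ι → ℝ)} (hV : MeasurableSet V) {C : Matrix ι ι ℝ}
    (hC : IsUnit C.det) (f : (ι → ℝ) → ℝ) :
    ∫ x in (fun x => C *ᵥ x) '' V, f x = |C.det| * ∫ x in V, f (C *ᵥ x) := by
  have hinj : Function.Injective fun x => C *ᵥ x :=
    mulVec_injective_iff_isUnit.2 ((isUnit_iff_isUnit_det C).2 hC)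
  have h := integral_image_eq_integral_abs_det_fderiv_smul volume hV (f := fun x => C *ᵥ x)
    (f' := fun _ => LinearMap.toContinuousLinearMap (Matrix.toLin' C))
    (fun x _ => (LinearMap.toContinuousLinearMap (Matrix.toLin' C)).hasFDerivWithinAt)
    hinj.injOn f
  have hd : (LinearMap.toContinuousLinearMap (Matrix.toLin' C)).det = C.det := LinearMap.det_toLin' C
  rw [h, hd, ← integral_const_mul]
  rfl

theorem Zf_anti (hV : Body V) {T T' : Matrix ι ι ℝ} (hle : ∀ x, qf T x ≤ qf T' x) :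
    Zf V T' ≤ Zf V T :=
  integral_mono (WConc_int hV T') (WConc_int hV T) fun x =>
    Real.exp_le_exp.2 (neg_le_neg (hle x))

theorem cd_param (hV : IsCompact V) {F F' : ℝ → (ι → ℝ) → ℝ}
    (hF : Continuous fun p : ℝ × (ι → ℝ) => F p.1 p.2)
    (hF' : Continuous fun p : ℝ × (ι → ℝ) => F' p.1 p.2)
    (h : ∀ t x, HasDerivAt (fun t => F t x) (F' t x) t) (t : ℝ) :
    HasDerivAt (fun t => ∫ x in V, F t x) (∫ x in V, F' t x) t := by
  have c1 : ∀ s, Continuous (F s) := fun s => hF.comp (Continuous.prodMk_right s)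
  have c2 : ∀ s, Continuous (F' s) := fun s => hF'.comp (Continuous.prodMk_right s)
  obtain ⟨B, hB⟩ := ((isCompact_closedBall t 1).prod hV).exists_bound_of_continuousOn
    hF'.continuousOn
  have : IsFiniteMeasure (volume.restrict V) := ⟨by simpa using hV.measure_lt_top⟩
  refine (hasDerivAt_integral_of_dominated_loc_of_deriv_le (μ := volume.restrict V)
    (bound := fun _ => B) (Metric.closedBall_mem_nhds t one_pos)
    (Eventually.of_forall fun s => (c1 s).aestronglyMeasurable)
    ((c1 t).continuousOn.integrableOn_compact hV) (c2 t).aestronglyMeasurable ?_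
    (integrable_const B) (ae_of_all _ fun x s _ => h s x)).2
  filter_upwards [ae_restrict_mem hV.measurableSet] with x hx s hs
  exact hB (s, x) ⟨hs, hx⟩

/-- `Σ d^k e^{t d} x²` -/
def cdq (d : ι → ℝ) (k : ℕ) (t : ℝ) (x : ι → ℝ) : ℝ := ∑ i, d i ^ k * Real.exp (t * d i) * x i ^ 2

theorem cdq_cont (d : ι → ℝ) (k : ℕ) : Continuous fun p : ℝ × (ι → ℝ) => cdq d k p.1 p.2 := by
  unfold cdq
  fun_prop

theorem cdq_deriv (d : ι → ℝ) (k : ℕ) (t : ℝ) (x : ι → ℝ) :
    HasDerivAt (fun t => cdq d k t x) (cdq d (k + 1) t x) t := by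
  unfold cdq
  refine HasDerivAt.fun_sum fun i _ => ?_
  have := ((((hasDerivAt_id t).mul_const (d i)).exp).const_mul (d i ^ k)).mul_const (x i ^ 2)
  refine this.congr_deriv ?_
  simp only [id]
  ring

theorem cdq_qf (d : ι → ℝ) (t : ℝ) (x : ι → ℝ) :
    qf (diagonal fun i => Real.exp (t * d i)) x = cdq d 0 t x := by
  unfold qf cdq dotProduct
  refine Finset.sum_congr rfl fun i _ => ?_
  rw [mulVec_diagonal]
  ring

theorem cd_var (hV : Body V) (d : ι → ℝ) (t : ℝ) :
    (∫ x in V, cdq d 1 t x ^ 2 * Real.exp (-cdq d 0 t x)) / (∫ x in V, Real.exp (-cdq d 0 t x)) -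
      ((∫ x in V, cdq d 1 t x * Real.exp (-cdq d 0 t x)) / (∫ x in V, Real.exp (-cdq d 0 t x))) ^ 2 ≤
      (∫ x in V, cdq d 2 t x * Real.exp (-cdq d 0 t x)) / (∫ x in V, Real.exp (-cdq d 0 t x)) := by
  set C : Matrix ι ι ℝ := diagonal fun i => √2 * Real.exp (t * d i / 2) with hC
  have hdet : C.det ≠ 0 := by
    rw [hC, det_diagonal]
    exact Finset.prod_ne_zero_iff.2 fun i _ => by positivity
  have hU : IsUnit C.det := isUnit_iff_ne_zero.2 hdet
  have sq : ∀ (x : ι → ℝ) (i : ι), (C *ᵥ x) i ^ 2 = 2 * (Real.exp (t * d i) * x i ^ 2) := by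
    intro x i
    have e : Real.exp (t * d i / 2) ^ 2 = Real.exp (t * d i) := by
      rw [← Real.exp_nat_mul]; congr 1; push_cast; ring
    rw [hC, mulVec_diagonal, mul_pow, mul_pow, e, Real.sq_sqrt (by norm_num)]
    ring
  have sk : ∀ (k : ℕ) (x : ι → ℝ), ∑ i, d i ^ k * (C *ᵥ x) i ^ 2 = 2 * cdq d k t x := by
    intro k x
    unfold cdq
    rw [Finset.mul_sum]
    refine Finset.sum_congr rfl fun i _ => ?_
    rw [sq]
    ring
  have hw : ∀ x : ι → ℝ, wt (0, 0) (C *ᵥ x) = Real.exp (-cdq d 0 t x) := by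
    intro x
    have := sk 0 x
    simp only [pow_zero, one_mul] at this
    have e : C *ᵥ x ⬝ᵥ C *ᵥ x = 2 * cdq d 0 t x := by
      rw [← this]
      exact Finset.sum_congr rfl fun i _ => (pow_two _).symm
    unfold wt
    rw [e]
    congr 1
    simp
  have hp : ∀ h : (ι → ℝ) → ℝ, post ((fun x => C *ᵥ x) '' V) h (0, 0) =
      (∫ x in V, h (C *ᵥ x) * Real.exp (-cdq d 0 t x)) / (∫ x in V, Real.exp (-cdq d 0 t x)) := by
    intro h
    unfold post II
    rw [integral_image_mulVec hV.cpt.measurableSet hU, integral_image_mulVec hV.cpt.measurableSet hU,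
      mul_div_mul_left _ _ (abs_ne_zero.2 hdet)]
    simp only [hw, one_mul]
  have key := var_half (body_image hV hU) (φ := fun z => (1 / 2) * ∑ i, d i ^ 1 * z i ^ 2)
    (g := fun i z => d i * z i) (by fun_prop) (fun x => by simp) (fun i => by fun_prop)
    (M := ∑ i, |d i|) (fun x x' => by
      rw [Finset.mul_sum, Finset.mul_sum, Finset.mul_sum, ← Finset.sum_add_distrib,
        ← Finset.sum_sub_distrib]
      refine Finset.sum_le_sum fun i _ => ?_
      have h1 : |d i| ≤ ∑ j, |d j| :=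
        Finset.single_le_sum (f := fun j => |d j|) (fun j _ => abs_nonneg _) (Finset.mem_univ i)
      have h2 := neg_abs_le (d i)
      have h3 := abs_nonneg (d i)
      have h4 := mul_nonneg (show 0 ≤ (∑ j, |d j|) + d i / 2 by linarith) (sq_nonneg (x' i - x i))
      nlinarith)
  rw [hp, hp, hp] at key
  have e1 : ∀ x : ι → ℝ, (1 / 2) * ∑ i, d i ^ 1 * (C *ᵥ x) i ^ 2 = cdq d 1 t x := fun x => by
    rw [sk]; ring
  have e2 : ∀ x : ι → ℝ, (∑ i, (d i * (C *ᵥ x) i) ^ 2) * Real.exp (-cdq d 0 t x) =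
      2 * (cdq d 2 t x * Real.exp (-cdq d 0 t x)) := fun x => by
    rw [← mul_assoc, ← sk]
    simp only [mul_pow]
  simp only [e1, e2, integral_const_mul] at key
  refine key.trans (le_of_eq ?_)
  ring

/-- B-theorem: second derivative `= Var(Σ d e^{td} x²) - E(Σ d² e^{td} x²) ≤ 0` by `var_half` for the
body `diag(√2 e^{t d/2}) V` and `φ = Σ d z²` -/
theorem concave_diag (hV : Body V) (d : ι → ℝ) :
    ConcaveOn ℝ univ fun t : ℝ => Real.log (Zf V (diagonal fun i => Real.exp (t * d i))) := by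
  simp only [Zf, cdq_qf]
  have q0 := cdq_cont d 0
  have q1 := cdq_cont d 1
  have q2 := cdq_cont d 2
  have dE : ∀ t x, HasDerivAt (fun t => Real.exp (-cdq d 0 t x))
      (-(cdq d 1 t x * Real.exp (-cdq d 0 t x))) t := fun t x => by
    refine (cdq_deriv d 0 t x).fun_neg.exp.congr_deriv ?_
    ring
  have D0 := cd_param hV.cpt (F := fun t x => Real.exp (-cdq d 0 t x))
    (F' := fun t x => -(cdq d 1 t x * Real.exp (-cdq d 0 t x))) (by fun_prop) (by fun_prop) dE
  have D1 := cd_param hV.cpt (F := fun t x => -(cdq d 1 t x * Real.exp (-cdq d 0 t x)))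
    (F' := fun t x => cdq d 1 t x ^ 2 * Real.exp (-cdq d 0 t x) -
      cdq d 2 t x * Real.exp (-cdq d 0 t x)) (by fun_prop) (by fun_prop) (fun t x => by
        refine ((cdq_deriv d 1 t x).fun_mul (dE t x)).fun_neg.congr_deriv ?_
        ring)
  have Zp : ∀ t, 0 < ∫ x in V, Real.exp (-cdq d 0 t x) := fun t => by
    simpa only [Zf, cdq_qf] using Zf_pos hV (diagonal fun i => Real.exp (t * d i))
  have L1 := fun t => (D0 t).log (Zp t).ne'
  have L2 := fun t => (D1 t).div (D0 t) (Zp t).ne'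
  have eD : deriv (fun t => Real.log (∫ x in V, Real.exp (-cdq d 0 t x))) = fun t =>
      (∫ x in V, -(cdq d 1 t x * Real.exp (-cdq d 0 t x))) / ∫ x in V, Real.exp (-cdq d 0 t x) :=
    funext fun t => (L1 t).deriv
  refine Antitone.concaveOn_univ_of_deriv (fun t => (L1 t).differentiableAt) ?_
  rw [eD]
  refine antitone_of_deriv_nonpos (fun t => (L2 t).differentiableAt) fun t => ?_
  have c0 : Continuous (cdq d 0 t) := q0.comp (Continuous.prodMk_right t)
  have c1 : Continuous (cdq d 1 t) := q1.comp (Continuous.prodMk_right t)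
  have c2 : Continuous (cdq d 2 t) := q2.comp (Continuous.prodMk_right t)
  refine (L2 t).deriv.le.trans ?_
  rw [integral_sub (ContinuousOn.integrableOn_compact hV.cpt (by fun_prop))
    (ContinuousOn.integrableOn_compact hV.cpt (by fun_prop)), integral_neg]
  have h := cd_var hV d t
  have z := Zp t
  generalize (∫ x in V, Real.exp (-cdq d 0 t x)) = Z at *
  generalize (∫ x in V, cdq d 1 t x ^ 2 * Real.exp (-cdq d 0 t x)) = A at *
  generalize (∫ x in V, cdq d 1 t x * Real.exp (-cdq d 0 t x)) = B at *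
  generalize (∫ x in V, cdq d 2 t x * Real.exp (-cdq d 0 t x)) = C at *
  have e : ((A - C) * Z - -B * -B) / Z ^ 2 = A / Z - (B / Z) ^ 2 - C / Z := by
    field_simp
    ring
  rw [e]
  linarith

theorem WConc_qf_diag (e x : ι → ℝ) : qf (diagonal e) x = ∑ i, e i * x i ^ 2 := by
  unfold qf
  simp only [dotProduct, mulVec_diagonal]
  exact Finset.sum_congr rfl fun i _ => by ring

/-- a determinant preserving geodesic from `T` towards `T'` -/
theorem position (hV : Body V) {T T' : Matrix ι ι ℝ} (hT : T.PosDef) (hT' : T'.PosDef)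
    (hdet : T.det ≤ T'.det) :
    ∃ (τ : ℝ → Matrix ι ι ℝ) (c : ℝ), 0 ≤ c ∧ τ 0 = T ∧ (∀ t, (τ t).PosDef) ∧
      (∀ t, (τ t).det = T.det) ∧
      (∀ t x, qf (τ t) x ≤ Real.exp (c * |t|) * qf T x ∧ qf T x ≤ Real.exp (c * |t|) * qf (τ t) x) ∧
      ConcaveOn ℝ univ (fun t => Real.log (Zf V (τ t))) ∧ Zf V T' ≤ Zf V (τ 1) := by
  obtain ⟨C, d, hC, h1, h2⟩ := simdiag hT hT'
  obtain ⟨B, hCB, hB⟩ : ∃ B : Matrix ι ι ℝ, C * B = 1 ∧ IsUnit B.det :=
    ⟨C⁻¹, mul_nonsing_inv _ hC, isUnit_nonsing_inv_det _ hC⟩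
  have back : ∀ M : Matrix ι ι ℝ, Bᵀ * (Cᵀ * M * C) * B = M := fun M => by
    calc Bᵀ * (Cᵀ * M * C) * B = (C * B)ᵀ * M * (C * B) := by
          rw [transpose_mul]; simp only [Matrix.mul_assoc]
      _ = M := by rw [hCB, transpose_one, Matrix.one_mul, Matrix.mul_one]
  have eT : T = Bᵀ * Matrix.diagonal (fun _ => (1 : ℝ)) * B := by rw [diagonal_one, ← h1, back]
  have eT' : T' = Bᵀ * diagonal (fun i => Real.exp (d i)) * B := by rw [← h2, back]
  have hdetD : ∀ e : ι → ℝ, (Bᵀ * diagonal (fun i => Real.exp (e i)) * B).det =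
      B.det ^ 2 * Real.exp (∑ i, e i) := fun e => by
    rw [det_mul, det_mul, det_transpose, det_diagonal, Real.exp_sum]; ring
  have dT : T.det = B.det ^ 2 := by
    rw [eT, diagonal_one, Matrix.mul_one, det_mul, det_transpose, sq]
  have hB0 : B.det ≠ 0 := hB.ne_zero
  have hsum : 0 ≤ ∑ i, d i := by
    rw [dT, eT', hdetD] at hdet
    have := le_of_mul_le_mul_left ((mul_one _).trans_le hdet) (by positivity)
    exact Real.one_le_exp_iff.1 this
  obtain ⟨e, he1, he2⟩ : ∃ e : ι → ℝ, ∑ i, e i = 0 ∧ ∀ i, e i ≤ d i := by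
    refine ⟨fun i => d i - (∑ j, d j) / Fintype.card ι, ?_, fun i => sub_le_self _ (by positivity)⟩
    rw [Finset.sum_sub_distrib, Finset.sum_const, Finset.card_univ, nsmul_eq_mul]
    rcases isEmpty_or_nonempty ι with h | h
    · simp
    · rw [mul_div_cancel₀ _ (by exact_mod_cast Fintype.card_ne_zero), sub_self]
  refine ⟨fun t => Bᵀ * diagonal (fun i => Real.exp (t * e i)) * B, ∑ i, |e i|,
    Finset.sum_nonneg fun i _ => abs_nonneg _, ?_, fun t => ?_, fun t => ?_, fun t x => ?_, ?_, ?_⟩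
  · simp only [zero_mul, Real.exp_zero]
    exact eT.symm
  · have hD : (diagonal fun i => Real.exp (t * e i)).PosDef :=
      posDef_diagonal_iff.2 fun i => Real.exp_pos _
    have := hD.conjTranspose_mul_mul_same
      (mulVec_injective_iff_isUnit.2 ((isUnit_iff_isUnit_det B).2 hB))
    rwa [conjTranspose_eq_transpose_of_trivial] at this
  · rw [hdetD, ← Finset.mul_sum, he1, mul_zero, Real.exp_zero, mul_one, dT]
  · have hb : ∀ i, |t * e i| ≤ (∑ i, |e i|) * |t| := fun i => by
      rw [abs_mul, mul_comm]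
      exact mul_le_mul_of_nonneg_right (Finset.single_le_sum (f := fun i => |e i|)
        (fun _ _ => abs_nonneg _) (Finset.mem_univ i)) (abs_nonneg _)
    rw [eT, qf_conj, qf_conj, WConc_qf_diag, WConc_qf_diag, Finset.mul_sum, Finset.mul_sum]
    refine ⟨Finset.sum_le_sum fun i _ => ?_, Finset.sum_le_sum fun i _ => ?_⟩
    · rw [one_mul]
      exact mul_le_mul_of_nonneg_right (Real.exp_le_exp.2 (abs_le.1 (hb i)).2) (sq_nonneg _)
    · rw [← mul_assoc, ← Real.exp_add]
      exact mul_le_mul_of_nonneg_right (Real.one_le_exp (by linarith [(abs_le.1 (hb i)).1]))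
        (sq_nonneg _)
  · have hV' := body_image hV hB
    have e1 : (fun t : ℝ => Real.log (Zf V (Bᵀ * diagonal (fun i => Real.exp (t * e i)) * B))) =
        (fun t : ℝ => Real.log (Zf ((fun x => B *ᵥ x) '' V) (diagonal fun i => Real.exp (t * e i)))) +
          fun _ => -Real.log |B.det| := by
      funext t
      have h3 : Zf ((fun x => B *ᵥ x) '' V) (diagonal fun i => Real.exp (t * e i)) =
          |B.det| * Zf V (Bᵀ * diagonal (fun i => Real.exp (t * e i)) * B) := by
        unfold Zf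
        rw [integral_image_mulVec hV.cpt.measurableSet hB]
        simp only [qf_conj]
      rw [Pi.add_apply, h3, Real.log_mul (abs_ne_zero.2 hB0) (Zf_pos hV _).ne']
      ring
    rw [e1]
    exact (concave_diag hV' e).add (concaveOn_const _ convex_univ)
  · refine Zf_anti hV fun x => ?_
    rw [eT', qf_conj, qf_conj, WConc_qf_diag, WConc_qf_diag]
    refine Finset.sum_le_sum fun i _ => mul_le_mul_of_nonneg_right ?_ (sq_nonneg _)
    rw [one_mul]
    exact Real.exp_le_exp.2 (he2 i)

end Crest.Agent.R152
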