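import Mathlib

/-!
# Row 152, module W (weak reverse Minkowski inequality): definitions

Lattices are `ℤ^ι` with a positive definite form.  `Gam T` is the integral over the unit box of
`exp (-dist_T (x, ℤ^ι)^2)`.  The main theorem (`WInd.gam_lower`) says that for a form `S` all of whose
sublattices have determinant at least one, `Gam (u • S⁻¹) ≥ exp (-2 √u · card ι)`; by duality
(`WDual`) such a form has few short integer vectors.
-/

set_option autoImplicit false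

open MeasureTheory Set Matrix

noncomputable section

namespace Crest.Agent.R152

variable {ι : Type} [Fintype ι] [DecidableEq ι]

/-- the quadratic form of a matrix -/
def qf (T : Matrix ι ι ℝ) (x : ι → ℝ) : ℝ := x ⬝ᵥ T *ᵥ x

/-- an integer vector as a real vector -/
def rv (z : ι → ℤ) : ι → ℝ := fun i => (z i : ℝ)

/-- an integer matrix as a real matrix -/
def rm {α β : Type} (P : Matrix α β ℤ) : Matrix α β ℝ := P.map (Int.cast : ℤ → ℝ)

/-- the half open unit box -/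
def box (ι : Type) : Set (ι → ℝ) := Set.pi Set.univ fun _ => Set.Ico (0 : ℝ) 1

/-- squared `T`-distance to the integer lattice -/
def dsq (T : Matrix ι ι ℝ) (x : ι → ℝ) : ℝ := ⨅ z : ι → ℤ, qf T (x - rv z)

/-- the functional of the variational argument -/
def Gam (T : Matrix ι ι ℝ) : ℝ := ∫ x in box ι, Real.exp (-dsq T x)

/-- Voronoi cell of `ℤ^ι` for the form `T` -/
def Vor (T : Matrix ι ι ℝ) : Set (ι → ℝ) := {x | ∀ z : ι → ℤ, qf T x ≤ qf T (x - rv z)}

/-- Gaussian mass of a set -/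
def Zf (V : Set (ι → ℝ)) (T : Matrix ι ι ℝ) : ℝ := ∫ x in V, Real.exp (-qf T x)

/-- symmetric convex body -/
structure Body (V : Set (ι → ℝ)) : Prop where
  cpt : IsCompact V
  cvx : Convex ℝ V
  int : (interior V).Nonempty
  sym : ∀ x ∈ V, -x ∈ V

/-- every sublattice of `(ℤ^ι, S)` has determinant at least one -/
def StableF (S : Matrix ι ι ℝ) : Prop :=
  S.PosDef ∧ ∀ (k : ℕ) (P : Matrix ι (Fin k) ℤ), Function.Injective P.mulVec →
    1 ≤ ((rm P)ᵀ * S * rm P).det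

/-! ### the Gaussian channel (proof of the B-theorem) -/

/-- weight of the posterior at time `p.1` and observation `p.2` (prior `1_V exp(-|x|²/2)`) -/
def wt (p : ℝ × (ι → ℝ)) (x : ι → ℝ) : ℝ := Real.exp (p.2 ⬝ᵥ x - (1 + p.1) * (x ⬝ᵥ x) / 2)

def II (V : Set (ι → ℝ)) (h : (ι → ℝ) → ℝ) (p : ℝ × (ι → ℝ)) : ℝ := ∫ x in V, h x * wt p x

/-- posterior mean of `h` -/
def post (V : Set (ι → ℝ)) (h : (ι → ℝ) → ℝ) (p : ℝ × (ι → ℝ)) : ℝ :=
  II V h p / II V (fun _ => 1) p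

/-- the algebra generated by posterior means of continuous functions -/
inductive Alg (V : Set (ι → ℝ)) : (ℝ × (ι → ℝ) → ℝ) → Prop
  | post (h : (ι → ℝ) → ℝ) (hh : Continuous h) : Alg V (post V h)
  | add {F G : ℝ × (ι → ℝ) → ℝ} : Alg V F → Alg V G → Alg V (fun p => F p + G p)
  | mul {F G : ℝ × (ι → ℝ) → ℝ} : Alg V F → Alg V G → Alg V (fun p => F p * G p)
  | smul (c : ℝ) {F : ℝ × (ι → ℝ) → ℝ} : Alg V F → Alg V (fun p => c * F p)

/-- time derivative -/
def ds (F : ℝ × (ι → ℝ) → ℝ) (p : ℝ × (ι → ℝ)) : ℝ := fderiv ℝ F p (1, 0)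

/-- space derivative -/
def dy (i : ι) (F : ℝ × (ι → ℝ) → ℝ) (p : ℝ × (ι → ℝ)) : ℝ := fderiv ℝ F p (0, Pi.single i 1)

/-- generator of the channel process -/
def LL (V : Set (ι → ℝ)) (F : ℝ × (ι → ℝ) → ℝ) (p : ℝ × (ι → ℝ)) : ℝ :=
  ds F p + ∑ i, post V (fun x => x i) p * dy i F p + (1 / 2) * ∑ i, dy i (dy i F) p

/-- unnormalised expectation over `X ~ 1_V exp(-|x|²/2)` and an independent standard Gaussian `g` -/
def JJ (V : Set (ι → ℝ)) (Φ : (ι → ℝ) → (ι → ℝ) → ℝ) : ℝ :=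
  ∫ x in V, ∫ g : ι → ℝ, Φ x g * Real.exp (-(x ⬝ᵥ x + g ⬝ᵥ g) / 2)

/-- unnormalised expectation of `F (s, Y_s)`, `Y_s = s X + √s g` -/
def EE (V : Set (ι → ℝ)) (s : ℝ) (F : ℝ × (ι → ℝ) → ℝ) : ℝ :=
  JJ V fun x g => F (s, s • x + Real.sqrt s • g)

/-! ### the exponential tilt (Klartag) -/

/-- Laplace transform of `h · 1_V` -/
def Lap (V : Set (ι → ℝ)) (h : (ι → ℝ) → ℝ) (ξ : ι → ℝ) : ℝ := ∫ x in V, h x * Real.exp (ξ ⬝ᵥ x)

/-- barycentre of the tilted measure -/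
def bar (V : Set (ι → ℝ)) (ξ : ι → ℝ) : ι → ℝ :=
  fun i => Lap V (fun x => x i) ξ / Lap V (fun _ => 1) ξ

/-- covariance of the tilted measure -/
def cov (V : Set (ι → ℝ)) (ξ : ι → ℝ) : Matrix ι ι ℝ :=
  Matrix.of fun i j => Lap V (fun x => x i * x j) ξ / Lap V (fun _ => 1) ξ - bar V ξ i * bar V ξ j

end Crest.Agent.R152
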