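import Crest.Agent.R152.WChan

/-! # Row 152: derivative of the expectation along the channel -/

set_option autoImplicit false
set_option linter.unusedSectionVars false
set_option linter.unusedVariables false

open MeasureTheory Set Matrix Filter Topology

noncomputable section

namespace Crest.Agent.R152

variable {ι : Type} [Fintype ι] [DecidableEq ι]

variable {V : Set (ι → ℝ)}

theorem der_gauss_int (j : Option ι) :
    Integrable (fun g : ι → ℝ => (j.elim 1 fun j => |g j|) * Real.exp (-(g ⬝ᵥ g) / 2)) := by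
  have h1 : Integrable (fun t : ℝ => Real.exp (-(1 / 2 : ℝ) * t ^ 2)) :=
    integrable_exp_neg_mul_sq (by norm_num)
  have h2 : Integrable (fun t : ℝ => |t| * Real.exp (-(1 / 2 : ℝ) * t ^ 2)) := by
    have := (integrable_mul_exp_neg_mul_sq (b := 1 / 2) (by norm_num)).abs
    refine this.congr (Eventually.of_forall fun t => ?_)
    simp only [abs_mul, abs_of_pos (Real.exp_pos _)]
  have h3 : Integrable (fun g : ι → ℝ => ∏ i, ((if j = some i then |g i| else 1) *
      Real.exp (-(1 / 2 : ℝ) * g i ^ 2))) := by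
    refine Integrable.fintype_prod
      (f := fun i (t : ℝ) => (if j = some i then |t| else 1) * Real.exp (-(1 / 2 : ℝ) * t ^ 2))
      (μ := fun _ => volume) fun i => ?_
    by_cases h : j = some i
    · simpa only [if_pos h] using h2
    · simpa only [if_neg h, one_mul] using h1
  refine h3.congr (Eventually.of_forall fun g => ?_)
  have e1 : ∏ i, Real.exp (-(1 / 2 : ℝ) * g i ^ 2) = Real.exp (-(g ⬝ᵥ g) / 2) := by
    rw [← Real.exp_sum]
    congr 1
    simp only [dotProduct, neg_div, Finset.sum_div, ← Finset.sum_neg_distrib]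
    exact Finset.sum_congr rfl fun i _ => by ring
  simp only [Finset.prod_mul_distrib, e1]
  congr 1
  cases j with
  | none => simp
  | some j => simp [Finset.prod_ite_eq]

theorem der_gauss_int' :
    Integrable (fun g : ι → ℝ => (1 + ∑ j, |g j|) * Real.exp (-(g ⬝ᵥ g) / 2)) := by
  have h0 := der_gauss_int (ι := ι) none
  have h1 : Integrable (fun g : ι → ℝ => ∑ j, |g j| * Real.exp (-(g ⬝ᵥ g) / 2)) :=
    integrable_finsetSum _ fun j _ => der_gauss_int (some j)
  refine (h0.add h1).congr (Eventually.of_forall fun g => ?_)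
  simp only [Pi.add_apply, Option.elim, add_mul, Finset.sum_mul]

/-- the product measure behind `JJ` -/
def derMu (V : Set (ι → ℝ)) : Measure ((ι → ℝ) × (ι → ℝ)) := (volume.restrict V).prod volume

/-- the weight behind `JJ` -/
def derW (z : (ι → ℝ) × (ι → ℝ)) : ℝ := Real.exp (-(z.1 ⬝ᵥ z.1 + z.2 ⬝ᵥ z.2) / 2)

theorem derW_cont : Continuous (derW (ι := ι)) := by
  unfold derW
  fun_prop

theorem der_self_nonneg (x : ι → ℝ) : 0 ≤ x ⬝ᵥ x :=
  Finset.sum_nonneg fun i _ => mul_self_nonneg _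

theorem derW_le (z : (ι → ℝ) × (ι → ℝ)) : derW z ≤ Real.exp (-(z.2 ⬝ᵥ z.2) / 2) := by
  unfold derW
  have := der_self_nonneg z.1
  exact Real.exp_le_exp.2 (by linarith)

theorem der_bound_int (hV : Body V) (C : ℝ) :
    Integrable (fun z : (ι → ℝ) × (ι → ℝ) =>
      C * ((1 + ∑ j, |z.2 j|) * Real.exp (-(z.2 ⬝ᵥ z.2) / 2))) (derMu V) := by
  have : IsFiniteMeasure (volume.restrict V) :=
    ⟨by simpa using hV.cpt.measure_lt_top⟩
  exact Integrable.mul_prod (integrable_const C) der_gauss_int'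

theorem der_ae_mem (hV : Body V) : ∀ᵐ z ∂(derMu V), z.1 ∈ V := by
  have h : ∀ᵐ x ∂(volume.restrict V), x ∈ V := ae_restrict_mem hV.cpt.measurableSet
  exact (Measure.quasiMeasurePreserving_fst (μ := volume.restrict V)
    (ν := (volume : Measure (ι → ℝ)))).ae h

theorem der_int (hV : Body V) {Φ : (ι → ℝ) × (ι → ℝ) → ℝ} (hc : Continuous Φ) (C : ℝ)
    (hb : ∀ z : (ι → ℝ) × (ι → ℝ), z.1 ∈ V → |Φ z| ≤ C * (1 + ∑ j, |z.2 j|)) :
    Integrable (fun z => Φ z * derW z) (derMu V) := by
  refine (der_bound_int hV C).mono' (hc.mul derW_cont).aestronglyMeasurable ?_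
  filter_upwards [der_ae_mem hV] with z hz
  have h1 := hb z hz
  have h2 : 0 < derW z := Real.exp_pos _
  rw [Real.norm_eq_abs, abs_mul, abs_of_pos h2, ← mul_assoc]
  exact mul_le_mul h1 (derW_le z) h2.le ((abs_nonneg _).trans h1)

theorem der_JJ {Φ : (ι → ℝ) → (ι → ℝ) → ℝ}
    (h : Integrable (fun z => Φ z.1 z.2 * derW z) (derMu V)) :
    JJ V Φ = ∫ z, Φ z.1 z.2 * derW z ∂(derMu V) := by
  unfold JJ derMu
  rw [integral_prod _ h]
  rfl

theorem der_fderiv (F : ℝ × (ι → ℝ) → ℝ) (p : ℝ × (ι → ℝ)) (a : ℝ) (v : ι → ℝ) :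
    fderiv ℝ F p (a, v) = a * ds F p + ∑ i, v i * dy i F p := by
  have e : ((a, v) : ℝ × (ι → ℝ)) =
      a • ((1, 0) : ℝ × (ι → ℝ)) + ∑ i, v i • ((0, Pi.single i 1) : ℝ × (ι → ℝ)) := by
    ext j
    · simp [Prod.fst_sum]
    · simp [Prod.snd_sum, Finset.sum_apply, Pi.single_apply]
  rw [e, map_add, map_sum]
  simp only [map_smul, smul_eq_mul, ds, dy]

theorem der_path {F : ℝ × (ι → ℝ) → ℝ} (hF : Differentiable ℝ F) (x g : ι → ℝ) {s : ℝ}
    (hs : 0 < s) :
    HasDerivAt (fun s => F (s, s • x + Real.sqrt s • g))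
      (ds F (s, s • x + Real.sqrt s • g) +
        ∑ i, (x i + 1 / (2 * Real.sqrt s) * g i) * dy i F (s, s • x + Real.sqrt s • g)) s := by
  have h1 : HasDerivAt (fun s : ℝ => s • x + Real.sqrt s • g)
      ((1 : ℝ) • x + (1 / (2 * Real.sqrt s)) • g) s :=
    ((hasDerivAt_id s).smul_const x).add ((Real.hasDerivAt_sqrt hs.ne').smul_const g)
  have h2 : HasDerivAt (fun s : ℝ => ((s, s • x + Real.sqrt s • g) : ℝ × (ι → ℝ)))
      (1, (1 : ℝ) • x + (1 / (2 * Real.sqrt s)) • g) s := (hasDerivAt_id s).prodMk h1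
  have h3 := (hF (s, s • x + Real.sqrt s • g)).hasFDerivAt.comp_hasDerivAt s h2
  rw [der_fderiv] at h3
  refine HasDerivAt.congr_deriv h3 ?_
  simp

theorem der_le_sum (g : ι → ℝ) (i : ι) : |g i| ≤ 1 + ∑ j, |g j| := by
  have := Finset.single_le_sum (f := fun j => |g j|) (fun j _ => abs_nonneg _) (Finset.mem_univ i)
  linarith

theorem der_one_le (g : ι → ℝ) : 1 ≤ 1 + ∑ j, |g j| := by
  have : 0 ≤ ∑ j, |g j| := Finset.sum_nonneg fun j _ => abs_nonneg _
  linarith

theorem der_stein (hV : Body V) {G : ℝ × (ι → ℝ) → ℝ} (hG : Alg V G) (s : ℝ) (i : ι) :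
    JJ V (fun x g => g i * G (s, s • x + Real.sqrt s • g)) = Real.sqrt s * EE V s (dy i G) := by
  unfold EE JJ
  rw [← integral_const_mul]
  refine integral_congr_ae (Eventually.of_forall fun x => ?_)
  obtain ⟨B1, hB1⟩ := alg_bdd hV hG
  obtain ⟨B2, hB2⟩ := alg_bdd hV (alg_dy hV hG i)
  have hd := alg_differentiable hV hG
  have hc := (alg_differentiable hV (alg_dy hV hG i)).continuous
  have hp : ∀ g : ι → ℝ, HasFDerivAt (fun g : ι → ℝ => ((s, s • x + Real.sqrt s • g) : ℝ × (ι → ℝ)))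
      ((0 : (ι → ℝ) →L[ℝ] ℝ).prod (Real.sqrt s • ContinuousLinearMap.id ℝ (ι → ℝ))) g := fun g =>
    (hasFDerivAt_const s g).prodMk (((hasFDerivAt_id g).const_smul (Real.sqrt s)).const_add _)
  have key := stein (H := fun g => G (s, s • x + Real.sqrt s • g))
    (H' := fun g => Real.sqrt s * dy i G (s, s • x + Real.sqrt s • g)) i
    (fun g => (hd _).comp g (hp g).differentiableAt)
    (fun g => by
      have := ((hd (s, s • x + Real.sqrt s • g)).hasFDerivAt.comp g (hp g)).fderiv
      have e : (fun g => G (s, s • x + Real.sqrt s • g)) =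
        G ∘ fun g : ι → ℝ => ((s, s • x + Real.sqrt s • g) : ℝ × (ι → ℝ)) := rfl
      rw [e, this]
      have e2 : ((0 : (ι → ℝ) →L[ℝ] ℝ).prod (Real.sqrt s • ContinuousLinearMap.id ℝ (ι → ℝ)))
          (Pi.single i 1) = Real.sqrt s • ((0, Pi.single i 1) : ℝ × (ι → ℝ)) := by
        ext j <;> simp
      rw [ContinuousLinearMap.comp_apply, e2, map_smul, smul_eq_mul, dy])
    (by fun_prop) (B := max B1 (Real.sqrt s * B2))
    (fun g => (hB1 _).trans (le_max_left _ _))
    (fun g => by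
      rw [abs_mul, abs_of_nonneg (Real.sqrt_nonneg s)]
      exact (mul_le_mul_of_nonneg_left (hB2 _) (Real.sqrt_nonneg s)).trans (le_max_right _ _))
  have ew : ∀ g : ι → ℝ, Real.exp (-(x ⬝ᵥ x + g ⬝ᵥ g) / 2) =
      Real.exp (-(x ⬝ᵥ x) / 2) * Real.exp (-(g ⬝ᵥ g) / 2) := fun g => by
    rw [← Real.exp_add]; congr 1; ring
  simp only [ew]
  calc ∫ g : ι → ℝ, g i * G (s, s • x + Real.sqrt s • g) *
        (Real.exp (-(x ⬝ᵥ x) / 2) * Real.exp (-(g ⬝ᵥ g) / 2))
      = Real.exp (-(x ⬝ᵥ x) / 2) * ∫ g : ι → ℝ, g i * G (s, s • x + Real.sqrt s • g) *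
        Real.exp (-(g ⬝ᵥ g) / 2) := by
        rw [← integral_const_mul]
        exact integral_congr_ae (Eventually.of_forall fun g => by ring)
    _ = _ := by
        rw [key, ← integral_const_mul, ← integral_const_mul]
        exact integral_congr_ae (Eventually.of_forall fun g => by ring)

/-- differentiate under the integral sign: the derivative of `F (s, s x + √s g)` is
`ds F + Σ dy i F · (x i + g i / (2 √s))`; the `g i` terms by `stein`, the `x i` terms by `tower` -/
theorem EE_hasDerivAt (hV : Body V) {F : ℝ × (ι → ℝ) → ℝ} (hF : Alg V F) {s : ℝ} (hs : 0 < s) :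
    HasDerivAt (fun s => EE V s F) (EE V s (LL V F)) s := by
  have hd := alg_differentiable hV hF
  obtain ⟨B0, hB0⟩ := alg_bdd hV hF
  obtain ⟨B1, hB1⟩ := alg_bdd hV (alg_ds hV hF)
  choose B2 hB2 using fun i => alg_bdd hV (alg_dy hV hF i)
  obtain ⟨R, hR⟩ := hV.cpt.isBounded.exists_norm_le
  have hB1' : 0 ≤ B1 := (abs_nonneg _).trans (hB1 0)
  have hB0' : 0 ≤ B0 := (abs_nonneg _).trans (hB0 0)
  have hB2' : ∀ i, 0 ≤ B2 i := fun i => (abs_nonneg _).trans (hB2 i 0)
  have hRi : ∀ x ∈ V, ∀ i, |x i| ≤ |R| := fun x hx i =>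
    ((norm_le_pi_norm x i).trans (hR x hx)).trans (le_abs_self R)
  have hc0 := hd.continuous
  have hc1 := (alg_differentiable hV (alg_ds hV hF)).continuous
  have hc2 := fun i => (alg_differentiable hV (alg_dy hV hF i)).continuous
  have hint0 : ∀ t : ℝ, Integrable (fun z : (ι → ℝ) × (ι → ℝ) =>
      F (t, t • z.1 + Real.sqrt t • z.2) * derW z) (derMu V) := fun t =>
    der_int hV (by fun_prop) B0 fun z _ =>
      (hB0 _).trans (le_mul_of_one_le_right hB0' (der_one_le _))
  have e0 : (fun s => EE V s F) =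
      fun t => ∫ z, F (t, t • z.1 + Real.sqrt t • z.2) * derW z ∂(derMu V) := by
    funext t
    exact der_JJ (Φ := fun x g => F (t, t • x + Real.sqrt t • g)) (hint0 t)
  set c : ℝ := 1 / (2 * Real.sqrt (s / 2)) with hc
  have hcpos : 0 < c := by have := Real.sqrt_pos.2 (half_pos hs); positivity
  have key := hasDerivAt_integral_of_dominated_loc_of_deriv_le (μ := derMu V)
    (F := fun t z => F (t, t • z.1 + Real.sqrt t • z.2) * derW z)
    (F' := fun t z => (ds F (t, t • z.1 + Real.sqrt t • z.2) +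
        ∑ i, (z.1 i + 1 / (2 * Real.sqrt t) * z.2 i) * dy i F (t, t • z.1 + Real.sqrt t • z.2)) *
          derW z)
    (x₀ := s) (s := Ioi (s / 2))
    (bound := fun z => (B1 + ∑ i, (|R| + c) * B2 i) *
      ((1 + ∑ j, |z.2 j|) * Real.exp (-(z.2 ⬝ᵥ z.2) / 2)))
    (Ioi_mem_nhds (half_lt_self hs))
    (Eventually.of_forall fun t => (hint0 t).aestronglyMeasurable) (hint0 s)
    (Continuous.aestronglyMeasurable (Continuous.mul (by fun_prop) derW_cont))
    (by
      filter_upwards [der_ae_mem hV] with z hz t ht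
      have ht' : s / 2 < t := ht
      have h2 : 0 < derW z := Real.exp_pos _
      have hct : 1 / (2 * Real.sqrt t) ≤ c := by
        have h3 := Real.sqrt_pos.2 (half_pos hs)
        have h4 := Real.sqrt_le_sqrt ht'.le
        exact one_div_le_one_div_of_le (by positivity) (by linarith)
      have hct0 : 0 ≤ 1 / (2 * Real.sqrt t) := by positivity
      have h1 : |ds F (t, t • z.1 + Real.sqrt t • z.2) +
          ∑ i, (z.1 i + 1 / (2 * Real.sqrt t) * z.2 i) * dy i F (t, t • z.1 + Real.sqrt t • z.2)| ≤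
          (B1 + ∑ i, (|R| + c) * B2 i) * (1 + ∑ j, |z.2 j|) := by
        rw [add_mul, Finset.sum_mul]
        refine (abs_add_le _ _).trans (add_le_add
          ((hB1 _).trans (le_mul_of_one_le_right hB1' (der_one_le _)))
          ((Finset.abs_sum_le_sum_abs _ _).trans (Finset.sum_le_sum fun i _ => ?_)))
        rw [abs_mul, mul_right_comm]
        refine mul_le_mul ?_ (hB2 i _) (abs_nonneg _)
          (mul_nonneg (by positivity) (zero_le_one.trans (der_one_le _)))
        refine (abs_add_le _ _).trans ?_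
        rw [add_mul, abs_mul, abs_of_nonneg hct0]
        exact add_le_add ((hRi _ hz i).trans (le_mul_of_one_le_right (abs_nonneg _) (der_one_le _)))
          (mul_le_mul hct (der_le_sum _ i) (abs_nonneg _) hcpos.le)
      rw [Real.norm_eq_abs, abs_mul, abs_of_pos h2, ← mul_assoc]
      exact mul_le_mul h1 (derW_le z) h2.le ((abs_nonneg _).trans h1))
    (der_bound_int hV _)
    (Eventually.of_forall fun z t ht =>
      (der_path hd z.1 z.2 ((half_pos hs).trans ht)).mul_const _)
  rw [e0]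
  refine HasDerivAt.congr_deriv key.2 ?_
  have i1 : Integrable (fun z : (ι → ℝ) × (ι → ℝ) =>
      ds F (s, s • z.1 + Real.sqrt s • z.2) * derW z) (derMu V) :=
    der_int hV (by fun_prop) B1 fun z _ =>
      (hB1 _).trans (le_mul_of_one_le_right hB1' (der_one_le _))
  have i2 : ∀ i, Integrable (fun z : (ι → ℝ) × (ι → ℝ) =>
      z.1 i * dy i F (s, s • z.1 + Real.sqrt s • z.2) * derW z) (derMu V) := fun i =>
    der_int hV (by have := hc2 i; fun_prop) (|R| * B2 i) fun z hz => by
      rw [abs_mul]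
      exact (mul_le_mul (hRi _ hz i) (hB2 i _) (abs_nonneg _) (abs_nonneg _)).trans
        (le_mul_of_one_le_right (mul_nonneg (abs_nonneg _) (hB2' i)) (der_one_le _))
  have i3 : ∀ i, Integrable (fun z : (ι → ℝ) × (ι → ℝ) =>
      z.2 i * dy i F (s, s • z.1 + Real.sqrt s • z.2) * derW z) (derMu V) := fun i =>
    der_int hV (by have := hc2 i; fun_prop) (B2 i) fun z hz => by
      rw [abs_mul, mul_comm]
      exact mul_le_mul (hB2 i _) (der_le_sum _ i) (abs_nonneg _) (hB2' i)
  have hsq : 0 < Real.sqrt s := Real.sqrt_pos.2 hs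
  have r1 : ∫ z, (ds F (s, s • z.1 + Real.sqrt s • z.2) +
        ∑ i, (z.1 i + 1 / (2 * Real.sqrt s) * z.2 i) * dy i F (s, s • z.1 + Real.sqrt s • z.2)) *
          derW z ∂(derMu V) =
      EE V s (ds F) + ∑ i, (EE V s (fun p => dy i F p * post V (fun x => x i) p) +
        1 / 2 * EE V s (dy i (dy i F))) := by
    have a1 : EE V s (ds F) = ∫ z, ds F (s, s • z.1 + Real.sqrt s • z.2) * derW z ∂(derMu V) :=
      der_JJ (Φ := fun x g => ds F (s, s • x + Real.sqrt s • g)) i1
    have a2 : ∀ i, EE V s (fun p => dy i F p * post V (fun x => x i) p) =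
        ∫ z, z.1 i * dy i F (s, s • z.1 + Real.sqrt s • z.2) * derW z ∂(derMu V) := fun i => by
      rw [← tower hV hs.le (alg_dy hV hF i) (continuous_apply i)]
      exact der_JJ (Φ := fun x g => x i * dy i F (s, s • x + Real.sqrt s • g)) (i2 i)
    have a3 : ∀ i, 1 / 2 * EE V s (dy i (dy i F)) = ∫ z, 1 / (2 * Real.sqrt s) *
        (z.2 i * dy i F (s, s • z.1 + Real.sqrt s • z.2) * derW z) ∂(derMu V) := fun i => by
      rw [integral_const_mul,
        ← der_JJ (Φ := fun x g => g i * dy i F (s, s • x + Real.sqrt s • g)) (i3 i),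
        der_stein hV (alg_dy hV hF i)]
      field_simp
    have a4 : ∀ i, EE V s (fun p => dy i F p * post V (fun x => x i) p) +
        1 / 2 * EE V s (dy i (dy i F)) = ∫ z,
          (z.1 i * dy i F (s, s • z.1 + Real.sqrt s • z.2) * derW z + 1 / (2 * Real.sqrt s) *
        (z.2 i * dy i F (s, s • z.1 + Real.sqrt s • z.2) * derW z)) ∂(derMu V) := fun i => by
      rw [a2, a3, integral_add (i2 i) ((i3 i).const_mul _)]
    simp only [a4]
    have i4 : ∀ i, Integrable (fun z : (ι → ℝ) × (ι → ℝ) =>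
        z.1 i * dy i F (s, s • z.1 + Real.sqrt s • z.2) * derW z + 1 / (2 * Real.sqrt s) *
        (z.2 i * dy i F (s, s • z.1 + Real.sqrt s • z.2) * derW z)) (derMu V) :=
      fun i => (i2 i).add ((i3 i).const_mul _)
    rw [a1, ← integral_finsetSum _ fun i _ => i4 i,
      ← integral_add i1 (integrable_finsetSum _ fun i _ => i4 i)]
    refine integral_congr_ae (Eventually.of_forall fun z => ?_)
    simp only [add_mul, Finset.sum_mul]
    congr 1
    exact Finset.sum_congr rfl fun i _ => by ring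
  rw [r1]
  have b1 : ∀ i, Alg V (fun p => post V (fun x => x i) p * dy i F p) := fun i =>
    Alg.mul (Alg.post _ (continuous_apply i)) (alg_dy hV hF i)
  have b2 : ∀ i, Alg V (dy i (dy i F)) := fun i => alg_dy hV (alg_dy hV hF i) i
  have b3 := alg_sum hV Finset.univ b1
  have b4 := alg_sum hV Finset.univ b2
  have c1 := EE_add hV s (Alg.add (alg_ds hV hF) b3) (Alg.smul (1 / 2) b4)
  rw [EE_add hV s (alg_ds hV hF) b3, EE_smul, EE_sum hV s _ b1, EE_sum hV s _ b2] at c1
  have c2 : EE V s (LL V F) = EE V s (fun p => (ds F p + ∑ a, post V (fun x => x a) p * dy a F p) +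
    1 / 2 * ∑ a, dy a (dy a F) p) := rfl
  rw [c2, c1, Finset.sum_add_distrib, Finset.mul_sum, add_assoc]
  simp only [mul_comm]

end Crest.Agent.R152
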