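import Crest.Agent.R152.WForm

/-! # Row 152: basic properties of dsq and Gam -/

set_option autoImplicit false
set_option linter.unusedSectionVars false
set_option linter.unusedVariables false

open MeasureTheory Set Matrix Filter Topology

noncomputable section

namespace Crest.Agent.R152

variable {ι : Type} [Fintype ι] [DecidableEq ι]

theorem gam_qf_nonneg {T : Matrix ι ι ℝ} (hT : T.PosSemidef) (x : ι → ℝ) : 0 ≤ qf T x := by
  have := hT.dotProduct_mulVec_nonneg x
  simpa [qf] using this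

theorem gam_bdd {T : Matrix ι ι ℝ} (hT : T.PosSemidef) (x : ι → ℝ) :
    BddBelow (Set.range fun z : ι → ℤ => qf T (x - rv z)) :=
  ⟨0, by rintro _ ⟨z, rfl⟩; exact gam_qf_nonneg hT _⟩

theorem gam_qf_continuous (T : Matrix ι ι ℝ) : Continuous (qf T) := by
  unfold qf dotProduct mulVec dotProduct
  fun_prop

theorem gam_rv_add (z w : ι → ℤ) : rv (z + w) = rv z + rv w := by
  funext i; simp [rv]

theorem gam_rv_sub (z w : ι → ℤ) : rv (z - w) = rv z - rv w := by
  funext i; simp [rv]

theorem gam_rv_neg (z : ι → ℤ) : rv (-z) = -rv z := by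
  funext i; simp [rv]

theorem gam_rv_zero : rv (0 : ι → ℤ) = 0 := by
  funext i; simp [rv]

theorem gam_rv_injective : Function.Injective (rv : (ι → ℤ) → ι → ℝ) := by
  intro z w h
  funext i
  have := congrFun h i
  simpa [rv] using this

theorem dsq_attained {T : Matrix ι ι ℝ} (hT : T.PosDef) (x : ι → ℝ) :
    ∃ z : ι → ℤ, dsq T x = qf T (x - rv z) := by
  have hfin := finite_short hT x (qf T (x - rv 0))
  have hne : ({z : ι → ℤ | qf T (x - rv z) ≤ qf T (x - rv 0)}).Nonempty := ⟨0, by simp⟩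
  obtain ⟨z, hz, hmin⟩ := Set.exists_min_image _ (fun z => qf T (x - rv z)) hfin hne
  refine ⟨z, le_antisymm (ciInf_le (gam_bdd hT.posSemidef x) z) (le_ciInf fun w => ?_)⟩
  by_cases hw : qf T (x - rv w) ≤ qf T (x - rv 0)
  · exact hmin w hw
  · exact le_trans hz (not_le.mp hw).le

theorem dsq_le {T : Matrix ι ι ℝ} (hT : T.PosSemidef) (x : ι → ℝ) (z : ι → ℤ) :
    dsq T x ≤ qf T (x - rv z) := by
  exact ciInf_le (gam_bdd hT x) z

theorem dsq_nonneg {T : Matrix ι ι ℝ} (hT : T.PosSemidef) (x : ι → ℝ) : 0 ≤ dsq T x := by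
  exact le_ciInf fun z => gam_qf_nonneg hT _

theorem dsq_periodic (T : Matrix ι ι ℝ) (x : ι → ℝ) (z : ι → ℤ) : dsq T (x + rv z) = dsq T x := by
  unfold dsq
  refine Equiv.iInf_congr (Equiv.subRight z) fun w => ?_
  congr 1
  rw [Equiv.subRight_apply, gam_rv_sub]
  abel

theorem dsq_measurable (T : Matrix ι ι ℝ) : Measurable (dsq T) := by
  unfold dsq
  exact Measurable.iInf fun z =>
    ((gam_qf_continuous T).comp (continuous_id.sub continuous_const)).measurable

theorem dsq_mono {T T' : Matrix ι ι ℝ} (hT : T.PosSemidef) (hT' : T'.PosSemidef) {c : ℝ}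
    (hc : 0 ≤ c) (hle : ∀ x, qf T x ≤ c * qf T' x) (x : ι → ℝ) : dsq T x ≤ c * dsq T' x := by
  have h : c * dsq T' x = ⨅ z : ι → ℤ, c * qf T' (x - rv z) := by
    unfold dsq
    exact Real.mul_iInf_of_nonneg hc _
  rw [h]
  exact le_ciInf fun z => (dsq_le hT x z).trans (hle _)

theorem volume_box : volume (box ι) = 1 := by
  unfold box
  rw [volume_pi, Measure.pi_pi]
  simp

theorem measurableSet_box : MeasurableSet (box ι) := by
  exact MeasurableSet.univ_pi fun _ => measurableSet_Ico

/-- the integer lattice as an additive subgroup of `ι → ℝ` -/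
def ZL (ι : Type) [Fintype ι] : AddSubgroup (ι → ℝ) :=
  (Submodule.span ℤ (Set.range (Pi.basisFun ℝ ι))).toAddSubgroup

theorem gam_mem_ZL {x : ι → ℝ} : x ∈ ZL ι ↔ ∃ z : ι → ℤ, rv z = x := by
  unfold ZL
  rw [Submodule.mem_toAddSubgroup, Module.Basis.mem_span_iff_repr_mem]
  constructor
  · intro h
    choose z hz using h
    exact ⟨z, funext fun i => by simpa [rv] using hz i⟩
  · rintro ⟨z, rfl⟩ i
    exact ⟨z i, by simp [rv]⟩

/-- the lattice point of an integer vector -/
def toZL (z : ι → ℤ) : ZL ι := ⟨rv z, gam_mem_ZL.2 ⟨z, rfl⟩⟩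

theorem gam_toZL_surjective : Function.Surjective (toZL : (ι → ℤ) → ZL ι) := by
  rintro ⟨x, hx⟩
  obtain ⟨z, rfl⟩ := gam_mem_ZL.1 hx
  exact ⟨z, rfl⟩

theorem gam_toZL_vadd (z : ι → ℤ) (x : ι → ℝ) : toZL z +ᵥ x = x + rv z := by
  rw [add_comm]; rfl

instance gam_countable_ZL : Countable (ZL ι) := gam_toZL_surjective.countable

/-- the box is a fundamental domain of the integer lattice -/
theorem gam_box_fund : IsAddFundamentalDomain (ZL ι) (box ι) volume := by
  have h := ZSpan.isAddFundamentalDomain' (Pi.basisFun ℝ ι) (volume : Measure (ι → ℝ))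
  rw [ZSpan.fundamentalDomain_pi_basisFun] at h
  exact h

/-- criterion for a fundamental domain of the integer lattice -/
theorem gam_fund_of {s : Set (ι → ℝ)} (hm : NullMeasurableSet s volume)
    (hcov : ∀ᵐ x, ∃ z : ι → ℤ, x + rv z ∈ s)
    (hdis : ∀ z : ι → ℤ, z ≠ 0 → volume {x | x ∈ s ∧ x + rv z ∈ s} = 0) :
    IsAddFundamentalDomain (ZL ι) s volume := by
  refine IsAddFundamentalDomain.mk'' hm ?_ ?_ ?_
  · filter_upwards [hcov] with x ⟨z, hz⟩
    exact ⟨toZL z, by rwa [gam_toZL_vadd]⟩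
  · intro g hg
    obtain ⟨z, rfl⟩ := gam_toZL_surjective g
    have hz : -z ≠ 0 := by
      intro h
      apply hg
      have : z = 0 := neg_eq_zero.1 h
      subst this
      exact Subtype.ext gam_rv_zero
    refine measure_mono_null ?_ (hdis (-z) hz)
    rintro x ⟨⟨y, hy, rfl⟩, hx⟩
    refine ⟨hx, ?_⟩
    show (toZL z +ᵥ y) + rv (-z) ∈ s
    rw [gam_toZL_vadd, gam_rv_neg]
    simpa using hy
  · intro g
    exact (measurePreserving_vadd g volume).quasiMeasurePreserving

/-- a periodic function has the same integral over every fundamental domain -/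
theorem gam_setIntegral_eq {s : Set (ι → ℝ)} (hs : IsAddFundamentalDomain (ZL ι) s volume)
    {f : (ι → ℝ) → ℝ} (hf : ∀ x z, f (x + rv z) = f x) :
    ∫ x in s, f x = ∫ x in box ι, f x := by
  refine hs.setIntegral_eq gam_box_fund fun g x => ?_
  obtain ⟨z, rfl⟩ := gam_toZL_surjective g
  rw [gam_toZL_vadd, hf]

theorem gam_lintegral_eq {s : Set (ι → ℝ)} (hs : IsAddFundamentalDomain (ZL ι) s volume)
    {f : (ι → ℝ) → ENNReal} (hf : ∀ x z, f (x + rv z) = f x) :
    ∫⁻ x in s, f x = ∫⁻ x in box ι, f x := by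
  refine hs.setLIntegral_eq gam_box_fund f fun g x => ?_
  obtain ⟨z, rfl⟩ := gam_toZL_surjective g
  rw [gam_toZL_vadd, hf]

/-- every fundamental domain has volume one -/
theorem gam_fund_volume {s : Set (ι → ℝ)} (hs : IsAddFundamentalDomain (ZL ι) s volume) :
    volume s = 1 := by
  rw [hs.measure_eq gam_box_fund, volume_box]

/-- translates of the box are fundamental domains -/
theorem gam_shift_fund {s : Set (ι → ℝ)} (hs : IsAddFundamentalDomain (ZL ι) s volume)
    (a : ι → ℝ) : IsAddFundamentalDomain (ZL ι) ((fun x => x + a) '' s) volume := by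
  refine hs.image_of_equiv (Equiv.addRight a) ?_ (Equiv.refl _) fun g x => ?_
  · exact (measurePreserving_add_right volume (-a)).quasiMeasurePreserving
  · obtain ⟨z, rfl⟩ := gam_toZL_surjective g
    simp only [Equiv.refl_apply, Equiv.coe_addRight, gam_toZL_vadd]
    abel

/-- the integral of a periodic function over the box is translation invariant -/
theorem integral_box_shift {f : (ι → ℝ) → ℝ} (hf : ∀ x z, f (x + rv z) = f x) (a : ι → ℝ) :
    ∫ x in box ι, f (x + a) = ∫ x in box ι, f x := by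
  rw [← gam_setIntegral_eq (gam_shift_fund gam_box_fund a) hf]
  exact ((measurePreserving_add_right volume a).setIntegral_image_emb
    (measurableEmbedding_addRight a) f (box ι)).symm

theorem Gam_integrable {T : Matrix ι ι ℝ} (hT : T.PosSemidef) :
    IntegrableOn (fun x => Real.exp (-dsq T x)) (box ι) := by
  refine Measure.integrableOn_of_bounded (M := 1) (by rw [volume_box]; simp) ?_ ?_
  · exact (Real.measurable_exp.comp (dsq_measurable T).neg).aestronglyMeasurable
  · refine Eventually.of_forall fun x => ?_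
    rw [Real.norm_eq_abs, abs_of_pos (Real.exp_pos _)]
    exact Real.exp_le_one_iff.2 (by linarith [dsq_nonneg hT x])

theorem Gam_near {T T' : Matrix ι ι ℝ} (hT : T.PosSemidef) (hT' : T'.PosSemidef) {η : ℝ}
    (hη : 0 ≤ η) (hle : ∀ x, qf T' x ≤ (1 + η) * qf T x) : Gam T - η ≤ Gam T' := by
  have hfin : volume (box ι) ≠ ⊤ := by rw [volume_box]; simp
  have hc : IntegrableOn (fun _ : ι → ℝ => η) (box ι) := integrableOn_const hfin
  have h1 : ∫ x in box ι, (Real.exp (-dsq T x) - η) = Gam T - η := by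
    rw [integral_sub (Gam_integrable hT) hc, setIntegral_const]
    simp [Measure.real, volume_box, Gam]
  rw [← h1]
  refine setIntegral_mono ((Gam_integrable hT).sub hc) (Gam_integrable hT') fun x => ?_
  have hd := dsq_mono hT' hT (by linarith : (0 : ℝ) ≤ 1 + η) hle x
  have h0 := dsq_nonneg hT x
  obtain ⟨d, hdd⟩ : ∃ d, d = dsq T x := ⟨_, rfl⟩
  show Real.exp (-dsq T x) - η ≤ Real.exp (-dsq T' x)
  rw [← hdd] at hd h0 ⊢
  have e1 : Real.exp (-((1 + η) * d)) ≤ Real.exp (-dsq T' x) := Real.exp_le_exp.2 (by linarith)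
  have e2 : Real.exp (-((1 + η) * d)) = Real.exp (-d) * Real.exp (-(η * d)) := by
    rw [← Real.exp_add]; congr 1; ring
  have e3 : 1 - η * d ≤ Real.exp (-(η * d)) := by
    have := Real.add_one_le_exp (-(η * d)); linarith
  have e4 : d * Real.exp (-d) ≤ 1 := by
    have h5 : d + 1 ≤ Real.exp d := Real.add_one_le_exp d
    have h6 : Real.exp d * Real.exp (-d) = 1 := by rw [← Real.exp_add]; simp
    have h7 := Real.exp_pos (-d)
    nlinarith
  have e5 := Real.exp_pos (-d)
  have e6 : Real.exp (-d) * (1 - η * d) ≤ Real.exp (-d) * Real.exp (-(η * d)) :=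
    mul_le_mul_of_nonneg_left e3 e5.le
  have e7 : η * (d * Real.exp (-d)) ≤ η * 1 := mul_le_mul_of_nonneg_left e4 hη
  nlinarith

theorem Gam_continuousOn {u : ℝ} (hu : 0 < u) :
    ContinuousOn (fun S : Matrix ι ι ℝ => Gam (u • S⁻¹)) {S | S.PosDef} := by
  intro S₀ hS₀
  have hpd : ∀ S : Matrix ι ι ℝ, S.PosDef → (u • S⁻¹).PosDef := fun S hS => hS.inv.smul hu
  have hinv : ContinuousAt (fun S : Matrix ι ι ℝ => u • S⁻¹) S₀ := by
    have h1 : ContinuousAt (fun S : Matrix ι ι ℝ => S⁻¹) S₀ := by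
      refine continuousAt_matrix_inv S₀ ?_
      have hd : S₀.det ≠ 0 := (Matrix.PosDef.det_pos hS₀).ne'
      rw [Ring.inverse_eq_inv']
      exact continuousAt_inv₀ hd
    exact h1.const_smul u
  rw [ContinuousWithinAt, Metric.tendsto_nhds]
  intro ε hε
  have hnear := hinv.eventually (qf_near (hpd S₀ hS₀) (half_pos hε))
  filter_upwards [nhdsWithin_le_nhds hnear, self_mem_nhdsWithin] with S hS hSp
  have a1 := Gam_near (hpd S₀ hS₀).posSemidef (hpd S hSp).posSemidef (half_pos hε).le
    fun x => (hS x).1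
  have a2 := Gam_near (hpd S hSp).posSemidef (hpd S₀ hS₀).posSemidef (half_pos hε).le
    fun x => (hS x).2
  rw [Real.dist_eq, abs_lt]
  constructor <;> linarith

theorem Gam_empty [IsEmpty ι] (T : Matrix ι ι ℝ) : Gam T = 1 := by
  have h : ∀ x, dsq T x = 0 := by
    intro x
    unfold dsq qf
    simp [dotProduct]
  unfold Gam
  simp [h, Measure.real, volume_box]

end Crest.Agent.R152
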