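import Crest.Agent.R152.WAlg

/-! # Row 152: second order Taylor bound (auxiliary lemmas for `alg_semiconvex`) -/

set_option autoImplicit false
set_option linter.unusedSectionVars false
set_option linter.unusedVariables false

open MeasureTheory Set Matrix Filter Topology

noncomputable section

namespace Crest.Agent.R152

variable {ι : Type} [Fintype ι] [DecidableEq ι]

variable {V : Set (ι → ℝ)}

theorem sc_fderiv_space (F : ℝ × (ι → ℝ) → ℝ) (p : ℝ × (ι → ℝ)) (d : ι → ℝ) :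
    fderiv ℝ F p (0, d) = ∑ i, dy i F p * d i := by
  have h : ((0 : ℝ), d) = ∑ i, d i • (((0 : ℝ), (Pi.single i 1 : ι → ℝ)) : ℝ × (ι → ℝ)) := by
    ext j
    · simp [Prod.fst_sum]
    · simp [Prod.snd_sum, Finset.sum_apply, Pi.single_apply]
  rw [h, map_sum]
  refine Finset.sum_congr rfl fun i _ => ?_
  rw [map_smul, smul_eq_mul, mul_comm]
  rfl

theorem sc_line {F : ℝ × (ι → ℝ) → ℝ} (hF : Differentiable ℝ F) (s : ℝ) (y d : ι → ℝ) (t : ℝ) :
    HasDerivAt (fun t : ℝ => F (s, y + t • d)) (∑ i, dy i F (s, y + t • d) * d i) t := by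
  have h1 : HasDerivAt (fun t : ℝ => ((s, y + t • d) : ℝ × (ι → ℝ))) ((0 : ℝ), d) t := by
    refine HasDerivAt.prodMk (hasDerivAt_const t s) ?_
    simpa using ((hasDerivAt_id t).smul_const d).const_add y
  have h2 := (hF (s, y + t • d)).hasFDerivAt.comp_hasDerivAt t h1
  rw [sc_fderiv_space] at h2
  exact h2

theorem sc_taylor {φ φ' φ'' : ℝ → ℝ} {K : ℝ} (hK : 0 ≤ K) (h1 : ∀ t, HasDerivAt φ (φ' t) t)
    (h2 : ∀ t, HasDerivAt φ' (φ'' t) t) (h3 : ∀ t, -K ≤ φ'' t) :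
    φ 0 + φ' 0 - K ≤ φ 1 := by
  obtain ⟨c, hc, hc'⟩ := exists_hasDerivAt_eq_slope φ φ' (zero_lt_one' ℝ)
    (fun t _ => (h1 t).continuousAt.continuousWithinAt) (fun t _ => h1 t)
  obtain ⟨e, he, he'⟩ := exists_hasDerivAt_eq_slope φ' φ'' hc.1
    (fun t _ => (h2 t).continuousAt.continuousWithinAt) (fun t _ => h2 t)
  have hc0 : 0 < c := hc.1
  have hc1 : c < 1 := hc.2
  have h4 : φ' c - φ' 0 = c * φ'' e := by
    rw [he', sub_zero, mul_div_cancel₀ _ hc0.ne']
  have h5 : φ 1 - φ 0 = φ' c := by rw [hc']; ring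
  have h6 := h3 e
  nlinarith

theorem sc_main (hV : Body V) {F : ℝ × (ι → ℝ) → ℝ} (hF : Alg V F) :
    ∃ M : ℝ, 0 ≤ M ∧ ∀ (s : ℝ) (y y' : ι → ℝ),
      F (s, y) + ∑ i, dy i F (s, y) * (y' i - y i) - M * ∑ i, (y' i - y i) ^ 2 ≤ F (s, y') := by
  choose B hB using fun (q : ι × ι) => alg_bdd hV (alg_dy hV (alg_dy hV hF q.1) q.2)
  have hB0 : ∀ q, 0 ≤ B q := fun q => (abs_nonneg _).trans (hB q (0, 0))
  refine ⟨∑ q, B q, Finset.sum_nonneg fun q _ => hB0 q, fun s y y' => ?_⟩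
  set d : ι → ℝ := y' - y with hd
  have hS : 0 ≤ ∑ i, d i ^ 2 := Finset.sum_nonneg fun i _ => sq_nonneg _
  have h1 := sc_line (alg_differentiable hV hF) s y d
  have h2 : ∀ t : ℝ, HasDerivAt (fun t : ℝ => ∑ i, dy i F (s, y + t • d) * d i)
      (∑ i, (∑ j, dy j (dy i F) (s, y + t • d) * d j) * d i) t := fun t =>
    HasDerivAt.fun_sum fun i _ =>
      (sc_line (alg_differentiable hV (alg_dy hV hF i)) s y d t).mul_const (d i)
  have h3 : ∀ t : ℝ, -((∑ q, B q) * ∑ i, d i ^ 2) ≤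
      ∑ i, (∑ j, dy j (dy i F) (s, y + t • d) * d j) * d i := by
    intro t
    rw [Finset.sum_mul, ← Finset.sum_neg_distrib, Fintype.sum_prod_type]
    refine Finset.sum_le_sum fun i _ => ?_
    rw [Finset.sum_mul]
    refine Finset.sum_le_sum fun j _ => ?_
    have hb := hB (i, j) (s, y + t • d)
    have hi : d i ^ 2 ≤ ∑ k, d k ^ 2 :=
      Finset.single_le_sum (f := fun k => d k ^ 2) (fun k _ => sq_nonneg _) (Finset.mem_univ i)
    have hj : d j ^ 2 ≤ ∑ k, d k ^ 2 :=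
      Finset.single_le_sum (f := fun k => d k ^ 2) (fun k _ => sq_nonneg _) (Finset.mem_univ j)
    have hij : |d j * d i| ≤ ∑ k, d k ^ 2 := by
      rw [abs_le]; constructor <;> nlinarith [sq_nonneg (d i + d j), sq_nonneg (d i - d j)]
    have : |dy j (dy i F) (s, y + t • d) * d j * d i| ≤ B (i, j) * ∑ k, d k ^ 2 := by
      rw [mul_assoc, abs_mul]
      exact mul_le_mul hb hij (abs_nonneg _) (hB0 _)
    exact (abs_le.1 this).1
  have h4 := sc_taylor (mul_nonneg (Finset.sum_nonneg fun q _ => hB0 q) hS) h1 h2 h3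
  have e1 : y + d = y' := by rw [hd]; abel
  simpa [e1, hd] using h4

end Crest.Agent.R152
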