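import Crest.Agent.R152.WAlg
import Crest.Agent.R152.WGenAux1

/-! # Row 152: calculus of the generator -/

set_option autoImplicit false
set_option linter.unusedSectionVars false
set_option linter.unusedVariables false

open MeasureTheory Set Matrix Filter Topology

noncomputable section

namespace Crest.Agent.R152

variable {ι : Type} [Fintype ι] [DecidableEq ι]

variable {V : Set (ι → ℝ)}

theorem wg_D_add {F G : ℝ × (ι → ℝ) → ℝ} (hF : Differentiable ℝ F) (hG : Differentiable ℝ G)
    (p v : ℝ × (ι → ℝ)) :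
    fderiv ℝ (fun p => F p + G p) p v = fderiv ℝ F p v + fderiv ℝ G p v := by
  rw [fderiv_fun_add (hF p) (hG p), _root_.add_apply]

theorem wg_D_sub {F G : ℝ × (ι → ℝ) → ℝ} (hF : Differentiable ℝ F) (hG : Differentiable ℝ G)
    (p v : ℝ × (ι → ℝ)) :
    fderiv ℝ (fun p => F p - G p) p v = fderiv ℝ F p v - fderiv ℝ G p v := by
  rw [fderiv_fun_sub (hF p) (hG p), _root_.sub_apply]

theorem wg_D_mul {F G : ℝ × (ι → ℝ) → ℝ} (hF : Differentiable ℝ F) (hG : Differentiable ℝ G)
    (p v : ℝ × (ι → ℝ)) :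
    fderiv ℝ (fun p => F p * G p) p v = F p * fderiv ℝ G p v + G p * fderiv ℝ F p v := by
  rw [fderiv_fun_mul (hF p) (hG p)]
  rfl

theorem wg_dy_add (hV : Body V) {F G : ℝ × (ι → ℝ) → ℝ} (hF : Alg V F) (hG : Alg V G) (i : ι)
    (p : ℝ × (ι → ℝ)) : dy i (fun p => F p + G p) p = dy i F p + dy i G p :=
  wg_D_add (alg_differentiable hV hF) (alg_differentiable hV hG) _ _

theorem wg_dy_sub (hV : Body V) {F G : ℝ × (ι → ℝ) → ℝ} (hF : Alg V F) (hG : Alg V G) (i : ι)
    (p : ℝ × (ι → ℝ)) : dy i (fun p => F p - G p) p = dy i F p - dy i G p :=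
  wg_D_sub (alg_differentiable hV hF) (alg_differentiable hV hG) _ _

theorem dy_mul (hV : Body V) {F G : ℝ × (ι → ℝ) → ℝ} (hF : Alg V F) (hG : Alg V G) (i : ι)
    (p : ℝ × (ι → ℝ)) : dy i (fun p => F p * G p) p = F p * dy i G p + G p * dy i F p :=
  wg_D_mul (alg_differentiable hV hF) (alg_differentiable hV hG) _ _

theorem LL_post (hV : Body V) {h : (ι → ℝ) → ℝ} (hh : Continuous h) (p : ℝ × (ι → ℝ)) :
    LL V (post V h) p = 0 := by
  have hc : ∀ i : ι, Continuous fun x : ι → ℝ => x i := fun i => continuous_apply i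
  have hc1 : ∀ i : ι, Continuous fun x : ι → ℝ => h x * x i := fun i => hh.mul (hc i)
  have hc2 : ∀ i : ι, Continuous fun x : ι → ℝ => h x * x i * x i := fun i => (hc1 i).mul (hc i)
  have h1 : ∀ i, dy i (dy i (post V h)) p =
      post V (fun x => h x * x i * x i) p - post V h p * post V (fun x => x i * x i) p -
        2 * (post V (fun x => x i) p * dy i (post V h) p) := by
    intro i
    have e : dy i (post V h) = fun p => post V (fun x => h x * x i) p -
        post V h p * post V (fun x => x i) p := funext (dy_post hV hh i)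
    conv_lhs => rw [e]
    rw [wg_dy_sub hV (Alg.post _ (hc1 i)) ((Alg.post _ hh).mul (Alg.post _ (hc i))),
      dy_mul hV (Alg.post _ hh) (Alg.post _ (hc i)), dy_post hV (hc1 i),
      dy_post hV (hc i), dy_post hV hh]
    ring
  have h2 : post V (fun x => h x * (x ⬝ᵥ x)) p = ∑ i, post V (fun x => h x * x i * x i) p := by
    rw [← post_sum hV Finset.univ hc2]
    simp only [dotProduct, Finset.mul_sum, mul_assoc]
  have h3 : post V (fun x => x ⬝ᵥ x) p = ∑ i, post V (fun x => x i * x i) p :=
    post_sum hV Finset.univ (fun i => (hc i).mul (hc i)) p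
  change ds (post V h) p + ∑ i, post V (fun x => x i) p * dy i (post V h) p +
    (1 / 2) * ∑ i, dy i (dy i (post V h)) p = 0
  rw [ds_post hV hh, h2, h3]
  simp only [h1, Finset.sum_sub_distrib, ← Finset.mul_sum]
  ring

theorem LL_add (hV : Body V) {F G : ℝ × (ι → ℝ) → ℝ} (hF : Alg V F) (hG : Alg V G)
    (p : ℝ × (ι → ℝ)) : LL V (fun p => F p + G p) p = LL V F p + LL V G p := by
  have h0 : ds (fun p => F p + G p) p = ds F p + ds G p :=
    wg_D_add (alg_differentiable hV hF) (alg_differentiable hV hG) _ _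
  have h1 : ∀ i, dy i (fun p => F p + G p) = fun p => dy i F p + dy i G p := fun i =>
    funext (wg_dy_add hV hF hG i)
  have h2 : ∀ i, dy i (fun p => dy i F p + dy i G p) p = dy i (dy i F) p + dy i (dy i G) p :=
    fun i => wg_dy_add hV (alg_dy hV hF i) (alg_dy hV hG i) i p
  simp only [LL, h0, h1, h2, mul_add, Finset.sum_add_distrib]
  ring

theorem LL_sub (hV : Body V) {F G : ℝ × (ι → ℝ) → ℝ} (hF : Alg V F) (hG : Alg V G)
    (p : ℝ × (ι → ℝ)) : LL V (fun p => F p - G p) p = LL V F p - LL V G p := by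
  have h := LL_add hV (alg_sub hF hG) hG p
  simp only [sub_add_cancel] at h
  exact eq_sub_of_add_eq h.symm

theorem LL_sum (hV : Body V) {κ : Type} (s : Finset κ) {F : κ → ℝ × (ι → ℝ) → ℝ}
    (hF : ∀ a, Alg V (F a)) (p : ℝ × (ι → ℝ)) :
    LL V (fun p => ∑ a ∈ s, F a p) p = ∑ a ∈ s, LL V (F a) p := by
  classical
  induction s using Finset.induction_on with
  | empty =>
    have h := LL_sub hV (alg_const hV 0) (alg_const hV 0) p
    simp only [sub_self] at h
    simpa only [Finset.sum_empty] using h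
  | insert a s ha ih =>
    simp only [Finset.sum_insert ha]
    rw [LL_add hV (hF a) (alg_sum hV s hF), ih]

theorem LL_mul (hV : Body V) {F G : ℝ × (ι → ℝ) → ℝ} (hF : Alg V F) (hG : Alg V G)
    (p : ℝ × (ι → ℝ)) : LL V (fun p => F p * G p) p =
      F p * LL V G p + G p * LL V F p + ∑ i, dy i F p * dy i G p := by
  have h0 : ds (fun p => F p * G p) p = F p * ds G p + G p * ds F p :=
    wg_D_mul (alg_differentiable hV hF) (alg_differentiable hV hG) _ _
  have h1 : ∀ i, dy i (fun p => F p * G p) = fun p => F p * dy i G p + G p * dy i F p := fun i =>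
    funext (dy_mul hV hF hG i)
  have h2 : ∀ i, dy i (fun p => F p * dy i G p + G p * dy i F p) p =
      F p * dy i (dy i G) p + G p * dy i (dy i F) p + 2 * (dy i F p * dy i G p) := fun i => by
    rw [wg_dy_add hV (hF.mul (alg_dy hV hG i)) (hG.mul (alg_dy hV hF i)),
      dy_mul hV hF (alg_dy hV hG i), dy_mul hV hG (alg_dy hV hF i)]
    ring
  have h3 : ∀ i, post V (fun x => x i) p * (F p * dy i G p + G p * dy i F p) =
      F p * (post V (fun x => x i) p * dy i G p) + G p * (post V (fun x => x i) p * dy i F p) :=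
    fun i => by ring
  simp only [LL, h0, h1, h2, h3, Finset.sum_add_distrib, ← Finset.mul_sum]
  ring

/-- second order Taylor bound in the space variable (all partial derivatives of `dy i F` are
bounded, so the space gradient is Lipschitz) -/
theorem alg_semiconvex (hV : Body V) {F : ℝ × (ι → ℝ) → ℝ} (hF : Alg V F) :
    ∃ M : ℝ, 0 ≤ M ∧ ∀ (s : ℝ) (y y' : ι → ℝ),
      F (s, y) + ∑ i, dy i F (s, y) * (y' i - y i) - M * ∑ i, (y' i - y i) ^ 2 ≤ F (s, y') :=
  sc_main hV hF

end Crest.Agent.R152
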