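import Crest.Agent.R152.WHerm
import Crest.Agent.R152.WBlk

/-! # Row 152: block inverses for the boundary step -/

set_option autoImplicit false
set_option linter.unusedSectionVars false
set_option linter.unusedVariables false

open MeasureTheory Set Matrix Filter Topology

noncomputable section

namespace Crest.Agent.R152

variable {ι : Type} [Fintype ι] [DecidableEq ι]

theorem WIndB_inv {κ : Type} [Fintype κ] [DecidableEq κ] {A A' : Matrix ι ι ℝ}
    {B B' : Matrix ι κ ℝ} {C C' : Matrix κ ι ℝ} {D D' : Matrix κ κ ℝ} {u : ℝ}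
    (hA : IsUnit A.det) (hD : IsUnit D'.det) (hE : IsUnit (D - C * A⁻¹ * B).det)
    (h : fromBlocks A B C D * fromBlocks A' B' C' D' = u • (1 : Matrix (ι ⊕ κ) (ι ⊕ κ) ℝ)) :
    A' - B' * D'⁻¹ * C' = u • A⁻¹ ∧ D' = u • (D - C * A⁻¹ * B)⁻¹ := by
  rw [fromBlocks_multiply, ← fromBlocks_one, fromBlocks_smul, fromBlocks_inj] at h
  obtain ⟨h1, h2, h3, h4⟩ := h
  rw [smul_zero] at h2
  have e : B' = -(A⁻¹ * (B * D')) := by
    rw [← neg_eq_of_add_eq_zero_right h2, Matrix.mul_neg, neg_neg,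
      nonsing_inv_mul_cancel_left _ _ hA]
  constructor
  · rw [← nonsing_inv_mul_cancel_left _ (A' - B' * D'⁻¹ * C') hA, Matrix.mul_sub,
      Matrix.mul_assoc B', ← Matrix.mul_assoc A B', eq_neg_of_add_eq_zero_left h2, Matrix.neg_mul,
      Matrix.mul_assoc B, mul_nonsing_inv_cancel_left _ _ hD, sub_neg_eq_add, h1, Matrix.mul_smul,
      Matrix.mul_one]
  · have e2 : (D - C * A⁻¹ * B) * D' = u • 1 := by
      rw [← h4, e, Matrix.sub_mul, Matrix.mul_neg, Matrix.mul_assoc, Matrix.mul_assoc,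
        neg_add_eq_sub]
    rw [← nonsing_inv_mul_cancel_left _ D' hE, e2, Matrix.mul_smul, Matrix.mul_one]

theorem WIndB_blocks {κ : Type} {S : Matrix (ι ⊕ κ) (ι ⊕ κ) ℝ} (hS : S.IsHermitian) :
    ∃ A B D, S = fromBlocks A B Bᵀ D := by
  refine ⟨S.toBlocks₁₁, S.toBlocks₁₂, S.toBlocks₂₂, ?_⟩
  ext (i | i) (j | j)
  · rfl
  · rfl
  · exact (hS.apply _ _).symm
  · rfl

theorem WIndB_block {κ : Type} [Fintype κ] [DecidableEq κ] {A : Matrix ι ι ℝ} {B : Matrix ι κ ℝ}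
    {D : Matrix κ κ ℝ} (hS : (fromBlocks A B Bᵀ D).PosDef) (hA : IsUnit A.det)
    (hE : IsUnit (D - Bᵀ * A⁻¹ * B).det) {u : ℝ} (hu : 0 < u) :
    Gam (u • A⁻¹) * Gam (u • (D - Bᵀ * A⁻¹ * B)⁻¹) ≤ Gam (u • (fromBlocks A B Bᵀ D)⁻¹) := by
  have hT : (u • (fromBlocks A B Bᵀ D)⁻¹).PosDef := hS.inv.smul hu
  obtain ⟨A', B', D', e⟩ := WIndB_blocks hT.1
  have hD : D'.PosDef := by
    have := hT.submatrix Sum.inr_injective
    rwa [e] at this
  obtain ⟨e1, e2⟩ := WIndB_inv (A' := A') (B' := B') (C' := B'ᵀ) (u := u) hA hD.det_pos.ne'.isUnit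
    hE (by rw [← e, Matrix.mul_smul, mul_nonsing_inv _ hS.det_pos.ne'.isUnit])
  rw [← e1, ← e2, e]
  exact Gam_block _ _ _ (e ▸ hT)

end Crest.Agent.R152
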