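import Crest.Agent.R152.WDefs
import Crest.Agent.Lib.PrekopaLeindler.Basic
import Crest.Agent.R203.SymMain

/-! # Row 152: Prékopa–Leindler, Anderson and Mahler on a general index type -/

set_option autoImplicit false
set_option linter.unusedSectionVars false
set_option linter.unusedVariables false

open MeasureTheory Set Matrix Filter Topology

noncomputable section

namespace Crest.Agent.R152

variable {ι : Type} [Fintype ι] [DecidableEq ι]

open Crest.Agent.Lib.PrekopaLeindler

/-- reindexing of coordinates as a measurable equivalence -/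
def WPL_re {κ : Type} (e : ι ≃ κ) : (κ → ℝ) ≃ᵐ (ι → ℝ) :=
  (MeasurableEquiv.piCongrLeft (fun _ : κ => ℝ) e).symm

lemma WPL_re_apply {κ : Type} (e : ι ≃ κ) (y : κ → ℝ) (i : ι) : WPL_re e y i = y (e i) := rfl

lemma WPL_re_mp {κ : Type} [Fintype κ] (e : ι ≃ κ) : MeasurePreserving (WPL_re e) volume volume :=
  (volume_measurePreserving_piCongrLeft (fun _ : κ => ℝ) e).symm _

/-- `plProp_pi` transported to an arbitrary finite index type -/
theorem plProp_iota : PLProp (volume : Measure (ι → ℝ)) (fun x y => fun i => (x i + y i) / 2) := by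
  exact PLProp.of_measurableEquiv (WPL_re (Fintype.equivFin ι).symm)
    (WPL_re_mp (Fintype.equivFin ι).symm) (fun _ _ => rfl) (plProp_pi _)

lemma WPL_qf_cont (T : Matrix ι ι ℝ) : Continuous (qf T) := by
  unfold qf
  fun_prop

lemma WPL_qf_neg (T : Matrix ι ι ℝ) (x : ι → ℝ) : qf T (-x) = qf T x := by
  simp [qf, Matrix.mulVec_neg]

lemma WPL_qf_mid {T : Matrix ι ι ℝ} (hT : T.PosSemidef) (u v : ι → ℝ) :
    2 * qf T ((2 : ℝ)⁻¹ • (u + v)) ≤ qf T u + qf T v := by
  have h := hT.dotProduct_mulVec_nonneg (u - v)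
  simp only [star_trivial, Matrix.mulVec_sub, sub_dotProduct, dotProduct_sub] at h
  simp only [qf, Matrix.mulVec_smul, Matrix.mulVec_add, smul_dotProduct, dotProduct_smul,
    add_dotProduct, dotProduct_add, smul_eq_mul]
  linarith

lemma WPL_lint {V : Set (ι → ℝ)} (hV : IsCompact V) {f : (ι → ℝ) → ℝ} (hf : Continuous f) :
    ∫⁻ x, V.indicator (fun x => ENNReal.ofReal (Real.exp (f x))) x =
      ENNReal.ofReal (∫ x in V, Real.exp (f x)) := by
  rw [lintegral_indicator hV.measurableSet, ofReal_integral_eq_lintegral_ofReal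
    (f := fun x => Real.exp (f x)) (hf.rexp.continuousOn.integrableOn_compact hV)
    (Eventually.of_forall fun x => (Real.exp_pos _).le)]

/-- Anderson's inequality for a Gaussian weight (midpoint Prékopa–Leindler applied to
`1_V(x) exp(-q(x-a))`, `1_V(y) exp(-q(y+a))`, `1_V(m) exp(-q(m))`). -/
theorem anderson {V : Set (ι → ℝ)} (hV : Body V) {T : Matrix ι ι ℝ} (hT : T.PosSemidef) (a : ι → ℝ) :
    ∫ x in V, Real.exp (-qf T (x - a)) ≤ Zf V T := by
  have hq := WPL_qf_cont T
  have hm : ∀ f : (ι → ℝ) → ℝ, Continuous f →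
      Measurable (V.indicator fun x => ENNReal.ofReal (Real.exp (f x))) := fun f hf =>
    (Real.continuous_exp.comp hf).measurable.ennreal_ofReal.indicator hV.cpt.measurableSet
  have c1 : Continuous fun x : ι → ℝ => -qf T (x - a) := by fun_prop
  have c2 : Continuous fun x : ι → ℝ => -qf T (x + a) := by fun_prop
  have c3 : Continuous fun x : ι → ℝ => -qf T x := by fun_prop
  have h := plProp_iota (ι := ι) _ _ _ (hm _ c1) (hm _ c2) (hm _ c3) (fun x y => by
    by_cases hx : x ∈ V
    swap
    · simp [hx]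
    by_cases hy : y ∈ V
    swap
    · simp [hy]
    have e1 : (fun i => (x i + y i) / 2) = (2 : ℝ)⁻¹ • ((x - a) + (y + a)) := by
      funext i; simp; ring
    have e2 : (fun i => (x i + y i) / 2) ∈ V := by
      have := hV.cvx hx hy (a := 1 / 2) (b := 1 / 2) (by norm_num) (by norm_num) (by norm_num)
      convert this using 1
      funext i; simp; ring
    rw [indicator_of_mem hx, indicator_of_mem hy, indicator_of_mem e2,
      ← ENNReal.ofReal_mul (Real.exp_pos _).le, ← ENNReal.ofReal_pow (Real.exp_pos _).le,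
      ← Real.exp_add, ← Real.exp_nat_mul, e1]
    refine ENNReal.ofReal_le_ofReal (Real.exp_le_exp.2 ?_)
    have := WPL_qf_mid hT (x - a) (y + a)
    push_cast
    linarith)
  have hsym : ∫ x in V, Real.exp (-qf T (x + a)) = ∫ x in V, Real.exp (-qf T (x - a)) := by
    rw [← integral_indicator hV.cpt.measurableSet, ← integral_indicator hV.cpt.measurableSet,
      ← integral_neg_eq_self]
    congr 1; funext x
    by_cases hx : x ∈ V
    · rw [indicator_of_mem hx, indicator_of_mem (hV.sym x hx), ← WPL_qf_neg]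
      congr 3; abel
    · rw [indicator_of_notMem hx, indicator_of_notMem]
      intro h'
      exact hx (by simpa using hV.sym _ h')
  have n1 : 0 ≤ ∫ x in V, Real.exp (-qf T (x - a)) := integral_nonneg fun x => (Real.exp_pos _).le
  have n3 : 0 ≤ Zf V T := integral_nonneg fun x => (Real.exp_pos _).le
  rw [WPL_lint hV.cpt c1, WPL_lint hV.cpt c2, WPL_lint hV.cpt c3, hsym, ← ENNReal.ofReal_mul n1,
    ← ENNReal.ofReal_pow (p := ∫ x in V, Real.exp (-qf T x)) n3,
    ENNReal.ofReal_le_ofReal_iff (sq_nonneg _), ← sq] at h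
  exact (pow_le_pow_iff_left₀ n1 n3 two_ne_zero).1 h

/-- `R203.sym_ineq` transported to an arbitrary finite index type -/
theorem mahler {V : Set (ι → ℝ)} (hV : Body V) :
    (4 : ℝ) ^ Fintype.card ι / (Nat.factorial (Fintype.card ι) : ℝ) ≤
      (volume V).toReal * (volume {y : ι → ℝ | ∀ x ∈ V, x ⬝ᵥ y ≤ 1}).toReal := by
  set e := Fintype.equivFin ι
  let r : (Fin (Fintype.card ι) → ℝ) ≃L[ℝ] (ι → ℝ) :=
    (LinearEquiv.funCongrLeft ℝ ℝ e).toContinuousLinearEquiv
  have hr : ⇑r = WPL_re e := rfl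
  have hdot : ∀ x y, r x ⬝ᵥ r y = x ⬝ᵥ y := fun x y =>
    Equiv.sum_comp e fun i => x i * y i
  have h := Crest.Agent.R203.sym_ineq (K := r ⁻¹' V) (r.toHomeomorph.isCompact_preimage.2 hV.cpt)
    (hV.cvx.linear_preimage r.toLinearMap) (by
      obtain ⟨x, hx⟩ := hV.int
      refine ⟨r.symm x, ?_⟩
      have := r.toHomeomorph.preimage_interior V
      simp only [ContinuousLinearEquiv.coe_toHomeomorph] at this
      rw [← this]
      simpa using hx)
    (fun x hx => by simpa using hV.sym _ hx)
  have hp : Crest.GeometryTopology.VolumeProduct.polarSet (r ⁻¹' V) =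
      r ⁻¹' {y : ι → ℝ | ∀ x ∈ V, x ⬝ᵥ y ≤ 1} := by
    ext y
    refine ⟨fun hy x hx => ?_, fun hy x hx => ?_⟩
    · have := hy (r.symm x) (by simpa using hx)
      rwa [← hdot, r.apply_symm_apply] at this
    · rw [← hdot]
      exact hy _ hx
  rwa [hp, hr, (WPL_re_mp e).measure_preimage_equiv, (WPL_re_mp e).measure_preimage_equiv] at h

end Crest.Agent.R152
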