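import Crest.Agent.R152.WKlA
import Crest.Agent.R152.WPL
import Crest.Agent.R152.WForm

/-! # Row 152: a good Gaussian position of a symmetric convex body (Klartag's tilt) -/

set_option autoImplicit false
set_option linter.unusedSectionVars false
set_option linter.unusedVariables false

open MeasureTheory Set Matrix Filter Topology
open scoped Pointwise

noncomputable section

namespace Crest.Agent.R152

variable {ι : Type} [Fintype ι] [DecidableEq ι]

variable {V : Set (ι → ℝ)}

/-- area formula (`lintegral_abs_det_fderiv_le_addHaar_image`) on `r V°` and `mahler` -/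
theorem exists_tilt (hV : Body V) (hvol : volume V = 1) {r : ℝ} (hr : 0 < r) :
    ∃ ξ : ι → ℝ, (∀ x ∈ V, |ξ ⬝ᵥ x| ≤ r) ∧
      (cov V ξ).det * (r ^ Fintype.card ι * (4 ^ Fintype.card ι / (Nat.factorial (Fintype.card ι) : ℝ))) ≤ 1 := by
  have hm := mahler hV
  rw [hvol, ENNReal.toReal_one, one_mul] at hm
  set P : Set (ι → ℝ) := {y | ∀ x ∈ V, x ⬝ᵥ y ≤ 1} with hP
  have hc : (0 : ℝ) < 4 ^ Fintype.card ι / (Nat.factorial (Fintype.card ι) : ℝ) := by positivity
  have hPc : IsClosed P := by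
    have : P = ⋂ x ∈ V, {y | x ⬝ᵥ y ≤ 1} := by
      ext y
      simp [hP]
    rw [this]
    exact isClosed_biInter fun x _ => isClosed_le (by fun_prop) continuous_const
  have hK : MeasurableSet (r • P) := (hPc.smul_of_ne_zero hr.ne').measurableSet
  have hKv : (volume (r • P)).toReal = r ^ Fintype.card ι * (volume P).toReal := by
    rw [Measure.addHaar_smul, ENNReal.toReal_mul, ENNReal.toReal_ofReal (abs_nonneg _),
      Module.finrank_fintype_fun_eq_card, abs_of_pos (pow_pos hr _)]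
  have hK0 : 0 < (volume (r • P)).toReal := by
    rw [hKv]
    exact mul_pos (pow_pos hr _) (hc.trans_le hm)
  obtain ⟨hK1, hK2⟩ := ENNReal.toReal_pos_iff.1 hK0
  have h1 := lintegral_abs_det_fderiv_le_addHaar_image volume hK
    (fun ξ _ => (bar_hasFDerivAt hV ξ).hasFDerivWithinAt) (bar_injective hV).injOn
  have h2 : volume (bar V '' (r • P)) ≤ 1 := by
    rw [← hvol]
    refine measure_mono ?_
    rintro _ ⟨ξ, -, rfl⟩
    exact bar_mem hV ξ
  simp only [LinearMap.det_toContinuousLinearMap, LinearMap.det_toLin'] at h1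
  have hme : Measurable fun ξ => ENNReal.ofReal |(cov V ξ).det| :=
    ((cov_continuous hV).matrix_det.abs).measurable.ennreal_ofReal
  obtain ⟨ξ, hξ, h3⟩ := exists_le_setLAverage hK1.ne' hK2.ne hme.aemeasurable
  rw [setLAverage_eq] at h3
  have h4 : ENNReal.ofReal |(cov V ξ).det| * volume (r • P) ≤ 1 :=
    (ENNReal.mul_le_of_le_div h3).trans (h1.trans h2)
  have h5 := ENNReal.toReal_mono ENNReal.one_ne_top h4
  have hd := (cov_posDef hV ξ).det_pos
  rw [ENNReal.toReal_mul, ENNReal.toReal_ofReal (abs_nonneg _), abs_of_pos hd, hKv,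
    ENNReal.toReal_one] at h5
  refine ⟨ξ, fun x hx => ?_, le_trans ?_ h5⟩
  · obtain ⟨y, hy, rfl⟩ := hξ
    have a1 := hy x hx
    have a2 := hy _ (hV.sym x hx)
    rw [neg_dotProduct] at a2
    show |(r • y) ⬝ᵥ x| ≤ r
    rw [smul_dotProduct, dotProduct_comm, smul_eq_mul, abs_le]
    constructor <;> nlinarith
  · exact mul_le_mul_of_nonneg_left (mul_le_mul_of_nonneg_left hm (pow_pos hr _).le) hd.le

/-- Jensen for the tilted measure and the density ratio -/
theorem WKlB_jensen (hV : Body V) (hvol : volume V = 1) {r m : ℝ} {ξ : ι → ℝ}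
    (hξ : ∀ x ∈ V, |ξ ⬝ᵥ x| ≤ r) {q : (ι → ℝ) → ℝ} (hq : Continuous q)
    (hm : Lap V q ξ / Lap V (fun _ => 1) ξ = m) :
    Real.exp (-(2 * r + m)) ≤ ∫ x in V, Real.exp (-q x) := by
  have hL := Lap_one_pos hV ξ
  rw [div_eq_iff hL.ne'] at hm
  have hw : Continuous fun x : ι → ℝ => Real.exp (ξ ⬝ᵥ x) := by fun_prop
  have hI : ∀ {f : (ι → ℝ) → ℝ}, Continuous f → IntegrableOn f V volume := fun hf =>
    hf.continuousOn.integrableOn_compact hV.cpt
  have i1 : IntegrableOn (fun x : ι → ℝ => 1 * Real.exp (ξ ⬝ᵥ x)) V volume :=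
    hI (continuous_const.mul hw)
  have i2 : IntegrableOn (fun x : ι → ℝ => q x * Real.exp (ξ ⬝ᵥ x)) V volume := hI (hq.mul hw)
  have h1 : Real.exp (-r) ≤ Lap V (fun _ => 1) ξ := by
    have : ∫ _ in V, Real.exp (-r) = Real.exp (-r) := by
      rw [setIntegral_const, measureReal_def, hvol, ENNReal.toReal_one, one_smul]
    rw [← this]
    refine setIntegral_mono_on (hI continuous_const) i1 hV.cpt.measurableSet fun x hx => ?_
    rw [one_mul]
    exact Real.exp_le_exp.2 (abs_le.1 (hξ x hx)).1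
  have h2 : ∫ x in V, Real.exp (-(r + m)) * ((1 + m) * (1 * Real.exp (ξ ⬝ᵥ x)) -
      q x * Real.exp (ξ ⬝ᵥ x)) = Real.exp (-(r + m)) * Lap V (fun _ => 1) ξ := by
    rw [integral_const_mul, integral_sub (i1.const_mul _) i2, integral_const_mul]
    change _ * ((1 + m) * Lap V (fun _ => 1) ξ - Lap V q ξ) = _
    rw [hm]
    ring
  have h3 : Real.exp (-(2 * r + m)) ≤ Real.exp (-(r + m)) * Lap V (fun _ => 1) ξ := by
    rw [show -(2 * r + m) = -(r + m) + -r by ring, Real.exp_add]
    exact mul_le_mul_of_nonneg_left h1 (Real.exp_pos _).le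
  refine h3.trans ?_
  rw [← h2]
  refine setIntegral_mono_on (((i1.const_mul _).sub i2).const_mul _) (hI (by fun_prop))
    hV.cpt.measurableSet fun x hx => ?_
  have a1 := Real.add_one_le_exp (m - q x)
  have a2 : Real.exp (ξ ⬝ᵥ x) ≤ Real.exp r := Real.exp_le_exp.2 (abs_le.1 (hξ x hx)).2
  have a3 : (1 + m - q x) * Real.exp (ξ ⬝ᵥ x) ≤ Real.exp (m - q x) * Real.exp r :=
    (mul_le_mul_of_nonneg_right (by linarith) (Real.exp_pos _).le).trans
      (mul_le_mul_of_nonneg_left a2 (Real.exp_pos _).le)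
  have a4 : Real.exp (-q x) = Real.exp (-(r + m)) * (Real.exp (m - q x) * Real.exp r) := by
    rw [← Real.exp_add, ← Real.exp_add]
    congr 1
    ring
  rw [a4]
  refine mul_le_mul_of_nonneg_left ?_ (Real.exp_pos _).le
  linarith

/-- take `r = √u n / 2`, `T' = (√u / 2) • (cov ξ)⁻¹`; Jensen, then `anderson` -/
theorem klartag (hV : Body V) (hvol : volume V = 1) {u : ℝ} (hu : 0 < u) :
    ∃ T' : Matrix ι ι ℝ, T'.PosDef ∧ u ^ Fintype.card ι ≤ T'.det ∧
      Real.exp (-(2 * Real.sqrt u * Fintype.card ι)) ≤ Zf V T' := by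
  have hs : 0 < Real.sqrt u := Real.sqrt_pos.2 hu
  have hss : Real.sqrt u * Real.sqrt u = u := Real.mul_self_sqrt hu.le
  rcases Nat.eq_zero_or_pos (Fintype.card ι) with h0 | h0
  · have := Fintype.card_eq_zero_iff.1 h0
    refine ⟨1, Matrix.PosDef.one, by simp, ?_⟩
    simp [Zf, qf, dotProduct, measureReal_def, hvol]
  have hn : (0 : ℝ) < Fintype.card ι := by exact_mod_cast h0
  obtain ⟨ξ, h1, h2⟩ := exists_tilt hV hvol (r := Real.sqrt u * Fintype.card ι / 2) (by positivity)
  have hS := cov_posDef hV ξ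
  have hd := hS.det_pos
  have hT : ((Real.sqrt u / 2) • (cov V ξ)⁻¹).PosDef := hS.inv.smul (by positivity)
  refine ⟨_, hT, ?_, ?_⟩
  · rw [Matrix.det_smul, Matrix.det_nonsing_inv, Ring.inverse_eq_inv', ← div_eq_mul_inv,
      le_div_iff₀ hd]
    have hf : (0 : ℝ) < Nat.factorial (Fintype.card ι) := by positivity
    have h3 : (Nat.factorial (Fintype.card ι) : ℝ) ≤ (Fintype.card ι : ℝ) ^ Fintype.card ι := by
      exact_mod_cast Nat.factorial_le_pow _
    have h4 : u ^ Fintype.card ι ≤ (Real.sqrt u / 2) ^ Fintype.card ι *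
        ((Real.sqrt u * Fintype.card ι / 2) ^ Fintype.card ι *
          (4 ^ Fintype.card ι / (Nat.factorial (Fintype.card ι) : ℝ))) := by
      rw [← mul_div_assoc, ← mul_div_assoc, ← mul_pow, ← mul_pow, le_div_iff₀ hf,
        show Real.sqrt u / 2 * (Real.sqrt u * Fintype.card ι / 2 * 4) =
          Real.sqrt u * Real.sqrt u * Fintype.card ι by ring, hss, mul_pow]
      exact mul_le_mul_of_nonneg_left h3 (pow_pos hu _).le
    have h5 := mul_le_mul_of_nonneg_right h4 hd.le
    have h6 := mul_le_mul_of_nonneg_left h2 (pow_pos (half_pos hs) (Fintype.card ι)).le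
    linarith
  · have h3 := Lap_qf hV ξ ((Real.sqrt u / 2) • (cov V ξ)⁻¹)
    rw [Matrix.smul_mul, Matrix.nonsing_inv_mul _ hd.ne'.isUnit, Matrix.trace_smul,
      Matrix.trace_one, smul_eq_mul] at h3
    have h4 := WKlB_jensen hV hvol h1
      ((WPL_qf_cont _).comp (continuous_id.sub continuous_const)) h3
    refine le_trans ?_ (h4.trans (anderson hV hT.posSemidef (bar V ξ)))
    refine Real.exp_le_exp.2 ?_
    have := mul_pos hs hn
    linarith

end Crest.Agent.R152
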