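import Crest.Agent.R152.WVor
import Crest.Agent.R152.WConc
import Crest.Agent.R152.WKlB

/-! # Row 152: an interior minimum of Gam is large -/

set_option autoImplicit false
set_option linter.unusedSectionVars false
set_option linter.unusedVariables false

open MeasureTheory Set Matrix Filter Topology

noncomputable section

namespace Crest.Agent.R152

variable {ι : Type} [Fintype ι] [DecidableEq ι]

theorem WInt_exp {a q η : ℝ} (hη : 0 ≤ η) (h : q ≤ (1 + η) * a) :
    Real.exp (-a) ≤ Real.exp (-q) + η := by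
  have h1 : Real.exp (-a) * (1 - η * a) ≤ Real.exp (-q) := by
    calc Real.exp (-a) * (1 - η * a) ≤ Real.exp (-a) * Real.exp (-(η * a)) :=
          mul_le_mul_of_nonneg_left (by linarith [Real.add_one_le_exp (-(η * a))])
            (Real.exp_pos _).le
      _ ≤ _ := by
        rw [← Real.exp_add]
        exact Real.exp_le_exp.2 (by linarith)
  have h2 : Real.exp (-a) * a ≤ 1 := by
    rw [Real.exp_neg, inv_mul_le_iff₀ (Real.exp_pos a)]
    linarith [Real.add_one_le_exp a]
  nlinarith [mul_le_mul_of_nonneg_left h2 hη]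

theorem WInt_nonneg {T : Matrix ι ι ℝ} (hT : T.PosDef) (x : ι → ℝ) : 0 ≤ qf T x := by
  obtain ⟨c, h1, h2⟩ := qf_coercive hT
  exact (mul_nonneg h1.le (Finset.sum_nonneg fun i _ => mul_self_nonneg (x i))).trans (h2 x)

/-- first order comparison of `Gam` with the Gaussian mass of the frozen cell -/
theorem Gam_le_Zf {T : Matrix ι ι ℝ} (hT : T.PosDef) {ε : ℝ} (hε : 0 < ε) :
    ∃ δ : ℝ, 0 < δ ∧ ∀ (η : ℝ) (T' : Matrix ι ι ℝ), 0 ≤ η → η ≤ δ → T'.PosDef →
      (∀ x, qf T' x ≤ (1 + η) * qf T x ∧ qf T x ≤ (1 + η) * qf T' x) →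
      Gam T' ≤ Zf (Vor T) T' + ε * η := by
  obtain ⟨δ₀, h0, hthin⟩ := Vor_thin hT (show 0 < ε / 3 by positivity)
  refine ⟨min 1 (δ₀ / 3), by positivity, fun η T' η0 hη hT' hle => ?_⟩
  have η1 : η ≤ 1 := hη.trans (min_le_left _ _)
  have η2 : η ≤ δ₀ / 3 := hη.trans (min_le_right _ _)
  set Θ := {x ∈ Vor T | ∃ z : ι → ℤ, z ≠ 0 ∧ qf T (x - rv z) < (1 + δ₀) * qf T x} with hΘ
  have hV := Vor_body hT
  have hfin : IsFiniteMeasure (volume.restrict (Vor T)) :=
    isFiniteMeasure_restrict.2 hV.cpt.measure_lt_top.ne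
  have mΘ := measurableSet_toMeasurable volume Θ
  have i1 : Integrable (fun x => Real.exp (-qf T' x)) (volume.restrict (Vor T)) :=
    (WPL_qf_cont T').neg.rexp.continuousOn.integrableOn_compact hV.cpt
  have i2 : Integrable ((toMeasurable volume Θ).indicator fun _ => 3 * η)
      (volume.restrict (Vor T)) := (integrable_const _).indicator mΘ
  have h1 : ∫ x in Vor T, Real.exp (-dsq T' x) ≤ ∫ x in Vor T,
      (Real.exp (-qf T' x) + (toMeasurable volume Θ).indicator (fun _ => 3 * η) x) := by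
    refine integral_mono_of_nonneg (ae_of_all _ fun x => (Real.exp_pos _).le) (i1.add i2)
      ((ae_restrict_iff' hV.cpt.measurableSet).2 (ae_of_all _ fun x hx => ?_))
    obtain ⟨z, hz⟩ := dsq_attained hT' x
    have a0 := WInt_nonneg hT' (x - rv z)
    have k1 := (hle x).1
    have k2 := (hle (x - rv z)).2
    have k3 : (1 + η) * ((1 + η) * qf T' (x - rv z)) ≤ (1 + 3 * η) * qf T' (x - rv z) := by
      rw [← mul_assoc]
      exact mul_le_mul_of_nonneg_right (by nlinarith) a0
    simp only [hz]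
    by_cases hx' : x ∈ toMeasurable volume Θ
    · rw [indicator_of_mem hx']
      refine WInt_exp (by positivity) (k1.trans (le_trans ?_ k3))
      exact mul_le_mul_of_nonneg_left ((hx z).trans k2) (by positivity)
    · rw [indicator_of_notMem hx', add_zero]
      refine Real.exp_le_exp.2 (neg_le_neg ?_)
      by_cases hz0 : z = 0
      · have e : x - rv z = x := by
          funext i
          simp [hz0, rv]
        rw [e]
      · have k4 : (1 + δ₀) * qf T x ≤ qf T (x - rv z) :=
          not_lt.1 fun h => hx' (subset_toMeasurable _ _ ⟨hx, z, hz0, h⟩)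
        refine le_of_mul_le_mul_left ?_ (show 0 < 1 + δ₀ by positivity)
        have k5 := mul_le_mul_of_nonneg_left k1 (show 0 ≤ 1 + δ₀ by positivity)
        have k6 := mul_le_mul_of_nonneg_left (k4.trans k2) (show 0 ≤ 1 + η by positivity)
        have k7 := mul_le_mul_of_nonneg_right (show 1 + 3 * η ≤ 1 + δ₀ by linarith) a0
        linarith
  rw [integral_Vor hT (fun x z => by rw [dsq_periodic]), integral_add i1 i2,
    integral_indicator_const _ mΘ, smul_eq_mul] at h1
  have h2 : (volume.restrict (Vor T)).real (toMeasurable volume Θ) ≤ ε / 3 := by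
    refine le_trans (ENNReal.toReal_mono ?_ ?_) hthin
    · exact ((measure_mono fun x hx => hx.1).trans_lt hV.cpt.measure_lt_top).ne
    · exact (Measure.restrict_apply_le _ _).trans_eq (measure_toMeasurable _)
  have h3 := mul_le_mul_of_nonneg_right h2 (show 0 ≤ 3 * η by positivity)
  have h4 : Gam T' ≤ Zf (Vor T) T' +
    (volume.restrict (Vor T)).real (toMeasurable volume Θ) * (3 * η) := h1
  linarith

/-- if `Zf (τ 1) > Zf (τ 0)`, concavity makes `Zf (τ (-t))` drop linearly, contradicting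
minimality and `Gam_le_Zf` -/
theorem interior_step {T : Matrix ι ι ℝ} (hT : T.PosDef) {u : ℝ} (hu : 0 < u)
    (hdet : T.det ≤ u ^ Fintype.card ι) {η : ℝ} (hη : 0 < η)
    (hmin : ∀ T' : Matrix ι ι ℝ, T'.PosDef → T'.det = T.det →
      (∀ x, qf T' x ≤ (1 + η) * qf T x) → Gam T ≤ Gam T') :
    Real.exp (-(2 * Real.sqrt u * Fintype.card ι)) ≤ Gam T := by
  have hV := Vor_body hT
  obtain ⟨T', h1, h2, h3⟩ := klartag hV (volume_Vor hT) hu
  obtain ⟨τ, c, c0, τ0, hpd, hdt, hq, hcc, h4⟩ := position hV hT h1 (hdet.trans h2)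
  refine h3.trans (h4.trans (not_lt.1 fun hlt => ?_))
  rw [Gam_eq_Zf hT] at hlt hmin
  have Z0 := Zf_pos hV T
  set m := Real.log (Zf (Vor T) (τ 1)) - Real.log (Zf (Vor T) T) with hm
  have m0 : 0 < m := sub_pos.2 (Real.log_lt_log Z0 hlt)
  obtain ⟨δ, δ0, hδ⟩ := Gam_le_Zf hT (show 0 < Zf (Vor T) T * m / (4 * (c + 1)) by positivity)
  set s := min 1 (min δ η) with hs
  have s0 : 0 < s := by positivity
  set t := min (1 / m) (s / (2 * (c + 1))) with ht
  have t0 : 0 < t := by positivity
  have t1 : t * m ≤ 1 := (le_div_iff₀ m0).1 (min_le_left _ _)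
  have t2 : t * (2 * (c + 1)) ≤ s := (le_div_iff₀ (by positivity)).1 (min_le_right _ _)
  have t3 : 2 * (c * t) ≤ s := by linarith
  have s1 : s ≤ 1 := min_le_left _ _
  have s2 : s ≤ δ := (min_le_right _ _).trans (min_le_left _ _)
  have s3 : s ≤ η := (min_le_right _ _).trans (min_le_right _ _)
  have ct : 0 ≤ c * t := by positivity
  have e1 : Real.exp (c * |(-t)|) ≤ 1 + 2 * (c * t) := by
    have h5 := Real.abs_exp_sub_one_le (x := c * t) (by rw [abs_of_nonneg ct]; linarith)
    rw [abs_of_nonneg ct] at h5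
    rw [abs_neg, abs_of_pos t0]
    linarith [le_abs_self (Real.exp (c * t) - 1)]
  have k1 := hmin (τ (-t)) (hpd _) (hdt _) fun x =>
    (hq _ x).1.trans (mul_le_mul_of_nonneg_right (by linarith) (WInt_nonneg hT x))
  have k2 := hδ (2 * (c * t)) (τ (-t)) (by positivity) (by linarith) (hpd _) fun x =>
    ⟨(hq _ x).1.trans (mul_le_mul_of_nonneg_right e1 (WInt_nonneg hT x)),
      (hq _ x).2.trans (mul_le_mul_of_nonneg_right e1 (WInt_nonneg (hpd _) x))⟩
  have k3 : Real.log (Zf (Vor T) (τ (-t))) ≤ Real.log (Zf (Vor T) T) - t * m := by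
    have h5 := hcc.2 (mem_univ (-t)) (mem_univ 1) (show 0 ≤ 1 / (1 + t) by positivity)
      (show 0 ≤ t / (1 + t) by positivity) (by field_simp)
    have h6 : (1 / (1 + t)) • (-t) + (t / (1 + t)) • (1 : ℝ) = 0 := by
      simp only [smul_eq_mul]
      ring
    rw [h6] at h5
    simp only [τ0, smul_eq_mul] at h5
    rw [div_mul_eq_mul_div, div_mul_eq_mul_div, ← add_div, div_le_iff₀ (by positivity)] at h5
    rw [hm]
    linarith
  have k4 : Zf (Vor T) (τ (-t)) ≤ Zf (Vor T) T * Real.exp (-(t * m)) := by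
    rw [← Real.exp_log Z0, ← Real.exp_add, ← Real.exp_log (Zf_pos hV (τ (-t)))]
    exact Real.exp_le_exp.2 (by linarith)
  have k5 : Real.exp (-(t * m)) ≤ 1 - t * m / 2 := by
    have h5 := Real.add_one_le_exp (t * m)
    have h6 : 0 ≤ t * m := by positivity
    rw [Real.exp_neg, inv_le_iff_one_le_mul₀ (Real.exp_pos _)]
    nlinarith
  have k6 := mul_le_mul_of_nonneg_left k5 Z0.le
  have k7 : Zf (Vor T) T * m / (4 * (c + 1)) * (2 * (c * t)) <
      Zf (Vor T) T * m / (4 * (c + 1)) * (2 * ((c + 1) * t)) :=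
    mul_lt_mul_of_pos_left (by linarith) (by positivity)
  have k8 : Zf (Vor T) T * m / (4 * (c + 1)) * (2 * ((c + 1) * t)) = Zf (Vor T) T * (t * m / 2) := by
    field_simp
    ring
  linarith

end Crest.Agent.R152
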