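import Crest.Agent.R152.WHerm
import Crest.Agent.R152.WBlk
import Crest.Agent.R152.WInt
import Crest.Agent.R152.WIndAux1

/-! # Row 152: the induction -/

set_option autoImplicit false
set_option linter.unusedSectionVars false
set_option linter.unusedVariables false

open MeasureTheory Set Matrix Filter Topology

noncomputable section

namespace Crest.Agent.R152

variable {ι : Type} [Fintype ι] [DecidableEq ι]

theorem wi_entry_le {S : Matrix ι ι ℝ} (hS : S.PosSemidef) {M : ℝ} (h : ∀ i, S i i ≤ M)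
    (i j : ι) : S i j ∈ Set.Icc (-M) M := by
  have key : ∀ t : ℝ, 0 ≤ S i i + t * S i j + t * S j i + t ^ 2 * S j j := fun t => by
    have h0 := hS.dotProduct_mulVec_nonneg (Pi.single i 1 + t • Pi.single j 1)
    simp only [star_trivial, mulVec_add, mulVec_smul, add_dotProduct, dotProduct_add,
      smul_dotProduct, dotProduct_smul, single_dotProduct, mulVec_single_one, col_apply,
      smul_eq_mul, one_mul] at h0
    linarith
  have hs : S j i = S i j := by simpa using hS.isHermitian.apply i j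
  have h1 := key 1
  have h2 := key (-1)
  have h3 := h i
  have h4 := h j
  constructor <;> linarith

theorem wi_compact (d M : ℝ) : IsCompact {S : Matrix ι ι ℝ | StableF S ∧ S.det ≤ d ∧
    ∀ i j, S i j ∈ Set.Icc (-M) M} := by
  have hK : IsCompact {S : Matrix ι ι ℝ | ∀ i j, S i j ∈ Set.Icc (-M) M} := by
    have h := isCompact_univ_pi fun _ : ι => isCompact_univ_pi fun _ : ι =>
      (isCompact_Icc : IsCompact (Set.Icc (-M) M))
    have e : {S : Matrix ι ι ℝ | ∀ i j, S i j ∈ Set.Icc (-M) M} =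
        Set.pi Set.univ fun _ : ι => Set.pi Set.univ fun _ : ι => Set.Icc (-M) M :=
      Set.ext fun S => ⟨fun hS i _ j _ => hS i j, fun hS i j => hS i trivial j trivial⟩
    rw [e]
    exact h
  have e : {S : Matrix ι ι ℝ | StableF S ∧ S.det ≤ d ∧ ∀ i j, S i j ∈ Set.Icc (-M) M} =
      {S : Matrix ι ι ℝ | ∀ i j, S i j ∈ Set.Icc (-M) M} ∩
        ({S | Sᵀ = S} ∩ (⋂ x : ι → ℝ, {S | 0 ≤ x ⬝ᵥ S *ᵥ x}) ∩ {S | 1 ≤ S.det} ∩ {S | S.det ≤ d} ∩
          ⋂ (k : ℕ) (P : Matrix ι (Fin k) ℤ) (_ : Function.Injective P.mulVec),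
            {S | 1 ≤ ((rm P)ᵀ * S * rm P).det}) := by
    ext S
    simp only [Set.mem_ofPred_eq, Set.mem_inter_iff, Set.mem_iInter]
    constructor
    · rintro ⟨h1, h2, h3⟩
      exact ⟨h3, ⟨⟨⟨h1.1.isHermitian, h1.1.posSemidef.dotProduct_mulVec_nonneg⟩,
        stableF_one_le_det h1⟩, h2⟩, h1.2⟩
    · rintro ⟨h3, ⟨⟨⟨h1, h2⟩, h4⟩, h5⟩, h6⟩
      exact ⟨⟨(PosSemidef.of_dotProduct_mulVec_nonneg h1 h2).posDef_iff_det_ne_zero.2
        (by linarith), h6⟩, h5, h3⟩
  rw [e]
  refine hK.inter_right (((((isClosed_eq (by fun_prop) continuous_id).inter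
    (isClosed_iInter fun x => isClosed_le continuous_const ?_)).inter
    (isClosed_le continuous_const continuous_id.matrix_det)).inter
    (isClosed_le continuous_id.matrix_det continuous_const)).inter
    (isClosed_iInter fun k => isClosed_iInter fun P => isClosed_iInter fun _ =>
      isClosed_le continuous_const ?_))
  · exact continuous_const.dotProduct (continuous_id.matrix_mulVec continuous_const)
  · exact ((continuous_const.matrix_mul continuous_id).matrix_mul continuous_const).matrix_det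

theorem wi_rm_mul {U U' : Matrix ι ι ℤ} (h : U * U' = 1) : rm U * rm U' = 1 := by
  have e := congrArg (Int.castRingHom ℝ).mapMatrix h
  rw [map_mul, map_one] at e
  exact e

theorem wi_reduce {u : ℝ} (hu : 0 < u) : ∃ C : ℝ, 0 < C ∧ ∀ S : Matrix ι ι ℝ, StableF S →
    ∃ S' : Matrix ι ι ℝ, StableF S' ∧ S'.det = S.det ∧ (∀ i, S' i i ≤ C * S.det) ∧
      Gam (u • S'⁻¹) = Gam (u • S⁻¹) := by
  obtain ⟨C, hC, h⟩ := hermite (Fintype.card ι)
  refine ⟨C, hC, fun S hS => ?_⟩
  obtain ⟨U, U', h1, h2, h3⟩ := h ι rfl S hS.1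
  have hst : StableF ((rm U)ᵀ * S * rm U) := stableF_conj hS U fun x y hxy => by
    have e := congrArg U'.mulVec hxy
    rwa [mulVec_mulVec, mulVec_mulVec, h2, one_mulVec, one_mulVec] at e
  refine ⟨_, hst, ?_, fun i => le_trans ?_ h3, ?_⟩
  · have e : U.det * U'.det = 1 := by rw [← det_mul, h1, det_one]
    have e2 : (rm U).det = (U.det : ℝ) := ((Int.castRingHom ℝ).map_det U).symm
    rw [det_mul, det_mul, det_transpose, e2]
    rcases Int.eq_one_or_neg_one_of_mul_eq_one e with e3 | e3 <;> rw [e3] <;> simp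
  · have h4 := Finset.prod_le_prod_of_subset_of_one_le (s := {i}) (t := Finset.univ)
      (f := fun i => ((rm U)ᵀ * S * rm U) i i) (Finset.subset_univ _)
      (fun j _ => zero_le_one.trans (stableF_one_le_diag hst j))
      (fun j _ _ => stableF_one_le_diag hst j)
    rwa [Finset.prod_singleton] at h4
  · rw [← Gam_conj (u • S⁻¹) (hS.1.inv.smul hu) U'ᵀ Uᵀ (by rw [← transpose_mul, h1, transpose_one])
      (by rw [← transpose_mul, h2, transpose_one])]
    have e1 : (rm U)⁻¹ = rm U' := inv_eq_right_inv (wi_rm_mul h1)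
    have e2 : rm U'ᵀ = (rm U')ᵀ := rfl
    rw [Matrix.mul_inv_rev, Matrix.mul_inv_rev, ← transpose_nonsing_inv, e1, e2, transpose_transpose,
      Matrix.mul_smul, Matrix.smul_mul, Matrix.mul_assoc]

/-- compactness modulo `GL(ℤ)` -/
theorem exists_min {u : ℝ} (hu : 0 < u) {S₀ : Matrix ι ι ℝ} (h₀ : StableF S₀) :
    ∃ S₁ : Matrix ι ι ℝ, StableF S₁ ∧ S₁.det ≤ S₀.det ∧
      ∀ S : Matrix ι ι ℝ, StableF S → S.det ≤ S₀.det → Gam (u • S₁⁻¹) ≤ Gam (u • S⁻¹) := by
  obtain ⟨C, hC, h⟩ := wi_reduce (ι := ι) hu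
  have key : ∀ S : Matrix ι ι ℝ, StableF S → S.det ≤ S₀.det →
      ∃ S' ∈ {S : Matrix ι ι ℝ | StableF S ∧ S.det ≤ S₀.det ∧
        ∀ i j, S i j ∈ Set.Icc (-(C * S₀.det)) (C * S₀.det)},
        Gam (u • S'⁻¹) = Gam (u • S⁻¹) := fun S hS hd => by
    obtain ⟨S', h1, h2, h3, h4⟩ := h S hS
    exact ⟨S', ⟨h1, h2.trans_le hd, wi_entry_le h1.1.posSemidef fun i =>
      (h3 i).trans (mul_le_mul_of_nonneg_left hd hC.le)⟩, h4⟩
  obtain ⟨S₁, h1, h2⟩ := (wi_compact S₀.det (C * S₀.det)).exists_isMinOn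
    ((key S₀ h₀ le_rfl).imp fun _ h => h.1) ((Gam_continuousOn hu).mono fun S hS => hS.1.1)
  refine ⟨S₁, h1.1, h1.2.1, fun S hS hd => ?_⟩
  obtain ⟨S', h3, h4⟩ := key S hS hd
  exact h4 ▸ h2 h3

/-- boundary case -/
theorem boundary_step {S : Matrix ι ι ℝ} (hS : StableF S) {u : ℝ} (hu : 0 < u)
    (ih : ∀ (κ : Type) [Fintype κ] [DecidableEq κ], Fintype.card κ < Fintype.card ι →
      ∀ S' : Matrix κ κ ℝ, StableF S' → ∀ u' : ℝ, 0 < u' →
        Real.exp (-(2 * Real.sqrt u' * Fintype.card κ)) ≤ Gam (u' • S'⁻¹))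
    {c : ℝ} (hc : 1 ≤ c) {k : ℕ} (hk0 : 0 < k) (hk : k < Fintype.card ι) (P : Matrix ι (Fin k) ℤ)
    (hP : Function.Injective P.mulVec) (hdet : ((rm P)ᵀ * S * rm P).det ≤ c) :
    Real.exp (-(2 * Real.sqrt (u * c) * Fintype.card ι)) ≤ Gam (u • S⁻¹) := by
  obtain ⟨l, U, U', Q, hl, h1, h2, hQ, rfl⟩ := exists_unimodular P hP
  have hS' := stableF_conj hS U (fun x y hxy => by
    rw [← one_mulVec x, ← one_mulVec y, ← h2, ← mulVec_mulVec, ← mulVec_mulVec, hxy])
  obtain ⟨A, B, D, e⟩ := WIndB_blocks hS'.1.1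
  have r1 : rm (1 : Matrix ι ι ℤ) = 1 := Matrix.map_one _ Int.cast_zero Int.cast_one
  have r2 : rm (1 : Matrix (Fin k ⊕ Fin l) (Fin k ⊕ Fin l) ℤ) = 1 :=
    Matrix.map_one _ Int.cast_zero Int.cast_one
  have g1 : rm U * rm U' = 1 := by rw [← stableF_rm_mul, h1, r1]
  have g2 : rm U' * rm U = 1 := by rw [← stableF_rm_mul, h2, r2]
  have einv : ((rm U)ᵀ * S * rm U)⁻¹ = rm U' * S⁻¹ * (rm U')ᵀ := by
    refine inv_eq_left_inv ?_
    rw [Matrix.mul_assoc, Matrix.mul_assoc, Matrix.mul_assoc, ← Matrix.mul_assoc (rm U')ᵀ,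
      ← transpose_mul, g1, transpose_one, Matrix.one_mul,
      nonsing_inv_mul_cancel_left _ _ hS.1.det_pos.ne'.isUnit, g2]
  have eG : Gam (u • ((rm U)ᵀ * S * rm U)⁻¹) = Gam (u • S⁻¹) := by
    rw [← Gam_conj (u • S⁻¹) (hS.1.inv.smul hu) U'ᵀ Uᵀ (by rw [← transpose_mul, h1, transpose_one])
      (by rw [← transpose_mul, h2, transpose_one]), einv, Matrix.mul_smul, Matrix.smul_mul]
    rfl
  have eA : (rm (U.submatrix id Sum.inl))ᵀ * S * rm (U.submatrix id Sum.inl) = A := by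
    have : A = ((rm U)ᵀ * S * rm U).submatrix Sum.inl Sum.inl := by rw [e]; rfl
    rw [this]; rfl
  rw [e] at hS' eG
  have hA0 : 0 < A.det := (stableF_sub hS' Sum.inl_injective).1.det_pos
  have hA : A.det ≤ c := by
    rw [stableF_rm_mul, transpose_mul, Matrix.mul_assoc, Matrix.mul_assoc, ← Matrix.mul_assoc S,
      ← Matrix.mul_assoc _ (S * _), ← Matrix.mul_assoc _ S, eA, det_mul, det_mul, det_transpose,
      show (rm Q).det = (Q.det : ℝ) from (Int.cast_det Q).symm] at hdet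
    have h3 : (1 : ℝ) ≤ (Q.det : ℝ) * Q.det := by
      exact_mod_cast Int.add_one_le_iff.2 (mul_self_pos.2 hQ)
    nlinarith
  obtain ⟨sA, sE⟩ := stableF_schur hS' hc hA
  have hc0 : 0 < c := zero_lt_one.trans_le hc
  have hE : IsUnit (D - Bᵀ * A⁻¹ * B).det := by
    have := sE.1.det_pos
    rw [det_smul] at this
    exact (right_ne_zero_of_mul this.ne').isUnit
  have i1 := ih (Fin k) (by simpa using hk) A sA u hu
  have i2 := ih (Fin l) (by rw [Fintype.card_fin]; omega) _ sE (u * c) (mul_pos hu hc0)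
  have e3 : (u * c) • (c • (D - Bᵀ * A⁻¹ * B))⁻¹ = u • (D - Bᵀ * A⁻¹ * B)⁻¹ := by
    rw [inv_smul' _ (Units.mk0 c hc0.ne') hE |>.trans rfl |> fun h => (show
      (c • (D - Bᵀ * A⁻¹ * B))⁻¹ = c⁻¹ • (D - Bᵀ * A⁻¹ * B)⁻¹ from h), smul_smul,
      mul_inv_cancel_right₀ hc0.ne']
  rw [e3, Fintype.card_fin] at i2
  rw [Fintype.card_fin] at i1
  have hs : Real.sqrt u ≤ Real.sqrt (u * c) := Real.sqrt_le_sqrt (le_mul_of_one_le_right hu.le hc)
  rw [← eG, ← hl]
  refine le_trans ?_ ((mul_le_mul i1 i2 (Real.exp_pos _).le ((Real.exp_pos _).le.trans i1)).trans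
    (WIndB_block hS'.1 hA0.ne'.isUnit hE hu))
  rw [← Real.exp_add, Real.exp_le_exp]
  push_cast
  nlinarith [mul_le_mul_of_nonneg_right hs (Nat.cast_nonneg k)]

/-- interior case: a perturbation with the same determinant stays stable -/
theorem stable_of_near {S S' : Matrix ι ι ℝ} (hS : StableF S) (hS' : S'.PosDef)
    (hdet : S'.det = S.det) {η : ℝ} (hη : 0 < η)
    (hint : ∀ (k : ℕ) (P : Matrix ι (Fin k) ℤ), 0 < k → k < Fintype.card ι →
      Function.Injective P.mulVec → (1 + η) ^ Fintype.card ι ≤ ((rm P)ᵀ * S * rm P).det)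
    (hle : ∀ x, qf S x ≤ (1 + η) * qf S' x) : StableF S' := by
  refine ⟨hS', fun k P hP => ?_⟩
  have hk : k ≤ Fintype.card ι := by
    have := LinearMap.finrank_le_finrank_of_injective (f := P.mulVecLin) hP
    simpa using this
  rcases Nat.eq_zero_or_pos k with rfl | hk0
  · rw [det_isEmpty]
  rcases hk.eq_or_lt with hk | hk
  · obtain ⟨e⟩ : Nonempty (ι ≃ Fin k) := ⟨Fintype.equivFinOfCardEq hk.symm⟩
    have key : ∀ T : Matrix ι ι ℝ, ((rm P)ᵀ * T * rm P).det =
        ((rm P).submatrix id e).det * T.det * ((rm P).submatrix id e).det := fun T => by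
      rw [← det_submatrix_equiv_self e, ← det_transpose ((rm P).submatrix id e), ← det_mul,
        det_transpose, ← det_mul]
      rfl
    rw [key, hdet, ← key]
    exact hS.2 k P hP
  · have h1 := hint k P hk0 hk hP
    have h0 := (stableF_conj hS P hP).1
    have hh : ((1 + η) • ((rm P)ᵀ * S' * rm P)).IsHermitian :=
      (hS'.posSemidef.conjTranspose_mul_mul_same (rm P)).smul (by positivity : 0 ≤ 1 + η) |>.1
    have h2 := det_mono h0.posSemidef hh (fun x => by
      rw [qf_smul, qf_conj, qf_conj]; exact hle _)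
    rw [det_smul, Fintype.card_fin] at h2
    have h3 : (1 + η) ^ k ≤ (1 + η) ^ Fintype.card ι := pow_le_pow_right₀ (by linarith) hk.le
    have h4 : 0 < (1 + η) ^ k := by positivity
    exact le_of_mul_le_mul_left (by linarith) h4

theorem gam_lower {S : Matrix ι ι ℝ} (hS : StableF S) {u : ℝ} (hu : 0 < u) :
    Real.exp (-(2 * Real.sqrt u * Fintype.card ι)) ≤ Gam (u • S⁻¹) := by
  have main : ∀ (n : ℕ) (ι : Type) [Fintype ι] [DecidableEq ι], Fintype.card ι = n →
      ∀ S : Matrix ι ι ℝ, StableF S → ∀ u : ℝ, 0 < u →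
        Real.exp (-(2 * Real.sqrt u * Fintype.card ι)) ≤ Gam (u • S⁻¹) := by
    intro n
    induction n using Nat.strong_induction_on with
    | _ n ih =>
    intro ι _ _ hn S hS u hu
    obtain ⟨S₁, h1, h2, h3⟩ := exists_min hu hS
    refine le_trans ?_ (h3 S hS le_rfl)
    have hinv : ∀ T : Matrix ι ι ℝ, T.PosDef → u • (u • T⁻¹)⁻¹ = T := fun T hT => by
      have e : (u • T⁻¹)⁻¹ = u⁻¹ • T := inv_eq_right_inv (by
        rw [Matrix.smul_mul, Matrix.mul_smul, smul_smul, mul_inv_cancel₀ hu.ne', one_smul,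
          nonsing_inv_mul _ hT.det_pos.ne'.isUnit])
      rw [e, smul_smul, mul_inv_cancel₀ hu.ne', one_smul]
    have hdet : ∀ T : Matrix ι ι ℝ, T.PosDef → (u • T⁻¹).det * T.det = u ^ Fintype.card ι :=
      fun T hT => by
        rw [det_smul, mul_assoc, det_nonsing_inv_mul_det _ hT.det_pos.ne'.isUnit, mul_one]
    by_cases hint : ∃ η : ℝ, 0 < η ∧ ∀ (k : ℕ) (P : Matrix ι (Fin k) ℤ), 0 < k →
        k < Fintype.card ι → Function.Injective P.mulVec →
          (1 + η) ^ Fintype.card ι ≤ ((rm P)ᵀ * S₁ * rm P).det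
    · obtain ⟨η, hη, hint⟩ := hint
      have hT : (u • S₁⁻¹).PosDef := h1.1.inv.smul hu
      refine interior_step hT hu ?_ hη fun T' hT' hd hle => ?_
      · rw [← hdet S₁ h1.1]
        exact le_mul_of_one_le_right hT.det_pos.le (stableF_one_le_det h1)
      · have hd' : (u • T'⁻¹).det = S₁.det := by
          refine mul_right_cancel₀ hT.det_pos.ne' ?_
          rw [mul_comm S₁.det, hdet S₁ h1.1, ← hd, hdet T' hT']
        have hst : StableF (u • T'⁻¹) :=
          stable_of_near h1 (hT'.inv.smul hu) hd' hη hint fun x => by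
            have e := mul_le_mul_of_nonneg_left
              (qf_inv_le hT' hT (by linarith : 0 < 1 + η) hle x) hu.le
            rw [← qf_smul, hinv S₁ h1.1] at e
            rw [qf_smul]
            linarith
        have e := h3 _ hst (hd'.trans_le h2)
        rwa [hinv T' hT'] at e
    · have hb : ∀ η : ℝ, 0 < η → Real.exp (-(2 * Real.sqrt (u * (1 + η) ^ Fintype.card ι) *
          Fintype.card ι)) ≤ Gam (u • S₁⁻¹) := fun η hη => by
        by_contra hlt
        refine hint ⟨η, hη, fun k P hk0 hk hP => le_of_not_ge fun hle => hlt ?_⟩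
        exact boundary_step h1 hu (fun κ _ _ hκ => ih _ (hn ▸ hκ) κ rfl)
          (one_le_pow₀ (by linarith)) hk0 hk P hP hle
      have hc : Continuous fun η : ℝ => Real.exp (-(2 * Real.sqrt (u * (1 + η) ^ Fintype.card ι) *
          Fintype.card ι)) := by fun_prop
      have ht := (hc.tendsto 0).mono_left (nhdsWithin_le_nhds (s := Set.Ioi 0))
      have e := le_of_tendsto ht (eventually_nhdsWithin_of_forall hb)
      rwa [add_zero, one_pow, mul_one] at e
  exact main _ ι rfl S hS u hu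

end Crest.Agent.R152
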