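import Crest.Agent.R152.WDefs

/-! # Row 152: calculus of the log-Laplace transform -/

set_option autoImplicit false
set_option linter.unusedSectionVars false
set_option linter.unusedVariables false

open MeasureTheory Set Matrix Filter Topology

noncomputable section

namespace Crest.Agent.R152

variable {ι : Type} [Fintype ι] [DecidableEq ι]

variable {V : Set (ι → ℝ)}

theorem KlA_cont {h : (ι → ℝ) → ℝ} (hh : Continuous h) (ξ : ι → ℝ) :
    Continuous fun x => h x * Real.exp (ξ ⬝ᵥ x) :=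
  hh.mul (Real.continuous_exp.comp (continuous_const.dotProduct continuous_id))

theorem KlA_int (hV : Body V) {h : (ι → ℝ) → ℝ} (hh : Continuous h) (ξ : ι → ℝ) :
    IntegrableOn (fun x => h x * Real.exp (ξ ⬝ᵥ x)) V :=
  (KlA_cont hh ξ).continuousOn.integrableOn_compact hV.cpt

theorem KlA_pos (hV : Body V) {h : (ι → ℝ) → ℝ} (hh : Continuous h) (h0 : ∀ x, 0 ≤ h x)
    {x : ι → ℝ} (hx : x ∈ interior V) (h1 : h x ≠ 0) (ξ : ι → ℝ) : 0 < Lap V h ξ := by
  refine (setIntegral_pos_iff_support_of_nonneg_ae (Eventually.of_forall fun y =>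
    mul_nonneg (h0 y) (Real.exp_pos _).le) (KlA_int hV hh ξ)).2 ?_
  refine lt_of_lt_of_le ?_ (measure_mono (inter_subset_inter_right _ interior_subset))
  exact ((KlA_cont hh ξ).isOpen_support.inter isOpen_interior).measure_pos _
    ⟨x, mul_ne_zero h1 (Real.exp_pos _).ne', hx⟩

theorem KlA_add (hV : Body V) {g h : (ι → ℝ) → ℝ} (hg : Continuous g) (hh : Continuous h)
    (ξ : ι → ℝ) : Lap V (fun x => g x + h x) ξ = Lap V g ξ + Lap V h ξ := by
  show ∫ x in V, (g x + h x) * Real.exp (ξ ⬝ᵥ x) = _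
  simp only [add_mul]
  exact integral_add (KlA_int hV hg ξ) (KlA_int hV hh ξ)

theorem KlA_mul (c : ℝ) (h : (ι → ℝ) → ℝ) (ξ : ι → ℝ) :
    Lap V (fun x => c * h x) ξ = c * Lap V h ξ := by
  show ∫ x in V, (c * h x) * Real.exp (ξ ⬝ᵥ x) = _
  simp only [mul_assoc]
  exact integral_const_mul _ _

theorem KlA_sum (hV : Body V) {κ : Type} (s : Finset κ) {h : κ → (ι → ℝ) → ℝ}
    (hh : ∀ k, Continuous (h k)) (ξ : ι → ℝ) :
    Lap V (fun x => ∑ k ∈ s, h k x) ξ = ∑ k ∈ s, Lap V (h k) ξ := by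
  show ∫ x in V, (∑ k ∈ s, h k x) * Real.exp (ξ ⬝ᵥ x) = _
  simp only [Finset.sum_mul]
  exact integral_finsetSum _ fun k _ => KlA_int hV (hh k) ξ

theorem KlA_Lap_cont (hV : Body V) {h : (ι → ℝ) → ℝ} (hh : Continuous h) : Continuous (Lap V h) :=
  continuous_parametric_integral_of_continuous
    (f := fun (ξ x : ι → ℝ) => h x * Real.exp (ξ ⬝ᵥ x))
    ((hh.comp continuous_snd).mul
      (Real.continuous_exp.comp (continuous_fst.dotProduct continuous_snd))) hV.cpt

/-- the dot product with a vector -/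
def KlA_dot (x : ι → ℝ) : (ι → ℝ) →L[ℝ] ℝ := ∑ j, x j • ContinuousLinearMap.proj j

theorem KlA_dot_apply (x v : ι → ℝ) : KlA_dot x v = ∑ j, x j * v j := by
  show (∑ j, x j • (ContinuousLinearMap.proj j : (ι → ℝ) →L[ℝ] ℝ)) v = _
  simp

theorem KlA_dot_cont : Continuous (KlA_dot : (ι → ℝ) → _) :=
  continuous_finsetSum _ fun j _ => (continuous_apply j).smul continuous_const

theorem KlA_deriv (hV : Body V) {h : (ι → ℝ) → ℝ} (hh : Continuous h) (ξ : ι → ℝ) :
    HasFDerivAt (Lap V h) (KlA_dot fun j => Lap V (fun x => h x * x j) ξ) ξ := by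
  have hc : Continuous fun p : (ι → ℝ) × (ι → ℝ) => (h p.2 * Real.exp (p.1 ⬝ᵥ p.2)) • KlA_dot p.2 :=
    ((hh.comp continuous_snd).mul (Real.continuous_exp.comp
      (continuous_fst.dotProduct continuous_snd))).smul (KlA_dot_cont.comp continuous_snd)
  have hc' : Continuous fun x : ι → ℝ => (h x * Real.exp (ξ ⬝ᵥ x)) • KlA_dot x :=
    (KlA_cont hh ξ).smul KlA_dot_cont
  obtain ⟨C, hC⟩ := ((isCompact_closedBall ξ 1).prod hV.cpt).exists_bound_of_continuousOn
    hc.continuousOn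
  have h1 := hasFDerivAt_integral_of_dominated_of_fderiv_le (𝕜 := ℝ) (μ := volume.restrict V)
    (F := fun η x => h x * Real.exp (η ⬝ᵥ x))
    (F' := fun η x => (h x * Real.exp (η ⬝ᵥ x)) • KlA_dot x) (bound := fun _ => C)
    (Metric.closedBall_mem_nhds ξ one_pos)
    (Eventually.of_forall fun η => (KlA_cont hh η).aestronglyMeasurable) (KlA_int hV hh ξ)
    hc'.aestronglyMeasurable
    (by
      filter_upwards [ae_restrict_mem hV.cpt.measurableSet] with x hx η hη
      exact hC (η, x) ⟨hη, hx⟩)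
    (continuousOn_const.integrableOn_compact hV.cpt)
    (Eventually.of_forall fun x η _ => by
      have h2 : HasFDerivAt (fun η : ι → ℝ => η ⬝ᵥ x) (KlA_dot x) η := by
        refine (KlA_dot x).hasFDerivAt.congr_of_eventuallyEq (Eventually.of_forall fun η => ?_)
        show η ⬝ᵥ x = KlA_dot x η
        rw [KlA_dot_apply, dotProduct_comm]
        rfl
      refine (h2.exp.const_mul (h x)).congr_fderiv ?_
      rw [smul_smul])
  refine h1.congr_fderiv (ContinuousLinearMap.ext fun v => ?_)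
  rw [ContinuousLinearMap.integral_apply (hc'.continuousOn.integrableOn_compact hV.cpt),
    KlA_dot_apply]
  have e := KlA_sum hV Finset.univ (h := fun j x => v j * (h x * x j)) (fun j => by fun_prop) ξ
  simp only [KlA_mul] at e
  rw [Finset.sum_congr rfl fun j _ => mul_comm _ (v j), ← e]
  refine integral_congr_ae (Eventually.of_forall fun x => ?_)
  show (h x * Real.exp (ξ ⬝ᵥ x)) * KlA_dot x v = (∑ j, v j * (h x * x j)) * Real.exp (ξ ⬝ᵥ x)
  rw [KlA_dot_apply, Finset.mul_sum, Finset.sum_mul]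
  exact Finset.sum_congr rfl fun j _ => by ring

theorem Lap_one_pos (hV : Body V) (ξ : ι → ℝ) : 0 < Lap V (fun _ => 1) ξ := by
  obtain ⟨x, hx⟩ := hV.int
  exact KlA_pos hV continuous_const (fun _ => zero_le_one) hx one_ne_zero ξ

theorem KlA_bar (hV : Body V) (ξ : ι → ℝ) (i : ι) :
    bar V ξ i * Lap V (fun _ => 1) ξ = Lap V (fun x => x i) ξ :=
  div_mul_cancel₀ _ (Lap_one_pos hV ξ).ne'

theorem bar_mem (hV : Body V) (ξ : ι → ℝ) : bar V ξ ∈ V := by
  by_contra hn
  obtain ⟨f, u, h1, h2⟩ := geometric_hahn_banach_closed_point hV.cvx hV.cpt.isClosed hn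
  obtain ⟨c, hc⟩ : ∃ c : ι → ℝ, ∀ x, f x = ∑ i, c i * x i :=
    ⟨_, fun x => (LinearMap.pi_apply_eq_sum_univ (f : (ι → ℝ) →ₗ[ℝ] ℝ) x).trans
      (Finset.sum_congr rfl fun i _ => mul_comm _ _)⟩
  have hZ := Lap_one_pos hV ξ
  have e1 : Lap V (fun x => ∑ i, c i * x i) ξ = f (bar V ξ) * Lap V (fun _ => 1) ξ := by
    rw [KlA_sum hV Finset.univ (h := fun i x => c i * x i) (fun i => by fun_prop), hc,
      Finset.sum_mul]
    refine Finset.sum_congr rfl fun i _ => ?_
    rw [KlA_mul, mul_assoc, KlA_bar hV]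
  have e2 : Lap V (fun x => ∑ i, c i * x i) ξ ≤ Lap V (fun _ => u * 1) ξ := by
    refine setIntegral_mono_on (KlA_int hV (by fun_prop) ξ) (KlA_int hV continuous_const ξ)
      hV.cpt.measurableSet fun x hx => mul_le_mul_of_nonneg_right ?_ (Real.exp_pos _).le
    show ∑ i, c i * x i ≤ u * 1
    rw [← hc, mul_one]
    exact (h1 x hx).le
  rw [e1, KlA_mul] at e2
  exact absurd (le_of_mul_le_mul_right e2 hZ) (not_le.2 h2)

theorem KlA_symm (ξ : ι → ℝ) (i j : ι) : cov V ξ i j = cov V ξ j i := by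
  show Lap V (fun x => x i * x j) ξ / _ - _ * _ = Lap V (fun x => x j * x i) ξ / _ - _ * _
  simp only [mul_comm]

theorem KlA_cov (hV : Body V) (ξ : ι → ℝ) (i j : ι) :
    Lap V (fun x => (x i - bar V ξ i) * (x j - bar V ξ j)) ξ =
      cov V ξ i j * Lap V (fun _ => 1) ξ := by
  have e : (fun x : ι → ℝ => (x i - bar V ξ i) * (x j - bar V ξ j)) = fun x =>
      (x i * x j + (-bar V ξ j) * x i) + ((-bar V ξ i) * x j + (bar V ξ i * bar V ξ j) * 1) := by
    funext x
    ring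
  rw [e, KlA_add hV (by fun_prop) (by fun_prop), KlA_add hV (by fun_prop) (by fun_prop),
    KlA_add hV (by fun_prop) (by fun_prop), KlA_mul, KlA_mul, KlA_mul, ← KlA_bar hV ξ i,
    ← KlA_bar hV ξ j]
  show _ = (Lap V (fun x => x i * x j) ξ / Lap V (fun _ => 1) ξ - bar V ξ i * bar V ξ j) * _
  rw [sub_mul, div_mul_cancel₀ _ (Lap_one_pos hV ξ).ne']
  ring

theorem KlA_form (hV : Body V) (ξ : ι → ℝ) (T : ι → ι → ℝ) :
    Lap V (fun x => ∑ i, ∑ j, T i j * ((x i - bar V ξ i) * (x j - bar V ξ j))) ξ =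
      (∑ i, ∑ j, T i j * cov V ξ i j) * Lap V (fun _ => 1) ξ := by
  rw [KlA_sum hV Finset.univ
    (h := fun i x => ∑ j, T i j * ((x i - bar V ξ i) * (x j - bar V ξ j))) (fun i => by fun_prop),
    Finset.sum_mul]
  refine Finset.sum_congr rfl fun i _ => ?_
  rw [KlA_sum hV Finset.univ
    (h := fun j x => T i j * ((x i - bar V ξ i) * (x j - bar V ξ j))) (fun j => by fun_prop),
    Finset.sum_mul]
  refine Finset.sum_congr rfl fun j _ => ?_
  rw [KlA_mul, KlA_cov hV, mul_assoc]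

theorem cov_posDef (hV : Body V) (ξ : ι → ℝ) : (cov V ξ).PosDef := by
  refine Matrix.PosDef.of_dotProduct_mulVec_pos ?_ fun v hv => ?_
  · ext i j
    exact KlA_symm ξ j i
  have hZ := Lap_one_pos hV ξ
  have e : Lap V (fun x => (v ⬝ᵥ (x - bar V ξ)) ^ 2) ξ =
      (v ⬝ᵥ (cov V ξ *ᵥ v)) * Lap V (fun _ => 1) ξ := by
    have h1 := KlA_form hV ξ fun i j => v i * v j
    have e1 : v ⬝ᵥ (cov V ξ *ᵥ v) = ∑ i, ∑ j, v i * v j * cov V ξ i j := by
      simp only [dotProduct, mulVec, Finset.mul_sum]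
      exact Finset.sum_congr rfl fun i _ => Finset.sum_congr rfl fun j _ => by ring
    rw [e1, ← h1]
    congr 1
    funext x
    simp only [dotProduct, sq, Finset.sum_mul_sum, Pi.sub_apply]
    exact Finset.sum_congr rfl fun i _ => Finset.sum_congr rfl fun j _ => by ring
  obtain ⟨x, hx, hx'⟩ : ∃ x ∈ interior V, v ⬝ᵥ (x - bar V ξ) ≠ 0 := by
    obtain ⟨x, hx⟩ := hV.int
    by_cases h0 : v ⬝ᵥ (x - bar V ξ) = 0
    · have h1 : ∀ᶠ t : ℝ in 𝓝 0, x + t • v ∈ interior V := by
        have h2 : Continuous fun t : ℝ => x + t • v := by fun_prop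
        exact h2.continuousAt.eventually_mem (isOpen_interior.mem_nhds (by simpa using hx))
      obtain ⟨t, h3, h4⟩ := ((h1.filter_mono (nhdsWithin_le_nhds (s := {0}ᶜ))).and
        self_mem_nhdsWithin).exists
      refine ⟨_, h3, ?_⟩
      rw [add_sub_right_comm, dotProduct_add, h0, zero_add, dotProduct_smul]
      exact mul_ne_zero h4 fun h5 => hv (dotProduct_self_eq_zero.1 h5)
    · exact ⟨x, hx, h0⟩
  have h2 := KlA_pos hV (h := fun x => (v ⬝ᵥ (x - bar V ξ)) ^ 2)
    ((continuous_const.dotProduct (continuous_id.sub continuous_const)).pow 2)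
    (fun _ => sq_nonneg _) hx (pow_ne_zero 2 hx') ξ
  rw [e] at h2
  exact (mul_pos_iff_of_pos_right hZ).1 h2

theorem cov_continuous (hV : Body V) : Continuous (cov V) := by
  have h1 := KlA_Lap_cont hV (h := fun _ => 1) continuous_const
  have h2 : ∀ i, Continuous fun ξ => bar V ξ i := fun i =>
    (KlA_Lap_cont hV (continuous_apply i)).div h1 fun ξ => (Lap_one_pos hV ξ).ne'
  exact continuous_matrix fun i j =>
    ((KlA_Lap_cont hV ((continuous_apply i).mul (continuous_apply j))).div h1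
      fun ξ => (Lap_one_pos hV ξ).ne').sub ((h2 i).mul (h2 j))

theorem bar_hasFDerivAt (hV : Body V) (ξ : ι → ℝ) :
    HasFDerivAt (bar V) (LinearMap.toContinuousLinearMap (Matrix.toLin' (cov V ξ))) ξ := by
  have hZ := (Lap_one_pos hV ξ).ne'
  refine hasFDerivAt_pi'' fun i => ?_
  have h1 := (hasDerivAt_inv hZ).comp_hasFDerivAt ξ (KlA_deriv hV (h := fun _ => 1) continuous_const ξ)
  have h2 := (KlA_deriv hV (continuous_apply i) ξ).mul h1
  refine (h2.congr_of_eventuallyEq (Eventually.of_forall fun η => div_eq_mul_inv _ _)).congr_fderiv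
    (ContinuousLinearMap.ext fun v => ?_)
  show Lap V (fun x => x i) ξ * (-(Lap V (fun _ => 1) ξ ^ 2)⁻¹ * KlA_dot _ v) +
    (Lap V (fun _ => 1) ξ)⁻¹ * KlA_dot _ v = ∑ j, cov V ξ i j * v j
  rw [KlA_dot_apply, KlA_dot_apply, Finset.mul_sum, Finset.mul_sum, Finset.mul_sum,
    ← Finset.sum_add_distrib]
  refine Finset.sum_congr rfl fun j _ => ?_
  simp only [one_mul]
  show _ = (Lap V (fun x => x i * x j) ξ / Lap V (fun _ => 1) ξ -
    Lap V (fun x => x i) ξ / Lap V (fun _ => 1) ξ *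
      (Lap V (fun x => x j) ξ / Lap V (fun _ => 1) ξ)) * v j
  field_simp
  ring

theorem bar_injective (hV : Body V) : Function.Injective (bar V) := by
  intro ξ η h
  by_contra hn
  have hv : η - ξ ≠ 0 := sub_ne_zero.2 (Ne.symm hn)
  have h1 : ∀ t : ℝ, HasDerivAt (fun t : ℝ => KlA_dot (η - ξ) (bar V (ξ + t • (η - ξ))))
      ((η - ξ) ⬝ᵥ (cov V (ξ + t • (η - ξ)) *ᵥ (η - ξ))) t := by
    intro t
    have h2 : HasDerivAt (fun t : ℝ => ξ + t • (η - ξ)) (η - ξ) t := by
      simpa using ((hasDerivAt_id t).smul_const (η - ξ)).const_add ξ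
    have h3 := (KlA_dot (η - ξ)).hasFDerivAt.comp_hasDerivAt t
      ((bar_hasFDerivAt hV _).comp_hasDerivAt t h2)
    rw [KlA_dot_apply] at h3
    exact h3
  have h4 := strictMono_of_hasDerivAt_pos h1
    (fun t => (cov_posDef hV _).dotProduct_mulVec_pos hv) zero_lt_one
  simp only [zero_smul, add_zero, one_smul, add_sub_cancel, h, lt_self_iff_false] at h4

/-- the tilted second moment of a form around the barycentre -/
theorem Lap_qf (hV : Body V) (ξ : ι → ℝ) (T : Matrix ι ι ℝ) :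
    Lap V (fun x => qf T (x - bar V ξ)) ξ / Lap V (fun _ => 1) ξ = (T * cov V ξ).trace := by
  have e1 : (fun x => qf T (x - bar V ξ)) =
      fun x => ∑ i, ∑ j, T i j * ((x i - bar V ξ i) * (x j - bar V ξ j)) := by
    funext x
    show (x - bar V ξ) ⬝ᵥ T *ᵥ (x - bar V ξ) = _
    simp only [dotProduct, mulVec, Finset.mul_sum, Pi.sub_apply]
    exact Finset.sum_congr rfl fun i _ => Finset.sum_congr rfl fun j _ => by ring
  rw [e1, KlA_form hV ξ T, mul_div_cancel_right₀ _ (Lap_one_pos hV ξ).ne']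
  simp only [Matrix.trace, Matrix.diag, Matrix.mul_apply]
  exact Finset.sum_congr rfl fun i _ => Finset.sum_congr rfl fun j _ => by rw [KlA_symm]

end Crest.Agent.R152
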