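import Crest.Agent.R152.WGam

/-! # Row 152: the Voronoi cell -/

set_option autoImplicit false
set_option linter.unusedSectionVars false
set_option linter.unusedVariables false

open MeasureTheory Set Matrix Filter Topology

noncomputable section

namespace Crest.Agent.R152

variable {ι : Type} [Fintype ι] [DecidableEq ι]

/-- the polar form as a linear functional -/
def Vor_ell (T : Matrix ι ι ℝ) (a : ι → ℝ) : (ι → ℝ) →ₗ[ℝ] ℝ where
  toFun x := x ⬝ᵥ T *ᵥ a + a ⬝ᵥ T *ᵥ x
  map_add' x y := by simp only [add_dotProduct, mulVec_add, dotProduct_add]; ring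
  map_smul' c x := by
    simp only [smul_dotProduct, mulVec_smul, dotProduct_smul, smul_eq_mul, RingHom.id_apply]; ring

theorem Vor_qf_sub (T : Matrix ι ι ℝ) (x a : ι → ℝ) :
    qf T (x - a) = qf T x - Vor_ell T a x + qf T a := by
  show _ = qf T x - (x ⬝ᵥ T *ᵥ a + a ⬝ᵥ T *ᵥ x) + qf T a
  simp only [qf, sub_dotProduct, mulVec_sub, dotProduct_sub]
  ring

theorem Vor_qf_cont (T : Matrix ι ι ℝ) : Continuous (qf T) := by
  unfold qf
  fun_prop

theorem Vor_qf_neg (T : Matrix ι ι ℝ) (x : ι → ℝ) : qf T (-x) = qf T x := by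
  simp [qf, mulVec_neg]

theorem Vor_rv_add (z z' : ι → ℤ) : rv (z + z') = rv z + rv z' := by
  funext i; simp [rv]

theorem Vor_rv_neg (z : ι → ℤ) : rv (-z) = -rv z := by
  funext i; simp [rv]

theorem Vor_rv_zero : rv (0 : ι → ℤ) = 0 := by
  funext i; simp [rv]

theorem Vor_eq (T : Matrix ι ι ℝ) :
    Vor T = ⋂ z : ι → ℤ, {x | Vor_ell T (rv z) x ≤ qf T (rv z)} := by
  ext x
  simp only [Vor, mem_ofPred_eq, mem_iInter, Vor_qf_sub]
  exact forall_congr' fun z => by constructor <;> intro h <;> linarith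

theorem Vor_closed (T : Matrix ι ι ℝ) : IsClosed (Vor T) := by
  rw [Vor_eq]
  exact isClosed_iInter fun z =>
    isClosed_le (Vor_ell T (rv z)).continuous_of_finiteDimensional continuous_const

theorem Vor_convex (T : Matrix ι ι ℝ) : Convex ℝ (Vor T) := by
  rw [Vor_eq]
  exact convex_iInter fun z => convex_halfSpace_le (Vor_ell T (rv z)).isLinear _

theorem Vor_null {T : Matrix ι ι ℝ} (hT : T.PosDef) {z : ι → ℤ} (hz : z ≠ 0) :
    volume {x | qf T (x - rv z) = qf T x} = 0 := by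
  have ha : rv z ≠ 0 := fun h => hz (funext fun i => by simpa [rv] using congrFun h i)
  have hp : 0 < qf T (rv z) := by simpa [qf] using hT.dotProduct_mulVec_pos ha
  have e0 : Vor_ell T (rv z) (rv z) = 2 * qf T (rv z) := by
    show qf T (rv z) + qf T (rv z) = _
    ring
  have hk : LinearMap.ker (Vor_ell T (rv z)) ≠ ⊤ := fun h => by
    have : rv z ∈ LinearMap.ker (Vor_ell T (rv z)) := h ▸ Submodule.mem_top
    rw [LinearMap.mem_ker, e0] at this
    linarith
  have e : {x | qf T (x - rv z) = qf T x} =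
      (fun x => x + (-(1 / 2 : ℝ)) • rv z) ⁻¹' (LinearMap.ker (Vor_ell T (rv z)) : Set (ι → ℝ)) := by
    ext x
    simp only [mem_ofPred_eq, mem_preimage, SetLike.mem_coe, LinearMap.mem_ker, map_add, map_smul,
      e0, Vor_qf_sub, smul_eq_mul]
    constructor <;> intro h <;> linarith
  rw [e, measure_preimage_add_right]
  exact Measure.addHaar_submodule _ _ hk

theorem Vor_mem_span (g : ι → ℝ) :
    g ∈ Submodule.span ℤ (Set.range (Pi.basisFun ℝ ι)) ↔ ∃ z, rv z = g := by
  rw [(Pi.basisFun ℝ ι).mem_span_iff_repr_mem ℤ]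
  constructor
  · intro h
    choose z hz using h
    exact ⟨z, funext fun i => by simpa [rv] using hz i⟩
  · rintro ⟨z, rfl⟩ i
    exact ⟨z i, by simp [rv]⟩

theorem Vor_inv : VAddInvariantMeasure (Submodule.span ℤ (Set.range (Pi.basisFun ℝ ι))) (ι → ℝ)
    volume :=
  ⟨fun g s _ => measure_preimage_add volume (g : ι → ℝ) s⟩

theorem Vor_fund {T : Matrix ι ι ℝ} (hT : T.PosDef) :
    IsAddFundamentalDomain (Submodule.span ℤ (Set.range (Pi.basisFun ℝ ι))) (Vor T) volume := by
  refine IsAddFundamentalDomain.mk'' (Vor_closed T).measurableSet.nullMeasurableSet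
    (Eventually.of_forall fun x => ?_) (fun g hg => ?_)
    fun g => (measurePreserving_add_left volume (g : ι → ℝ)).quasiMeasurePreserving
  · obtain ⟨z, hz⟩ := dsq_attained hT x
    refine ⟨⟨rv (-z), (Vor_mem_span _).2 ⟨_, rfl⟩⟩, fun z' => ?_⟩
    have := dsq_le hT.posSemidef x (z + z')
    rw [hz, Vor_rv_add, ← sub_sub] at this
    show qf T (rv (-z) + x) ≤ qf T (rv (-z) + x - rv z')
    rwa [Vor_rv_neg, neg_add_eq_sub]
  · obtain ⟨g, hg'⟩ := g
    obtain ⟨z, rfl⟩ := (Vor_mem_span g).1 hg'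
    have hz : z ≠ 0 := by
      rintro rfl
      exact hg (Subtype.ext Vor_rv_zero)
    refine measure_mono_null ?_ (Vor_null hT hz)
    rintro _ ⟨⟨y, hy, rfl⟩, hx⟩
    have h1 := hy (-z)
    have h2 := hx z
    change qf T (rv z + y) ≤ qf T (rv z + y - rv z) at h2
    show qf T (rv z + y - rv z) = qf T (rv z + y)
    rw [Vor_rv_neg, sub_neg_eq_add, add_comm] at h1
    rw [add_sub_cancel_left] at h2 ⊢
    exact le_antisymm h1 h2

theorem Vor_box_fund :
    IsAddFundamentalDomain (Submodule.span ℤ (Set.range (Pi.basisFun ℝ ι))) (box ι) volume := by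
  have := ZSpan.isAddFundamentalDomain (Pi.basisFun ℝ ι) (volume : Measure (ι → ℝ))
  rwa [ZSpan.fundamentalDomain_pi_basisFun] at this

theorem Vor_volume {T : Matrix ι ι ℝ} (hT : T.PosDef) : volume (Vor T) = 1 := by
  have := Vor_inv (ι := ι)
  have := (Vor_fund hT).setLIntegral_eq Vor_box_fund (fun _ => 1) fun _ _ => rfl
  rwa [setLIntegral_one, setLIntegral_one, volume_box] at this

theorem Vor_body {T : Matrix ι ι ℝ} (hT : T.PosDef) : Body (Vor T) := by
  refine ⟨?_, Vor_convex T, ?_, fun x hx z => ?_⟩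
  · obtain ⟨c, hc, h⟩ := qf_coercive hT
    obtain ⟨M, hM⟩ := (isCompact_Icc (a := (0 : ι → ℝ)) (b := 1)).bddAbove_image
      (Vor_qf_cont T).continuousOn
    refine Metric.isCompact_of_isClosed_isBounded (Vor_closed T)
      ((Metric.isBounded_closedBall (x := 0) (r := √(M / c))).subset fun x hx => ?_)
    have h1 : qf T x ≤ M := (hx fun i => ⌊x i⌋).trans (hM ⟨_, ⟨fun i => Int.fract_nonneg (x i),
      fun i => (Int.fract_lt_one (x i)).le⟩, rfl⟩)
    rw [mem_closedBall_zero_iff, pi_norm_le_iff_of_nonneg (Real.sqrt_nonneg _)]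
    intro i
    refine Real.abs_le_sqrt ?_
    have h2 : x i * x i ≤ x ⬝ᵥ x :=
      Finset.single_le_sum (f := fun j => x j * x j) (fun j _ => mul_self_nonneg _)
        (Finset.mem_univ i)
    rw [le_div_iff₀ hc]
    nlinarith [h x]
  · by_contra hne
    rw [not_nonempty_iff_eq_empty] at hne
    have := (Vor_convex T).addHaar_frontier volume
    rw [(Vor_closed T).frontier_eq, hne, sdiff_empty, Vor_volume hT] at this
    exact one_ne_zero this
  · have := hx (-z)
    rw [Vor_rv_neg, sub_neg_eq_add] at this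
    rw [Vor_qf_neg, ← neg_add', Vor_qf_neg]
    exact this

/-- the Voronoi cell is a fundamental domain -/
theorem integral_Vor {T : Matrix ι ι ℝ} (hT : T.PosDef) {f : (ι → ℝ) → ℝ}
    (hf : ∀ x z, f (x + rv z) = f x) : ∫ x in Vor T, f x = ∫ x in box ι, f x := by
  have := Vor_inv (ι := ι)
  refine (Vor_fund hT).setIntegral_eq Vor_box_fund fun g x => ?_
  obtain ⟨g, hg⟩ := g
  obtain ⟨z, rfl⟩ := (Vor_mem_span g).1 hg
  show f (rv z + x) = f x
  rw [add_comm, hf]

theorem volume_Vor {T : Matrix ι ι ℝ} (hT : T.PosDef) : volume (Vor T) = 1 :=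
  Vor_volume hT

theorem Gam_eq_Zf {T : Matrix ι ι ℝ} (hT : T.PosDef) : Gam T = Zf (Vor T) T := by
  unfold Gam Zf
  rw [← integral_Vor hT fun x z => by rw [dsq_periodic]]
  refine setIntegral_congr_fun (Vor_closed T).measurableSet fun x hx => ?_
  obtain ⟨z, hz⟩ := dsq_attained hT x
  have h1 := dsq_le hT.posSemidef x 0
  rw [Vor_rv_zero, sub_zero] at h1
  have h2 : dsq T x = qf T x := le_antisymm h1 (hz ▸ hx z)
  simp only [h2]

/-- the points of the cell whose nearest lattice point is not robustly `0` have small measure -/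
theorem Vor_thin {T : Matrix ι ι ℝ} (hT : T.PosDef) {ε : ℝ} (hε : 0 < ε) :
    ∃ δ : ℝ, 0 < δ ∧ (volume {x ∈ Vor T | ∃ z : ι → ℤ, z ≠ 0 ∧
      qf T (x - rv z) < (1 + δ) * qf T x}).toReal ≤ ε := by
  set A : ℕ → Set (ι → ℝ) := fun n => {x ∈ Vor T | ∃ z : ι → ℤ, z ≠ 0 ∧
    qf T (x - rv z) < (1 + 1 / ((n : ℝ) + 1)) * qf T x} with hA
  have q0 : ∀ x, 0 ≤ qf T x := fun x => by
    simpa [qf] using hT.posSemidef.dotProduct_mulVec_nonneg x
  have hm : ∀ n, MeasurableSet (A n) := fun n => by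
    have : IsOpen (⋃ z : ι → ℤ, ⋃ _ : z ≠ 0,
        {x | qf T (x - rv z) < (1 + 1 / ((n : ℝ) + 1)) * qf T x}) :=
      isOpen_iUnion fun z => isOpen_iUnion fun _ =>
        isOpen_lt ((Vor_qf_cont T).comp (continuous_id.sub continuous_const))
          (continuous_const.mul (Vor_qf_cont T))
    have e : A n = Vor T ∩ ⋃ z : ι → ℤ, ⋃ _ : z ≠ 0,
        {x | qf T (x - rv z) < (1 + 1 / ((n : ℝ) + 1)) * qf T x} := by
      ext x
      simp only [hA, mem_iUnion, mem_ofPred_eq, exists_prop, mem_inter_iff]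
    rw [e]
    exact (Vor_closed T).measurableSet.inter this.measurableSet
  have hanti : Antitone A := fun m n hmn x ⟨h1, z, hz, h2⟩ =>
    ⟨h1, z, hz, h2.trans_le (mul_le_mul_of_nonneg_right
      (by linarith [Nat.one_div_le_one_div (α := ℝ) hmn]) (q0 x))⟩
  have hfin : volume (A 0) ≠ ⊤ :=
    ne_top_of_le_ne_top (by rw [Vor_volume hT]; exact ENNReal.one_ne_top)
      (measure_mono fun x hx => hx.1)
  have h0 : volume (⋂ n, A n) = 0 := by
    refine measure_mono_null (t := ⋃ z : ι → ℤ, ⋃ _ : z ≠ 0, {x | qf T (x - rv z) = qf T x})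
      (fun x hx => ?_) (measure_iUnion_null fun z => measure_iUnion_null fun hz => Vor_null hT hz)
    by_contra hne
    simp only [mem_iUnion, mem_ofPred_eq, exists_prop, not_exists, not_and] at hne
    rw [mem_iInter] at hx
    have t : Tendsto (fun n : ℕ => (1 + 1 / ((n : ℝ) + 1)) * qf T x) atTop (𝓝 (qf T x)) := by
      have := (tendsto_one_div_add_atTop_nhds_zero_nat.const_add (1 : ℝ)).mul_const (qf T x)
      rwa [add_zero, one_mul] at this
    have ev : ∀ᶠ n : ℕ in atTop, ∀ z ∈ {z : ι → ℤ | qf T (x - rv z) ≤ 2 * qf T x}, z ≠ 0 →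
        (1 + 1 / ((n : ℝ) + 1)) * qf T x < qf T (x - rv z) := by
      refine (eventually_all_finite (finite_short hT x _)).2 fun z _ => ?_
      by_cases hz : z = 0
      · exact Eventually.of_forall fun n h => absurd hz h
      · exact (t.eventually_lt_const
          (lt_of_le_of_ne ((hx 0).1 z) (Ne.symm (hne z hz)))).mono fun n h _ => h
    obtain ⟨n, hn⟩ := ev.exists
    obtain ⟨-, z, hz, h2⟩ := hx n
    have h3 : (1 : ℝ) / (n + 1) ≤ 1 := div_le_self zero_le_one (by simp)
    have h4 : qf T (x - rv z) ≤ 2 * qf T x := h2.le.trans (by nlinarith [q0 x])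
    exact lt_asymm h2 (hn z h4 hz)
  have t := tendsto_measure_iInter_atTop (fun n => (hm n).nullMeasurableSet) hanti ⟨0, hfin⟩
  rw [h0] at t
  obtain ⟨n, hn⟩ := (t.eventually_le_const (ENNReal.ofReal_pos.2 hε)).exists
  exact ⟨1 / ((n : ℝ) + 1), by positivity, ENNReal.toReal_le_of_le_ofReal hε.le hn⟩

end Crest.Agent.R152
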